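import Mathlib

/-!
# Row 106 (S0140), node ABS (helper72): measure-level data of one test characteristic.

`Z` = source space (phase space `(y,p)` or labels), `kappa_s = w(s,z) m(dz)` = the density of the
backward cone `C(s)`, all functions are evaluated at the source point seen from `(s, X(s))`.
`R` distance, `dl = 1-n.V`, `ep = 1-n.v`, `D = 1-V.v`, `ga` energy of the source, `Kg` good part of the
field on the cone, `Bs = |B|` at the source, `Ft s = |E + V x B|(s, X s)`.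
-/

set_option autoImplicit false

open MeasureTheory Set
open scoped ENNReal

namespace Crest.Agent.R106.Abs

/-- the parameter `λ` of the cut-off. -/
noncomputable def lamc (P Qt : ℝ) : ℝ := P ^ (17 / 40 : ℝ) * (Qt / P) ^ (5 / 2 : ℝ)

/-- window length. -/
noncomputable def lw (c0 P Q : ℝ) : ℝ := c0 * min ((Q / P) ^ 2) (Q / (P * Real.log P))

noncomputable def kT (dl ep ga R : ℝ) : ℝ := (ep + √(dl * ep)) / (ga ^ 2 * ep ^ 2 * R ^ 2)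
noncomputable def kS (dl ep ga R : ℝ) : ℝ := √dl / (ga * ep * R)
noncomputable def kG (dl ep R : ℝ) : ℝ := √(ep / dl) / R
noncomputable def kGam (Qt dl ep R : ℝ) : ℝ := (dl + √(dl * ep)) / (Qt ^ 2 * dl ^ 2 * R ^ 2)
noncomputable def kC (Qt dl ep R : ℝ) : ℝ := √ep / (Qt * dl * R)
noncomputable def kcut (dl ep D R : ℝ) : ℝ := √(D / min dl ep) / R ^ 2

/-- data of one test on `J = [a,b]`. -/
structure TD (Z : Type) [MeasurableSpace Z] where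
  m : Measure Z
  a : ℝ
  b : ℝ
  w : ℝ → Z → ℝ≥0∞
  R : ℝ → Z → ℝ
  dl : ℝ → Z → ℝ
  ep : ℝ → Z → ℝ
  D : ℝ → Z → ℝ
  ga : ℝ → Z → ℝ
  Kg : ℝ → Z → ℝ
  Bs : ℝ → Z → ℝ
  Ft : ℝ → ℝ≥0∞

variable {Z : Type} [MeasurableSpace Z]

namespace TD

/-- the shell with lower corners `R1,d1,e1,D1,Q1`. -/
def sh (T : TD Z) (R1 d1 e1 D1 Q1 : ℝ) (s : ℝ) : Set Z :=
  {z | (R1 ≤ T.R s z ∧ T.R s z < 2 * R1) ∧ (d1 ≤ T.dl s z ∧ T.dl s z < 2 * d1) ∧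
    (e1 ≤ T.ep s z ∧ T.ep s z < 2 * e1) ∧ (D1 ≤ T.D s z ∧ T.D s z < 2 * D1) ∧
    (Q1 ≤ T.ga s z ∧ T.ga s z < 2 * Q1)}

/-- `kappa_s(A)`. -/
noncomputable def kap (T : TD Z) (s : ℝ) (A : Set Z) : ℝ≥0∞ := ∫⁻ z in A, T.w s z ∂T.m

/-- `nu(A) = int_J kappa_s(A_s) ds`. -/
noncomputable def nu (T : TD Z) (A : ℝ → Set Z) : ℝ≥0∞ := ∫⁻ s in Icc T.a T.b, T.kap s (A s)

/-- support of `1 - chi` (retarded representation used). -/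
def inE (T : TD Z) (P Qt : ℝ) (s : ℝ) (z : Z) : Prop :=
  T.ga s z ≤ 16 * P ^ (11 / 20 : ℝ) ∨ lamc P Qt * T.dl s z ^ 2 ≤ 2 * T.ep s z

/-- support of `chi` (conjugate representation used). -/
def inC (T : TD Z) (P Qt : ℝ) (s : ℝ) (z : Z) : Prop :=
  8 * P ^ (11 / 20 : ℝ) ≤ T.ga s z ∧ T.ep s z ≤ 2 * (lamc P Qt * T.dl s z ^ 2)

/-- support of `d chi_1`. -/
def inB (T : TD Z) (P Qt : ℝ) (s : ℝ) (z : Z) : Prop :=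
  8 * P ^ (11 / 20 : ℝ) ≤ T.ga s z ∧ T.ep s z ≤ 2 * (lamc P Qt * T.dl s z ^ 2) ∧
    lamc P Qt * T.dl s z ^ 2 ≤ 2 * T.ep s z

/-- integrand of the retarded part. -/
noncomputable def gR (T : TD Z) (s : ℝ) (z : Z) : ℝ :=
  kT (T.dl s z) (T.ep s z) (T.ga s z) (T.R s z) +
    kS (T.dl s z) (T.ep s z) (T.ga s z) (T.R s z) * (T.Kg s z + √(T.ep s z) * T.Bs s z)

open Classical in
/-- the majorant `h` of 12141. -/
noncomputable def h (T : TD Z) (Ch P Qt : ℝ) (s : ℝ) : ℝ≥0∞ :=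
  ENNReal.ofReal Ch * (1 + ∫⁻ z, T.w s z *
    ((if T.inE P Qt s z then ENNReal.ofReal (T.gR s z) else 0) +
     (if T.inC P Qt s z then
        ENNReal.ofReal (kGam Qt (T.dl s z) (T.ep s z) (T.R s z)) +
        ENNReal.ofReal (kC Qt (T.dl s z) (T.ep s z) (T.R s z)) * T.Ft s else 0) +
     (if T.inB P Qt s z then
        ENNReal.ofReal (kcut (T.dl s z) (T.ep s z) (T.D s z) (T.R s z)) else 0)) ∂T.m)

open Classical in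
/-- the boundary term `b` of 12141. -/
noncomputable def bd (T : TD Z) (Cb P Qt : ℝ) (s : ℝ) : ℝ≥0∞ :=
  ENNReal.ofReal Cb * ∫⁻ z, T.w s z *
    (if T.inC P Qt s z then ENNReal.ofReal (kG (T.dl s z) (T.ep s z) (T.R s z)) else 0) ∂T.m

/-- pointwise geometry (all facts hold for the source points that are seen, `w ≠ 0`). -/
structure Geo (T : TD Z) (Tm P Qt : ℝ) : Prop where
  sf : SFinite T.m
  mw : Measurable (Function.uncurry T.w)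
  mR : Measurable (Function.uncurry T.R)
  mdl : Measurable (Function.uncurry T.dl)
  mep : Measurable (Function.uncurry T.ep)
  mD : Measurable (Function.uncurry T.D)
  mga : Measurable (Function.uncurry T.ga)
  mKg : Measurable (Function.uncurry T.Kg)
  mBs : Measurable (Function.uncurry T.Bs)
  R0 : ∀ s ∈ Icc T.a T.b, ∀ z, T.w s z ≠ 0 → 0 < T.R s z
  R1 : ∀ s ∈ Icc T.a T.b, ∀ z, T.w s z ≠ 0 → T.R s z ≤ Tm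
  dl0 : ∀ s ∈ Icc T.a T.b, ∀ z, T.w s z ≠ 0 → 1 / (32 * Qt ^ 2) ≤ T.dl s z
  dl1 : ∀ s ∈ Icc T.a T.b, ∀ z, T.w s z ≠ 0 → T.dl s z ≤ 2
  ep0 : ∀ s ∈ Icc T.a T.b, ∀ z, T.w s z ≠ 0 → 1 / (2 * T.ga s z ^ 2) ≤ T.ep s z
  ep1 : ∀ s ∈ Icc T.a T.b, ∀ z, T.w s z ≠ 0 → T.ep s z ≤ 2
  D0 : ∀ s ∈ Icc T.a T.b, ∀ z, T.w s z ≠ 0 → 1 / (32 * Qt ^ 2) ≤ T.D s z
  D0' : ∀ s ∈ Icc T.a T.b, ∀ z, T.w s z ≠ 0 → 1 / (2 * T.ga s z ^ 2) ≤ T.D s z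
  D1 : ∀ s ∈ Icc T.a T.b, ∀ z, T.w s z ≠ 0 → T.D s z ≤ 2
  tri : ∀ s ∈ Icc T.a T.b, ∀ z, T.w s z ≠ 0 →
    |T.D s z - T.dl s z - T.ep s z| ≤ 2 * √(T.dl s z * T.ep s z)
  ga0 : ∀ s ∈ Icc T.a T.b, ∀ z, T.w s z ≠ 0 → 1 ≤ T.ga s z
  ga1 : ∀ s ∈ Icc T.a T.b, ∀ z, T.w s z ≠ 0 → T.ga s z ≤ P
  Kg0 : ∀ s ∈ Icc T.a T.b, ∀ z, T.w s z ≠ 0 → 0 ≤ T.Kg s z
  Bs0 : ∀ s ∈ Icc T.a T.b, ∀ z, T.w s z ≠ 0 → 0 ≤ T.Bs s z

/-- the occupation bounds (a), (b) of 12142 on each cone (enough for `bd`). -/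
structure CoreAB (T : TD Z) (C Tm P Qt : ℝ) : Prop extends T.Geo Tm P Qt where
  /-- (a) -/
  ca : ∀ R1 d1 e1 D1 Q1 : ℝ, 0 < R1 → 0 < d1 → 0 < e1 → 0 < D1 → 0 < Q1 → ∀ s ∈ Icc T.a T.b,
    T.kap s (T.sh R1 d1 e1 D1 Q1 s) ≤ ENNReal.ofReal (C * (R1 ^ 3 * d1 * Q1 ^ 3 * min e1 D1))
  /-- (b) -/
  cb : ∀ R1 d1 e1 D1 Q1 : ℝ, 0 < R1 → 0 < d1 → 0 < e1 → 0 < D1 → 0 < Q1 → ∀ s ∈ Icc T.a T.b,
    T.kap s (T.sh R1 d1 e1 D1 Q1 s) ≤ ENNReal.ofReal (C * (1 / (Q1 * e1)))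

/-- the unconditional cores of 12142. -/
structure Core (T : TD Z) (C Tm P Qt : ℝ) : Prop extends T.CoreAB C Tm P Qt where
  /-- (c) -/
  cc : ∀ R1 d1 e1 D1 Q1 : ℝ, 0 < R1 → 0 < d1 → 0 < e1 → 0 < D1 → 0 < Q1 →
    T.nu (T.sh R1 d1 e1 D1 Q1) ≤ ENNReal.ofReal (C * ((T.b - T.a + R1) / (Q1 * d1)))
  /-- (A): good part of the fields, on each cone. -/
  cA : ∀ R1 d1 e1 D1 Q1 : ℝ, 0 < R1 → 0 < d1 → 0 < e1 → 0 < D1 → 0 < Q1 → ∀ s ∈ Icc T.a T.b,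
    (∫⁻ z in T.sh R1 d1 e1 D1 Q1 s, T.w s z * ENNReal.ofReal (T.Kg s z) ∂T.m) ^ 2 ≤
      ENNReal.ofReal (C * (Q1 ^ 3 * min e1 D1)) * T.kap s (T.sh R1 d1 e1 D1 Q1 s)
  /-- (B): the magnetic field, space-time. -/
  cB : ∀ R1 d1 e1 D1 Q1 : ℝ, 0 < R1 → 0 < d1 → 0 < e1 → 0 < D1 → 0 < Q1 →
    (∫⁻ s in Icc T.a T.b, ∫⁻ z in T.sh R1 d1 e1 D1 Q1 s,
        T.w s z * ENNReal.ofReal (T.Bs s z) ∂T.m) ^ 2 ≤
      ENNReal.ofReal (C * ((T.b - T.a + R1) / d1 * (Q1 ^ 3 * min e1 D1))) *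
        T.nu (T.sh R1 d1 e1 D1 Q1)
  /-- (R): the retarded representation bounds the force on the test. -/
  cR : ∀ s ∈ Icc T.a T.b,
    T.Ft s ≤ ENNReal.ofReal C * (1 + ∫⁻ z, T.w s z * ENNReal.ofReal (T.gR s z) ∂T.m)

/-- the window bound (d) of 12142 (uses the bootstrap hypothesis). `D' = √(D max(δ,D))`. -/
def CoreD (T : TD Z) (C P c0 Qt : ℝ) : Prop :=
  ∀ R1 d1 e1 D1 Q1 : ℝ, 0 < R1 → 0 < d1 → 0 < e1 → 0 < D1 → 0 < Q1 →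
    P ^ (11 / 20 : ℝ) ≤ Q1 → Q1 ≤ P → P ^ (2 / 5 : ℝ) ≤ √D1 * min Q1 Qt →
    T.nu (T.sh R1 d1 e1 D1 Q1) ≤ ENNReal.ofReal
      (C * (R1 / (Q1 * √(D1 * max d1 D1)) * (1 + (T.b - T.a + R1) / lw c0 P Q1) / √D1))

end TD

end Crest.Agent.R106.Abs
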