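import Mathlib

/-!
Row 106: the critical sum of 12144 in pure real arithmetic.
-/

set_option autoImplicit false

namespace Crest.Agent.R106.Crit465

open Finset

/-- length of the stable window for the nominal energy `Q` -/
noncomputable def ell (c0 P Q : ℝ) : ℝ := c0 * min ((Q / P) ^ 2) (Q / (P * Real.log P))

lemma ell_pos {c0 P Q : ℝ} (hc : 0 < c0) (hP : 1 < P) (hQ : 0 < Q) : 0 < ell c0 P Q := by
  have hL : 0 < Real.log P := Real.log_pos hP
  have hP0 : 0 < P := by linarith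
  unfold ell
  apply mul_pos hc
  apply lt_min <;> positivity

lemma ell_le_left {c0 P Q : ℝ} (hc : 0 ≤ c0) : ell c0 P Q ≤ c0 * (Q / P) ^ 2 :=
  mul_le_mul_of_nonneg_left (min_le_left _ _) hc

lemma ell_le_right {c0 P Q : ℝ} (hc : 0 ≤ c0) : ell c0 P Q ≤ c0 * (Q / (P * Real.log P)) :=
  mul_le_mul_of_nonneg_left (min_le_right _ _) hc

/-- geometric sum over a finite set of dyadic numbers below a bound -/
lemma sum_two_zpow_le (s : Finset ℤ) (N : ℤ) (h : ∀ k ∈ s, k ≤ N) :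
    ∑ k ∈ s, (2:ℝ) ^ k ≤ 2 * (2:ℝ) ^ N := by
  classical
  -- induct on the size via the images
  have key : ∀ n : ℕ, ∀ s : Finset ℤ, ∀ N : ℤ, s.card ≤ n → (∀ k ∈ s, k ≤ N) →
      ∑ k ∈ s, (2:ℝ) ^ k ≤ 2 * (2:ℝ) ^ N := by
    intro n
    induction n with
    | zero =>
      intro s N hs _
      have : s = ∅ := by
        rw [← Finset.card_eq_zero]; omega
      subst this
      simp only [Finset.sum_empty]
      positivity
    | succ n ih =>
      intro s N hs h
      rcases s.eq_empty_or_nonempty with rfl | hne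
      · simp only [Finset.sum_empty]
        positivity
      · have hm := s.max'_mem hne
        set m := s.max' hne with hmdef
        have h1 : ∑ k ∈ s, (2:ℝ) ^ k = (2:ℝ) ^ m + ∑ k ∈ s.erase m, (2:ℝ) ^ k := by
          rw [Finset.add_sum_erase s (fun k => (2:ℝ) ^ k) hm]
        have h2 : ∑ k ∈ s.erase m, (2:ℝ) ^ k ≤ 2 * (2:ℝ) ^ (m - 1) := by
          apply ih
          · rw [Finset.card_erase_of_mem hm]; omega
          · intro k hk
            have hk1 := Finset.mem_of_mem_erase hk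
            have hk2 := Finset.ne_of_mem_erase hk
            have := s.le_max' k hk1
            have h3 : k ≤ m := this
            omega
        have h3 : (2:ℝ) * (2:ℝ) ^ (m - 1) = (2:ℝ) ^ m := by
          rw [zpow_sub_one₀ (by norm_num)]; field_simp
        have h4 : (2:ℝ) ^ m ≤ (2:ℝ) ^ N := zpow_le_zpow_right₀ (by norm_num) (h m hm)
        rw [h1]
        linarith
  exact key s.card s N le_rfl h

lemma sum_two_zpow_neg_le (s : Finset ℤ) (N : ℤ) (h : ∀ k ∈ s, N ≤ k) :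
    ∑ k ∈ s, (2:ℝ) ^ (-k) ≤ 2 * (2:ℝ) ^ (-N) := by
  classical
  have h1 : ∑ k ∈ s, (2:ℝ) ^ (-k) = ∑ k ∈ s.image (fun k => -k), (2:ℝ) ^ k := by
    rw [Finset.sum_image]
    intro a _ b _ hab
    simpa using hab
  rw [h1]
  apply sum_two_zpow_le
  intro k hk
  rw [Finset.mem_image] at hk
  obtain ⟨a, ha, rfl⟩ := hk
  have := h a ha
  simpa using this

/-- `∑_R min(α R, β / R) ≤ 8 √(α β)` over any finite set of dyadic `R = 2^k`. -/
theorem sum_min_le (s : Finset ℤ) {α β : ℝ} (hα : 0 ≤ α) (hβ : 0 ≤ β) :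
    ∑ k ∈ s, min (α * (2:ℝ) ^ k) (β / (2:ℝ) ^ k) ≤ 8 * Real.sqrt (α * β) := by
  classical
  rcases hα.eq_or_lt with h0 | hα'
  · subst h0
    have : ∀ k ∈ s, min (0 * (2:ℝ) ^ k) (β / (2:ℝ) ^ k) ≤ 0 := by
      intro k _
      rw [zero_mul]; exact min_le_left _ _
    calc _ ≤ ∑ k ∈ s, (0:ℝ) := Finset.sum_le_sum this
      _ ≤ _ := by simp
  rcases hβ.eq_or_lt with h0 | hβ'
  · subst h0
    have : ∀ k ∈ s, min (α * (2:ℝ) ^ k) (0 / (2:ℝ) ^ k) ≤ 0 := by
      intro k _
      rw [zero_div]; exact min_le_right _ _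
    calc _ ≤ ∑ k ∈ s, (0:ℝ) := Finset.sum_le_sum this
      _ ≤ _ := by simp
  -- choose N with 2^N ≤ √(β/α) < 2^(N+1)
  have hr : 0 < Real.sqrt (β / α) := Real.sqrt_pos.2 (div_pos hβ' hα')
  obtain ⟨N, hN1, hN2⟩ := exists_mem_Ico_zpow (y := (2:ℝ)) hr (by norm_num)
  set r := Real.sqrt (β / α) with hrdef
  have hrr : r * r = β / α := Real.mul_self_sqrt (div_nonneg hβ hα)
  have hsq : α * r = Real.sqrt (α * β) := by
    rw [eq_comm, Real.sqrt_eq_iff_mul_self_eq (mul_nonneg hα hβ) (by positivity)]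
    symm
    calc α * r * (α * r) = α * α * (r * r) := by ring
      _ = α * β := by rw [hrr]; field_simp
  have hsq2 : β / r = Real.sqrt (α * β) := by
    rw [← hsq, div_eq_iff hr.ne']
    calc β = α * (β / α) := by field_simp
      _ = α * (r * r) := by rw [hrr]
      _ = α * r * r := by ring
  have hsplit : ∑ k ∈ s, min (α * (2:ℝ) ^ k) (β / (2:ℝ) ^ k) ≤
      ∑ k ∈ s with k ≤ N, α * (2:ℝ) ^ k + ∑ k ∈ s with ¬ k ≤ N, β * (2:ℝ) ^ (-k) := by
    rw [← Finset.sum_filter_add_sum_filter_not s (fun k => k ≤ N)]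
    apply add_le_add
    · exact Finset.sum_le_sum fun k _ => min_le_left _ _
    · refine Finset.sum_le_sum fun k _ => ?_
      refine (min_le_right _ _).trans (le_of_eq ?_)
      rw [zpow_neg, div_eq_mul_inv]
  have h1 : ∑ k ∈ s with k ≤ N, α * (2:ℝ) ^ k ≤ 2 * Real.sqrt (α * β) := by
    rw [← Finset.mul_sum]
    calc α * ∑ k ∈ s with k ≤ N, (2:ℝ) ^ k ≤ α * (2 * (2:ℝ) ^ N) := by
          apply mul_le_mul_of_nonneg_left _ hα
          apply sum_two_zpow_le
          intro k hk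
          exact (Finset.mem_filter.1 hk).2
      _ ≤ α * (2 * r) := by
          apply mul_le_mul_of_nonneg_left _ hα
          linarith
      _ = 2 * (α * r) := by ring
      _ = _ := by rw [hsq]
  have h2 : ∑ k ∈ s with ¬ k ≤ N, β * (2:ℝ) ^ (-k) ≤ 2 * Real.sqrt (α * β) := by
    rw [← Finset.mul_sum]
    calc β * ∑ k ∈ s with ¬ k ≤ N, (2:ℝ) ^ (-k) ≤ β * (2 * (2:ℝ) ^ (-(N+1))) := by
          apply mul_le_mul_of_nonneg_left _ hβ
          apply sum_two_zpow_neg_le
          intro k hk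
          have := (Finset.mem_filter.1 hk).2
          omega
      _ ≤ β * (2 * r⁻¹) := by
          apply mul_le_mul_of_nonneg_left _ hβ
          rw [zpow_neg]
          have : ((2:ℝ) ^ (N+1))⁻¹ ≤ r⁻¹ := inv_anti₀ hr hN2.le
          linarith
      _ = 2 * (β / r) := by rw [div_eq_mul_inv]; ring
      _ = _ := by rw [hsq2]
  have h3 := Real.sqrt_nonneg (α * β)
  linarith

/-- number of dyadic exponents in an interval -/
lemma card_le (s : Finset ℤ) {a b : ℤ} (h : ∀ k ∈ s, a ≤ k ∧ k ≤ b) (hab : a ≤ b) :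
    (s.card : ℝ) ≤ (b - a : ℝ) + 1 := by
  have h1 : s ⊆ Finset.Icc a b := fun k hk => Finset.mem_Icc.2 (h k hk)
  have h2 := Finset.card_le_card h1
  rw [Int.card_Icc] at h2
  have h3 : ((b + 1 - a).toNat : ℤ) = b + 1 - a := Int.toNat_of_nonneg (by omega)
  have h4 : (s.card : ℤ) ≤ b + 1 - a := by
    rw [← h3]; exact_mod_cast h2
  have h5 : ((s.card : ℤ) : ℝ) ≤ ((b + 1 - a : ℤ) : ℝ) := by exact_mod_cast h4
  push_cast at h5
  linarith

end Crest.Agent.R106.Crit465
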