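import Crest.Agent.R106.NumDefs
import Crest.Agent.R106.Crit465

/-!
# Row 106, node NUM: the critical sum (helper180)
-/

set_option autoImplicit false

namespace Crest.Agent.R106.Num

open Real Finset

namespace Crit

/-- geometric sum with a general base -/
lemma sum_zpow_le {ρ : ℝ} (hρ : 1 < ρ) (s : Finset ℤ) (N : ℤ) (h : ∀ k ∈ s, k ≤ N) :
    ∑ k ∈ s, ρ ^ k ≤ ρ / (ρ - 1) * ρ ^ N := by
  classical
  have hρ0 : 0 < ρ := by linarith
  have hρ1 : 0 < ρ - 1 := by linarith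
  have hA : 0 < ρ / (ρ - 1) := div_pos hρ0 hρ1
  have key : ∀ n : ℕ, ∀ s : Finset ℤ, ∀ N : ℤ, s.card ≤ n → (∀ k ∈ s, k ≤ N) →
      ∑ k ∈ s, ρ ^ k ≤ ρ / (ρ - 1) * ρ ^ N := by
    intro n
    induction n with
    | zero =>
      intro s N hs _
      have : s = ∅ := by
        rw [← Finset.card_eq_zero]; omega
      subst this
      simp only [Finset.sum_empty]
      positivity
    | succ n ih =>
      intro s N hs h
      rcases s.eq_empty_or_nonempty with rfl | hne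
      · simp only [Finset.sum_empty]
        positivity
      · have hm := s.max'_mem hne
        set m := s.max' hne with hmdef
        have h1 : ∑ k ∈ s, ρ ^ k = ρ ^ m + ∑ k ∈ s.erase m, ρ ^ k := by
          rw [Finset.add_sum_erase s (fun k => ρ ^ k) hm]
        have h2 : ∑ k ∈ s.erase m, ρ ^ k ≤ ρ / (ρ - 1) * ρ ^ (m - 1) := by
          apply ih
          · rw [Finset.card_erase_of_mem hm]; omega
          · intro k hk
            have hk1 := Finset.mem_of_mem_erase hk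
            have hk2 := Finset.ne_of_mem_erase hk
            have h3 : k ≤ m := s.le_max' k hk1
            omega
        have h3 : ρ ^ m + ρ / (ρ - 1) * ρ ^ (m - 1) = ρ / (ρ - 1) * ρ ^ m := by
          rw [zpow_sub_one₀ hρ0.ne']
          field_simp
          ring
        have h4 : ρ ^ m ≤ ρ ^ N := zpow_le_zpow_right₀ hρ.le (h m hm)
        have h5 : ρ / (ρ - 1) * ρ ^ m ≤ ρ / (ρ - 1) * ρ ^ N :=
          mul_le_mul_of_nonneg_left h4 hA.le
        rw [h1]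
        linarith
  exact key s.card s N le_rfl h

/-- sum over the radii -/
lemma sum_fiber (K : Finset Sh) (F : Sh → ℝ) (a b : ℤ × ℤ × ℤ × ℤ → ℝ)
    (ha : ∀ k, 0 ≤ a k) (hb : ∀ k, 0 ≤ b k)
    (hF : ∀ k ∈ K, F k ≤ min (a k.2 * (2 : ℝ) ^ k.1) (b k.2 / (2 : ℝ) ^ k.1)) :
    ∑ k ∈ K, F k ≤ ∑ k' ∈ K.image Prod.snd, 8 * √(a k' * b k') := by
  classical
  rw [← Finset.sum_fiberwise_of_maps_to (g := Prod.snd) (t := K.image Prod.snd)
    (fun k hk => Finset.mem_image_of_mem _ hk)]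
  apply Finset.sum_le_sum
  intro k' _
  calc ∑ k ∈ K with k.2 = k', F k
      ≤ ∑ k ∈ K with k.2 = k', min (a k' * (2 : ℝ) ^ k.1) (b k' / (2 : ℝ) ^ k.1) := by
        apply Finset.sum_le_sum
        intro k hk
        rw [Finset.mem_filter] at hk
        have := hF k hk.1
        rwa [hk.2] at this
    _ = ∑ r ∈ (K.filter (fun k => k.2 = k')).image Prod.fst,
          min (a k' * (2 : ℝ) ^ r) (b k' / (2 : ℝ) ^ r) := by
        rw [Finset.sum_image]
        intro x hx y hy hxy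
        simp only [Finset.coe_filter, Set.mem_ofPred_eq] at hx hy
        exact Prod.ext hxy (hx.2.trans hy.2.symm)
    _ ≤ 8 * √(a k' * b k') := Crit465.sum_min_le _ (ha k') (hb k')

/-- sum over a set that injects into a box -/
lemma sum_le_prod {ι : Type} (S : Finset ι) (φ : ι → ℤ × ℤ × ℤ × ℤ) (hinj : Set.InjOn φ S)
    (I1 I2 Ms Ns : Finset ℤ) (hmaps : ∀ k ∈ S, φ k ∈ I1 ×ˢ I2 ×ˢ Ms ×ˢ Ns)
    (w A : ℤ → ℝ) (hw : ∀ m, 0 ≤ w m) (hA : ∀ n ∈ Ns, 0 ≤ A n) (F : ι → ℝ)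
    (hF : ∀ k ∈ S, F k ≤ w (φ k).2.2.1 * A (φ k).2.2.2) :
    ∑ k ∈ S, F k ≤ (I1.card : ℝ) * (I2.card : ℝ) * ((∑ m ∈ Ms, w m) * ∑ n ∈ Ns, A n) := by
  classical
  calc ∑ k ∈ S, F k ≤ ∑ k ∈ S, w (φ k).2.2.1 * A (φ k).2.2.2 := Finset.sum_le_sum hF
    _ = ∑ x ∈ S.image φ, w x.2.2.1 * A x.2.2.2 := by
        rw [Finset.sum_image hinj]
    _ ≤ ∑ x ∈ I1 ×ˢ I2 ×ˢ Ms ×ˢ Ns, w x.2.2.1 * A x.2.2.2 := by
        apply Finset.sum_le_sum_of_subset_of_nonneg
        · intro x hx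
          obtain ⟨k, hk, rfl⟩ := Finset.mem_image.1 hx
          exact hmaps k hk
        · intro x hx _
          simp only [Finset.mem_product] at hx
          exact mul_nonneg (hw _) (hA _ hx.2.2.2)
    _ = (I1.card : ℝ) * (I2.card : ℝ) * ((∑ m ∈ Ms, w m) * ∑ n ∈ Ns, A n) := by
        rw [Finset.sum_product]
        simp only [Finset.sum_product, Finset.sum_const, nsmul_eq_mul]
        rw [Finset.sum_mul_sum]
        ring

lemma win_pos {c0 P Q : ℝ} (hc : 0 < c0) (hP : 1 < P) (hQ : 0 < Q) : 0 < win c0 P Q := by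
  have hL : 0 < Real.log P := Real.log_pos hP
  have hP0 : 0 < P := by linarith
  unfold win
  apply mul_pos hc
  apply lt_min <;> positivity

lemma win_le_left {c0 P Q : ℝ} (hc : 0 ≤ c0) : win c0 P Q ≤ c0 * (Q / P) ^ 2 :=
  mul_le_mul_of_nonneg_left (min_le_left _ _) hc

lemma win_le_right {c0 P Q : ℝ} (hc : 0 ≤ c0) : win c0 P Q ≤ c0 * (Q / (P * Real.log P)) :=
  mul_le_mul_of_nonneg_left (min_le_right _ _) hc

/-- `Q² / ℓ_Q ≤ (P + L Q)² / c0` -/
lemma sq_div_win {c0 P Q : ℝ} (hc : 0 < c0) (hP : 1 < P) (hQ : 0 < Q) :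
    Q ^ 2 / win c0 P Q ≤ (P + Real.log P * Q) ^ 2 / c0 := by
  have hL : 0 < Real.log P := Real.log_pos hP
  have hP0 : 0 < P := by linarith
  rw [div_le_div_iff₀ (win_pos hc hP hQ) hc]
  have h1 : Q ^ 2 ≤ (P + Real.log P * Q) ^ 2 * min ((Q / P) ^ 2) (Q / (P * Real.log P)) := by
    rcases min_cases ((Q / P) ^ 2) (Q / (P * Real.log P)) with h | h
    · rw [h.1, ← mul_pow]
      apply pow_le_pow_left₀ hQ.le
      rw [mul_div_assoc', le_div_iff₀ hP0]
      have : 0 ≤ Real.log P * Q * Q := by positivity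
      nlinarith
    · rw [h.1, mul_div_assoc', le_div_iff₀ (by positivity)]
      have h4 : 4 * (P * (Real.log P * Q)) ≤ (P + Real.log P * Q) ^ 2 := by
        nlinarith [sq_nonneg (P - Real.log P * Q)]
      have h5 : 4 * (P * (Real.log P * Q)) * Q ≤ (P + Real.log P * Q) ^ 2 * Q :=
        mul_le_mul_of_nonneg_right h4 hQ.le
      have h6 : 0 ≤ P * (Real.log P * Q) * Q := by positivity
      nlinarith
  unfold win
  calc Q ^ 2 * c0 ≤ ((P + Real.log P * Q) ^ 2 * min ((Q / P) ^ 2) (Q / (P * Real.log P))) * c0 :=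
        mul_le_mul_of_nonneg_right h1 hc.le
    _ = (P + Real.log P * Q) ^ 2 * (c0 * min ((Q / P) ^ 2) (Q / (P * Real.log P))) := by ring

/-- the coefficient of `R` -/
noncomputable def al (C l dl ep D Q : ℝ) : ℝ :=
  √(D / min dl ep) * C * l * dl * Q ^ 3 * min ep D

/-- the coefficient of `1/R` -/
noncomputable def be (C l lQ dl ep D Q : ℝ) : ℝ :=
  √(D / min dl ep) * C * (1 + 2 * l / lQ) / (Q * √(D * max dl D) * √D)

lemma cut_le_a {C c0 P Qt R dl ep D Q mu mus : ℝ} (hG : Geo C P Qt R dl ep D Q)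
    (hO : Occ C c0 P Qt R dl ep D Q mu mus) :
    cCut R dl ep D mu ≤ al C (win c0 P Qt) dl ep D Q * R := by
  have hR := hG.R_pos
  unfold cCut al
  calc √(D / min dl ep) / R ^ 2 * mu
      ≤ √(D / min dl ep) / R ^ 2 * (C * (win c0 P Qt * (R ^ 3 * dl * Q ^ 3 * min ep D))) :=
        mul_le_mul_of_nonneg_left hO.a (by positivity)
    _ = √(D / min dl ep) * C * win c0 P Qt * dl * Q ^ 3 * min ep D * R := by
        field_simp

lemma cut_le_b {C c0 P Qt R dl ep D Q mu mus : ℝ} (hC : 0 ≤ C) (hc0 : 0 < c0) (hP : 1 < P)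
    (hG : Geo C P Qt R dl ep D Q) (hO : Occ C c0 P Qt R dl ep D Q mu mus)
    (hQ : P ^ (11 / 20 : ℝ) ≤ Q) (hQt : P ^ (11 / 20 : ℝ) ≤ Qt)
    (hD : P ^ (-(1 / 10) : ℝ) ≤ D) (hR : R ≤ win c0 P Qt) :
    cCut R dl ep D mu ≤ be C (win c0 P Qt) (win c0 P Q) dl ep D Q / R := by
  have hR0 := hG.R_pos
  have hQ0 := hG.Q_pos
  have hD0 := hG.D_pos
  have hdl := hG.dl_pos
  have hP0 : 0 < P := by linarith
  have hlQ : 0 < win c0 P Q := win_pos hc0 hP hQ0
  have hsD : P ^ (-(1 / 20) : ℝ) ≤ √D := by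
    apply Real.le_sqrt_of_sq_le
    calc (P ^ (-(1 / 20) : ℝ)) ^ 2 = P ^ (-(1 / 10) : ℝ) := by
          rw [← Real.rpow_natCast, ← Real.rpow_mul hP0.le]
          norm_num
      _ ≤ D := hD
  have hgen : ∀ q : ℝ, P ^ (11 / 20 : ℝ) ≤ q → P ^ (2 / 5 : ℝ) ≤ √D * q := by
    intro q hq
    calc P ^ (2 / 5 : ℝ) ≤ P ^ (1 / 2 : ℝ) :=
          Real.rpow_le_rpow_of_exponent_le hP.le (by norm_num)
      _ = P ^ (-(1 / 20) : ℝ) * P ^ (11 / 20 : ℝ) := by
          rw [← Real.rpow_add hP0]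
          norm_num
      _ ≤ √D * q := by
          apply mul_le_mul hsD hq (by positivity) (by positivity)
  have hd := hO.d hQ (hgen Q hQ) (hgen Qt hQt)
  have hmx : 0 < max dl D := lt_max_of_lt_left hdl
  have hs1 : 0 < √(D * max dl D) := Real.sqrt_pos.2 (by positivity)
  have hs2 : 0 < √D := Real.sqrt_pos.2 hD0
  unfold cCut be
  calc √(D / min dl ep) / R ^ 2 * mu
      ≤ √(D / min dl ep) / R ^ 2 * (C * (R / (Q * √(D * max dl D)) *
          (1 + (win c0 P Qt + R) / win c0 P Q) / √D)) :=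
        mul_le_mul_of_nonneg_left hd (by positivity)
    _ ≤ √(D / min dl ep) / R ^ 2 * (C * (R / (Q * √(D * max dl D)) *
          (1 + 2 * win c0 P Qt / win c0 P Q) / √D)) := by
        gcongr
        linarith
    _ = √(D / min dl ep) * C * (1 + 2 * win c0 P Qt / win c0 P Q) /
          (Q * √(D * max dl D) * √D) / R := by
        field_simp

lemma al_mul_be {C P Qt R dl ep D Q l lQ : ℝ} (hC : 1 ≤ C) (hl : 0 ≤ l) (hlQ : 0 < lQ)
    (hG : Geo C P Qt R dl ep D Q) :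
    al C l dl ep D Q * be C l lQ dl ep D Q ≤ C ^ 4 * (l * Q ^ 2 * (1 + 2 * l / lQ)) * √D := by
  have hQ0 := hG.Q_pos
  have hD0 := hG.D_pos
  have hdl := hG.dl_pos
  have hep := hG.ep_pos
  have hC0 : 0 < C := by linarith
  have hmx : 0 < max dl D := lt_max_of_lt_left hdl
  have hmn : 0 < min dl ep := lt_min hdl hep
  have hmn' : 0 < min ep D := lt_min hep hD0
  have hs2 : 0 < √D := Real.sqrt_pos.2 hD0
  have hs3 : 0 < √(max dl D) := Real.sqrt_pos.2 hmx
  -- the geometric factor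
  have key : dl * min ep D ≤ C ^ 2 * √D * (min dl ep * √(max dl D)) := by
    have hCC : C ≤ C ^ 2 := by nlinarith
    have case2 : dl ≤ C * ep → dl * min ep D ≤ C ^ 2 * √D * (min dl ep * √(max dl D)) := by
      intro h
      have h1 : dl ≤ C * min dl ep := by
        rcases min_cases dl ep with h2 | h2
        · rw [h2.1]; nlinarith
        · rw [h2.1]; exact h
      have h2 : min ep D ≤ √D * √(max dl D) := by
        calc min ep D ≤ D := min_le_right _ _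
          _ = √D * √D := (Real.mul_self_sqrt hD0.le).symm
          _ ≤ √D * √(max dl D) := by
              apply mul_le_mul_of_nonneg_left _ hs2.le
              exact Real.sqrt_le_sqrt (le_max_right _ _)
      calc dl * min ep D ≤ (C * min dl ep) * (√D * √(max dl D)) :=
            mul_le_mul h1 h2 hmn'.le (by positivity)
        _ = C * (√D * (min dl ep * √(max dl D))) := by ring
        _ ≤ C ^ 2 * (√D * (min dl ep * √(max dl D))) := by
            apply mul_le_mul_of_nonneg_right hCC (by positivity)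
        _ = C ^ 2 * √D * (min dl ep * √(max dl D)) := by ring
    rcases hG.zone with h | h | h
    · obtain ⟨-, h2, h3⟩ := h
      have h1 : ep ≤ C * min dl ep := by
        rcases min_cases dl ep with h4 | h4
        · rw [h4.1]; exact h3
        · rw [h4.1]; nlinarith
      have h4 : √dl ≤ C * √D := by
        calc √dl ≤ √(C ^ 2 * D) := by
              apply Real.sqrt_le_sqrt
              nlinarith
          _ = C * √D := by
              rw [Real.sqrt_mul (by positivity), Real.sqrt_sq hC0.le]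
      have h5 : dl ≤ C * √D * √(max dl D) := by
        calc dl = √dl * √dl := (Real.mul_self_sqrt hdl.le).symm
          _ ≤ (C * √D) * √(max dl D) := by
              apply mul_le_mul h4 _ (by positivity) (by positivity)
              exact Real.sqrt_le_sqrt (le_max_left _ _)
      calc dl * min ep D ≤ dl * ep := mul_le_mul_of_nonneg_left (min_le_left _ _) hdl.le
        _ ≤ (C * √D * √(max dl D)) * (C * min dl ep) :=
            mul_le_mul h5 h1 hep.le (by positivity)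
        _ = C ^ 2 * √D * (min dl ep * √(max dl D)) := by ring
    · exact case2 h.2.2
    · exact case2 h.1
  have hmul : al C l dl ep D Q * be C l lQ dl ep D Q =
      C ^ 2 * (l * Q ^ 2 * (1 + 2 * l / lQ)) * ((dl * min ep D) / (min dl ep * √(max dl D))) := by
    unfold al be
    have e1 : √(D / min dl ep) * √(D / min dl ep) = D / min dl ep :=
      Real.mul_self_sqrt (by positivity)
    have e2 : √(D * max dl D) * √D = D * √(max dl D) := by
      rw [Real.sqrt_mul hD0.le]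
      calc √D * √(max dl D) * √D = (√D * √D) * √(max dl D) := by ring
        _ = D * √(max dl D) := by rw [Real.mul_self_sqrt hD0.le]
    have e3 : Q * √(D * max dl D) * √D = Q * (D * √(max dl D)) := by
      rw [mul_assoc, e2]
    rw [e3]
    calc √(D / min dl ep) * C * l * dl * Q ^ 3 * min ep D *
          (√(D / min dl ep) * C * (1 + 2 * l / lQ) / (Q * (D * √(max dl D))))
        = (√(D / min dl ep) * √(D / min dl ep)) * (C * l * dl * Q ^ 3 * min ep D *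
          (C * (1 + 2 * l / lQ) / (Q * (D * √(max dl D))))) := by ring
      _ = (D / min dl ep) * (C * l * dl * Q ^ 3 * min ep D *
          (C * (1 + 2 * l / lQ) / (Q * (D * √(max dl D))))) := by rw [e1]
      _ = C ^ 2 * (l * Q ^ 2 * (1 + 2 * l / lQ)) *
          ((dl * min ep D) / (min dl ep * √(max dl D))) := by
          field_simp
  rw [hmul]
  have h6 : (dl * min ep D) / (min dl ep * √(max dl D)) ≤ C ^ 2 * √D := by
    rw [div_le_iff₀ (by positivity)]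
    exact key
  calc C ^ 2 * (l * Q ^ 2 * (1 + 2 * l / lQ)) * ((dl * min ep D) / (min dl ep * √(max dl D)))
      ≤ C ^ 2 * (l * Q ^ 2 * (1 + 2 * l / lQ)) * (C ^ 2 * √D) := by
        apply mul_le_mul_of_nonneg_left h6
        positivity
    _ = C ^ 4 * (l * Q ^ 2 * (1 + 2 * l / lQ)) * √D := by ring

/-- the amplitude after the sum over `R` -/
noncomputable def amp (c0 P l Q : ℝ) : ℝ := Q * √l + 2 * (l / √c0) * (P + Real.log P * Q)

lemma amp_nonneg {c0 P l Q : ℝ} (hc : 0 < c0) (hP : 1 < P) (hl : 0 ≤ l) (hQ : 0 ≤ Q) :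
    0 ≤ amp c0 P l Q := by
  have hL : 0 < Real.log P := Real.log_pos hP
  unfold amp
  positivity

lemma sqrt_le_amp {c0 P l Q : ℝ} (hc : 0 < c0) (hP : 1 < P) (hl : 0 ≤ l) (hQ : 0 < Q) :
    √(l * Q ^ 2 * (1 + 2 * l / win c0 P Q)) ≤ amp c0 P l Q := by
  have hL : 0 < Real.log P := Real.log_pos hP
  have hP0 : 0 < P := by linarith
  have hlQ := win_pos hc hP hQ
  rw [Real.sqrt_le_left (amp_nonneg hc hP hl hQ.le)]
  have h1 := sq_div_win hc hP hQ
  have h2 : l * Q ^ 2 * (1 + 2 * l / win c0 P Q) = l * Q ^ 2 +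
      2 * l ^ 2 * (Q ^ 2 / win c0 P Q) := by
    field_simp
  have h3 : (l / √c0) ^ 2 = l ^ 2 / c0 := by
    rw [div_pow, Real.sq_sqrt hc.le]
  have h4 : (√l) ^ 2 = l := Real.sq_sqrt hl
  have h5 : 0 ≤ (Q * √l) * (2 * (l / √c0) * (P + Real.log P * Q)) := by positivity
  have h6 : 2 * l ^ 2 * (Q ^ 2 / win c0 P Q) ≤ 2 * l ^ 2 * ((P + Real.log P * Q) ^ 2 / c0) :=
    mul_le_mul_of_nonneg_left h1 (by positivity)
  have h7 : (2 * (l / √c0) * (P + Real.log P * Q)) ^ 2 =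
      4 * (l ^ 2 * ((P + Real.log P * Q) ^ 2 / c0)) := by
    rw [mul_pow, mul_pow, h3]
    ring
  have h8 : 0 ≤ l ^ 2 * ((P + Real.log P * Q) ^ 2 / c0) := by positivity
  have h9 : (Q * √l) ^ 2 = l * Q ^ 2 := by
    rw [mul_pow, h4]; ring
  unfold amp
  rw [h2, add_sq, h7, h9]
  linarith

/-- the sum over `Q` -/
lemma sum_amp {c0 P Qt : ℝ} (hc : 0 < c0) (hP : 1 < P) (hL1 : 1 ≤ Real.log P) (hQt : 0 < Qt)
    (Ns : Finset ℤ) (hN : ∀ n ∈ Ns, 0 ≤ n ∧ (2 : ℝ) ^ n ≤ P) :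
    ∑ n ∈ Ns, amp c0 P (win c0 P Qt) ((2 : ℝ) ^ n) ≤ 12 * √c0 * Qt := by
  have hP0 : 0 < P := by linarith
  have hL0 : 0 < Real.log P := by linarith
  set l := win c0 P Qt with hl
  have hl0 : 0 < l := win_pos hc hP hQt
  obtain ⟨N, hN1, hN2⟩ := exists_mem_Ico_zpow (y := (2:ℝ)) hP0 (by norm_num)
  have hle : ∀ n ∈ Ns, n ≤ N := by
    intro n hn
    have h1 := (hN n hn).2
    have h2 : (2 : ℝ) ^ n < 2 ^ (N + 1) := lt_of_le_of_lt h1 hN2
    have h3 := (zpow_lt_zpow_iff_right₀ (by norm_num : (1 : ℝ) < 2)).1 h2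
    omega
  have hsumQ : ∑ n ∈ Ns, (2 : ℝ) ^ n ≤ 2 * P := by
    have h1 := Crit465.sum_two_zpow_le Ns N hle
    linarith
  have hN0 : 0 ≤ N := by
    by_contra hc'
    push Not at hc'
    have h1 : (2 : ℝ) ^ (N + 1) ≤ 2 ^ (0 : ℤ) := zpow_le_zpow_right₀ (by norm_num) (by omega)
    rw [zpow_zero] at h1
    linarith
  have hcard : (Ns.card : ℝ) ≤ 3 * Real.log P := by
    have h1 := Crit465.card_le Ns (a := 0) (b := N) (fun k hk => ⟨(hN k hk).1, hle k hk⟩) hN0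
    have h2 : (N : ℝ) * Real.log 2 ≤ Real.log P := by
      rw [← Real.log_zpow]
      exact Real.log_le_log (by positivity) hN1
    have h3 : (0.69 : ℝ) ≤ Real.log 2 := by
      have := Real.log_two_gt_d9
      linarith
    have h4 : (0 : ℝ) ≤ N := by exact_mod_cast hN0
    have h5 : (N : ℝ) * 0.69 ≤ Real.log P :=
      (mul_le_mul_of_nonneg_left h3 h4).trans h2
    push_cast at h1
    linarith
  have hsc : 0 < √c0 := Real.sqrt_pos.2 hc
  have hexp : ∑ n ∈ Ns, amp c0 P l ((2 : ℝ) ^ n) = √l * ∑ n ∈ Ns, (2 : ℝ) ^ n +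
      2 * (l / √c0) * ((Ns.card : ℝ) * P + Real.log P * ∑ n ∈ Ns, (2 : ℝ) ^ n) := by
    unfold amp
    rw [Finset.sum_add_distrib, ← Finset.sum_mul, ← Finset.mul_sum, Finset.sum_add_distrib,
      Finset.sum_const, nsmul_eq_mul, ← Finset.mul_sum]
    ring
  rw [hexp]
  have h1 : √l * ∑ n ∈ Ns, (2 : ℝ) ^ n ≤ 2 * (√c0 * Qt) := by
    have h2 : √l ≤ √c0 * (Qt / P) := by
      calc √l ≤ √(c0 * (Qt / P) ^ 2) := Real.sqrt_le_sqrt (win_le_left hc.le)
        _ = √c0 * (Qt / P) := by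
            rw [Real.sqrt_mul hc.le, Real.sqrt_sq (by positivity)]
    calc √l * ∑ n ∈ Ns, (2 : ℝ) ^ n ≤ (√c0 * (Qt / P)) * (2 * P) := by
          apply mul_le_mul h2 hsumQ _ (by positivity)
          exact Finset.sum_nonneg (fun n _ => by positivity)
      _ = 2 * (√c0 * Qt) := by field_simp
  have h2 : 2 * (l / √c0) * ((Ns.card : ℝ) * P + Real.log P * ∑ n ∈ Ns, (2 : ℝ) ^ n) ≤
      10 * (√c0 * Qt) := by
    have h3 : l / √c0 ≤ √c0 * (Qt / (P * Real.log P)) := by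
      rw [div_le_iff₀ hsc]
      calc l ≤ c0 * (Qt / (P * Real.log P)) := win_le_right hc.le
        _ = √c0 * (Qt / (P * Real.log P)) * √c0 := by
            have := Real.mul_self_sqrt hc.le
            calc c0 * (Qt / (P * Real.log P)) = (√c0 * √c0) * (Qt / (P * Real.log P)) := by
                  rw [this]
              _ = _ := by ring
    have h4 : (Ns.card : ℝ) * P + Real.log P * ∑ n ∈ Ns, (2 : ℝ) ^ n ≤ 5 * (Real.log P * P) := by
      have h5 : (Ns.card : ℝ) * P ≤ 3 * Real.log P * P := mul_le_mul_of_nonneg_right hcard hP0.le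
      have h6 : Real.log P * ∑ n ∈ Ns, (2 : ℝ) ^ n ≤ Real.log P * (2 * P) :=
        mul_le_mul_of_nonneg_left hsumQ hL0.le
      linarith
    have h7 : 0 ≤ (Ns.card : ℝ) * P + Real.log P * ∑ n ∈ Ns, (2 : ℝ) ^ n := by
      have : 0 ≤ ∑ n ∈ Ns, (2 : ℝ) ^ n := Finset.sum_nonneg (fun n _ => by positivity)
      positivity
    calc 2 * (l / √c0) * ((Ns.card : ℝ) * P + Real.log P * ∑ n ∈ Ns, (2 : ℝ) ^ n)
        ≤ 2 * (√c0 * (Qt / (P * Real.log P))) * (5 * (Real.log P * P)) := by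
          apply mul_le_mul _ h4 h7 (by positivity)
          linarith
      _ = 10 * (√c0 * Qt) := by field_simp; ring
  linarith

/-- `√√(2^m) = (2^(1/4))^m` -/
lemma sqrt_sqrt_zpow (m : ℤ) : √(√((2 : ℝ) ^ m)) = ((2 : ℝ) ^ (1 / 4 : ℝ)) ^ m := by
  rw [Real.sqrt_eq_rpow, Real.sqrt_eq_rpow, ← Real.rpow_mul (by positivity),
    ← Real.rpow_intCast, ← Real.rpow_mul (by norm_num), ← Real.rpow_intCast,
    ← Real.rpow_mul (by norm_num)]
  congr 1
  ring

lemma exp_le {C : ℝ} {c : ℕ} (hc : C ≤ 2 ^ c) {x y : ℤ}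
    (h : (2 : ℝ) ^ x ≤ C * (2 : ℝ) ^ y) : x ≤ c + y := by
  have h1 : (2 : ℝ) ^ x ≤ (2 : ℝ) ^ ((c : ℤ) + y) := by
    rw [zpow_add₀ (by norm_num), zpow_natCast]
    exact h.trans (mul_le_mul_of_nonneg_right hc (by positivity))
  exact (zpow_le_zpow_iff_right₀ (by norm_num : (1 : ℝ) < 2)).1 h1

/-- the border condition in terms of exponents -/
lemma border_exp {C lam : ℝ} {c : ℕ} (hC : 0 ≤ C) (hc : C ≤ 2 ^ c) {lam0 : ℤ}
    (h1 : (2 : ℝ) ^ lam0 ≤ lam) (h2 : lam < (2 : ℝ) ^ (lam0 + 1)) {i j : ℤ}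
    (hB1 : (2 : ℝ) ^ j ≤ C * (lam * ((2 : ℝ) ^ i) ^ 2))
    (hB2 : lam * ((2 : ℝ) ^ i) ^ 2 ≤ C * (2 : ℝ) ^ j) :
    -(c : ℤ) ≤ j - 2 * i - lam0 ∧ j - 2 * i - lam0 ≤ c + 1 := by
  have e : ((2 : ℝ) ^ i) ^ 2 = (2 : ℝ) ^ (2 * i) := by
    rw [← zpow_natCast, ← zpow_mul]
    congr 1
    push_cast
    ring
  rw [e] at hB1 hB2
  constructor
  · have h3 : (2 : ℝ) ^ (lam0 + 2 * i) ≤ C * (2 : ℝ) ^ j := by
      rw [zpow_add₀ (by norm_num)]
      exact (mul_le_mul_of_nonneg_right h1 (by positivity)).trans hB2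
    have := exp_le hc h3
    omega
  · have h3 : (2 : ℝ) ^ j ≤ C * (2 : ℝ) ^ (lam0 + 1 + 2 * i) := by
      rw [zpow_add₀ (by norm_num)]
      refine hB1.trans ?_
      apply mul_le_mul_of_nonneg_left _ hC
      exact mul_le_mul_of_nonneg_right h2.le (by positivity)
    have := exp_le hc h3
    omega

end Crit

open Crit in
/-- **The critical sum.** -/
theorem critSum : CritSum := by
  classical
  intro C hC
  have hC0 : 0 < C := by linarith
  obtain ⟨c, hc⟩ : ∃ c : ℕ, C < 2 ^ c := pow_unbounded_of_one_lt C (by norm_num)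
  have hc' : C ≤ 2 ^ c := hc.le
  set ρ : ℝ := (2 : ℝ) ^ (1 / 4 : ℝ) with hρdef
  have hρ : 1 < ρ := Real.one_lt_rpow (by norm_num) (by norm_num)
  have hρ0 : 0 < ρ := by linarith
  have hρ1 : 0 < ρ - 1 := by linarith
  set S0 : ℝ := ρ / (ρ - 1) * ρ ^ (c : ℤ) with hS0
  have hS0' : 0 < S0 := by positivity
  set I1 : Finset ℤ := Finset.Icc (-(2 * (c : ℤ) + 1)) (2 * (c : ℤ) + 1) with hI1
  set I2 : Finset ℤ := Finset.Icc (-(c : ℤ)) ((c : ℤ) + 1) with hI2
  refine ⟨3 * ((I1.card : ℝ) * (I2.card : ℝ) * (S0 * (8 * C ^ 2 * 12))), by positivity, ?_⟩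
  intro c0 P Qt hc0 hc01 hLarge hQt hQtP K mu mus hK
  have hP : 1 < P := hLarge.P1
  have hP0 : 0 < P := by linarith
  have hQt0 : 0 < Qt := lt_of_lt_of_le (Real.rpow_pos_of_pos hP0 _) hQt
  set l := win c0 P Qt with hl
  have hl0 : 0 < l := win_pos hc0 hP hQt0
  have hlam : 0 < lamc P Qt := by
    unfold lamc
    positivity
  obtain ⟨lam0, hlam1, hlam2⟩ := exists_mem_Ico_zpow (y := (2 : ℝ)) hlam (by norm_num)
  -- the coefficients
  set a : ℤ × ℤ × ℤ × ℤ → ℝ := fun k =>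
    al C l ((2 : ℝ) ^ k.1) ((2 : ℝ) ^ k.2.1) ((2 : ℝ) ^ k.2.2.1) ((2 : ℝ) ^ k.2.2.2) with ha
  set b : ℤ × ℤ × ℤ × ℤ → ℝ := fun k =>
    be C l (win c0 P ((2 : ℝ) ^ k.2.2.2)) ((2 : ℝ) ^ k.1) ((2 : ℝ) ^ k.2.1)
      ((2 : ℝ) ^ k.2.2.1) ((2 : ℝ) ^ k.2.2.2) with hb
  have ha0 : ∀ k, 0 ≤ a k := by
    intro k
    rw [ha]
    unfold al
    have h1 : 0 < min ((2 : ℝ) ^ k.2.1) ((2 : ℝ) ^ k.2.2.1) := lt_min (by positivity) (by positivity)
    positivity
  have hb0 : ∀ k, 0 ≤ b k := by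
    intro k
    rw [hb]
    unfold be
    have h1 : 0 < win c0 P ((2 : ℝ) ^ k.2.2.2) := win_pos hc0 hP (by positivity)
    positivity
  have hstep1 : ∑ k ∈ K, cCut (sR k) (sd k) (se k) (sD k) (mu k) ≤
      ∑ k' ∈ K.image Prod.snd, 8 * √(a k' * b k') := by
    apply sum_fiber K _ a b ha0 hb0
    intro k hk
    obtain ⟨hg, hB, hR, hD⟩ := hK k hk
    exact le_min (cut_le_a hg.geo hg.occ)
      (cut_le_b hC0.le hc0 hP hg.geo hg.occ hB.1 hQt hD hR)
  refine hstep1.trans ?_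
  set K' := K.image Prod.snd with hK'
  set A : ℤ → ℝ := fun n => 8 * C ^ 2 * amp c0 P l ((2 : ℝ) ^ n) with hA
  set w : ℤ → ℝ := fun m => ρ ^ m with hw
  have hw0 : ∀ m, 0 ≤ w m := fun m => by rw [hw]; positivity
  have hA0 : ∀ n, 0 ≤ A n := by
    intro n
    rw [hA]
    have := amp_nonneg hc0 hP hl0.le (show (0 : ℝ) ≤ (2 : ℝ) ^ n by positivity)
    positivity
  -- facts on the elements of K'
  have hfacts : ∀ k' ∈ K', 8 * √(a k' * b k') ≤ w k'.2.2.1 * A k'.2.2.2 ∧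
      (-(c : ℤ) ≤ k'.2.1 - 2 * k'.1 - lam0 ∧ k'.2.1 - 2 * k'.1 - lam0 ≤ c + 1) ∧
      k'.2.2.1 ≤ c ∧ (0 ≤ k'.2.2.2 ∧ (2 : ℝ) ^ k'.2.2.2 ≤ P) ∧
      ((k'.2.2.1 ≤ c + k'.1 ∧ k'.1 ≤ c + k'.2.2.1) ∨ (k'.2.2.1 ≤ c + k'.2.1 ∧
        k'.2.1 ≤ c + k'.2.2.1) ∨ (k'.1 ≤ c + k'.2.1 ∧ k'.2.1 ≤ c + k'.1)) := by
    intro k' hk'
    obtain ⟨k, hk, rfl⟩ := Finset.mem_image.1 hk'
    obtain ⟨hg, hB, hR, hD⟩ := hK k hk
    have hG := hg.geo
    refine ⟨?_, border_exp hC0.le hc' hlam1 hlam2 hB.2.1 hB.2.2, ?_, ⟨?_, hG.Q_le⟩, ?_⟩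
    · have h1 := al_mul_be hC hl0.le (win_pos hc0 hP hG.Q_pos) hG
      have h2 := sqrt_le_amp hc0 hP hl0.le hG.Q_pos
      have hX : 0 ≤ l * sQ k ^ 2 * (1 + 2 * l / win c0 P (sQ k)) := by
        have := win_pos hc0 hP hG.Q_pos
        positivity
      have h3 : √(a k.2 * b k.2) ≤ C ^ 2 * amp c0 P l (sQ k) * √(√(sD k)) := by
        calc √(a k.2 * b k.2)
            ≤ √(C ^ 4 * (l * sQ k ^ 2 * (1 + 2 * l / win c0 P (sQ k))) * √(sD k)) :=
              Real.sqrt_le_sqrt h1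
          _ = C ^ 2 * √(l * sQ k ^ 2 * (1 + 2 * l / win c0 P (sQ k))) * √(√(sD k)) := by
              rw [Real.sqrt_mul (by positivity), Real.sqrt_mul (by positivity)]
              congr 2
              rw [show C ^ 4 = (C ^ 2) ^ 2 by ring, Real.sqrt_sq (by positivity)]
          _ ≤ C ^ 2 * amp c0 P l (sQ k) * √(√(sD k)) := by
              apply mul_le_mul_of_nonneg_right _ (by positivity)
              exact mul_le_mul_of_nonneg_left h2 (by positivity)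
      have h4 : √(√(sD k)) = w k.2.2.2.1 := sqrt_sqrt_zpow _
      rw [h4] at h3
      calc 8 * √(a k.2 * b k.2) ≤ 8 * (C ^ 2 * amp c0 P l (sQ k) * w k.2.2.2.1) := by
            apply mul_le_mul_of_nonneg_left h3 (by norm_num)
        _ = w k.2.2.2.1 * A k.2.2.2.2 := by
            rw [hA]
            unfold sQ
            ring
    · have h1 : (2 : ℝ) ^ k.2.2.2.1 ≤ C * (2 : ℝ) ^ (0 : ℤ) := by
        rw [zpow_zero, mul_one]
        exact hG.D_le
      have := exp_le hc' h1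
      omega
    · by_contra hneg
      push Not at hneg
      have h1 : (2 : ℝ) ^ k.2.2.2.2 < 1 := zpow_lt_one_of_neg₀ (by norm_num) hneg
      have h2 : (1 : ℝ) ≤ P ^ (11 / 20 : ℝ) := Real.one_le_rpow hP.le (by norm_num)
      have h3 : P ^ (11 / 20 : ℝ) ≤ (2 : ℝ) ^ k.2.2.2.2 := hB.1
      linarith
    · rcases hG.zone with h | h | h
      · exact Or.inl ⟨exp_le hc' h.1, exp_le hc' h.2.1⟩
      · exact Or.inr (Or.inl ⟨exp_le hc' h.1, exp_le hc' h.2.1⟩)
      · exact Or.inr (Or.inr ⟨exp_le hc' h.1, exp_le hc' h.2.1⟩)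
  set Ms := K'.image (fun k => k.2.2.1) with hMs
  set Ns := K'.image (fun k => k.2.2.2) with hNs
  have hsumw : ∑ m ∈ Ms, w m ≤ S0 := by
    apply sum_zpow_le hρ
    intro m hm
    obtain ⟨k', hk', rfl⟩ := Finset.mem_image.1 hm
    exact (hfacts k' hk').2.2.1
  have hsumA : ∑ n ∈ Ns, A n ≤ 8 * C ^ 2 * (12 * √c0 * Qt) := by
    rw [hA, ← Finset.mul_sum]
    apply mul_le_mul_of_nonneg_left _ (by positivity)
    apply sum_amp hc0 hP hLarge.L1 hQt0
    intro n hn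
    obtain ⟨k', hk', rfl⟩ := Finset.mem_image.1 hn
    exact (hfacts k' hk').2.2.2.1
  set Z : ℝ := (I1.card : ℝ) * (I2.card : ℝ) * ((∑ m ∈ Ms, w m) * ∑ n ∈ Ns, A n) with hZ
  -- the three zones
  have hz : ∀ (S : Finset (ℤ × ℤ × ℤ × ℤ)) (φ : ℤ × ℤ × ℤ × ℤ → ℤ × ℤ × ℤ × ℤ), S ⊆ K' →
      Set.InjOn φ S → (∀ k ∈ S, (φ k).1 ∈ I1 ∧ (φ k).2.1 ∈ I2) →
      (∀ k, (φ k).2.2 = k.2.2) → ∑ k' ∈ S, 8 * √(a k' * b k') ≤ Z := by
    intro S φ hS hinj hmap hφ
    apply sum_le_prod S φ hinj I1 I2 Ms Ns _ w A hw0 (fun n _ => hA0 n)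
    · intro k hk
      have h1 := (hfacts k (hS hk)).1
      rw [hφ k]
      exact h1
    · intro k hk
      simp only [Finset.mem_product]
      refine ⟨(hmap k hk).1, (hmap k hk).2, ?_, ?_⟩
      · rw [hφ k]
        exact Finset.mem_image_of_mem (fun k : ℤ × ℤ × ℤ × ℤ => k.2.2.1) (hS hk)
      · rw [hφ k]
        exact Finset.mem_image_of_mem (fun k : ℤ × ℤ × ℤ × ℤ => k.2.2.2) (hS hk)
  have hz1 : ∑ k' ∈ K'.filter (fun k => k.2.2.1 ≤ (c : ℤ) + k.1 ∧ k.1 ≤ (c : ℤ) + k.2.2.1),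
      8 * √(a k' * b k') ≤ Z := by
    apply hz _ (fun k => (k.1 - k.2.2.1, k.2.1 - 2 * k.1 - lam0, k.2.2)) (Finset.filter_subset _ _)
    · rintro ⟨i, j, m, n⟩ _ ⟨i', j', m', n'⟩ _ h
      simp only [Prod.mk.injEq] at h ⊢
      obtain ⟨h1, h2, h3, h4⟩ := h
      refine ⟨?_, ?_, h3, h4⟩ <;> omega
    · intro k hk
      rw [Finset.mem_filter] at hk
      have h1 := (hfacts k hk.1).2.1
      have h2 := hk.2
      rw [hI1, hI2, Finset.mem_Icc, Finset.mem_Icc]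
      dsimp only
      refine ⟨⟨?_, ?_⟩, ?_, ?_⟩ <;> omega
    · intro k
      rfl
  have hz2 : ∑ k' ∈ K'.filter (fun k => k.2.2.1 ≤ (c : ℤ) + k.2.1 ∧ k.2.1 ≤ (c : ℤ) + k.2.2.1),
      8 * √(a k' * b k') ≤ Z := by
    apply hz _ (fun k => (k.2.1 - k.2.2.1, k.2.1 - 2 * k.1 - lam0, k.2.2))
      (Finset.filter_subset _ _)
    · rintro ⟨i, j, m, n⟩ _ ⟨i', j', m', n'⟩ _ h
      simp only [Prod.mk.injEq] at h ⊢
      obtain ⟨h1, h2, h3, h4⟩ := h
      refine ⟨?_, ?_, h3, h4⟩ <;> omega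
    · intro k hk
      rw [Finset.mem_filter] at hk
      have h1 := (hfacts k hk.1).2.1
      have h2 := hk.2
      rw [hI1, hI2, Finset.mem_Icc, Finset.mem_Icc]
      dsimp only
      refine ⟨⟨?_, ?_⟩, ?_, ?_⟩ <;> omega
    · intro k
      rfl
  have hz3 : ∑ k' ∈ K'.filter (fun k => k.1 ≤ (c : ℤ) + k.2.1 ∧ k.2.1 ≤ (c : ℤ) + k.1),
      8 * √(a k' * b k') ≤ Z := by
    apply hz _ (fun k => (k.1 + lam0, k.2.1 - 2 * k.1 - lam0, k.2.2)) (Finset.filter_subset _ _)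
    · rintro ⟨i, j, m, n⟩ _ ⟨i', j', m', n'⟩ _ h
      simp only [Prod.mk.injEq] at h ⊢
      obtain ⟨h1, h2, h3, h4⟩ := h
      refine ⟨?_, ?_, h3, h4⟩ <;> omega
    · intro k hk
      rw [Finset.mem_filter] at hk
      have h1 := (hfacts k hk.1).2.1
      have h2 := hk.2
      rw [hI1, hI2, Finset.mem_Icc, Finset.mem_Icc]
      dsimp only
      refine ⟨⟨?_, ?_⟩, ?_, ?_⟩ <;> omega
    · intro k
      rfl
  have hcover : ∑ k' ∈ K', 8 * √(a k' * b k') ≤ Z + (Z + Z) := by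
    set G : ℤ × ℤ × ℤ × ℤ → ℝ := fun k' => 8 * √(a k' * b k') with hG
    have hG0 : ∀ k, 0 ≤ G k := fun k => by rw [hG]; positivity
    calc ∑ k' ∈ K', G k'
        ≤ ∑ k' ∈ K', ((if (k'.2.2.1 ≤ c + k'.1 ∧ k'.1 ≤ c + k'.2.2.1) then G k' else 0) +
            ((if (k'.2.2.1 ≤ c + k'.2.1 ∧ k'.2.1 ≤ c + k'.2.2.1) then G k' else 0) +
            (if (k'.1 ≤ c + k'.2.1 ∧ k'.2.1 ≤ c + k'.1) then G k' else 0))) := by
          apply Finset.sum_le_sum
          intro k' hk'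
          have h0 := hG0 k'
          rcases (hfacts k' hk').2.2.2.2 with h | h | h
          · rw [if_pos h]
            have : 0 ≤ (if (k'.2.2.1 ≤ c + k'.2.1 ∧ k'.2.1 ≤ c + k'.2.2.1) then G k' else 0) := by
              split_ifs <;> linarith
            have : 0 ≤ (if (k'.1 ≤ c + k'.2.1 ∧ k'.2.1 ≤ c + k'.1) then G k' else 0) := by
              split_ifs <;> linarith
            linarith
          · rw [if_pos h]
            have : 0 ≤ (if (k'.2.2.1 ≤ c + k'.1 ∧ k'.1 ≤ c + k'.2.2.1) then G k' else 0) := by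
              split_ifs <;> linarith
            have : 0 ≤ (if (k'.1 ≤ c + k'.2.1 ∧ k'.2.1 ≤ c + k'.1) then G k' else 0) := by
              split_ifs <;> linarith
            linarith
          · rw [if_pos h]
            have : 0 ≤ (if (k'.2.2.1 ≤ c + k'.1 ∧ k'.1 ≤ c + k'.2.2.1) then G k' else 0) := by
              split_ifs <;> linarith
            have : 0 ≤ (if (k'.2.2.1 ≤ c + k'.2.1 ∧ k'.2.1 ≤ c + k'.2.2.1) then G k' else 0) := by
              split_ifs <;> linarith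
            linarith
      _ = _ + (_ + _) := by
          rw [Finset.sum_add_distrib, Finset.sum_add_distrib, ← Finset.sum_filter,
            ← Finset.sum_filter, ← Finset.sum_filter]
      _ ≤ Z + (Z + Z) := add_le_add hz1 (add_le_add hz2 hz3)
  refine hcover.trans ?_
  have hZle : Z ≤ (I1.card : ℝ) * (I2.card : ℝ) * (S0 * (8 * C ^ 2 * (12 * √c0 * Qt))) := by
    rw [hZ]
    apply mul_le_mul_of_nonneg_left _ (by positivity)
    apply mul_le_mul hsumw hsumA _ hS0'.le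
    exact Finset.sum_nonneg (fun n _ => hA0 n)
  calc Z + (Z + Z) = 3 * Z := by ring
    _ ≤ 3 * ((I1.card : ℝ) * (I2.card : ℝ) * (S0 * (8 * C ^ 2 * (12 * √c0 * Qt)))) := by
        linarith
    _ = 3 * ((I1.card : ℝ) * (I2.card : ℝ) * (S0 * (8 * C ^ 2 * 12))) * √c0 * Qt := by ring

end Crest.Agent.R106.Num
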