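import Crest.Agent.R106.NumCost

/-!
# Row 106, node NUM: sums over all dyadic shells
-/

set_option autoImplicit false

namespace Crest.Agent.R106.Num

open Real Finset

variable {C c0 P Qt : ℝ}

/-- geometric sum over a finite set of integers bounded above -/
lemma geo_sum {b : ℝ} (hb : 1 < b) (S : Finset ℤ) (N : ℤ) (hN : ∀ k ∈ S, k ≤ N) :
    ∑ k ∈ S, b ^ k ≤ b ^ N * (b / (b - 1)) := by
  classical
  have hb0 : 0 < b := by linarith
  have h1 : ∑ k ∈ S, b ^ k = ∑ n ∈ S.image (fun k => (N - k).toNat), b ^ N * (b⁻¹) ^ n := by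
    rw [Finset.sum_image]
    · apply Finset.sum_congr rfl
      intro k hk
      have h2 : ((N - k).toNat : ℤ) = N - k := Int.toNat_of_nonneg (by linarith [hN k hk])
      rw [← zpow_natCast (b⁻¹), h2, inv_zpow', ← zpow_add₀ hb0.ne']
      congr 1; ring
    · intro k hk l hl h
      have h2 : ((N - k).toNat : ℤ) = N - k := Int.toNat_of_nonneg (by linarith [hN k hk])
      have h3 : ((N - l).toNat : ℤ) = N - l := Int.toNat_of_nonneg (by linarith [hN l hl])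
      simp only at h
      rw [h, h3] at h2
      linarith
  have hbi : b⁻¹ < 1 := inv_lt_one_of_one_lt₀ hb
  have hs : Summable (fun n : ℕ => b ^ N * (b⁻¹) ^ n) :=
    (summable_geometric_of_lt_one (by positivity) hbi).mul_left _
  rw [h1]
  calc ∑ n ∈ S.image (fun k => (N - k).toNat), b ^ N * (b⁻¹) ^ n
      ≤ ∑' n : ℕ, b ^ N * (b⁻¹) ^ n := hs.sum_le_tsum _ (fun n _ => by positivity)
    _ = b ^ N * (1 - b⁻¹)⁻¹ := by
        rw [tsum_mul_left, tsum_geometric_of_lt_one (by positivity) hbi]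
    _ = b ^ N * (b / (b - 1)) := by
        congr 1
        have : b - 1 ≠ 0 := by linarith
        field_simp

lemma two_zpow_rpow (k : ℤ) (θ : ℝ) : ((2 : ℝ) ^ k) ^ θ = ((2 : ℝ) ^ θ) ^ k := by
  rw [← Real.rpow_intCast, ← Real.rpow_mul (by norm_num), mul_comm, Real.rpow_mul (by norm_num),
    Real.rpow_intCast]

/-- sum over `R` of `R^θ`. -/
lemma sum_rpow {θ : ℝ} (hθ : 0 < θ) (S : Finset ℤ) {A : ℝ} (hA : 0 ≤ A)
    (hS : ∀ k ∈ S, (2 : ℝ) ^ k ≤ A) :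
    ∑ k ∈ S, ((2 : ℝ) ^ k) ^ θ ≤ A ^ θ * ((2 : ℝ) ^ θ / ((2 : ℝ) ^ θ - 1)) := by
  classical
  have hb : 1 < (2 : ℝ) ^ θ := Real.one_lt_rpow (by norm_num) hθ
  rcases S.eq_empty_or_nonempty with rfl | hne
  · simp only [Finset.sum_empty]
    have : 0 < (2 : ℝ) ^ θ - 1 := by linarith
    positivity
  have h1 := geo_sum hb S (S.max' hne) (fun k hk => S.le_max' k hk)
  have h2 : ((2 : ℝ) ^ θ) ^ (S.max' hne) ≤ A ^ θ := by
    rw [← two_zpow_rpow]
    exact Real.rpow_le_rpow (by positivity) (hS _ (S.max'_mem hne)) hθ.le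
  calc ∑ k ∈ S, ((2 : ℝ) ^ k) ^ θ = ∑ k ∈ S, ((2 : ℝ) ^ θ) ^ k := by
        simp_rw [two_zpow_rpow]
    _ ≤ _ := h1
    _ ≤ _ := by
        have : 0 < (2 : ℝ) ^ θ - 1 := by linarith
        gcongr

lemma const_1000 : (2 : ℝ) ^ (1/1000 : ℝ) / ((2 : ℝ) ^ (1/1000 : ℝ) - 1) ≤ 8 ^ 4 := by
  have h1 : (1:ℝ) + Real.log 2 / 1000 ≤ (2 : ℝ) ^ (1/1000 : ℝ) := by
    rw [Real.rpow_def_of_pos (by norm_num)]
    have := Real.add_one_le_exp (Real.log 2 * (1/1000))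
    linarith
  have h2 := Real.log_two_gt_d9
  have h3 : (0:ℝ) < (2 : ℝ) ^ (1/1000 : ℝ) - 1 := by linarith
  rw [div_le_iff₀ h3]
  have h4 : (6:ℝ) / 10000 ≤ (2 : ℝ) ^ (1/1000 : ℝ) - 1 := by linarith
  nlinarith

/-- the exponents of admissible shells lie in a finite box -/
lemma mem_box (hL : Large C c0 P) (hC : 1 ≤ C) (hQt1 : Qt ≤ P) (hQt0 : 0 < Qt) {k : Sh}
    (hg : Geo C P Qt (sR k) (sd k) (se k) (sD k) (sQ k)) :
    k.2 ∈ (Finset.Icc (-⌈3 * logb 2 P⌉) ⌈3 * logb 2 P⌉) ×ˢ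
      ((Finset.Icc (-⌈3 * logb 2 P⌉) ⌈3 * logb 2 P⌉) ×ˢ
      ((Finset.Icc (-⌈3 * logb 2 P⌉) ⌈3 * logb 2 P⌉) ×ˢ
      (Finset.Icc (-⌈3 * logb 2 P⌉) ⌈3 * logb 2 P⌉))) := by
  have hP := hL.P1
  have hP0 : 0 < P := by linarith
  have hCP : C ≤ P := hL.hC.trans (by
    calc P ^ (1 / 10000000 : ℝ) ≤ P ^ (1 : ℝ) :=
          Real.rpow_le_rpow_of_exponent_le hP.le (by norm_num)
      _ = P := Real.rpow_one P)
  set N : ℤ := ⌈3 * logb 2 P⌉ with hN
  have hNP : P ^ 3 ≤ (2 : ℝ) ^ N := by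
    have h1 : (P : ℝ) ^ 3 = (2 : ℝ) ^ (3 * logb 2 P) := by
      rw [mul_comm, Real.rpow_mul (by norm_num), Real.rpow_logb (by norm_num) (by norm_num) hP0]
      norm_cast
    rw [h1, ← Real.rpow_intCast]
    exact Real.rpow_le_rpow_of_exponent_le (by norm_num) (Int.le_ceil _)
  have key : ∀ i : ℤ, (2 : ℝ) ^ i ≤ P ^ 3 → 1 ≤ P ^ 3 * (2 : ℝ) ^ i → i ∈ Finset.Icc (-N) N := by
    intro i h1 h2
    rw [Finset.mem_Icc]
    constructor
    · have h3 : (1 : ℝ) ≤ (2 : ℝ) ^ (N + i) := by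
        rw [zpow_add₀ (by norm_num)]
        have : (0:ℝ) < 2 ^ i := by positivity
        nlinarith
      by_contra h4
      push Not at h4
      have h5 : (2 : ℝ) ^ (N + i) < 1 := zpow_lt_one_of_neg₀ (by norm_num) (by linarith)
      linarith
    · have h3 : (2 : ℝ) ^ i ≤ (2 : ℝ) ^ N := h1.trans hNP
      exact (zpow_le_zpow_iff_right₀ (by norm_num)).1 h3
  obtain ⟨hR, hdl, hep, hD, hQ, g1, g2, g3, g4, g5, g6, g7, g8, g9, g10, g11⟩ := hg
  have hC0 : 0 < C := by linarith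
  have hP3 : P ≤ P ^ 3 := by nlinarith [mul_pos hP0 hP0]
  have hCQ : C * Qt ^ 2 ≤ P ^ 3 := by
    calc C * Qt ^ 2 ≤ P * P ^ 2 := by gcongr
      _ = P ^ 3 := by ring
  have hCQ' : C * (sQ k) ^ 2 ≤ P ^ 3 := by
    calc C * (sQ k) ^ 2 ≤ P * P ^ 2 := by gcongr
      _ = P ^ 3 := by ring
  rw [Finset.mem_product, Finset.mem_product, Finset.mem_product]
  refine ⟨key _ (g2.trans (hCP.trans hP3)) ?_, key _ (g3.trans (hCP.trans hP3)) ?_,
    key _ (g4.trans (hCP.trans hP3)) ?_, key _ (g10.trans hP3) ?_⟩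
  · calc (1:ℝ) ≤ C * (Qt ^ 2 * sd k) := g5
      _ = (C * Qt ^ 2) * sd k := by ring
      _ ≤ P ^ 3 * sd k := by gcongr
  · calc (1:ℝ) ≤ C * ((sQ k) ^ 2 * se k) := g6
      _ = (C * (sQ k) ^ 2) * se k := by ring
      _ ≤ P ^ 3 * se k := by gcongr
  · calc (1:ℝ) ≤ C * (Qt ^ 2 * sD k) := g7
      _ = (C * Qt ^ 2) * sD k := by ring
      _ ≤ P ^ 3 * sD k := by gcongr
  · calc (1:ℝ) ≤ C * (sQ k) := g9
      _ ≤ P ^ 3 * sQ k := by gcongr; linarith

lemma card_box (hL : Large C c0 P) :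
    ((Finset.Icc (-⌈3 * logb 2 P⌉) ⌈3 * logb 2 P⌉).card : ℝ) ≤ 12 * Real.log P := by
  have hP := hL.P1
  have hL1 := hL.L1
  rw [Int.card_Icc]
  have h2 : 0 < logb 2 P := Real.logb_pos (by norm_num) hP
  have h0 : (0 : ℤ) ≤ ⌈3 * logb 2 P⌉ := Int.ceil_nonneg (by linarith)
  have h1 : ((⌈3 * logb 2 P⌉ + 1 - -⌈3 * logb 2 P⌉).toNat : ℤ) =
      ⌈3 * logb 2 P⌉ + 1 - -⌈3 * logb 2 P⌉ := Int.toNat_of_nonneg (by linarith)
  have h3 : ((⌈3 * logb 2 P⌉ + 1 - -⌈3 * logb 2 P⌉).toNat : ℝ) =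
      (⌈3 * logb 2 P⌉ : ℝ) + 1 + (⌈3 * logb 2 P⌉ : ℝ) := by
    have := congrArg (fun z : ℤ => (z : ℝ)) h1
    push_cast at this ⊢
    linarith
  rw [h3]
  have h4 := (Int.ceil_lt_add_one (3 * logb 2 P)).le
  have h5 : logb 2 P ≤ 1.45 * Real.log P := by
    unfold Real.logb
    rw [div_le_iff₀ (Real.log_pos (by norm_num))]
    have := Real.log_two_gt_d9
    nlinarith
  linarith

/-- The general summation lemma: costs with a gain `R^(1/1000)`. -/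
theorem sum_shells (hL : Large C c0 P) (hC : 1 ≤ C) (hQt1 : Qt ≤ P) (hQt0 : 0 < Qt)
    (K : Finset Sh) (hK : ∀ k ∈ K, Geo C P Qt (sR k) (sd k) (se k) (sD k) (sQ k))
    (f : Sh → ℝ) {X : ℝ} (hX : 0 ≤ X) (hf : ∀ k ∈ K, f k ≤ X * (sR k) ^ (1/1000 : ℝ)) :
    ∑ k ∈ K, f k ≤ X * P ^ (1/100000 : ℝ) := by
  classical
  have hP := hL.P1
  have hP0 : 0 < P := by linarith
  have hC0 : 0 < C := by linarith
  set I : Finset ℤ := Finset.Icc (-⌈3 * logb 2 P⌉) ⌈3 * logb 2 P⌉ with hI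
  set S : Finset ℤ := K.image Prod.fst with hS
  have hsub : K ⊆ S ×ˢ (I ×ˢ (I ×ˢ (I ×ˢ I))) := by
    intro k hk
    rw [Finset.mem_product]
    exact ⟨Finset.mem_image_of_mem _ hk, mem_box hL hC hQt1 hQt0 (hK k hk)⟩
  have hSC : ∀ r ∈ S, (2 : ℝ) ^ r ≤ C := by
    intro r hr
    rw [hS, Finset.mem_image] at hr
    obtain ⟨k, hk, rfl⟩ := hr
    exact (hK k hk).R_le
  have hcard := card_box hL
  rw [← hI] at hcard
  calc ∑ k ∈ K, f k ≤ ∑ k ∈ K, X * (sR k) ^ (1/1000 : ℝ) := Finset.sum_le_sum hf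
    _ ≤ ∑ k ∈ S ×ˢ (I ×ˢ (I ×ˢ (I ×ˢ I))), X * (sR k) ^ (1/1000 : ℝ) := by
        apply Finset.sum_le_sum_of_subset_of_nonneg hsub
        intro k _ _
        unfold sR
        positivity
    _ = ((I ×ˢ (I ×ˢ (I ×ˢ I))).card : ℝ) * ∑ r ∈ S, X * ((2 : ℝ) ^ r) ^ (1/1000 : ℝ) := by
        rw [Finset.sum_product]
        simp only [sR, Finset.sum_const, nsmul_eq_mul, Finset.mul_sum]
    _ = X * ((I.card : ℝ) ^ 4 * ∑ r ∈ S, ((2 : ℝ) ^ r) ^ (1/1000 : ℝ)) := by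
        rw [← Finset.mul_sum]
        simp only [Finset.card_product]
        push_cast
        ring
    _ ≤ X * ((12 * Real.log P) ^ 4 * (C * 8 ^ 4)) := by
        have h1 : ∑ r ∈ S, ((2 : ℝ) ^ r) ^ (1/1000 : ℝ) ≤ C * 8 ^ 4 := by
          refine (sum_rpow (by norm_num) S hC0.le hSC).trans ?_
          have h2 : C ^ (1/1000 : ℝ) ≤ C := by
            calc C ^ (1/1000 : ℝ) ≤ C ^ (1 : ℝ) :=
                  Real.rpow_le_rpow_of_exponent_le hC (by norm_num)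
              _ = C := Real.rpow_one C
          have h3 := const_1000
          have h4 : (0:ℝ) < (2 : ℝ) ^ (1/1000 : ℝ) - 1 := by
            have : 1 < (2 : ℝ) ^ (1/1000 : ℝ) := Real.one_lt_rpow (by norm_num) (by norm_num)
            linarith
          gcongr
        gcongr
    _ ≤ X * P ^ (1/100000 : ℝ) := by
        have hLog : 0 ≤ Real.log P := by linarith [hL.L1]
        have e1 : (12 * Real.log P) ^ 4 * (C * 8 ^ 4) ≤ 8 ^ 9 * (Real.log P) ^ 4 * C := by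
          have : (0:ℝ) ≤ (Real.log P) ^ 4 * C := by positivity
          nlinarith
        have e2 : (8:ℝ) ^ 9 * (Real.log P) ^ 4 * C ≤
            (P ^ (1 / 10000000 : ℝ)) ^ 9 * (P ^ (1 / 10000000 : ℝ)) ^ 4 *
              (P ^ (1 / 10000000 : ℝ)) := by
          have a1 := hL.h8
          have a2 := hL.hL
          have a3 := hL.hC
          gcongr
        have e3 : (P ^ (1 / 10000000 : ℝ)) ^ 9 * (P ^ (1 / 10000000 : ℝ)) ^ 4 *
              (P ^ (1 / 10000000 : ℝ)) ≤ P ^ (1/100000 : ℝ) := by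
          rw [← Real.rpow_natCast, ← Real.rpow_natCast, ← Real.rpow_mul hP0.le,
            ← Real.rpow_mul hP0.le, ← Real.rpow_add hP0, ← Real.rpow_add hP0]
          apply Real.rpow_le_rpow_of_exponent_le hP.le
          push_cast
          norm_num
        exact mul_le_mul_of_nonneg_left (e1.trans (e2.trans e3)) hX

/-- hypotheses on a finite family of shells -/
structure Fam (C c0 P Qt : ℝ) (K : Finset Sh) (mu mus : Sh → ℝ) : Prop where
  L : Large C c0 P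
  C1 : 1 ≤ C
  c0p : 0 < c0
  c01 : c0 ≤ 1
  Qt1 : P ^ (11 / 20 : ℝ) ≤ Qt
  Qt2 : Qt ≤ P
  good : ∀ k ∈ K, Good C c0 P Qt k (mu k) (mus k)

variable {K : Finset Sh} {mu mus : Sh → ℝ}

lemma Fam.hyp (h : Fam C c0 P Qt K mu mus) {k : Sh} (hk : k ∈ K) :
    Hyp C c0 P Qt (sR k) (sd k) (se k) (sD k) (sQ k) (mu k) (mus k) :=
  ⟨h.L, h.C1, h.c0p, h.c01, h.Qt1, h.Qt2, (h.good k hk).geo, (h.good k hk).occ⟩

lemma Fam.Qt0 (h : Fam C c0 P Qt K mu mus) : 0 < Qt :=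
  lt_of_lt_of_le (Real.rpow_pos_of_pos (by linarith [h.L.P1]) _) h.Qt1

lemma Fam.P0 (h : Fam C c0 P Qt K mu mus) : 0 < P := by linarith [h.L.P1]

lemma Fam.subset (h : Fam C c0 P Qt K mu mus) {K' : Finset Sh} (hs : K' ⊆ K) :
    Fam C c0 P Qt K' mu mus :=
  ⟨h.L, h.C1, h.c0p, h.c01, h.Qt1, h.Qt2, fun k hk => h.good k (hs hk)⟩

/-- general form: one-shell bound `≤ 2 P^e R^(1/1000)` gives sum `≤ P^(e + 1/50000)`. -/
theorem Fam.sum_le (h : Fam C c0 P Qt K mu mus) (f : Sh → ℝ) {e : ℝ}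
    (hf : ∀ k ∈ K, f k ≤ 2 * (P ^ e * (sR k) ^ (1/1000 : ℝ))) :
    ∑ k ∈ K, f k ≤ P ^ (e + 1/50000) := by
  have hP := h.L.P1
  have hP0 := h.P0
  have h1 := sum_shells h.L h.C1 h.Qt2 h.Qt0 K (fun k hk => (h.good k hk).geo) f
    (X := 2 * P ^ e) (by positivity) (fun k hk => by
      have := hf k hk
      linarith)
  refine h1.trans ?_
  have h2 : (2:ℝ) ≤ P ^ (1 / 100000 : ℝ) := by
    have a1 := h.L.h8
    have a2 : P ^ (1 / 10000000 : ℝ) ≤ P ^ (1 / 100000 : ℝ) :=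
      Real.rpow_le_rpow_of_exponent_le hP.le (by norm_num)
    linarith
  calc 2 * P ^ e * P ^ (1/100000 : ℝ) ≤ P ^ (1 / 100000 : ℝ) * P ^ e * P ^ (1/100000 : ℝ) := by
        gcongr
    _ = P ^ (e + 1/50000) := by
        rw [← Real.rpow_add hP0, ← Real.rpow_add hP0]
        congr 1; ring

lemma Fam.pow_Qt (h : Fam C c0 P Qt K mu mus) (a : ℝ) :
    P ^ (logb P Qt + a) = P ^ a * Qt := by
  rw [Real.rpow_add h.P0, Real.rpow_logb h.P0 h.L.P1.ne' h.Qt0]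
  ring

lemma Fam.le_Qt (h : Fam C c0 P Qt K mu mus) {a b : ℝ} (hab : a ≤ b) :
    P ^ (logb P Qt + a) ≤ P ^ b * Qt := by
  rw [h.pow_Qt]
  have := h.Qt0
  have := h.L.P1
  gcongr
  linarith

theorem Fam.sum_T_E (h : Fam C c0 P Qt K mu mus) (hE : ∀ k ∈ K, InE C P Qt (sd k) (se k) (sQ k)) :
    ∑ k ∈ K, cT (sR k) (sd k) (se k) (sQ k) (mu k) ≤ P ^ (-(1/400) : ℝ) * Qt := by
  refine (h.sum_le (fun k => cT (sR k) (sd k) (se k) (sQ k) (mu k)) (e := logb P Qt - 1/200)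
    (fun k hk => T_E_cost (h.hyp hk) (hE k hk))).trans ?_
  rw [show logb P Qt - 1/200 + 1/50000 = logb P Qt + (-1/200 + 1/50000) by ring]
  exact h.le_Qt (by norm_num)

theorem Fam.sum_A_E (h : Fam C c0 P Qt K mu mus) (hE : ∀ k ∈ K, InE C P Qt (sd k) (se k) (sQ k)) :
    ∑ k ∈ K, cA (win c0 P Qt) (sR k) (sd k) (se k) (sD k) (sQ k) (mu k) ≤
      P ^ (-(1/400) : ℝ) * Qt := by
  refine (h.sum_le (fun k => cA (win c0 P Qt) (sR k) (sd k) (se k) (sD k) (sQ k) (mu k))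
    (e := logb P Qt - 1/200) (fun k hk => (A_E_cost (h.hyp hk) (hE k hk)).trans ?_)).trans ?_
  · have := h.P0
    have : 0 < sR k := (h.good k hk).geo.R_pos
    have : 0 < P ^ (logb P Qt - 1/200) * (sR k) ^ (1/1000 : ℝ) := by positivity
    linarith
  rw [show logb P Qt - 1/200 + 1/50000 = logb P Qt + (-1/200 + 1/50000) by ring]
  exact h.le_Qt (by norm_num)

theorem Fam.sum_B_E (h : Fam C c0 P Qt K mu mus) (hE : ∀ k ∈ K, InE C P Qt (sd k) (se k) (sQ k)) :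
    ∑ k ∈ K, cB (win c0 P Qt) (sR k) (sd k) (se k) (sD k) (sQ k) (mu k) ≤
      P ^ (-(1/400) : ℝ) * Qt := by
  refine (h.sum_le (fun k => cB (win c0 P Qt) (sR k) (sd k) (se k) (sD k) (sQ k) (mu k))
    (e := logb P Qt - 1/250) (fun k hk => (B_E_cost (h.hyp hk) (hE k hk)).trans ?_)).trans ?_
  · have := h.P0
    have : 0 < sR k := (h.good k hk).geo.R_pos
    have : 0 < P ^ (logb P Qt - 1/250) * (sR k) ^ (1/1000 : ℝ) := by positivity
    linarith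
  rw [show logb P Qt - 1/250 + 1/50000 = logb P Qt + (-1/250 + 1/50000) by ring]
  exact h.le_Qt (by norm_num)

theorem Fam.sum_T (h : Fam C c0 P Qt K mu mus) :
    ∑ k ∈ K, cT (sR k) (sd k) (se k) (sQ k) (mu k) ≤ P ^ (1/40 : ℝ) * Qt := by
  refine (h.sum_le (fun k => cT (sR k) (sd k) (se k) (sQ k) (mu k)) (e := logb P Qt + 1/500)
    (fun k hk => T_all_cost (h.hyp hk))).trans ?_
  rw [show logb P Qt + 1/500 + 1/50000 = logb P Qt + (1/500 + 1/50000) by ring]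
  exact h.le_Qt (by norm_num)

theorem Fam.sum_B (h : Fam C c0 P Qt K mu mus) :
    ∑ k ∈ K, cB (win c0 P Qt) (sR k) (sd k) (se k) (sD k) (sQ k) (mu k) ≤
      P ^ (1/40 : ℝ) * Qt := by
  refine (h.sum_le (fun k => cB (win c0 P Qt) (sR k) (sd k) (se k) (sD k) (sQ k) (mu k))
    (e := logb P Qt + 1/50) (fun k hk => (B_all_cost (h.hyp hk)).trans ?_)).trans ?_
  · have := h.P0
    have : 0 < sR k := (h.good k hk).geo.R_pos
    have : 0 < P ^ (logb P Qt + 1/50) * (sR k) ^ (1/1000 : ℝ) := by positivity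
    linarith
  rw [show logb P Qt + 1/50 + 1/50000 = logb P Qt + (1/50 + 1/50000) by ring]
  exact h.le_Qt (by norm_num)

theorem Fam.sum_G_C (h : Fam C c0 P Qt K mu mus) (hE : ∀ k ∈ K, InC C P Qt (sd k) (se k) (sQ k)) :
    ∑ k ∈ K, cG Qt (sR k) (sd k) (se k) (mu k) ≤ P ^ (-(1/400) : ℝ) * Qt := by
  refine (h.sum_le (fun k => cG Qt (sR k) (sd k) (se k) (mu k)) (e := logb P Qt - 1/200)
    (fun k hk => G_C_cost (h.hyp hk) (hE k hk))).trans ?_
  rw [show logb P Qt - 1/200 + 1/50000 = logb P Qt + (-1/200 + 1/50000) by ring]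
  exact h.le_Qt (by norm_num)

theorem Fam.sum_M_C (h : Fam C c0 P Qt K mu mus) (hE : ∀ k ∈ K, InC C P Qt (sd k) (se k) (sQ k)) :
    ∑ k ∈ K, cM (sR k) (sd k) (se k) (mus k) ≤ P ^ (-(1/20) : ℝ) * Qt := by
  refine (h.sum_le (fun k => cM (sR k) (sd k) (se k) (mus k))
    (e := logb P Qt - 1/10) (fun k hk => (M_C_cost (h.hyp hk) (hE k hk)).trans ?_)).trans ?_
  · have := h.P0
    have : 0 < sR k := (h.good k hk).geo.R_pos
    have : 0 < P ^ (logb P Qt - 1/10) * (sR k) ^ (1/1000 : ℝ) := by positivity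
    linarith
  rw [show logb P Qt - 1/10 + 1/50000 = logb P Qt + (-1/10 + 1/50000) by ring]
  exact h.le_Qt (by norm_num)

theorem Fam.sum_b_C (h : Fam C c0 P Qt K mu mus) (hE : ∀ k ∈ K, InC C P Qt (sd k) (se k) (sQ k)) :
    ∑ k ∈ K, cb (sR k) (sd k) (se k) (mus k) ≤ P ^ (0.372 : ℝ) := by
  refine (h.sum_le (fun k => cb (sR k) (sd k) (se k) (mus k))
    (e := 0.371) (fun k hk => (b_C_cost (h.hyp hk) (hE k hk)).trans ?_)).trans ?_
  · have := h.P0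
    have : 0 < sR k := (h.good k hk).geo.R_pos
    have : 0 < P ^ (0.371 : ℝ) * (sR k) ^ (1/1000 : ℝ) := by positivity
    linarith
  exact Real.rpow_le_rpow_of_exponent_le h.L.P1.le (by norm_num)

/-- `(sum of ‖h2‖) * (sum of ‖Φ‖)` -/
theorem Fam.sum_HP_C (h : Fam C c0 P Qt K mu mus)
    (hE : ∀ k ∈ K, InC C P Qt (sd k) (se k) (sQ k)) :
    (∑ k ∈ K, cH (sR k) (sd k) (se k) (sD k) (sQ k) (mu k)) *
      (∑ k ∈ K, √(cM (sR k) (sd k) (se k) (mus k) * cP (sR k) (sd k) (se k) (mu k))) ≤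
      P ^ (-(1/400) : ℝ) * Qt ^ 2 := by
  have hP := h.L.P1
  have hP0 := h.P0
  have hQt := h.Qt0
  have h1 := h.sum_le (fun k => cH (sR k) (sd k) (se k) (sD k) (sQ k) (mu k))
    (e := 1 + logb P Qt / 2 + 1/500) (fun k hk => (H_C_cost (h.hyp hk) (hE k hk)).trans (by
      have : 0 < sR k := (h.good k hk).geo.R_pos
      have : 0 < P ^ (1 + logb P Qt / 2 + 1/500) * (sR k) ^ (1/1000 : ℝ) := by positivity
      linarith))
  have h2 := h.sum_le
    (fun k => √(cM (sR k) (sd k) (se k) (mus k) * cP (sR k) (sd k) (se k) (mu k)))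
    (e := 2 * logb P Qt - 1/200 - (1 + logb P Qt / 2 + 1/500))
    (fun k hk => (P_C_cost (h.hyp hk) (hE k hk)).trans (by
      have : 0 < sR k := (h.good k hk).geo.R_pos
      have : 0 < P ^ (2 * logb P Qt - 1/200 - (1 + logb P Qt / 2 + 1/500)) *
        (sR k) ^ (1/1000 : ℝ) := by positivity
      linarith))
  have h0 : 0 ≤ ∑ k ∈ K,
      √(cM (sR k) (sd k) (se k) (mus k) * cP (sR k) (sd k) (se k) (mu k)) :=
    Finset.sum_nonneg (fun _ _ => Real.sqrt_nonneg _)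
  calc _ ≤ P ^ (1 + logb P Qt / 2 + 1/500 + 1/50000) *
        P ^ (2 * logb P Qt - 1/200 - (1 + logb P Qt / 2 + 1/500) + 1/50000) := by
        gcongr
    _ = P ^ (logb P Qt + (logb P Qt + (-1/200 + 1/25000))) := by
        rw [← Real.rpow_add hP0]
        congr 1; ring
    _ ≤ P ^ (-(1/400) : ℝ) * Qt ^ 2 := by
        rw [Real.rpow_add hP0, h.pow_Qt, Real.rpow_logb hP0 hP.ne' hQt]
        have : P ^ (-1/200 + 1/25000 : ℝ) ≤ P ^ (-(1/400) : ℝ) :=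
          Real.rpow_le_rpow_of_exponent_le hP.le (by norm_num)
        calc Qt * (P ^ (-1/200 + 1/25000 : ℝ) * Qt) = P ^ (-1/200 + 1/25000 : ℝ) * Qt ^ 2 := by
              ring
          _ ≤ _ := by gcongr

/-- all cut-off costs, modulo the critical sum -/
theorem sum_Cut_B (hcrit : CritSum) (C : ℝ) (hC : 1 ≤ C) : ∃ C2 : ℝ, 0 ≤ C2 ∧
    ∀ (c0 P Qt : ℝ) (K : Finset Sh) (mu mus : Sh → ℝ), Fam C c0 P Qt K mu mus →
    (∀ k ∈ K, InB C P Qt (sd k) (se k) (sQ k)) →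
    ∑ k ∈ K, cCut (sR k) (sd k) (se k) (sD k) (mu k) ≤ (C2 * √c0 + P ^ (-(1/400) : ℝ)) * Qt := by
  classical
  obtain ⟨C2, hC2, hc⟩ := hcrit C hC
  refine ⟨C2, hC2, fun c0 P Qt K mu mus h hB => ?_⟩
  have hP := h.L.P1
  have hP0 := h.P0
  have hQt := h.Qt0
  set p : Sh → Prop := fun k => P ^ (-(1 / 10) : ℝ) ≤ sD k ∧
    logb P (sR k) ≤ -(2 * (1 - logb P Qt) + 0.02) with hp
  rw [← Finset.sum_filter_add_sum_filter_not K p]
  have h1 := hc c0 P Qt h.c0p h.c01 h.L h.Qt1 h.Qt2 (K.filter p) mu mus (by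
    intro k hk
    rw [Finset.mem_filter] at hk
    obtain ⟨hk1, hk2, hk3⟩ := hk
    refine ⟨h.good k hk1, hB k hk1, ?_, hk2⟩
    have hR := (h.good k hk1).geo.R_pos
    have h2 := win_ge h.L h.c0p hQt h.Qt2
    refine le_trans ?_ h2
    have hLP : 0 < Real.log P := by linarith [h.L.L1]
    have h3 : logb P (sR k) ≤ logb P (c0 * ((Qt / P) ^ 2 / Real.log P)) := by
      rw [lg_mul h.c0p (by positivity), lg_div (by positivity) hLP, lg_pow, lg_div hQt hP0,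
        Real.logb_self_eq_one hP]
      have a1 := lg_c0 h.L h.c0p
      have a2 := lg_L h.L
      push_cast
      linarith
    have := (Real.logb_le_logb hP hR (mul_pos h.c0p (by positivity))).1 h3
    exact this)
  have h2 : ∑ k ∈ K with ¬ p k, cCut (sR k) (sd k) (se k) (sD k) (mu k) ≤
      P ^ (-(1/400) : ℝ) * Qt := by
    have h' := h.subset (Finset.filter_subset (fun k => ¬ p k) K)
    refine (h'.sum_le (fun k => cCut (sR k) (sd k) (se k) (sD k) (mu k))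
      (e := logb P Qt - 1/100) (fun k hk => ?_)).trans ?_
    · rw [Finset.mem_filter] at hk
      have h3 := Cut_cost (h.hyp hk.1) (hB k hk.1) hk.2
      have : 0 < sR k := (h.good k hk.1).geo.R_pos
      have : 0 < P ^ (logb P Qt - 1/100) * (sR k) ^ (1/1000 : ℝ) := by positivity
      linarith
    rw [show logb P Qt - 1/100 + 1/50000 = logb P Qt + (-1/100 + 1/50000) by ring]
    exact h.le_Qt (by norm_num)
  linarith

end Crest.Agent.R106.Num
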