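import Crest.Agent.R106.AbsH2
import Crest.Agent.R106.NumSum
import Crest.Agent.R106.NumCrit

/-!
# Row 106, node ABS (helper72): from NUM to the structure `Nine`, and the final choice of constants.
-/

set_option autoImplicit false

open MeasureTheory Set
open scoped ENNReal

namespace Crest.Agent.R106.Abs

open Crest.Agent.R106.Num (cT cA cB cG cCut cb cM cP cH sq2 Good InE InC InB Large Fam win)

variable {Z : Type} [MeasurableSpace Z]

/-- translation of the measure-level data to the numbers level (proved in `AbsGood`). -/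
structure Tr (T : TD Z) (C C' c0 P Qt : ℝ) : Prop where
  good : ∀ k, T.Act (fun _ _ => True) k → Good C' c0 P Qt k (T.mu k) (TD.mus C k)
  hE : ∀ k, T.Act (T.inE P Qt) k → InE C' P Qt (kd k) (ke k) (kQ k)
  hC : ∀ k, T.Act (T.inC P Qt) k → InC C' P Qt (kd k) (ke k) (kQ k)
  hB : ∀ k, T.Act (T.inB P Qt) k → InB C' P Qt (kd k) (ke k) (kQ k)

theorem act_true {T : TD Z} {reg : ℝ → Z → Prop} {k : KI} (h : T.Act reg k) :
    T.Act (fun _ _ => True) k := by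
  obtain ⟨s, hs, z, hz, hw, -⟩ := h
  exact ⟨s, hs, z, hz, hw, trivial⟩

theorem nine_of {T : TD Z} {C C' c0 P Qt C2 : ℝ} (hC : 0 ≤ C) (hL : Large C' c0 P)
    (hC1 : 1 ≤ C') (hc0 : 0 < c0) (hc1 : c0 ≤ 1) (hQ1 : P ^ (11 / 20 : ℝ) ≤ Qt) (hQ2 : Qt ≤ P)
    (htr : Tr T C C' c0 P Qt)
    (hcut : ∀ (K : Finset KI), Fam C' c0 P Qt K T.mu (TD.mus C) →
      (∀ k ∈ K, InB C' P Qt (kd k) (ke k) (kQ k)) →
      ∑ k ∈ K, cCut (kR k) (kd k) (ke k) (kD k) (T.mu k) ≤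
        (C2 * √c0 + P ^ (-(1/400) : ℝ)) * Qt) :
    Nine T C (win c0 P Qt) P Qt (P ^ (-(1/400) : ℝ) * Qt)
      ((C2 * √c0 + P ^ (-(1/400) : ℝ)) * Qt) (P ^ (1/40 : ℝ) * Qt) (P ^ (-(1/20) : ℝ) * Qt)
      (P ^ (-(1/400) : ℝ) * Qt ^ 2) := by
  have fam : ∀ (reg : ℝ → Z → Prop) (K : Finset KI), (∀ k ∈ K, T.Act reg k) →
      Fam C' c0 P Qt K T.mu (TD.mus C) := fun reg K hK =>
    ⟨hL, hC1, hc0, hc1, hQ1, hQ2, fun k hk => htr.good k (act_true (hK k hk))⟩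
  constructor
  · intro K hK
    exact (fam _ K hK).sum_T_E fun k hk => htr.hE k (hK k hk)
  · intro K hK
    exact (fam _ K hK).sum_A_E fun k hk => htr.hE k (hK k hk)
  · intro K hK
    exact (fam _ K hK).sum_B_E fun k hk => htr.hE k (hK k hk)
  · intro K hK
    exact (fam _ K hK).sum_G_C fun k hk => htr.hC k (hK k hk)
  · intro K hK
    exact hcut K (fam _ K hK) fun k hk => htr.hB k (hK k hk)
  · intro K hK
    exact (fam _ K hK).sum_T
  · intro K hK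
    exact (fam _ K hK).sum_B
  · intro K hK
    exact (fam _ K hK).sum_M_C fun k hk => htr.hC k (hK k hk)
  · intro K hK
    have h := (fam _ K hK).sum_HP_C fun k hk => htr.hC k (hK k hk)
    refine le_trans ?_ h
    refine mul_le_mul_of_nonneg_left ?_ (Finset.sum_nonneg fun k _ => by unfold cH; positivity)
    refine Finset.sum_le_sum fun k _ => Real.sqrt_le_sqrt ?_
    refine mul_le_mul_of_nonneg_left (min_le_left _ _) ?_
    have hR := kR_pos k; have hd := kd_pos k; have he := ke_pos k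
    have := TD.mus_nonneg hC k
    unfold cM
    positivity

theorem win_eq_lw (c0 P Q : ℝ) : win c0 P Q = lw c0 P Q := rfl

/-- the numerical end of the proof. -/
theorem num_end {Ch C C2 c0 c1 P Qt l : ℝ} (hCh : 0 ≤ Ch) (hC : 0 ≤ C) (hP : 1 ≤ P)
    (hQt : 0 < Qt) (hl : l ≤ P ^ (-(1/400) : ℝ) * Qt)
    (h1 : Ch * (2 * (C2 * √c0)) ≤ c1 / 2)
    (h2 : Ch * ((7 + 6 * √C + C * (6 + 24 * √C)) * P ^ (-(1/400) : ℝ)) ≤ c1 / 2) :
    Ch * (l + 2 * (P ^ (-(1/400) : ℝ) * Qt) + 2 * √C * (P ^ (-(1/400) : ℝ) * Qt) +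
      4 * √C * (P ^ (-(1/400) : ℝ) * Qt) + 2 * (P ^ (-(1/400) : ℝ) * Qt) +
      2 * ((C2 * √c0 + P ^ (-(1/400) : ℝ)) * Qt) +
      C * (2 / Qt * (P ^ (-(1/20) : ℝ) * Qt) * (l + (2 * (P ^ (1/40 : ℝ) * Qt) +
        2 * √C * (P ^ (-(1/400) : ℝ) * Qt) +
        4 * √C * (P ^ (-(1/400) : ℝ) * Qt + P ^ (1/40 : ℝ) * Qt))) +
        2 * √C * (2 / Qt) * (P ^ (-(1/400) : ℝ) * Qt ^ 2))) ≤ c1 * Qt := by
  have hP0 : 0 < P := by linarith
  set η : ℝ := P ^ (-(1/400) : ℝ) with hη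
  set θ : ℝ := P ^ (1/40 : ℝ) with hθ
  set ζ : ℝ := P ^ (-(1/20) : ℝ) with hζ
  have hη0 : 0 < η := Real.rpow_pos_of_pos hP0 _
  have hθ0 : 0 < θ := Real.rpow_pos_of_pos hP0 _
  have hζ0 : 0 < ζ := Real.rpow_pos_of_pos hP0 _
  have hη1 : η ≤ 1 := by
    rw [hη]; exact Real.rpow_le_one_of_one_le_of_nonpos hP (by norm_num)
  have hθ1 : 1 ≤ θ := by rw [hθ]; exact Real.one_le_rpow hP (by norm_num)
  have hζθ : ζ * θ ≤ η := by
    rw [hζ, hθ, hη, ← Real.rpow_add hP0]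
    exact Real.rpow_le_rpow_of_exponent_le hP (by norm_num)
  have hs : 0 ≤ √C := Real.sqrt_nonneg _
  have e1 : 2 / Qt * (ζ * Qt) = 2 * ζ := by field_simp
  have e2 : 2 * √C * (2 / Qt) * (η * Qt ^ 2) = 4 * √C * η * Qt := by field_simp; ring
  rw [e1, e2]
  have i1 : l + (2 * (θ * Qt) + 2 * √C * (η * Qt) + 4 * √C * (η * Qt + θ * Qt)) ≤
      (3 + 10 * √C) * θ * Qt := by
    have a1 : η * Qt ≤ θ * Qt := mul_le_mul_of_nonneg_right (hη1.trans hθ1) hQt.le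
    have a2 : √C * (η * Qt) ≤ √C * (θ * Qt) := mul_le_mul_of_nonneg_left a1 hs
    nlinarith
  have i2 : 2 * ζ * (l + (2 * (θ * Qt) + 2 * √C * (η * Qt) + 4 * √C * (η * Qt + θ * Qt))) ≤
      (6 + 20 * √C) * η * Qt := by
    calc 2 * ζ * (l + (2 * (θ * Qt) + 2 * √C * (η * Qt) + 4 * √C * (η * Qt + θ * Qt)))
        ≤ 2 * ζ * ((3 + 10 * √C) * θ * Qt) := mul_le_mul_of_nonneg_left i1 (by positivity)
      _ = (6 + 20 * √C) * (ζ * θ) * Qt := by ring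
      _ ≤ (6 + 20 * √C) * η * Qt := by gcongr
  calc Ch * (l + 2 * (η * Qt) + 2 * √C * (η * Qt) + 4 * √C * (η * Qt) + 2 * (η * Qt) +
      2 * ((C2 * √c0 + η) * Qt) +
      C * (2 * ζ * (l + (2 * (θ * Qt) + 2 * √C * (η * Qt) + 4 * √C * (η * Qt + θ * Qt))) +
        4 * √C * η * Qt))
      ≤ Ch * (η * Qt + 2 * (η * Qt) + 2 * √C * (η * Qt) + 4 * √C * (η * Qt) + 2 * (η * Qt) +
      2 * ((C2 * √c0 + η) * Qt) + C * ((6 + 20 * √C) * η * Qt + 4 * √C * η * Qt)) := by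
        gcongr
    _ = (Ch * (2 * (C2 * √c0)) + Ch * ((7 + 6 * √C + C * (6 + 24 * √C)) * η)) * Qt := by ring
    _ ≤ (c1 / 2 + c1 / 2) * Qt := by gcongr
    _ = c1 * Qt := by ring

theorem fin_h_of (C Ch Tm c1 : ℝ) (hC : 0 ≤ C) (hCh : 0 ≤ Ch) (hc1 : 0 < c1)
    (C' : ℝ) (hC1 : 1 ≤ C')
    (htr : ∀ (c0 P Qt : ℝ) (Z : Type) [MeasurableSpace Z] (T : TD Z), 0 < c0 → c0 ≤ 1 →
      Large C' c0 P → P ^ (11 / 20 : ℝ) ≤ Qt → Qt ≤ P → T.a ≤ T.b → T.b - T.a ≤ lw c0 P Qt →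
      T.Core C Tm P Qt → T.CoreD C P c0 Qt → Tr T C C' c0 P Qt) :
    ∃ c0 : ℝ, 0 < c0 ∧ c0 ≤ 1 ∧ ∃ P0 : ℝ, ∀ P, P0 ≤ P → ∀ Qt, P ^ (11 / 20 : ℝ) ≤ Qt → Qt ≤ P →
      ∀ {Z : Type} [MeasurableSpace Z] (T : TD Z), T.a ≤ T.b → T.b - T.a ≤ lw c0 P Qt →
        T.Core C Tm P Qt → T.CoreD C P c0 Qt →
        ∫⁻ s in Icc T.a T.b, T.h Ch P Qt s ≤ ENNReal.ofReal (c1 * Qt) := by
  obtain ⟨C2, hC2, hcut⟩ := Num.sum_Cut_B Num.critSum C' hC1
  set x : ℝ := c1 / (4 * (Ch * C2 + 1)) with hx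
  have hd : 0 < 4 * (Ch * C2 + 1) := by positivity
  have hx0 : 0 < x := div_pos hc1 hd
  refine ⟨min 1 (x ^ 2), lt_min one_pos (by positivity), min_le_left _ _, ?_⟩
  set c0 : ℝ := min 1 (x ^ 2) with hc0
  have hc00 : 0 < c0 := lt_min one_pos (by positivity)
  have hc01 : c0 ≤ 1 := min_le_left _ _
  have hsq : √c0 ≤ x := by
    rw [show x = √(x ^ 2) from (Real.sqrt_sq hx0.le).symm]
    exact Real.sqrt_le_sqrt (min_le_right _ _)
  have h1 : Ch * (2 * (C2 * √c0)) ≤ c1 / 2 := by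
    calc Ch * (2 * (C2 * √c0)) ≤ Ch * (2 * (C2 * x)) := by gcongr
      _ = 2 * (Ch * C2) * x := by ring
      _ ≤ 2 * (Ch * C2 + 1) * x := by gcongr; linarith
      _ = c1 / 2 := by rw [hx]; field_simp; norm_num
  obtain ⟨P1, hP1⟩ := Num.eventually_large C' c0
  have ht : Filter.Tendsto (fun P : ℝ => P ^ (-(1/400) : ℝ)) Filter.atTop (nhds 0) :=
    tendsto_rpow_neg_atTop (by norm_num)
  set Kc : ℝ := 7 + 6 * √C + C * (6 + 24 * √C) with hK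
  have hK0 : 0 < Kc := by positivity
  have hev : ∀ᶠ P : ℝ in Filter.atTop, P ^ (-(1/400) : ℝ) < c1 / (2 * (Ch * Kc + 1)) :=
    ht.eventually_lt_const (by positivity)
  obtain ⟨P2, hP2⟩ := Filter.eventually_atTop.1 hev
  refine ⟨max P1 (max P2 1), fun P hP Qt hQ1 hQ2 Z _ T hab hl hcore hcoreD => ?_⟩
  have hPP1 : P1 ≤ P := (le_max_left _ _).trans hP
  have hPP2 : P2 ≤ P := ((le_max_left _ _).trans (le_max_right _ _)).trans hP
  have hPP3 : 1 ≤ P := ((le_max_right _ _).trans (le_max_right _ _)).trans hP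
  have hP0 : 0 < P := by linarith
  have hL := hP1 P hPP1
  have hQt : 0 < Qt := lt_of_lt_of_le (Real.rpow_pos_of_pos hP0 _) hQ1
  have hT := htr c0 P Qt Z T hc00 hc01 hL hQ1 hQ2 hab hl hcore hcoreD
  have hN := nine_of hC hL hC1 hc00 hc01 hQ1 hQ2 hT
    (fun K hK hB => hcut c0 P Qt K T.mu (TD.mus C) hK hB)
  have hmain := TD.int_h (l := win c0 P Qt) hC hCh hcore hP0 hQt hab hl hN
  refine hmain.trans (ENNReal.ofReal_le_ofReal ?_)
  refine num_end hCh hC hPP3 hQt ?_ h1 ?_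
  · -- the window is short
    have hlw : win c0 P Qt ≤ 1 := by
      unfold win
      have h3 : min ((Qt / P) ^ 2) (Qt / (P * Real.log P)) ≤ 1 := by
        refine (min_le_left _ _).trans ?_
        have h4 : Qt / P ≤ 1 := (div_le_one hP0).2 hQ2
        have h5 : 0 ≤ Qt / P := by positivity
        exact pow_le_one₀ h5 h4
      have h6 : 0 ≤ min ((Qt / P) ^ 2) (Qt / (P * Real.log P)) := by
        have := hL.L1
        refine le_min (by positivity) (by positivity)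
      calc c0 * min ((Qt / P) ^ 2) (Qt / (P * Real.log P)) ≤ 1 * 1 :=
            mul_le_mul hc01 h3 h6 (by norm_num)
        _ = 1 := by norm_num
    have h7 : 1 ≤ P ^ (-(1/400) : ℝ) * Qt := by
      calc (1 : ℝ) ≤ P ^ (-(1/400) + 11/20 : ℝ) := Real.one_le_rpow hPP3 (by norm_num)
        _ = P ^ (-(1/400) : ℝ) * P ^ (11/20 : ℝ) := Real.rpow_add hP0 _ _
        _ ≤ P ^ (-(1/400) : ℝ) * Qt := by gcongr
    exact hlw.trans h7
  · have h8 := (hP2 P hPP2).le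
    calc Ch * ((7 + 6 * √C + C * (6 + 24 * √C)) * P ^ (-(1/400) : ℝ))
        = (Ch * Kc) * P ^ (-(1/400) : ℝ) := by rw [hK]; ring
      _ ≤ (Ch * Kc + 1) * (c1 / (2 * (Ch * Kc + 1))) := by
          gcongr
          linarith
      _ = c1 / 2 := by field_simp

end Crest.Agent.R106.Abs
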