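import Crest.Agent.R106.AbsLine
import Crest.Agent.R106.NumSum

/-!
# Row 106, node ABS/NUM: the active shells are admissible (`Num.Good`), and the bound of `bd`.
-/

set_option autoImplicit false

open MeasureTheory Set
open scoped ENNReal

namespace Crest.Agent.R106.Abs

variable {Z : Type} [MeasurableSpace Z]

theorem lw_eq (c0 P Q : ℝ) : lw c0 P Q = Num.win c0 P Q := rfl
theorem lamc_eq (P Qt : ℝ) : lamc P Qt = Num.lamc P Qt := rfl

/-- the constant of the numbers level -/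
noncomputable def cG' (C Tm : ℝ) : ℝ := 64 + C + Tm

/-- auxiliary -/
theorem sqrt_zone {d e : ℝ} (hd0 : 0 < d) (he0 : 0 < e) (h1 : 4 * e ≤ d) :
    2 * √(d * e) ≤ 3 / 4 * d + e ∧ √(d * e) ≤ d / 2 := by
  have hu2 : √e ^ 2 = e := Real.sq_sqrt he0.le
  have hv2 : √d ^ 2 = d := Real.sq_sqrt hd0.le
  have hu0 : 0 ≤ √e := Real.sqrt_nonneg _
  have hv0 : 0 ≤ √d := Real.sqrt_nonneg _
  have huv : √(d * e) = √d * √e := Real.sqrt_mul hd0.le _
  have h2 : 2 * √e ≤ √d := by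
    have h3 : √(2 ^ 2 * e) ≤ √d := Real.sqrt_le_sqrt (by linarith)
    rwa [Real.sqrt_mul (by norm_num), Real.sqrt_sq (by norm_num)] at h3
  rw [huv]
  constructor
  · have h4 := mul_nonneg (sub_nonneg.2 h2) (show 0 ≤ 3 * √d - 2 * √e by linarith)
    have h5 : (√d - 2 * √e) * (3 * √d - 2 * √e) = 3 * √d ^ 2 - 8 * (√d * √e) + 4 * √e ^ 2 := by
      ring
    rw [h5, hu2, hv2] at h4
    linarith
  · have h4 := mul_le_mul_of_nonneg_left h2 hv0
    have h5 : √d * (2 * √e) = 2 * (√d * √e) := by ring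
    have h6 : √d * √d = d := Real.mul_self_sqrt hd0.le
    rw [h5, h6] at h4
    linarith

/-- zones, from the true values -/
theorem zone_of_tri {d e D kd ke kD C' : ℝ} (hkd : 0 < kd) (hke : 0 < ke) (hkD : 0 < kD)
    (hC' : 64 ≤ C') (hd : kd ≤ d ∧ d < 2 * kd) (he : ke ≤ e ∧ e < 2 * ke)
    (hD : kD ≤ D ∧ D < 2 * kD) (htri : |D - d - e| ≤ 2 * √(d * e)) :
    (kD ≤ C' * kd ∧ kd ≤ C' * kD ∧ ke ≤ C' * kd) ∨
    (kD ≤ C' * ke ∧ ke ≤ C' * kD ∧ kd ≤ C' * ke) ∨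
    (kd ≤ C' * ke ∧ ke ≤ C' * kd ∧ kD ≤ C' * kd) := by
  have hd0 : 0 < d := lt_of_lt_of_le hkd hd.1
  have he0 : 0 < e := lt_of_lt_of_le hke he.1
  have hD0 : 0 < D := lt_of_lt_of_le hkD hD.1
  obtain ⟨t1, t2⟩ := abs_le.1 htri
  have h64d : 64 * kd ≤ C' * kd := by gcongr
  have h64e : 64 * ke ≤ C' * ke := by gcongr
  have h64D : 64 * kD ≤ C' * kD := by gcongr
  rcases le_or_gt (4 * e) d with h1 | h1
  · left
    obtain ⟨q1, q2⟩ := sqrt_zone hd0 he0 h1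
    refine ⟨by linarith, by linarith, by linarith⟩
  · rcases le_or_gt (4 * d) e with h2 | h2
    · right; left
      obtain ⟨q1, q2⟩ := sqrt_zone he0 hd0 h2
      rw [mul_comm e d] at q1 q2
      refine ⟨by linarith, by linarith, by linarith⟩
    · right; right
      have hs : √(d * e) ≤ 2 * d := by
        apply Real.sqrt_le_iff.2
        refine ⟨by linarith, ?_⟩
        have := mul_le_mul_of_nonneg_left h1.le hd0.le
        calc d * e ≤ d * (4 * d) := by gcongr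
          _ = (2 * d) ^ 2 := by ring
      refine ⟨by linarith, by linarith, by linarith⟩

namespace TD

variable {T : TD Z} {C Tm P Qt c0 : ℝ}

theorem num_geo (hC : 0 ≤ C) (hTm : 0 ≤ Tm) (hT : T.Geo Tm P Qt) (hQt : 0 < Qt)
    {reg : ℝ → Z → Prop} {k : KI} (hk : T.Act reg k) :
    Num.Geo (cG' C Tm) P Qt (kR k) (kd k) (ke k) (kD k) (kQ k) := by
  obtain ⟨s, hs, z, hz, hw, -⟩ := hk
  obtain ⟨h1, h2, h3, h4, h5⟩ := mem_shk hz
  have hR := kR_pos k; have hd := kd_pos k; have he := ke_pos k; have hD := kD_pos k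
  have hQ := kQ_pos k
  have hC' : 64 ≤ cG' C Tm := by unfold cG'; linarith
  have hC'T : Tm ≤ cG' C Tm := by unfold cG'; linarith
  have g1 := hT.R1 s hs z hw
  have g2 := hT.dl0 s hs z hw
  have g3 := hT.dl1 s hs z hw
  have g4 := hT.ep0 s hs z hw
  have g5 := hT.ep1 s hs z hw
  have g6 := hT.D0 s hs z hw
  have g7 := hT.D0' s hs z hw
  have g8 := hT.D1 s hs z hw
  have g9 := hT.ga0 s hs z hw
  have g10 := hT.ga1 s hs z hw
  have g11 := hT.tri s hs z hw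
  have hga0 : 0 < T.ga s z := by linarith
  rw [div_le_iff₀ (by positivity)] at g2 g4 g6 g7
  have hga2 : T.ga s z ^ 2 ≤ 4 * kQ k ^ 2 := by nlinarith
  have e1 : 1 ≤ 64 * (Qt ^ 2 * kd k) := by nlinarith [sq_nonneg Qt, mul_pos hQt hQt]
  have e2 : 1 ≤ 64 * (kQ k ^ 2 * ke k) := by
    have : T.ep s z * (2 * T.ga s z ^ 2) ≤ (2 * ke k) * (2 * (4 * kQ k ^ 2)) := by
      have : 0 ≤ T.ep s z := by linarith
      gcongr
      exact h3.2.le
    nlinarith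
  have e3 : 1 ≤ 64 * (Qt ^ 2 * kD k) := by nlinarith [sq_nonneg Qt, mul_pos hQt hQt]
  have e4 : 1 ≤ 64 * (kQ k ^ 2 * kD k) := by
    have : T.D s z * (2 * T.ga s z ^ 2) ≤ (2 * kD k) * (2 * (4 * kQ k ^ 2)) := by
      have : 0 ≤ T.D s z := by linarith
      gcongr
      exact h4.2.le
    nlinarith
  refine ⟨hR, hd, he, hD, hQ, by linarith, by linarith, by linarith, by linarith, ?_, ?_, ?_, ?_,
    ?_, by linarith, zone_of_tri hd he hD hC' h2 h3 h4 g11⟩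
  · exact e1.trans (by gcongr)
  · exact e2.trans (by gcongr)
  · exact e3.trans (by gcongr)
  · exact e4.trans (by gcongr)
  · nlinarith

theorem num_inE (hC : 0 ≤ C) (hTm : 0 ≤ Tm) {k : KI} (hP : 0 < P) (hQt : 0 < Qt)
    (hk : T.Act (T.inE P Qt) k) :
    Num.InE (cG' C Tm) P Qt (kd k) (ke k) (kQ k) := by
  obtain ⟨s, hs, z, hz, hw, hr⟩ := hk
  obtain ⟨h1, h2, h3, h4, h5⟩ := mem_shk hz
  have hd := kd_pos k; have he := ke_pos k
  have hC' : 64 ≤ cG' C Tm := by unfold cG'; linarith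
  have hl : 0 < lamc P Qt := by unfold lamc; positivity
  rcases hr with hr | hr
  · left
    have : 16 * P ^ (11 / 20 : ℝ) ≤ cG' C Tm * P ^ (11 / 20 : ℝ) := by gcongr; linarith
    linarith
  · right
    rw [← lamc_eq]
    have e1 : lamc P Qt * kd k ^ 2 ≤ lamc P Qt * T.dl s z ^ 2 := by
      have := h2.1
      gcongr
    have e2 : 64 * ke k ≤ cG' C Tm * ke k := by gcongr
    linarith

theorem num_inC (hC : 0 ≤ C) (hTm : 0 ≤ Tm) {k : KI} (hP : 0 < P) (hQt : 0 < Qt)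
    (hk : T.Act (T.inC P Qt) k) :
    Num.InC (cG' C Tm) P Qt (kd k) (ke k) (kQ k) := by
  obtain ⟨s, hs, z, hz, hw, hr⟩ := hk
  obtain ⟨h1, h2, h3, h4, h5⟩ := mem_shk hz
  have hd := kd_pos k; have he := ke_pos k
  have hC' : 64 ≤ cG' C Tm := by unfold cG'; linarith
  have hl : 0 < lamc P Qt := by unfold lamc; positivity
  obtain ⟨r1, r2⟩ := hr
  have hp : 0 < P ^ (11 / 20 : ℝ) := by positivity
  refine ⟨by linarith, ?_⟩
  rw [← lamc_eq]
  have hdl : T.dl s z ^ 2 ≤ (2 * kd k) ^ 2 := by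
    have : 0 ≤ T.dl s z := hd.le.trans h2.1
    have := h2.2.le
    gcongr
  have e1 : lamc P Qt * T.dl s z ^ 2 ≤ lamc P Qt * (2 * kd k) ^ 2 := by gcongr
  have e2 : 64 * (lamc P Qt * kd k ^ 2) ≤ cG' C Tm * (lamc P Qt * kd k ^ 2) := by gcongr
  have e3 : 0 ≤ lamc P Qt * kd k ^ 2 := by positivity
  nlinarith [h3.1]

theorem num_inB (hC : 0 ≤ C) (hTm : 0 ≤ Tm) {k : KI} (hP : 0 < P) (hQt : 0 < Qt)
    (hk : T.Act (T.inB P Qt) k) :
    Num.InB (cG' C Tm) P Qt (kd k) (ke k) (kQ k) := by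
  obtain ⟨s, hs, z, hz, hw, hr⟩ := hk
  obtain ⟨r1, r2, r3⟩ := hr
  have hc := num_inC (T := T) hC hTm hP hQt ⟨s, hs, z, hz, hw, r1, r2⟩
  refine ⟨hc.1, hc.2, ?_⟩
  obtain ⟨h1, h2, h3, h4, h5⟩ := mem_shk hz
  have hd := kd_pos k; have he := ke_pos k
  have hC' : 64 ≤ cG' C Tm := by unfold cG'; linarith
  have hl : 0 < lamc P Qt := by unfold lamc; positivity
  rw [← lamc_eq]
  have e1 : lamc P Qt * kd k ^ 2 ≤ lamc P Qt * T.dl s z ^ 2 := by
    have := h2.1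
    gcongr
  have e2 : 64 * ke k ≤ cG' C Tm * ke k := by gcongr
  linarith

/-- (a), (b) only: `Good` with `mu = 0`. -/
theorem num_good0 (hL : Num.Large (cG' C Tm) c0 P) (hc0 : 0 < c0) (hC : 0 ≤ C) (hTm : 0 ≤ Tm)
    (hT : T.Geo Tm P Qt) (hQt : 0 < Qt) {reg : ℝ → Z → Prop} {k : KI} (hk : T.Act reg k) :
    Num.Good (cG' C Tm) c0 P Qt k 0 (mus C k) := by
  have hg := num_geo hC hTm hT hQt hk
  have hR := kR_pos k; have hd := kd_pos k; have he := ke_pos k; have hD := kD_pos k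
  have hQ := kQ_pos k
  have hCC : C ≤ cG' C Tm := by unfold cG'; linarith
  have hC0 : 0 < cG' C Tm := by unfold cG'; linarith
  have hw := Num.win_pos hL hc0 hQt
  have hwQ := Num.win_pos hL hc0 hQ
  have hm : 0 < min (ke k) (kD k) := lt_min he hD
  have hmx : 0 < max (kd k) (kD k) := lt_max_of_lt_left hd
  refine ⟨hg, le_rfl, mus_nonneg hC k, ?_, ?_, ?_, ?_, ?_, ?_⟩
  · show (0:ℝ) ≤ cG' C Tm * (Num.win c0 P Qt * (kR k ^ 3 * kd k * kQ k ^ 3 * min (ke k) (kD k)))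
    positivity
  · show mus C k ≤ cG' C Tm * (kR k ^ 3 * kd k * kQ k ^ 3 * min (ke k) (kD k))
    unfold mus
    gcongr
    exact min_le_left _ _
  · show (0:ℝ) ≤ cG' C Tm * (Num.win c0 P Qt * (1 / (kQ k * ke k)))
    positivity
  · show mus C k ≤ cG' C Tm * (1 / (kQ k * ke k))
    unfold mus
    gcongr
    exact min_le_right _ _
  · show (0:ℝ) ≤ cG' C Tm * ((Num.win c0 P Qt + kR k) / (kQ k * kd k))
    positivity
  · intro _ _ _
    show (0:ℝ) ≤ cG' C Tm * (kR k / (kQ k * √(kD k * max (kd k) (kD k))) *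
      (1 + (Num.win c0 P Qt + kR k) / Num.win c0 P (kQ k)) / √(kD k))
    positivity

/-- an active shell is admissible -/
theorem num_good (hL : Num.Large (cG' C Tm) c0 P) (hc0 : 0 < c0) (hC : 0 ≤ C) (hTm : 0 ≤ Tm)
    (hab : T.a ≤ T.b) (hl : T.b - T.a ≤ lw c0 P Qt)
    (hT : T.Core C Tm P Qt) (hTD : T.CoreD C P c0 Qt) (hQt : 0 < Qt)
    {reg : ℝ → Z → Prop} {k : KI} (hk : T.Act reg k) :
    Num.Good (cG' C Tm) c0 P Qt k (T.mu k) (mus C k) := by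
  have hg := num_geo hC hTm hT.toGeo hQt hk
  have h0 := num_good0 hL hc0 hC hTm hT.toGeo hQt hk
  have hR := kR_pos k; have hd := kd_pos k; have he := ke_pos k; have hD := kD_pos k
  have hQ := kQ_pos k
  have hCC : C ≤ cG' C Tm := by unfold cG'; linarith
  have hC0 : 0 < cG' C Tm := by unfold cG'; linarith
  have hw := Num.win_pos hL hc0 hQt
  have hwQ := Num.win_pos hL hc0 hQ
  have hm : 0 < min (ke k) (kD k) := lt_min he hD
  have hmx : 0 < max (kd k) (kD k) := lt_max_of_lt_left hd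
  rw [lw_eq] at hl
  have hba : 0 ≤ T.b - T.a := by linarith
  have hms := mus_nonneg hC k
  have hmul : T.mu k ≤ (T.b - T.a) * mus C k :=
    mu_le_mul hT hab k hms (fun s hs => kap_le hC hT.toCoreAB k hs)
  have hmul2 : T.mu k ≤ Num.win c0 P Qt * mus C k := hmul.trans (by gcongr)
  refine ⟨hg, T.mu_nonneg k, h0.occ.mus0, ?_, h0.occ.a', ?_, h0.occ.b', ?_, ?_⟩
  · calc T.mu k ≤ Num.win c0 P Qt * mus C k := hmul2
      _ ≤ Num.win c0 P Qt * (cG' C Tm *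
          (kR k ^ 3 * kd k * kQ k ^ 3 * min (ke k) (kD k))) := by
          have := h0.occ.a'
          gcongr
          exact this
      _ = _ := by simp only [kR, kd, ke, kD, kQ, Num.sR, Num.sd, Num.se, Num.sD, Num.sQ]; ring
  · calc T.mu k ≤ Num.win c0 P Qt * mus C k := hmul2
      _ ≤ Num.win c0 P Qt * (cG' C Tm * (1 / (kQ k * ke k))) := by
          have := h0.occ.b'
          gcongr
          exact this
      _ = _ := by simp only [kR, kd, ke, kD, kQ, Num.sR, Num.sd, Num.se, Num.sD, Num.sQ]; ring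
  · have h := hT.cc _ _ _ _ _ hR hd he hD hQ
    have hn : T.nu (T.sh (kR k) (kd k) (ke k) (kD k) (kQ k)) = ENNReal.ofReal (T.mu k) :=
      nu_eq hT k
    rw [hn] at h
    have h1 : T.mu k ≤ C * ((T.b - T.a + kR k) / (kQ k * kd k)) :=
      (ENNReal.ofReal_le_ofReal_iff (by positivity)).1 h
    calc T.mu k ≤ C * ((T.b - T.a + kR k) / (kQ k * kd k)) := h1
      _ ≤ cG' C Tm * ((Num.win c0 P Qt + kR k) / (kQ k * kd k)) := by gcongr
  · intro q1 q2 q3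
    have hQP : kQ k ≤ P := hg.Q_le
    have q4 : P ^ (2 / 5 : ℝ) ≤ √(kD k) * min (kQ k) Qt := by
      rcases min_choice (kQ k) Qt with h | h <;> rw [h]
      · exact q2
      · exact q3
    have h := hTD _ _ _ _ _ hR hd he hD hQ q1 hQP q4
    have hn : T.nu (T.sh (kR k) (kd k) (ke k) (kD k) (kQ k)) = ENNReal.ofReal (T.mu k) :=
      nu_eq hT k
    rw [hn, lw_eq] at h
    have h1 : T.mu k ≤ C * (kR k / (kQ k * √(kD k * max (kd k) (kD k))) *
        (1 + (T.b - T.a + kR k) / Num.win c0 P (kQ k)) / √(kD k)) :=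
      (ENNReal.ofReal_le_ofReal_iff (by positivity)).1 h
    calc T.mu k ≤ _ := h1
      _ ≤ cG' C Tm * (kR k / (kQ k * √(kD k * max (kd k) (kD k))) *
        (1 + (Num.win c0 P Qt + kR k) / Num.win c0 P (kQ k)) / √(kD k)) := by gcongr

theorem num_fam (hL : Num.Large (cG' C Tm) c0 P) (hc0 : 0 < c0) (hc1 : c0 ≤ 1) (hC : 0 ≤ C)
    (hTm : 0 ≤ Tm) (hab : T.a ≤ T.b) (hl : T.b - T.a ≤ lw c0 P Qt)
    (hT : T.Core C Tm P Qt) (hTD : T.CoreD C P c0 Qt)
    (hQt1 : P ^ (11 / 20 : ℝ) ≤ Qt) (hQt2 : Qt ≤ P)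
    {reg : ℝ → Z → Prop} {K : Finset KI} (hk : ∀ k ∈ K, T.Act reg k) :
    Num.Fam (cG' C Tm) c0 P Qt K T.mu (mus C) := by
  have hP : 0 < P := by linarith [hL.P1]
  have hQt : 0 < Qt := lt_of_lt_of_le (Real.rpow_pos_of_pos hP _) hQt1
  exact ⟨hL, by unfold cG'; linarith, hc0, hc1, hQt1, hQt2,
    fun k hk' => num_good hL hc0 hC hTm hab hl hT hTD hQt (hk k hk')⟩

theorem num_fam0 (hL : Num.Large (cG' C Tm) c0 P) (hc0 : 0 < c0) (hc1 : c0 ≤ 1) (hC : 0 ≤ C)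
    (hTm : 0 ≤ Tm) (hT : T.Geo Tm P Qt)
    (hQt1 : P ^ (11 / 20 : ℝ) ≤ Qt) (hQt2 : Qt ≤ P)
    {reg : ℝ → Z → Prop} {K : Finset KI} (hk : ∀ k ∈ K, T.Act reg k) :
    Num.Fam (cG' C Tm) c0 P Qt K (fun _ => 0) (mus C) := by
  have hP : 0 < P := by linarith [hL.P1]
  have hQt : 0 < Qt := lt_of_lt_of_le (Real.rpow_pos_of_pos hP _) hQt1
  exact ⟨hL, by unfold cG'; linarith, hc0, hc1, hQt1, hQt2,
    fun k hk' => num_good0 hL hc0 hC hTm hT hQt (hk k hk')⟩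

end TD

/-- (F2) the boundary term is small. -/
theorem fin_b (C Cb Tm : ℝ) (hC : 0 ≤ C) (hCb : 0 ≤ Cb) (hTm : 0 ≤ Tm) : ∃ P0 : ℝ, ∀ P ≥ P0,
    ∀ Qt : ℝ, P ^ (11 / 20 : ℝ) ≤ Qt → Qt ≤ P → ∀ {Z : Type} [MeasurableSpace Z] (T : TD Z),
    T.CoreAB C Tm P Qt → ∀ s ∈ Icc T.a T.b, T.bd Cb P Qt s ≤ ENNReal.ofReal (P ^ (3 / 8 : ℝ)) := by
  obtain ⟨P1, hP1⟩ := Num.eventually_large (cG' C Tm) 1
  have ht : Filter.Tendsto (fun P : ℝ => P ^ (3 / 8 - 0.372 : ℝ)) Filter.atTop Filter.atTop :=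
    tendsto_rpow_atTop (by norm_num)
  obtain ⟨P2, hP2⟩ := Filter.eventually_atTop.1 (ht.eventually_ge_atTop (Cb * 2))
  refine ⟨max P1 P2, fun P hP Qt hQt1 hQt2 Z _ T hT s hs => ?_⟩
  have hL := hP1 P ((le_max_left _ _).trans hP)
  have hP0 : 0 < P := by linarith [hL.P1]
  have hQt : 0 < Qt := lt_of_lt_of_le (Real.rpow_pos_of_pos hP0 _) hQt1
  have h1 : ∫⁻ z, T.w s z * TD.ind (T.inC P Qt) T.fb s z ∂T.m ≤
      ENNReal.ofReal (2 * P ^ (0.372 : ℝ)) := by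
    refine TD.line_s hT.toGeo hQt (TD.ms_inC hT.toGeo) (TD.m_fb hT.toGeo) hs
      (x := fun k => 2 * Num.cb (kR k) (kd k) (ke k) (TD.mus C k)) (fun k => ?_)
      (fun k => TD.Is_fb hC hT k hs) (fun K hK => ?_)
    · have := kR_pos k; have := kd_pos k; have := ke_pos k
      have := TD.mus_nonneg hC k
      unfold Num.cb
      positivity
    · have hF := TD.num_fam0 hL one_pos le_rfl hC hTm hT.toGeo hQt1 hQt2 hK
      have := hF.sum_b_C (fun k hk => TD.num_inC hC hTm hP0 hQt (hK k hk))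
      rw [← Finset.mul_sum]
      exact mul_le_mul_of_nonneg_left this (by norm_num)
  have h2 : T.bd Cb P Qt s = ENNReal.ofReal Cb *
      ∫⁻ z, T.w s z * TD.ind (T.inC P Qt) T.fb s z ∂T.m := by
    unfold TD.bd TD.ind TD.fb
    rfl
  rw [h2]
  calc ENNReal.ofReal Cb * ∫⁻ z, T.w s z * TD.ind (T.inC P Qt) T.fb s z ∂T.m
      ≤ ENNReal.ofReal Cb * ENNReal.ofReal (2 * P ^ (0.372 : ℝ)) := by gcongr
    _ = ENNReal.ofReal (Cb * (2 * P ^ (0.372 : ℝ))) := (ENNReal.ofReal_mul hCb).symm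
    _ ≤ ENNReal.ofReal (P ^ (3 / 8 : ℝ)) := by
        apply ENNReal.ofReal_le_ofReal
        have h3 := hP2 P ((le_max_right _ _).trans hP)
        calc Cb * (2 * P ^ (0.372 : ℝ)) = (Cb * 2) * P ^ (0.372 : ℝ) := by ring
          _ ≤ P ^ (3 / 8 - 0.372 : ℝ) * P ^ (0.372 : ℝ) := by gcongr
          _ = P ^ (3 / 8 : ℝ) := by
              rw [← Real.rpow_add hP0]
              congr 1; norm_num

end Crest.Agent.R106.Abs
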