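import Crest.Agent.R106.AbsLine

/-!
# Row 106, node ABS (helper72): `∫_J h` from the nine finite-sum inequalities.
-/

set_option autoImplicit false

open MeasureTheory Set
open scoped ENNReal

namespace Crest.Agent.R106.Abs

open Crest.Agent.R106.Num (cT cA cB cG cCut cb cM cP cH sq2)

variable {Z : Type} [MeasurableSpace Z]

/-- what the numbers level delivers for one test. -/
structure Nine (T : TD Z) (C l P Qt bE bC bX bM bHL : ℝ) : Prop where
  TE : ∀ K : Finset KI, (∀ k ∈ K, T.Act (T.inE P Qt) k) →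
    ∑ k ∈ K, cT (kR k) (kd k) (ke k) (kQ k) (T.mu k) ≤ bE
  AE : ∀ K : Finset KI, (∀ k ∈ K, T.Act (T.inE P Qt) k) →
    ∑ k ∈ K, cA l (kR k) (kd k) (ke k) (kD k) (kQ k) (T.mu k) ≤ bE
  BE : ∀ K : Finset KI, (∀ k ∈ K, T.Act (T.inE P Qt) k) →
    ∑ k ∈ K, cB l (kR k) (kd k) (ke k) (kD k) (kQ k) (T.mu k) ≤ bE
  GC : ∀ K : Finset KI, (∀ k ∈ K, T.Act (T.inC P Qt) k) →
    ∑ k ∈ K, cG Qt (kR k) (kd k) (ke k) (T.mu k) ≤ bE
  CB : ∀ K : Finset KI, (∀ k ∈ K, T.Act (T.inB P Qt) k) →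
    ∑ k ∈ K, cCut (kR k) (kd k) (ke k) (kD k) (T.mu k) ≤ bC
  TX : ∀ K : Finset KI, (∀ k ∈ K, T.Act (fun _ _ => True) k) →
    ∑ k ∈ K, cT (kR k) (kd k) (ke k) (kQ k) (T.mu k) ≤ bX
  BX : ∀ K : Finset KI, (∀ k ∈ K, T.Act (T.inC P Qt) k) →
    ∑ k ∈ K, cB l (kR k) (kd k) (ke k) (kD k) (kQ k) (T.mu k) ≤ bX
  MC : ∀ K : Finset KI, (∀ k ∈ K, T.Act (T.inC P Qt) k) →
    ∑ k ∈ K, cM (kR k) (kd k) (ke k) (TD.mus C k) ≤ bM
  HL : ∀ K : Finset KI, (∀ k ∈ K, T.Act (T.inC P Qt) k) →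
    (∑ k ∈ K, cH (kR k) (kd k) (ke k) (kD k) (kQ k) (T.mu k)) *
    (∑ k ∈ K, √(cM (kR k) (kd k) (ke k) (TD.mus C k) *
      min (cP (kR k) (kd k) (ke k) (T.mu k)) (l * cM (kR k) (kd k) (ke k) (TD.mus C k)))) ≤ bHL

namespace TD

variable {T : TD Z} {C Tm P Qt l bE bC bX bM bHL Ch : ℝ}

theorem inE_or_inC (hT : T.Geo Tm P Qt) (hP : 0 < P) (hQt : 0 < Qt) {s : ℝ}
    (hs : s ∈ Icc T.a T.b) {z : Z} (hw : T.w s z ≠ 0) : T.inE P Qt s z ∨ T.inC P Qt s z := by
  obtain ⟨h1, h2, h3, h4, h5⟩ := pos_of_geo hT hQt hs hw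
  have hlam : 0 ≤ lamc P Qt * T.dl s z ^ 2 := by unfold lamc; positivity
  have hP55 : 0 ≤ P ^ (11 / 20 : ℝ) := by positivity
  unfold inE inC
  by_cases hg : T.ga s z ≤ 16 * P ^ (11 / 20 : ℝ)
  · exact Or.inl (Or.inl hg)
  · push Not at hg
    by_cases he : T.ep s z ≤ 2 * (lamc P Qt * T.dl s z ^ 2)
    · exact Or.inr ⟨by linarith, he⟩
    · push Not at he
      exact Or.inl (Or.inr (by linarith))

theorem act_or (hT : T.Geo Tm P Qt) (hP : 0 < P) (hQt : 0 < Qt) {k : KI}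
    (h : T.Act (fun _ _ => True) k) : T.Act (T.inE P Qt) k ∨ T.Act (T.inC P Qt) k := by
  obtain ⟨s, hs, z, hz, hw, -⟩ := h
  rcases inE_or_inC hT hP hQt hs hw with h | h
  · exact Or.inl ⟨s, hs, z, hz, hw, h⟩
  · exact Or.inr ⟨s, hs, z, hz, hw, h⟩

theorem Is_zero_of_not_act (hT : T.Geo Tm P Qt) {k : KI} (h : ¬ T.Act (fun _ _ => True) k)
    (g : ℝ → Z → ℝ≥0∞) {s : ℝ} (hs : s ∈ Icc T.a T.b) : T.Is g k s = 0 := by
  have h0 : ∀ z ∈ T.shk k s, T.w s z = 0 := by
    intro z hz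
    by_contra hw
    exact h ⟨s, hs, z, hz, hw, trivial⟩
  unfold Is
  rw [setLIntegral_congr_fun (g := fun _ => 0) (measurableSet_shk_s hT k s)
    (fun z hz => by simp [h0 z hz])]
  simp

theorem I_zero_of_not_act (hT : T.Geo Tm P Qt) {k : KI} (h : ¬ T.Act (fun _ _ => True) k)
    (g : ℝ → Z → ℝ≥0∞) : T.I g k = 0 := by
  unfold I
  rw [setLIntegral_congr_fun (g := fun _ => 0) measurableSet_Icc
    (fun s hs => Is_zero_of_not_act hT h g hs)]
  simp

theorem gR_eq (hT : T.Geo Tm P Qt) (hQt : 0 < Qt) {s : ℝ}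
    (hs : s ∈ Icc T.a T.b) {z : Z} (hw : T.w s z ≠ 0) :
    ENNReal.ofReal (T.gR s z) = T.fT s z + T.fSK s z + T.fSB s z := by
  obtain ⟨h1, h2, h3, h4, h5⟩ := pos_of_geo hT hQt hs hw
  have h6 := hT.Kg0 s hs z hw
  have h7 := hT.Bs0 s hs z hw
  unfold gR fT fSK fSB
  have e1 : 0 ≤ kT (T.dl s z) (T.ep s z) (T.ga s z) (T.R s z) := by unfold kT; positivity
  have e2 : 0 ≤ kS (T.dl s z) (T.ep s z) (T.ga s z) (T.R s z) := by unfold kS; positivity
  rw [← ENNReal.ofReal_mul e2, ← ENNReal.ofReal_mul (by positivity),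
    ← ENNReal.ofReal_add e1 (by positivity), ← ENNReal.ofReal_add (by positivity) (by positivity)]
  congr 1
  ring

/-- total integral of `g` over the cone of `s`. -/
noncomputable def tot (T : TD Z) (g : ℝ → Z → ℝ≥0∞) (s : ℝ) : ℝ≥0∞ :=
  ∫⁻ z, T.w s z * g s z ∂T.m

theorem measurable_tot (hT : T.Geo Tm P Qt) {g : ℝ → Z → ℝ≥0∞}
    (hg : Measurable (Function.uncurry g)) : Measurable (T.tot g) := measurable_Itot hT hg

theorem m_slice {g : ℝ → Z → ℝ≥0∞} (hT : T.Geo Tm P Qt) (hg : Measurable (Function.uncurry g))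
    (s : ℝ) : Measurable fun z => T.w s z * g s z :=
  (hT.mw.comp (measurable_const.prodMk measurable_id)).mul
    (hg.comp (measurable_const.prodMk measurable_id))

theorem tot_add {g g' : ℝ → Z → ℝ≥0∞} (hT : T.Geo Tm P Qt)
    (hg : Measurable (Function.uncurry g)) (s : ℝ) :
    ∫⁻ z, T.w s z * (g s z + g' s z) ∂T.m = T.tot g s + T.tot g' s := by
  unfold tot
  rw [← lintegral_add_left (m_slice hT hg s)]
  congr 1
  funext z
  ring

/-- pointwise (in `s`) bound of `h`. -/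
theorem h_point (hT : T.Geo Tm P Qt) (hQt : 0 < Qt) {s : ℝ} (hs : s ∈ Icc T.a T.b) :
    T.h Ch P Qt s ≤ ENNReal.ofReal Ch *
      ((1 + T.tot (ind (T.inE P Qt) T.fT) s + T.tot (ind (T.inE P Qt) T.fSK) s +
        T.tot (ind (T.inE P Qt) T.fSB) s + T.tot (ind (T.inC P Qt) (T.fG Qt)) s +
        T.tot (ind (T.inB P Qt) T.fcut) s) +
        T.Ft s * T.tot (ind (T.inC P Qt) (T.fC Qt)) s) := by
  classical
  unfold h
  refine mul_le_mul_right ?_ _
  have m1 := m_ind (ms_inE hT) (m_fT hT)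
  have m2 := m_ind (ms_inE hT) (m_fSK hT)
  have m3 := m_ind (ms_inE hT) (m_fSB hT)
  have m4 := m_ind (ms_inC hT) (m_fG hT)
  have m5 := m_ind (ms_inB hT) (m_fcut hT)
  have m6 := m_ind (ms_inC hT) (m_fC hT)
  have key : ∀ z, T.w s z *
      ((if T.inE P Qt s z then ENNReal.ofReal (T.gR s z) else 0) +
       (if T.inC P Qt s z then
          ENNReal.ofReal (kGam Qt (T.dl s z) (T.ep s z) (T.R s z)) +
          ENNReal.ofReal (kC Qt (T.dl s z) (T.ep s z) (T.R s z)) * T.Ft s else 0) +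
       (if T.inB P Qt s z then
          ENNReal.ofReal (kcut (T.dl s z) (T.ep s z) (T.D s z) (T.R s z)) else 0)) =
      ((((T.w s z * ind (T.inE P Qt) T.fT s z + T.w s z * ind (T.inE P Qt) T.fSK s z) +
        T.w s z * ind (T.inE P Qt) T.fSB s z) + T.w s z * ind (T.inC P Qt) (T.fG Qt) s z) +
        T.w s z * ind (T.inB P Qt) T.fcut s z) +
        T.Ft s * (T.w s z * ind (T.inC P Qt) (T.fC Qt) s z) := by
    intro z
    by_cases hw : T.w s z = 0
    · simp [hw]
    · have e1 : (if T.inE P Qt s z then ENNReal.ofReal (T.gR s z) else 0) =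
          ind (T.inE P Qt) T.fT s z + ind (T.inE P Qt) T.fSK s z + ind (T.inE P Qt) T.fSB s z := by
        unfold ind
        split_ifs
        · exact gR_eq hT hQt hs hw
        · simp
      have e2 : (if T.inC P Qt s z then
          ENNReal.ofReal (kGam Qt (T.dl s z) (T.ep s z) (T.R s z)) +
          ENNReal.ofReal (kC Qt (T.dl s z) (T.ep s z) (T.R s z)) * T.Ft s else 0) =
          ind (T.inC P Qt) (T.fG Qt) s z + T.Ft s * ind (T.inC P Qt) (T.fC Qt) s z := by
        unfold ind fG fC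
        split_ifs
        · ring
        · simp
      have e3 : (if T.inB P Qt s z then
          ENNReal.ofReal (kcut (T.dl s z) (T.ep s z) (T.D s z) (T.R s z)) else 0) =
          ind (T.inB P Qt) T.fcut s z := rfl
      rw [e1, e2, e3]
      ring
  rw [lintegral_congr key]
  rw [lintegral_add_left, lintegral_add_left, lintegral_add_left, lintegral_add_left,
    lintegral_add_left (m_slice hT m1 s)]
  · rw [lintegral_const_mul _ (m_slice hT m6 s)]
    unfold tot
    refine le_of_eq ?_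
    ring
  · exact (m_slice hT m1 s).add (m_slice hT m2 s)
  · exact ((m_slice hT m1 s).add (m_slice hT m2 s)).add (m_slice hT m3 s)
  · exact (((m_slice hT m1 s).add (m_slice hT m2 s)).add (m_slice hT m3 s)).add (m_slice hT m4 s)
  · exact ((((m_slice hT m1 s).add (m_slice hT m2 s)).add (m_slice hT m3 s)).add
      (m_slice hT m4 s)).add (m_slice hT m5 s)

open Classical in
/-- the part of the force bound that is integrated against `sup Φ`. -/
noncomputable def XX (T : TD Z) (P Qt : ℝ) (s : ℝ) : ℝ≥0∞ :=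
  T.tot T.fT s + (∑' k, (if T.Act (T.inC P Qt) k then 0 else T.Is T.fSK k s)) + T.tot T.fSB s

open Classical in
/-- the `L²` part of the force bound. -/
noncomputable def HH (T : TD Z) (P Qt : ℝ) (s : ℝ) : ℝ≥0∞ :=
  ∑' k, (if T.Act (T.inC P Qt) k then T.Is T.fSK k s else 0)

theorem measurable_XX (hT : T.Geo Tm P Qt) : Measurable (T.XX P Qt) := by
  classical
  refine ((measurable_tot hT (m_fT hT)).add (Measurable.tsum fun k => ?_)).add
    (measurable_tot hT (m_fSB hT))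
  by_cases h : T.Act (T.inC P Qt) k
  · simp only [if_pos h]; exact measurable_const
  · simp only [if_neg h]; exact measurable_Is hT (m_fSK hT) k

theorem measurable_HH (hT : T.Geo Tm P Qt) : Measurable (T.HH P Qt) := by
  classical
  refine Measurable.tsum fun k => ?_
  by_cases h : T.Act (T.inC P Qt) k
  · simp only [if_pos h]; exact measurable_Is hT (m_fSK hT) k
  · simp only [if_neg h]; exact measurable_const

/-- `|F_t| ≤ C (1 + X + H)`. -/
theorem Ft_le (hT : T.Core C Tm P Qt) (hQt : 0 < Qt) {s : ℝ} (hs : s ∈ Icc T.a T.b) :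
    T.Ft s ≤ ENNReal.ofReal C * (1 + T.XX P Qt s + T.HH P Qt s) := by
  classical
  refine (hT.cR s hs).trans ?_
  refine mul_le_mul_right ?_ _
  have hG := hT.toGeo
  have e0 : ∫⁻ z, T.w s z * ENNReal.ofReal (T.gR s z) ∂T.m =
      T.tot T.fT s + T.tot T.fSK s + T.tot T.fSB s := by
    have : ∀ z, T.w s z * ENNReal.ofReal (T.gR s z) =
        (T.w s z * T.fT s z + T.w s z * T.fSK s z) + T.w s z * T.fSB s z := by
      intro z
      by_cases hw : T.w s z = 0
      · simp [hw]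
      · rw [gR_eq hG hQt hs hw]; ring
    rw [lintegral_congr this, lintegral_add_left, lintegral_add_left (m_slice hG (m_fT hG) s)]
    · rfl
    · exact (m_slice hG (m_fT hG) s).add (m_slice hG (m_fSK hG) s)
  have e1 : T.tot T.fSK s = (∑' k, (if T.Act (T.inC P Qt) k then 0 else T.Is T.fSK k s)) +
      T.HH P Qt s := by
    unfold tot HH
    rw [lintegral_eq_tsum_s hG hQt (m_fSK hG) hs, ← ENNReal.tsum_add]
    congr 1
    funext k
    split_ifs <;> simp
  rw [e0, e1]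
  unfold XX
  refine le_of_eq ?_
  ring

end TD

end Crest.Agent.R106.Abs
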