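import Crest.Agent.R106.AbsH

/-!
# Row 106, node ABS (helper72): `∫_J h` from the nine finite-sum inequalities, II.
-/

set_option autoImplicit false

open MeasureTheory Set
open scoped ENNReal

namespace Crest.Agent.R106.Abs

open Crest.Agent.R106.Num (cT cA cB cG cCut cb cM cP cH sq2)

variable {Z : Type} [MeasurableSpace Z]

namespace TD

variable {T : TD Z} {C Tm P Qt l bE bC bX bM bHL Ch : ℝ}

/-- `sup Φ`. -/
theorem Phi_le (hC : 0 ≤ C) (hT : T.Core C Tm P Qt) (hQt : 0 < Qt)
    (hN : Nine T C l P Qt bE bC bX bM bHL) {s : ℝ} (hs : s ∈ Icc T.a T.b) :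
    T.tot (ind (T.inC P Qt) (T.fC Qt)) s ≤ ENNReal.ofReal (2 / Qt * bM) := by
  refine line_s hT.toGeo hQt (ms_inC hT.toGeo) (m_fC hT.toGeo) hs
    (x := fun k => 2 / Qt * cM (kR k) (kd k) (ke k) (mus C k)) (fun k => ?_)
    (fun k => Is_fC hC hT.toCoreAB hQt k hs) (fun K hK => ?_)
  · have hR := kR_pos k; have hd := kd_pos k; have he := ke_pos k
    have := mus_nonneg hC k
    unfold cM
    positivity
  · rw [← Finset.mul_sum]
    exact mul_le_mul_of_nonneg_left (hN.MC K hK) (by positivity)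

theorem cT_nonneg (T : TD Z) (k : KI) : 0 ≤ cT (kR k) (kd k) (ke k) (kQ k) (T.mu k) := by
  have hR := kR_pos k; have hd := kd_pos k; have he := ke_pos k; have hQ := kQ_pos k
  have := T.mu_nonneg k
  unfold cT
  positivity

theorem cG_nonneg (T : TD Z) (hQt : 0 < Qt) (k : KI) :
    0 ≤ cG Qt (kR k) (kd k) (ke k) (T.mu k) := by
  have hR := kR_pos k; have hd := kd_pos k; have he := ke_pos k; have hQ := kQ_pos k
  have := T.mu_nonneg k
  unfold cG
  positivity

theorem cCut_nonneg (T : TD Z) (k : KI) :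
    0 ≤ cCut (kR k) (kd k) (ke k) (kD k) (T.mu k) := by
  have hR := kR_pos k; have hd := kd_pos k; have he := ke_pos k; have hQ := kQ_pos k
  have := T.mu_nonneg k
  unfold cCut
  positivity

theorem cA_nonneg (l : ℝ) (T : TD Z) (k : KI) :
    0 ≤ cA l (kR k) (kd k) (ke k) (kD k) (kQ k) (T.mu k) := by
  unfold cA; positivity

theorem cB_nonneg (l : ℝ) (T : TD Z) (k : KI) :
    0 ≤ cB l (kR k) (kd k) (ke k) (kD k) (kQ k) (T.mu k) := by
  unfold cB; positivity

theorem line_const {hT : T.Geo Tm P Qt} (hQt : 0 < Qt)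
    {reg : ℝ → Z → Prop} (hreg : MeasurableSet {x : ℝ × Z | reg x.1 x.2})
    {g : ℝ → Z → ℝ≥0∞} (hg : Measurable (Function.uncurry g)) {c : ℝ} (hc : 0 ≤ c)
    {x : KI → ℝ} (hx0 : ∀ k, 0 ≤ x k) (hx : ∀ k, T.I g k ≤ ENNReal.ofReal (c * x k)) {B : ℝ}
    (hB : ∀ K : Finset KI, (∀ k ∈ K, T.Act reg k) → ∑ k ∈ K, x k ≤ B) :
    ∫⁻ s in Icc T.a T.b, T.tot (ind reg g) s ≤ ENNReal.ofReal (c * B) := by
  refine line hT hQt hreg hg (x := fun k => c * x k) (fun k => mul_nonneg hc (hx0 k)) hx
    (fun K hK => ?_)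
  rw [← Finset.mul_sum]
  exact mul_le_mul_of_nonneg_left (hB K hK) hc

theorem bE_nonneg (hN : Nine T C l P Qt bE bC bX bM bHL) : 0 ≤ bE := by
  simpa using hN.TE ∅ (by simp)
theorem bX_nonneg (hN : Nine T C l P Qt bE bC bX bM bHL) : 0 ≤ bX := by
  simpa using hN.TX ∅ (by simp)
theorem bC_nonneg (hN : Nine T C l P Qt bE bC bX bM bHL) : 0 ≤ bC := by
  simpa using hN.CB ∅ (by simp)
theorem bM_nonneg (hN : Nine T C l P Qt bE bC bX bM bHL) : 0 ≤ bM := by
  simpa using hN.MC ∅ (by simp)
theorem bHL_nonneg (hN : Nine T C l P Qt bE bC bX bM bHL) : 0 ≤ bHL := by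
  simpa using hN.HL ∅ (by simp)

/-- `∫_J X`. -/
theorem int_XX (hC : 0 ≤ C) (hT : T.Core C Tm P Qt) (hP : 0 < P) (hQt : 0 < Qt)
    (hab : T.a ≤ T.b) (hl : T.b - T.a ≤ l) (hN : Nine T C l P Qt bE bC bX bM bHL) :
    ∫⁻ s in Icc T.a T.b, T.XX P Qt s ≤
      ENNReal.ofReal (2 * bX + 2 * √C * bE + 4 * √C * (bE + bX)) := by
  classical
  have hG := hT.toGeo
  have hE0 := bE_nonneg hN
  have hX0 := bX_nonneg hN
  have m1 := measurable_tot hG (m_fT hG)
  have m2 : Measurable fun s =>
      ∑' k, (if T.Act (T.inC P Qt) k then 0 else T.Is T.fSK k s) := by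
    refine Measurable.tsum fun k => ?_
    by_cases h : T.Act (T.inC P Qt) k
    · simp only [if_pos h]; exact measurable_const
    · simp only [if_neg h]; exact measurable_Is hG (m_fSK hG) k
  have e1 : ∫⁻ s in Icc T.a T.b, T.tot T.fT s ≤ ENNReal.ofReal (2 * bX) := by
    have h := line_const (T := T) (hT := hG) hQt (reg := fun _ _ => True) (by simp)
      (m_fT hG) (by norm_num : (0 : ℝ) ≤ 2) (x := fun k => cT (kR k) (kd k) (ke k) (kQ k) (T.mu k))
      (fun k => T.cT_nonneg k) (fun k => I_fT hT k) hN.TX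
    have e : (ind (fun _ _ => True) T.fT : ℝ → Z → ℝ≥0∞) = T.fT := by
      funext s z; simp [ind]
    rwa [e] at h
  have e2 : ∫⁻ s in Icc T.a T.b, ∑' k, (if T.Act (T.inC P Qt) k then 0 else T.Is T.fSK k s) ≤
      ENNReal.ofReal (2 * √C * bE) := by
    rw [lintegral_tsum (fun k => by
      by_cases h : T.Act (T.inC P Qt) k
      · simp only [if_pos h]; exact aemeasurable_const
      · simp only [if_neg h]; exact (measurable_Is hG (m_fSK hG) k).aemeasurable)]
    refine le_trans (ENNReal.tsum_le_tsum fun k => ?_)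
      (tsum_le_of_finset (A := fun k => T.Act (T.inE P Qt) k)
        (x := fun k => 2 * √C * cA l (kR k) (kd k) (ke k) (kD k) (kQ k) (T.mu k))
        (fun k => mul_nonneg (by positivity) (cA_nonneg l T k)) (fun K hK => ?_))
    · by_cases h : T.Act (T.inC P Qt) k
      · simp only [if_pos h, lintegral_zero]; exact zero_le
      · simp only [if_neg h]
        by_cases hE : T.Act (T.inE P Qt) k
        · rw [if_pos hE]
          exact I_fSK hC hT hab hl k
        · rw [if_neg hE]
          have hn : ¬ T.Act (fun _ _ => True) k := by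
            intro hh
            rcases act_or hG hP hQt hh with h' | h'
            · exact hE h'
            · exact h h'
          exact (I_zero_of_not_act hG hn T.fSK).le
    · rw [← Finset.mul_sum]
      exact mul_le_mul_of_nonneg_left (hN.AE K hK) (by positivity)
  have e3 : ∫⁻ s in Icc T.a T.b, T.tot T.fSB s ≤ ENNReal.ofReal (4 * √C * (bE + bX)) := by
    unfold tot
    rw [lintegral_eq_tsum hG hQt (m_fSB hG)]
    have hx : ∀ k, 0 ≤ 4 * √C * cB l (kR k) (kd k) (ke k) (kD k) (kQ k) (T.mu k) := fun k =>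
      mul_nonneg (by positivity) (cB_nonneg l T k)
    have step : ∀ k, T.I T.fSB k ≤
        (if T.Act (T.inE P Qt) k then
          ENNReal.ofReal (4 * √C * cB l (kR k) (kd k) (ke k) (kD k) (kQ k) (T.mu k)) else 0) +
        (if T.Act (T.inC P Qt) k then
          ENNReal.ofReal (4 * √C * cB l (kR k) (kd k) (ke k) (kD k) (kQ k) (T.mu k)) else 0) := by
      intro k
      by_cases ha : T.Act (fun _ _ => True) k
      · rcases act_or hG hP hQt ha with h' | h'
        · rw [if_pos h']
          exact (I_fSB hC hT hab hl k).trans le_self_add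
        · rw [if_pos h']
          exact (I_fSB hC hT hab hl k).trans le_add_self
      · rw [I_zero_of_not_act hG ha T.fSB]
        exact zero_le
    refine (ENNReal.tsum_le_tsum step).trans ?_
    rw [ENNReal.tsum_add, mul_add, ENNReal.ofReal_add (by positivity) (by positivity)]
    refine add_le_add
      (tsum_le_of_finset (A := fun k => T.Act (T.inE P Qt) k)
        (x := fun k => 4 * √C * cB l (kR k) (kd k) (ke k) (kD k) (kQ k) (T.mu k)) hx
        (fun K hK => ?_))
      (tsum_le_of_finset (A := fun k => T.Act (T.inC P Qt) k)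
        (x := fun k => 4 * √C * cB l (kR k) (kd k) (ke k) (kD k) (kQ k) (T.mu k)) hx
        (fun K hK => ?_))
    · rw [← Finset.mul_sum]
      exact mul_le_mul_of_nonneg_left (hN.BE K hK) (by positivity)
    · rw [← Finset.mul_sum]
      exact mul_le_mul_of_nonneg_left (hN.BX K hK) (by positivity)
  have m12 : Measurable fun s => T.tot T.fT s +
      ∑' k, (if T.Act (T.inC P Qt) k then 0 else T.Is T.fSK k s) := m1.add m2
  unfold XX
  rw [lintegral_add_left m12, lintegral_add_left m1,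
    ENNReal.ofReal_add (by positivity) (by positivity),
    ENNReal.ofReal_add (by positivity) (by positivity)]
  exact add_le_add (add_le_add e1 e2) e3

/-- product of two sums over shells. -/
theorem tsum_mul_tsum_le {ι : Type*} {x y : ι → ℝ} (hx : ∀ k, 0 ≤ x k) (hy : ∀ k, 0 ≤ y k)
    {A : ι → Prop} [DecidablePred A] {B : ℝ}
    (h : ∀ K : Finset ι, (∀ k ∈ K, A k) → (∑ k ∈ K, x k) * (∑ k ∈ K, y k) ≤ B) :
    (∑' k, (if A k then ENNReal.ofReal (x k) else 0)) *
      (∑' k, (if A k then ENNReal.ofReal (y k) else 0)) ≤ ENNReal.ofReal B := by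
  classical
  rw [ENNReal.tsum_eq_iSup_sum, ENNReal.tsum_eq_iSup_sum, ENNReal.iSup_mul]
  refine iSup_le fun K => ?_
  rw [ENNReal.mul_iSup]
  refine iSup_le fun K' => ?_
  rw [← Finset.sum_filter, ← Finset.sum_filter, ← ENNReal.ofReal_sum_of_nonneg fun k _ => hx k,
    ← ENNReal.ofReal_sum_of_nonneg fun k _ => hy k,
    ← ENNReal.ofReal_mul (Finset.sum_nonneg fun k _ => hx k)]
  apply ENNReal.ofReal_le_ofReal
  set U := K.filter A ∪ K'.filter A with hU
  have h1 : ∑ k ∈ K.filter A, x k ≤ ∑ k ∈ U, x k :=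
    Finset.sum_le_sum_of_subset_of_nonneg Finset.subset_union_left fun k _ _ => hx k
  have h2 : ∑ k ∈ K'.filter A, y k ≤ ∑ k ∈ U, y k :=
    Finset.sum_le_sum_of_subset_of_nonneg Finset.subset_union_right fun k _ _ => hy k
  refine (mul_le_mul h1 h2 (Finset.sum_nonneg fun k _ => hy k)
    (Finset.sum_nonneg fun k _ => hx k)).trans (h U fun k hk => ?_)
  rw [hU, Finset.mem_union, Finset.mem_filter, Finset.mem_filter] at hk
  rcases hk with hk | hk
  · exact hk.2
  · exact hk.2

/-- `∫_J H Φ`. -/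
theorem int_HH_Phi (hC : 0 ≤ C) (hT : T.Core C Tm P Qt) (hQt : 0 < Qt)
    (hab : T.a ≤ T.b) (hl : T.b - T.a ≤ l) (hN : Nine T C l P Qt bE bC bX bM bHL) :
    ∫⁻ s in Icc T.a T.b, T.HH P Qt s * T.tot (ind (T.inC P Qt) (T.fC Qt)) s ≤
      ENNReal.ofReal (2 * √C * (2 / Qt) * bHL) := by
  classical
  have hG := hT.toGeo
  have hl0 : 0 ≤ l := by linarith
  set x : KI → ℝ := fun k => 2 * √C * cH (kR k) (kd k) (ke k) (kD k) (kQ k) (T.mu k) with hx
  set y : KI → ℝ := fun k => 2 / Qt * √(cM (kR k) (kd k) (ke k) (mus C k) *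
        min (cP (kR k) (kd k) (ke k) (T.mu k)) (l * cM (kR k) (kd k) (ke k) (mus C k))) with hy
  have hx0 : ∀ k, 0 ≤ x k := fun k => by rw [hx]; simp only; unfold cH; positivity
  have hy0 : ∀ k, 0 ≤ y k := fun k => by rw [hy]; positivity
  -- expand both factors
  have hPhi : ∀ s ∈ Icc T.a T.b, T.tot (ind (T.inC P Qt) (T.fC Qt)) s ≤
      ∑' k', (if T.Act (T.inC P Qt) k' then T.Is (T.fC Qt) k' s else 0) := by
    intro s hs
    unfold tot
    rw [lintegral_eq_tsum_s hG hQt (m_ind (ms_inC hG) (m_fC hG)) hs]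
    refine ENNReal.tsum_le_tsum fun k => ?_
    split_ifs with h
    · exact T.Is_mono (ind_le _ _) k s
    · refine (Is_eq_zero hG fun z hz hw => ?_).le
      unfold ind
      rw [if_neg]
      intro hr
      exact h ⟨s, hs, z, hz, hw, hr⟩
  have m1 : ∀ k, Measurable fun s => (if T.Act (T.inC P Qt) k then T.Is T.fSK k s else 0) := by
    intro k
    by_cases h : T.Act (T.inC P Qt) k
    · simp only [if_pos h]; exact measurable_Is hG (m_fSK hG) k
    · simp only [if_neg h]; exact measurable_const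
  have m2 : ∀ k, Measurable fun s =>
      (if T.Act (T.inC P Qt) k then T.Is (T.fC Qt) k s else 0) := by
    intro k
    by_cases h : T.Act (T.inC P Qt) k
    · simp only [if_pos h]; exact measurable_Is hG (m_fC hG) k
    · simp only [if_neg h]; exact measurable_const
  calc ∫⁻ s in Icc T.a T.b, T.HH P Qt s * T.tot (ind (T.inC P Qt) (T.fC Qt)) s
      ≤ ∫⁻ s in Icc T.a T.b, ∑' k, ∑' k', (if T.Act (T.inC P Qt) k then T.Is T.fSK k s else 0) *
          (if T.Act (T.inC P Qt) k' then T.Is (T.fC Qt) k' s else 0) := by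
        refine setLIntegral_mono' measurableSet_Icc fun s hs => ?_
        refine (mul_le_mul_right (hPhi s hs) _).trans (le_of_eq ?_)
        unfold HH
        rw [← ENNReal.tsum_mul_right]
        congr 1
        funext k
        rw [← ENNReal.tsum_mul_left]
    _ = ∑' k, ∑' k', ∫⁻ s in Icc T.a T.b, (if T.Act (T.inC P Qt) k then T.Is T.fSK k s else 0) *
          (if T.Act (T.inC P Qt) k' then T.Is (T.fC Qt) k' s else 0) := by
        have m3 : ∀ k k', Measurable fun s =>
            (if T.Act (T.inC P Qt) k then T.Is T.fSK k s else 0) *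
            (if T.Act (T.inC P Qt) k' then T.Is (T.fC Qt) k' s else 0) :=
          fun k k' => (m1 k).mul (m2 k')
        have m4 : ∀ k, Measurable fun s => ∑' k',
            (if T.Act (T.inC P Qt) k then T.Is T.fSK k s else 0) *
            (if T.Act (T.inC P Qt) k' then T.Is (T.fC Qt) k' s else 0) :=
          fun k => Measurable.tsum fun k' => m3 k k'
        rw [lintegral_tsum fun k => (m4 k).aemeasurable]
        congr 1
        funext k
        rw [lintegral_tsum fun k' => (m3 k k').aemeasurable]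
    _ ≤ ∑' k, ∑' k', (if T.Act (T.inC P Qt) k then ENNReal.ofReal (x k) else 0) *
          (if T.Act (T.inC P Qt) k' then ENNReal.ofReal (y k') else 0) := by
        refine ENNReal.tsum_le_tsum fun k => ENNReal.tsum_le_tsum fun k' => ?_
        split_ifs with h h'
        · exact I_prod hC hT hQt hab hl k k'
        · simp
        · simp
        · simp
    _ = (∑' k, (if T.Act (T.inC P Qt) k then ENNReal.ofReal (x k) else 0)) *
          (∑' k, (if T.Act (T.inC P Qt) k then ENNReal.ofReal (y k) else 0)) := by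
        rw [← ENNReal.tsum_mul_right]
        congr 1
        funext k
        rw [ENNReal.tsum_mul_left]
    _ ≤ ENNReal.ofReal (2 * √C * (2 / Qt) * bHL) := by
        refine tsum_mul_tsum_le hx0 hy0 (fun K hK => ?_)
        have h := hN.HL K hK
        rw [hx, hy]
        simp only
        rw [← Finset.mul_sum, ← Finset.mul_sum]
        calc _ = 2 * √C * (2 / Qt) * ((∑ k ∈ K, cH (kR k) (kd k) (ke k) (kD k) (kQ k) (T.mu k)) *
              (∑ k ∈ K, √(cM (kR k) (kd k) (ke k) (TD.mus C k) *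
      min (cP (kR k) (kd k) (ke k) (T.mu k)) (l * cM (kR k) (kd k) (ke k) (TD.mus C k))))) := by
              ring
          _ ≤ _ := mul_le_mul_of_nonneg_left h (by positivity)

/-- all costs together. -/
theorem int_h (hC : 0 ≤ C) (hCh : 0 ≤ Ch) (hT : T.Core C Tm P Qt) (hP : 0 < P) (hQt : 0 < Qt)
    (hab : T.a ≤ T.b) (hl : T.b - T.a ≤ l) (hN : Nine T C l P Qt bE bC bX bM bHL) :
    ∫⁻ s in Icc T.a T.b, T.h Ch P Qt s ≤ ENNReal.ofReal (Ch * (l +
      2 * bE + 2 * √C * bE + 4 * √C * bE + 2 * bE + 2 * bC +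
      C * (2 / Qt * bM * (l + (2 * bX + 2 * √C * bE + 4 * √C * (bE + bX))) +
        2 * √C * (2 / Qt) * bHL))) := by
  have hG := hT.toGeo
  have hl0 : 0 ≤ l := by linarith
  have hE0 := bE_nonneg hN
  have hX0 := bX_nonneg hN
  have hC0 := bC_nonneg hN
  have hM0 := bM_nonneg hN
  have hHL0 := bHL_nonneg hN
  have n1 := measurable_tot hG (m_ind (ms_inE hG) (m_fT hG))
  have n2 := measurable_tot hG (m_ind (ms_inE hG) (m_fSK hG))
  have n3 := measurable_tot hG (m_ind (ms_inE hG) (m_fSB hG))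
  have n4 := measurable_tot hG (m_ind (ms_inC hG) (m_fG hG))
  have n5 := measurable_tot hG (m_ind (ms_inB hG) (m_fcut hG))
  have n6 := measurable_tot hG (m_ind (ms_inC hG) (m_fC hG))
  -- the single lines
  have e0 : ∫⁻ _ in Icc T.a T.b, (1 : ℝ≥0∞) ≤ ENNReal.ofReal l := by
    rw [lintegral_const, one_mul, Measure.restrict_apply_univ, Real.volume_Icc]
    exact ENNReal.ofReal_le_ofReal hl
  have e1 := line_const (T := T) (hT := hG) hQt (ms_inE hG) (m_fT hG) (by norm_num : (0 : ℝ) ≤ 2)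
    (x := fun k => cT (kR k) (kd k) (ke k) (kQ k) (T.mu k))
    (fun k => T.cT_nonneg k) (fun k => I_fT hT k) hN.TE
  have e2 := line_const (T := T) (hT := hG) hQt (ms_inE hG) (m_fSK hG)
    (by positivity : (0 : ℝ) ≤ 2 * √C)
    (x := fun k => cA l (kR k) (kd k) (ke k) (kD k) (kQ k) (T.mu k))
    (fun k => cA_nonneg l T k) (fun k => I_fSK hC hT hab hl k) hN.AE
  have e3 := line_const (T := T) (hT := hG) hQt (ms_inE hG) (m_fSB hG)
    (by positivity : (0 : ℝ) ≤ 4 * √C)
    (x := fun k => cB l (kR k) (kd k) (ke k) (kD k) (kQ k) (T.mu k))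
    (fun k => cB_nonneg l T k) (fun k => I_fSB hC hT hab hl k) hN.BE
  have e4 := line_const (T := T) (hT := hG) hQt (ms_inC hG) (m_fG hG) (by norm_num : (0 : ℝ) ≤ 2)
    (x := fun k => cG Qt (kR k) (kd k) (ke k) (T.mu k))
    (fun k => T.cG_nonneg hQt k) (fun k => I_fG hT hQt k) hN.GC
  have e5 := line_const (T := T) (hT := hG) hQt (ms_inB hG) (m_fcut hG) (by norm_num : (0 : ℝ) ≤ 2)
    (x := fun k => cCut (kR k) (kd k) (ke k) (kD k) (T.mu k))
    (fun k => T.cCut_nonneg k) (fun k => I_fcut hT k) hN.CB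
  have e6 := int_XX hC hT hP hQt hab hl hN
  have e7 := int_HH_Phi hC hT hQt hab hl hN
  -- the conjugate term
  have hX := measurable_XX (T := T) (P := P) (Qt := Qt) hG
  have hH := measurable_HH (T := T) (P := P) (Qt := Qt) hG
  have e8 : ∫⁻ s in Icc T.a T.b, T.Ft s * T.tot (ind (T.inC P Qt) (T.fC Qt)) s ≤
      ENNReal.ofReal (C * (2 / Qt * bM * (l + (2 * bX + 2 * √C * bE + 4 * √C * (bE + bX))) +
        2 * √C * (2 / Qt) * bHL)) := by
    calc ∫⁻ s in Icc T.a T.b, T.Ft s * T.tot (ind (T.inC P Qt) (T.fC Qt)) s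
        ≤ ∫⁻ s in Icc T.a T.b, ENNReal.ofReal C *
            (ENNReal.ofReal (2 / Qt * bM) * (1 + T.XX P Qt s) +
              T.HH P Qt s * T.tot (ind (T.inC P Qt) (T.fC Qt)) s) := by
          refine setLIntegral_mono' measurableSet_Icc fun s hs => ?_
          have h1 := Ft_le hT hQt hs
          have h2 := Phi_le hC hT hQt hN hs
          calc T.Ft s * T.tot (ind (T.inC P Qt) (T.fC Qt)) s
              ≤ (ENNReal.ofReal C * (1 + T.XX P Qt s + T.HH P Qt s)) *
                  T.tot (ind (T.inC P Qt) (T.fC Qt)) s := mul_le_mul_left h1 _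
            _ = ENNReal.ofReal C * (T.tot (ind (T.inC P Qt) (T.fC Qt)) s * (1 + T.XX P Qt s) +
                  T.HH P Qt s * T.tot (ind (T.inC P Qt) (T.fC Qt)) s) := by ring
            _ ≤ _ := by gcongr
      _ = ENNReal.ofReal C * (ENNReal.ofReal (2 / Qt * bM) *
            ((∫⁻ _ in Icc T.a T.b, (1 : ℝ≥0∞)) + ∫⁻ s in Icc T.a T.b, T.XX P Qt s) +
            ∫⁻ s in Icc T.a T.b, T.HH P Qt s * T.tot (ind (T.inC P Qt) (T.fC Qt)) s) := by
          have q1 : Measurable fun s => 1 + T.XX P Qt s := measurable_const.add hX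
          have q2 : Measurable fun s => ENNReal.ofReal (2 / Qt * bM) * (1 + T.XX P Qt s) :=
            q1.const_mul _
          rw [lintegral_const_mul' _ _ ENNReal.ofReal_ne_top,
            lintegral_add_left q2,
            lintegral_const_mul _ q1, lintegral_add_left measurable_const]
      _ ≤ ENNReal.ofReal C * (ENNReal.ofReal (2 / Qt * bM) *
            (ENNReal.ofReal l + ENNReal.ofReal (2 * bX + 2 * √C * bE + 4 * √C * (bE + bX))) +
            ENNReal.ofReal (2 * √C * (2 / Qt) * bHL)) := by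
          gcongr
      _ = _ := by
          rw [← ENNReal.ofReal_add hl0 (by positivity), ← ENNReal.ofReal_mul (by positivity),
            ← ENNReal.ofReal_add (by positivity) (by positivity), ← ENNReal.ofReal_mul hC]
  calc ∫⁻ s in Icc T.a T.b, T.h Ch P Qt s
      ≤ ∫⁻ s in Icc T.a T.b, ENNReal.ofReal Ch *
      ((1 + T.tot (ind (T.inE P Qt) T.fT) s + T.tot (ind (T.inE P Qt) T.fSK) s +
        T.tot (ind (T.inE P Qt) T.fSB) s + T.tot (ind (T.inC P Qt) (T.fG Qt)) s +
        T.tot (ind (T.inB P Qt) T.fcut) s) +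
        T.Ft s * T.tot (ind (T.inC P Qt) (T.fC Qt)) s) :=
        setLIntegral_mono' measurableSet_Icc fun s hs => h_point hG hQt hs
    _ = ENNReal.ofReal Ch * (((∫⁻ _ in Icc T.a T.b, (1 : ℝ≥0∞)) +
        (∫⁻ s in Icc T.a T.b, T.tot (ind (T.inE P Qt) T.fT) s) +
        (∫⁻ s in Icc T.a T.b, T.tot (ind (T.inE P Qt) T.fSK) s) +
        (∫⁻ s in Icc T.a T.b, T.tot (ind (T.inE P Qt) T.fSB) s) +
        (∫⁻ s in Icc T.a T.b, T.tot (ind (T.inC P Qt) (T.fG Qt)) s) +
        (∫⁻ s in Icc T.a T.b, T.tot (ind (T.inB P Qt) T.fcut) s)) +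
        ∫⁻ s in Icc T.a T.b, T.Ft s * T.tot (ind (T.inC P Qt) (T.fC Qt)) s) := by
        have q1 : Measurable fun s => 1 + T.tot (ind (T.inE P Qt) T.fT) s :=
          measurable_const.add n1
        have q2 : Measurable fun s => 1 + T.tot (ind (T.inE P Qt) T.fT) s +
            T.tot (ind (T.inE P Qt) T.fSK) s := q1.add n2
        have q3 : Measurable fun s => 1 + T.tot (ind (T.inE P Qt) T.fT) s +
            T.tot (ind (T.inE P Qt) T.fSK) s + T.tot (ind (T.inE P Qt) T.fSB) s := q2.add n3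
        have q4 : Measurable fun s => 1 + T.tot (ind (T.inE P Qt) T.fT) s +
            T.tot (ind (T.inE P Qt) T.fSK) s + T.tot (ind (T.inE P Qt) T.fSB) s +
            T.tot (ind (T.inC P Qt) (T.fG Qt)) s := q3.add n4
        have q5 : Measurable fun s => 1 + T.tot (ind (T.inE P Qt) T.fT) s +
            T.tot (ind (T.inE P Qt) T.fSK) s + T.tot (ind (T.inE P Qt) T.fSB) s +
            T.tot (ind (T.inC P Qt) (T.fG Qt)) s + T.tot (ind (T.inB P Qt) T.fcut) s := q4.add n5
        rw [lintegral_const_mul' _ _ ENNReal.ofReal_ne_top,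
          lintegral_add_left q5, lintegral_add_left q4, lintegral_add_left q3,
          lintegral_add_left q2, lintegral_add_left q1, lintegral_add_left measurable_const]
    _ ≤ ENNReal.ofReal Ch * ((ENNReal.ofReal l + ENNReal.ofReal (2 * bE) +
        ENNReal.ofReal (2 * √C * bE) + ENNReal.ofReal (4 * √C * bE) + ENNReal.ofReal (2 * bE) +
        ENNReal.ofReal (2 * bC)) +
        ENNReal.ofReal (C * (2 / Qt * bM * (l + (2 * bX + 2 * √C * bE + 4 * √C * (bE + bX))) +
        2 * √C * (2 / Qt) * bHL))) := by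
        gcongr
    _ = _ := by
        rw [← ENNReal.ofReal_add hl0 (by positivity), ← ENNReal.ofReal_add (by positivity) (by positivity),
          ← ENNReal.ofReal_add (by positivity) (by positivity),
          ← ENNReal.ofReal_add (by positivity) (by positivity),
          ← ENNReal.ofReal_add (by positivity) (by positivity),
          ← ENNReal.ofReal_add (by positivity) (by positivity), ← ENNReal.ofReal_mul hCh]

/-- the boundary term. -/
theorem bd_of {Cb bb : ℝ} (hC : 0 ≤ C) (hCb : 0 ≤ Cb) (hT : T.CoreAB C Tm P Qt) (hQt : 0 < Qt)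
    (hN : ∀ K : Finset KI, (∀ k ∈ K, T.Act (T.inC P Qt) k) →
      ∑ k ∈ K, cb (kR k) (kd k) (ke k) (mus C k) ≤ bb) {s : ℝ} (hs : s ∈ Icc T.a T.b) :
    T.bd Cb P Qt s ≤ ENNReal.ofReal (Cb * (2 * bb)) := by
  classical
  unfold bd
  rw [ENNReal.ofReal_mul hCb]
  refine mul_le_mul_right ?_ _
  have h := line_s (T := T) hT.toGeo hQt (ms_inC hT.toGeo) (m_fb hT.toGeo) hs
    (x := fun k => 2 * cb (kR k) (kd k) (ke k) (mus C k)) (fun k => by
      have hR := kR_pos k; have hd := kd_pos k; have he := ke_pos k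
      have := mus_nonneg hC k
      unfold cb
      positivity) (fun k => Is_fb hC hT k hs) (B := 2 * bb) (fun K hK => by
      rw [← Finset.mul_sum]
      exact mul_le_mul_of_nonneg_left (hN K hK) (by norm_num))
  exact h

end TD

end Crest.Agent.R106.Abs
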