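import Crest.Agent.R106.AbsSum

/-!
# Row 106, node ABS (helper72): kernels on a shell are bounded by their values at the corner.
-/

set_option autoImplicit false

open MeasureTheory Set
open scoped ENNReal

namespace Crest.Agent.R106.Abs

variable {d d1 e e1 D D1 g Q1 R R1 : ℝ}

theorem sqrt_le_two_mul {x y : ℝ} (h : x ≤ 4 * y) : √x ≤ 2 * √y := by
  calc √x ≤ √(4 * y) := Real.sqrt_le_sqrt h
    _ = 2 * √y := by
      rw [Real.sqrt_mul (by norm_num), show (4 : ℝ) = 2 ^ 2 by norm_num,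
        Real.sqrt_sq (by norm_num)]

theorem kT_corner (hd1 : 0 < d1) (he1 : 0 < e1) (hQ1 : 0 < Q1) (hR1 : 0 < R1)
    (hd : d1 ≤ d ∧ d < 2 * d1) (he : e1 ≤ e ∧ e < 2 * e1) (hg : Q1 ≤ g ∧ g < 2 * Q1)
    (hR : R1 ≤ R ∧ R < 2 * R1) : kT d e g R ≤ 2 * kT d1 e1 Q1 R1 := by
  unfold kT
  have hs : √(d * e) ≤ 2 * √(d1 * e1) := by
    apply sqrt_le_two_mul
    nlinarith [hd.1, hd.2, he.1, he.2, mul_nonneg (sub_nonneg.2 hd.2.le) he1.le,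
      mul_nonneg (sub_nonneg.2 he.2.le) (hd1.le.trans hd.1)]
  rw [← mul_div_assoc]
  have hb : Q1 ^ 2 * e1 ^ 2 * R1 ^ 2 ≤ g ^ 2 * e ^ 2 * R ^ 2 := by
    have h1 : Q1 ^ 2 ≤ g ^ 2 := pow_le_pow_left₀ hQ1.le hg.1 2
    have h2 : e1 ^ 2 ≤ e ^ 2 := pow_le_pow_left₀ he1.le he.1 2
    have h3 : R1 ^ 2 ≤ R ^ 2 := pow_le_pow_left₀ hR1.le hR.1 2
    gcongr
  have hn : 0 ≤ e + √(d * e) := by
    have : 0 ≤ e := he1.le.trans he.1
    positivity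
  apply div_le_div₀ _ _ (by positivity) hb
  · positivity
  · linarith [he.2]

theorem kS_corner (hd1 : 0 < d1) (he1 : 0 < e1) (hQ1 : 0 < Q1) (hR1 : 0 < R1)
    (hd : d1 ≤ d ∧ d < 2 * d1) (he : e1 ≤ e ∧ e < 2 * e1) (hg : Q1 ≤ g ∧ g < 2 * Q1)
    (hR : R1 ≤ R ∧ R < 2 * R1) : kS d e g R ≤ 2 * kS d1 e1 Q1 R1 := by
  unfold kS
  have hs : √d ≤ 2 * √d1 := sqrt_le_two_mul (by linarith [hd.2])
  rw [← mul_div_assoc]
  have hb : Q1 * e1 * R1 ≤ g * e * R :=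
    mul_le_mul (mul_le_mul hg.1 he.1 he1.le (hQ1.le.trans hg.1)) hR.1 hR1.le
      (mul_nonneg (hQ1.le.trans hg.1) (he1.le.trans he.1))
  exact div_le_div₀ (by positivity) hs (by positivity) hb

theorem kSe_corner (hd1 : 0 < d1) (he1 : 0 < e1) (hQ1 : 0 < Q1) (hR1 : 0 < R1)
    (hd : d1 ≤ d ∧ d < 2 * d1) (he : e1 ≤ e ∧ e < 2 * e1) (hg : Q1 ≤ g ∧ g < 2 * Q1)
    (hR : R1 ≤ R ∧ R < 2 * R1) :
    kS d e g R * √e ≤ 4 * (kS d1 e1 Q1 R1 * √e1) := by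
  have h1 := kS_corner hd1 he1 hQ1 hR1 hd he hg hR
  have hs : √e ≤ 2 * √e1 := sqrt_le_two_mul (by linarith [he.2])
  have h0 : 0 ≤ kS d1 e1 Q1 R1 := by unfold kS; positivity
  calc kS d e g R * √e ≤ (2 * kS d1 e1 Q1 R1) * (2 * √e1) := by
        apply mul_le_mul h1 hs (Real.sqrt_nonneg _) (by positivity)
    _ = _ := by ring

theorem kG_corner (hd1 : 0 < d1) (he1 : 0 < e1) (hR1 : 0 < R1)
    (hd : d1 ≤ d ∧ d < 2 * d1) (he : e1 ≤ e ∧ e < 2 * e1)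
    (hR : R1 ≤ R ∧ R < 2 * R1) : kG d e R ≤ 2 * kG d1 e1 R1 := by
  unfold kG
  have hs : √(e / d) ≤ 2 * √(e1 / d1) := by
    apply sqrt_le_two_mul
    have hq : e / d ≤ (4 * e1) / d1 := by
      apply div_le_div₀ (by positivity) (by linarith [he.2]) hd1 hd.1
    calc e / d ≤ (4 * e1) / d1 := hq
      _ = 4 * (e1 / d1) := by ring
  rw [← mul_div_assoc]
  exact div_le_div₀ (by positivity) hs hR1 hR.1

theorem kGam_corner {Qt : ℝ} (hQt : 0 < Qt) (hd1 : 0 < d1) (he1 : 0 < e1) (hR1 : 0 < R1)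
    (hd : d1 ≤ d ∧ d < 2 * d1) (he : e1 ≤ e ∧ e < 2 * e1)
    (hR : R1 ≤ R ∧ R < 2 * R1) : kGam Qt d e R ≤ 2 * kGam Qt d1 e1 R1 := by
  unfold kGam
  have hs : √(d * e) ≤ 2 * √(d1 * e1) := by
    apply sqrt_le_two_mul
    nlinarith [hd.1, hd.2, he.1, he.2, mul_nonneg (sub_nonneg.2 hd.2.le) he1.le,
      mul_nonneg (sub_nonneg.2 he.2.le) (hd1.le.trans hd.1)]
  rw [← mul_div_assoc]
  have hb : Qt ^ 2 * d1 ^ 2 * R1 ^ 2 ≤ Qt ^ 2 * d ^ 2 * R ^ 2 := by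
    have h2 : d1 ^ 2 ≤ d ^ 2 := pow_le_pow_left₀ hd1.le hd.1 2
    have h3 : R1 ^ 2 ≤ R ^ 2 := pow_le_pow_left₀ hR1.le hR.1 2
    gcongr
  apply div_le_div₀ _ _ (by positivity) hb
  · positivity
  · linarith [hd.2]

theorem kC_corner {Qt : ℝ} (hQt : 0 < Qt) (hd1 : 0 < d1) (he1 : 0 < e1) (hR1 : 0 < R1)
    (hd : d1 ≤ d ∧ d < 2 * d1) (he : e1 ≤ e ∧ e < 2 * e1)
    (hR : R1 ≤ R ∧ R < 2 * R1) : kC Qt d e R ≤ 2 * kC Qt d1 e1 R1 := by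
  unfold kC
  have hs : √e ≤ 2 * √e1 := sqrt_le_two_mul (by linarith [he.2])
  rw [← mul_div_assoc]
  have hb : Qt * d1 * R1 ≤ Qt * d * R :=
    mul_le_mul (mul_le_mul_of_nonneg_left hd.1 hQt.le) hR.1 hR1.le
      (mul_nonneg hQt.le (hd1.le.trans hd.1))
  exact div_le_div₀ (by positivity) hs (by positivity) hb

theorem kcut_corner (hd1 : 0 < d1) (he1 : 0 < e1) (hD1 : 0 < D1) (hR1 : 0 < R1)
    (hd : d1 ≤ d ∧ d < 2 * d1) (he : e1 ≤ e ∧ e < 2 * e1) (hD : D1 ≤ D ∧ D < 2 * D1)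
    (hR : R1 ≤ R ∧ R < 2 * R1) : kcut d e D R ≤ 2 * kcut d1 e1 D1 R1 := by
  unfold kcut
  have hm : 0 < min d1 e1 := lt_min hd1 he1
  have hs : √(D / min d e) ≤ 2 * √(D1 / min d1 e1) := by
    apply sqrt_le_two_mul
    have hq : D / min d e ≤ (4 * D1) / min d1 e1 := by
      apply div_le_div₀ (by positivity) (by linarith [hD.2]) hm
      exact min_le_min hd.1 he.1
    calc D / min d e ≤ (4 * D1) / min d1 e1 := hq
      _ = 4 * (D1 / min d1 e1) := by ring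
  rw [← mul_div_assoc]
  have hb : R1 ^ 2 ≤ R ^ 2 := pow_le_pow_left₀ hR1.le hR.1 2
  exact div_le_div₀ (by positivity) hs (by positivity) hb

end Crest.Agent.R106.Abs
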