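import Crest.Agent.R106.AbsKer
import Crest.Agent.R106.CostCS

/-!
# Row 106, node ABS (helper72): occupation numbers and `L²` facts of the shells.
-/

set_option autoImplicit false

open MeasureTheory Set
open scoped ENNReal

namespace Crest.Agent.R106.Abs

/-- Cauchy-Schwarz, natural powers. -/
theorem cs_nat {α : Type*} [MeasurableSpace α] (μ : Measure α) {f g : α → ℝ≥0∞}
    (hf : AEMeasurable f μ) (hg : AEMeasurable g μ) :
    (∫⁻ a, f a * g a ∂μ) ^ 2 ≤ (∫⁻ a, f a ^ 2 ∂μ) * (∫⁻ a, g a ^ 2 ∂μ) := by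
  have h := Cost.cs_sq μ hf hg
  have e : ∀ x : ℝ≥0∞, x ^ (2 : ℝ) = x ^ 2 := fun x => by
    rw [← ENNReal.rpow_natCast]; norm_num
  simpa only [e] using h

theorem le_ofReal_sqrt {x : ℝ≥0∞} {t : ℝ} (ht : 0 ≤ t) (h : x ^ 2 ≤ ENNReal.ofReal t) :
    x ≤ ENNReal.ofReal (√t) := by
  by_contra hc
  push Not at hc
  have h1 : ENNReal.ofReal (√t) ^ 2 < x ^ 2 := by
    exact ENNReal.pow_lt_pow_left (by norm_num) hc
  rw [← ENNReal.ofReal_pow (Real.sqrt_nonneg t), Real.sq_sqrt ht] at h1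
  exact absurd h (not_le.2 h1)

/-! corner values of the shell `k` -/
noncomputable def kR (k : KI) : ℝ := (2 : ℝ) ^ k.1
noncomputable def kd (k : KI) : ℝ := (2 : ℝ) ^ k.2.1
noncomputable def ke (k : KI) : ℝ := (2 : ℝ) ^ k.2.2.1
noncomputable def kD (k : KI) : ℝ := (2 : ℝ) ^ k.2.2.2.1
noncomputable def kQ (k : KI) : ℝ := (2 : ℝ) ^ k.2.2.2.2

theorem kR_pos (k : KI) : 0 < kR k := by unfold kR; positivity
theorem kd_pos (k : KI) : 0 < kd k := by unfold kd; positivity
theorem ke_pos (k : KI) : 0 < ke k := by unfold ke; positivity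
theorem kD_pos (k : KI) : 0 < kD k := by unfold kD; positivity
theorem kQ_pos (k : KI) : 0 < kQ k := by unfold kQ; positivity

variable {Z : Type} [MeasurableSpace Z]

namespace TD

theorem shk_eq (T : TD Z) (k : KI) (s : ℝ) :
    T.shk k s = T.sh (kR k) (kd k) (ke k) (kD k) (kQ k) s := rfl

/-- occupation number of the shell `k`. -/
noncomputable def mu (T : TD Z) (k : KI) : ℝ := (T.nu (T.shk k)).toReal

/-- bound of the cone occupation number of the shell `k`. -/
noncomputable def mus (C : ℝ) (k : KI) : ℝ :=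
  C * min (kR k ^ 3 * kd k * kQ k ^ 3 * min (ke k) (kD k)) (1 / (kQ k * ke k))

theorem mu_nonneg (T : TD Z) (k : KI) : 0 ≤ T.mu k := ENNReal.toReal_nonneg

theorem mus_nonneg {C : ℝ} (hC : 0 ≤ C) (k : KI) : 0 ≤ mus C k := by
  have := kR_pos k; have := kd_pos k; have := ke_pos k; have := kD_pos k; have := kQ_pos k
  unfold mus
  positivity

variable {T : TD Z} {C Tm P Qt : ℝ}

theorem nu_ne_top (hT : T.Core C Tm P Qt) (k : KI) : T.nu (T.shk k) ≠ ∞ :=
  ne_top_of_le_ne_top ENNReal.ofReal_ne_top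
    (hT.cc _ _ _ _ _ (kR_pos k) (kd_pos k) (ke_pos k) (kD_pos k) (kQ_pos k))

theorem nu_eq (hT : T.Core C Tm P Qt) (k : KI) : T.nu (T.shk k) = ENNReal.ofReal (T.mu k) :=
  (ENNReal.ofReal_toReal (nu_ne_top hT k)).symm

theorem kap_le (hC : 0 ≤ C) (hT : T.CoreAB C Tm P Qt) (k : KI) {s : ℝ} (hs : s ∈ Icc T.a T.b) :
    T.kap s (T.shk k s) ≤ ENNReal.ofReal (mus C k) := by
  unfold mus
  rw [mul_min_of_nonneg _ _ hC]
  rcases min_choice (C * (kR k ^ 3 * kd k * kQ k ^ 3 * min (ke k) (kD k)))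
    (C * (1 / (kQ k * ke k))) with h | h
  · rw [h]
    exact hT.ca _ _ _ _ _ (kR_pos k) (kd_pos k) (ke_pos k) (kD_pos k) (kQ_pos k) s hs
  · rw [h]
    exact hT.cb _ _ _ _ _ (kR_pos k) (kd_pos k) (ke_pos k) (kD_pos k) (kQ_pos k) s hs

theorem measurable_kap (hT : T.Geo Tm P Qt) (k : KI) : Measurable fun s => T.kap s (T.shk k s) := by
  have h0 := measurable_Is hT (G := fun _ _ => 1) measurable_const k
  have e : (fun s => T.kap s (T.shk k s)) = T.Is (fun _ _ => 1) k := by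
    funext s
    simp [Is, kap]
  rw [e]
  exact h0

/-- `μ ≤ l · μ_s`. -/
theorem mu_le_mul (hT : T.Core C Tm P Qt) (hab : T.a ≤ T.b) (k : KI)
    {x : ℝ} (hx0 : 0 ≤ x) (hx : ∀ s ∈ Icc T.a T.b, T.kap s (T.shk k s) ≤ ENNReal.ofReal x) :
    T.mu k ≤ (T.b - T.a) * x := by
  have h : T.nu (T.shk k) ≤ ENNReal.ofReal ((T.b - T.a) * x) := by
    calc T.nu (T.shk k) ≤ ∫⁻ s in Icc T.a T.b, ENNReal.ofReal x :=
          setLIntegral_mono' measurableSet_Icc hx
      _ = ENNReal.ofReal ((T.b - T.a) * x) := by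
          rw [lintegral_const, Measure.restrict_apply_univ, Real.volume_Icc,
            mul_comm, ← ENNReal.ofReal_mul (by linarith)]
  rw [nu_eq hT k] at h
  exact (ENNReal.ofReal_le_ofReal_iff (mul_nonneg (by linarith) hx0)).1 h

/-- the integral of `Kg` over one shell of one cone -/
noncomputable def HK (T : TD Z) (k : KI) (s : ℝ) : ℝ≥0∞ :=
  ∫⁻ z in T.shk k s, T.w s z * ENNReal.ofReal (T.Kg s z) ∂T.m

theorem measurable_HK (hT : T.Geo Tm P Qt) (k : KI) : Measurable (T.HK k) := by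
  have hm : Measurable (Function.uncurry fun s z => ENNReal.ofReal (T.Kg s z)) :=
    hT.mKg.ennreal_ofReal
  exact measurable_Is hT hm k

theorem int_HK_sq (hC : 0 ≤ C) (hT : T.Core C Tm P Qt) (k : KI) :
    ∫⁻ s in Icc T.a T.b, T.HK k s ^ 2 ≤
      ENNReal.ofReal (C * (kQ k ^ 3 * min (ke k) (kD k)) * T.mu k) := by
  have hke := ke_pos k; have hkD := kD_pos k; have hkQ := kQ_pos k
  calc ∫⁻ s in Icc T.a T.b, T.HK k s ^ 2
      ≤ ∫⁻ s in Icc T.a T.b, ENNReal.ofReal (C * (kQ k ^ 3 * min (ke k) (kD k))) *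
          T.kap s (T.shk k s) :=
        setLIntegral_mono' measurableSet_Icc fun s hs =>
          hT.cA _ _ _ _ _ (kR_pos k) (kd_pos k) (ke_pos k) (kD_pos k) (kQ_pos k) s hs
    _ = ENNReal.ofReal (C * (kQ k ^ 3 * min (ke k) (kD k))) * T.nu (T.shk k) := by
        rw [lintegral_const_mul _ (measurable_kap hT.toGeo k)]
        rfl
    _ = _ := by
        rw [nu_eq hT k, ← ENNReal.ofReal_mul (by positivity)]

/-- (i) -/
theorem int_HK (hC : 0 ≤ C) (hT : T.Core C Tm P Qt) (hab : T.a ≤ T.b) (k : KI) {l : ℝ}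
    (hl : T.b - T.a ≤ l) :
    ∫⁻ s in Icc T.a T.b, T.HK k s ≤
      ENNReal.ofReal (√(l * (C * (kQ k ^ 3 * min (ke k) (kD k)) * T.mu k))) := by
  have hke := ke_pos k; have hkD := kD_pos k; have hkQ := kQ_pos k
  have hmu := T.mu_nonneg k
  have hl0 : 0 ≤ l := by linarith
  apply le_ofReal_sqrt (by positivity)
  have h := cs_nat (volume.restrict (Icc T.a T.b)) (f := fun _ => 1) (g := T.HK k)
    aemeasurable_const (measurable_HK hT.toGeo k).aemeasurable
  simp only [one_mul, one_pow, lintegral_const, Measure.restrict_apply_univ, Real.volume_Icc] at h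
  refine h.trans ?_
  rw [ENNReal.ofReal_mul hl0]
  gcongr
  exact int_HK_sq hC hT k

theorem int_kap_sq (hC : 0 ≤ C) (hT : T.Core C Tm P Qt) (hab : T.a ≤ T.b) (k : KI) {l : ℝ}
    (hl : T.b - T.a ≤ l) :
    ∫⁻ s in Icc T.a T.b, T.kap s (T.shk k s) ^ 2 ≤
      ENNReal.ofReal (mus C k * min (T.mu k) (l * mus C k)) := by
  have hms := mus_nonneg hC k
  have hmu := T.mu_nonneg k
  have hl0 : 0 ≤ l := by linarith
  rcases min_choice (T.mu k) (l * mus C k) with h | h
  · rw [h, ENNReal.ofReal_mul hms, ← nu_eq hT k]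
    unfold nu
    rw [← lintegral_const_mul _ (measurable_kap hT.toGeo k)]
    refine setLIntegral_mono' measurableSet_Icc fun s hs => ?_
    rw [sq]
    gcongr
    exact kap_le hC hT.toCoreAB k hs
  · rw [h]
    calc ∫⁻ s in Icc T.a T.b, T.kap s (T.shk k s) ^ 2
        ≤ ∫⁻ s in Icc T.a T.b, ENNReal.ofReal (mus C k ^ 2) := by
          refine setLIntegral_mono' measurableSet_Icc fun s hs => ?_
          rw [ENNReal.ofReal_pow hms]
          gcongr
          exact kap_le hC hT.toCoreAB k hs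
      _ = ENNReal.ofReal (mus C k ^ 2) * ENNReal.ofReal (T.b - T.a) := by
          rw [lintegral_const, Measure.restrict_apply_univ, Real.volume_Icc]
      _ ≤ _ := by
          rw [← ENNReal.ofReal_mul (by positivity)]
          apply ENNReal.ofReal_le_ofReal
          nlinarith [mul_le_mul_of_nonneg_left hl (sq_nonneg (mus C k))]

/-- (ii) -/
theorem int_HK_kap (hC : 0 ≤ C) (hT : T.Core C Tm P Qt) (hab : T.a ≤ T.b) (k k' : KI) {l : ℝ}
    (hl : T.b - T.a ≤ l) :
    ∫⁻ s in Icc T.a T.b, T.HK k s * T.kap s (T.shk k' s) ≤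
      ENNReal.ofReal (√(C * (kQ k ^ 3 * min (ke k) (kD k)) * T.mu k) *
        √(mus C k' * min (T.mu k') (l * mus C k'))) := by
  have hke := ke_pos k; have hkD := kD_pos k; have hkQ := kQ_pos k
  have hmu := T.mu_nonneg k
  have hmu' := T.mu_nonneg k'
  have hms := mus_nonneg hC k'
  have hl0 : 0 ≤ l := by linarith
  have h1 : 0 ≤ C * (kQ k ^ 3 * min (ke k) (kD k)) * T.mu k := by positivity
  rw [← Real.sqrt_mul h1]
  apply le_ofReal_sqrt (by positivity)
  have h := cs_nat (volume.restrict (Icc T.a T.b)) (f := T.HK k)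
    (g := fun s => T.kap s (T.shk k' s)) (measurable_HK hT.toGeo k).aemeasurable
    (measurable_kap hT.toGeo k').aemeasurable
  refine h.trans ?_
  rw [ENNReal.ofReal_mul h1]
  gcongr
  · exact int_HK_sq hC hT k
  · exact int_kap_sq hC hT hab k' hl

/-- (iii) -/
theorem int_BK (hC : 0 ≤ C) (hT : T.Core C Tm P Qt) (hab : T.a ≤ T.b) (k : KI) {l : ℝ}
    (hl : T.b - T.a ≤ l) :
    T.I (fun s z => ENNReal.ofReal (T.Bs s z)) k ≤
      ENNReal.ofReal (√(C * ((l + kR k) / kd k * (kQ k ^ 3 * min (ke k) (kD k))) * T.mu k)) := by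
  have hke := ke_pos k; have hkD := kD_pos k; have hkQ := kQ_pos k
  have hkR := kR_pos k; have hkd := kd_pos k
  have hmu := T.mu_nonneg k
  have hl0 : 0 ≤ l := by linarith
  apply le_ofReal_sqrt (by positivity)
  have h := hT.cB _ _ _ _ _ (kR_pos k) (kd_pos k) (ke_pos k) (kD_pos k) (kQ_pos k)
  have hn : T.nu (T.sh (kR k) (kd k) (ke k) (kD k) (kQ k)) = ENNReal.ofReal (T.mu k) :=
    nu_eq hT k
  rw [hn] at h
  refine le_trans h ?_
  rw [← ENNReal.ofReal_mul (by
    have : 0 ≤ T.b - T.a := by linarith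
    positivity)]
  apply ENNReal.ofReal_le_ofReal
  gcongr

end TD

end Crest.Agent.R106.Abs
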