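import Crest.Agent.R106.NumLP

/-!
# Row 106, node NUM: numbers level (definitions)

One dyadic shell with nominal values `R, dl (=δ), ep (=ε), D, Q` and occupation numbers
`mu` (space-time) and `mus` (sup over `s`).
-/

set_option autoImplicit false

namespace Crest.Agent.R106.Num

open Real

/-- window length (`Abs.lw`) -/
noncomputable def win (c0 P Q : ℝ) : ℝ := c0 * min ((Q / P) ^ 2) (Q / (P * Real.log P))

/-- the parameter `λ` of the cut-off (`Abs.lamc`) -/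
noncomputable def lamc (P Qt : ℝ) : ℝ := P ^ (17 / 40 : ℝ) * (Qt / P) ^ (5 / 2 : ℝ)

/-- geometry of one shell, up to the constant `C` -/
structure Geo (C P Qt R dl ep D Q : ℝ) : Prop where
  R_pos : 0 < R
  dl_pos : 0 < dl
  ep_pos : 0 < ep
  D_pos : 0 < D
  Q_pos : 0 < Q
  R_le : R ≤ C
  dl_le : dl ≤ C
  ep_le : ep ≤ C
  D_le : D ≤ C
  dl_ge : 1 ≤ C * (Qt ^ 2 * dl)
  ep_ge : 1 ≤ C * (Q ^ 2 * ep)
  D_ge : 1 ≤ C * (Qt ^ 2 * D)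
  D_ge' : 1 ≤ C * (Q ^ 2 * D)
  Q_ge : 1 ≤ C * Q
  Q_le : Q ≤ P
  zone : (D ≤ C * dl ∧ dl ≤ C * D ∧ ep ≤ C * dl) ∨ (D ≤ C * ep ∧ ep ≤ C * D ∧ dl ≤ C * ep) ∨
    (dl ≤ C * ep ∧ ep ≤ C * dl ∧ D ≤ C * dl)

/-- occupation bounds (a)-(d) of one shell -/
structure Occ (C c0 P Qt R dl ep D Q mu mus : ℝ) : Prop where
  mu0 : 0 ≤ mu
  mus0 : 0 ≤ mus
  a : mu ≤ C * (win c0 P Qt * (R ^ 3 * dl * Q ^ 3 * min ep D))
  a' : mus ≤ C * (R ^ 3 * dl * Q ^ 3 * min ep D)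
  b : mu ≤ C * (win c0 P Qt * (1 / (Q * ep)))
  b' : mus ≤ C * (1 / (Q * ep))
  c : mu ≤ C * ((win c0 P Qt + R) / (Q * dl))
  d : P ^ (11 / 20 : ℝ) ≤ Q → P ^ (2 / 5 : ℝ) ≤ √D * Q → P ^ (2 / 5 : ℝ) ≤ √D * Qt →
    mu ≤ C * (R / (Q * √(D * max dl D)) * (1 + (win c0 P Qt + R) / win c0 P Q) / √D)

/-- the shell meets the region where the retarded representation is used -/
def InE (C P Qt dl ep Q : ℝ) : Prop := Q ≤ C * P ^ (11 / 20 : ℝ) ∨ lamc P Qt * dl ^ 2 ≤ C * ep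

/-- the shell meets the region where the conjugate representation is used -/
def InC (C P Qt dl ep Q : ℝ) : Prop := P ^ (11 / 20 : ℝ) ≤ Q ∧ ep ≤ C * (lamc P Qt * dl ^ 2)

/-- the shell meets the border -/
def InB (C P Qt dl ep Q : ℝ) : Prop :=
  P ^ (11 / 20 : ℝ) ≤ Q ∧ ep ≤ C * (lamc P Qt * dl ^ 2) ∧ lamc P Qt * dl ^ 2 ≤ C * ep

/-! ### costs of one shell -/

noncomputable def cT1 (R ep Q mu : ℝ) : ℝ := ep / (Q ^ 2 * ep ^ 2 * R ^ 2) * mu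
noncomputable def cT2 (R dl ep Q mu : ℝ) : ℝ := √(dl * ep) / (Q ^ 2 * ep ^ 2 * R ^ 2) * mu
/-- T-cost `(ε+√(δε)) μ/(Q²ε²R²)` -/
noncomputable def cT (R dl ep Q mu : ℝ) : ℝ := (ep + √(dl * ep)) / (Q ^ 2 * ep ^ 2 * R ^ 2) * mu
/-- square of the `L²(J)`-norm of `h2` : `(δ/(Q²ε²R²)) Q³ min(ε,D) μ` -/
noncomputable def sq2 (R dl ep D Q mu : ℝ) : ℝ := dl / (Q ^ 2 * ep ^ 2 * R ^ 2) * (Q ^ 3 * min ep D) * mu
noncomputable def cH (R dl ep D Q mu : ℝ) : ℝ := √(sq2 R dl ep D Q mu)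
/-- A-cost -/
noncomputable def cA (l R dl ep D Q mu : ℝ) : ℝ := √(l * sq2 R dl ep D Q mu)
/-- B-cost -/
noncomputable def cB (l R dl ep D Q mu : ℝ) : ℝ :=
  √((l + R) / dl * (dl / (Q ^ 2 * ep * R ^ 2) * (Q ^ 3 * min ep D) * mu))
/-- `k_Gam`-cost -/
noncomputable def cG (Qt R dl ep mu : ℝ) : ℝ := (dl + √(dl * ep)) / (Qt ^ 2 * dl ^ 2 * R ^ 2) * mu
/-- cut-off cost -/
noncomputable def cCut (R dl ep D mu : ℝ) : ℝ := √(D / min dl ep) / R ^ 2 * mu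
/-- boundary cost -/
noncomputable def cb (R dl ep mus : ℝ) : ℝ := √(ep / dl) / R * mus
/-- sup of `Φ` -/
noncomputable def cM (R dl ep mus : ℝ) : ℝ := √ep / (dl * R) * mus
/-- integral of `Φ` -/
noncomputable def cP (R dl ep mu : ℝ) : ℝ := √ep / (dl * R) * mu

/-- all constants are absorbed by `P^(1/10^6)` -/
structure Large (C c0 P : ℝ) : Prop where
  P1 : 1 < P
  L1 : 1 ≤ Real.log P
  hC : C ≤ P ^ (1 / 10000000 : ℝ)
  h8 : 8 ≤ P ^ (1 / 10000000 : ℝ)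
  hc : 1 / c0 ≤ P ^ (1 / 10000000 : ℝ)
  hL : Real.log P ≤ P ^ (1 / 10000000 : ℝ)

theorem eventually_large (C c0 : ℝ) : ∃ P1 : ℝ, ∀ P, P1 ≤ P → Large C c0 P := by
  have h1 : ∀ᶠ P : ℝ in Filter.atTop, 1 < P := Filter.eventually_gt_atTop 1
  have h2 : ∀ᶠ P : ℝ in Filter.atTop, 1 ≤ Real.log P :=
    Real.tendsto_log_atTop.eventually_ge_atTop 1
  have ht : Filter.Tendsto (fun P : ℝ => P ^ (1 / 10000000 : ℝ)) Filter.atTop Filter.atTop :=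
    tendsto_rpow_atTop (by norm_num)
  have h3 := ht.eventually_ge_atTop C
  have h4 := ht.eventually_ge_atTop 8
  have h5 := ht.eventually_ge_atTop (1 / c0)
  have h6 : ∀ᶠ P : ℝ in Filter.atTop, Real.log P ≤ P ^ (1 / 10000000 : ℝ) := by
    have := (isLittleO_log_rpow_atTop (r := (1 / 10000000 : ℝ)) (by norm_num)).bound
      (c := 1) (by norm_num)
    filter_upwards [this, Filter.eventually_gt_atTop (1 : ℝ)] with P hP hP1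
    have h0 : 0 < Real.log P := Real.log_pos hP1
    have h00 : 0 < P ^ (1 / 10000000 : ℝ) := Real.rpow_pos_of_pos (by linarith) _
    rw [Real.norm_of_nonneg h0.le, Real.norm_of_nonneg h00.le] at hP
    linarith
  obtain ⟨P1, hP1⟩ := Filter.eventually_atTop.1 (h1.and (h2.and (h3.and (h4.and (h5.and h6)))))
  refine ⟨P1, fun P hP => ?_⟩
  obtain ⟨a1, a2, a3, a4, a5, a6⟩ := hP1 P hP
  exact ⟨a1, a2, a3, a4, a5, a6⟩

/-- dyadic shell indices `(r,i,j,m,n)`: `R = 2^r, δ = 2^i, ε = 2^j, D = 2^m, Q = 2^n` -/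
abbrev Sh : Type := ℤ × ℤ × ℤ × ℤ × ℤ

noncomputable def sR (k : Sh) : ℝ := (2 : ℝ) ^ k.1
noncomputable def sd (k : Sh) : ℝ := (2 : ℝ) ^ k.2.1
noncomputable def se (k : Sh) : ℝ := (2 : ℝ) ^ k.2.2.1
noncomputable def sD (k : Sh) : ℝ := (2 : ℝ) ^ k.2.2.2.1
noncomputable def sQ (k : Sh) : ℝ := (2 : ℝ) ^ k.2.2.2.2

/-- an admissible shell with its occupation numbers -/
structure Good (C c0 P Qt : ℝ) (k : Sh) (mu mus : ℝ) : Prop where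
  geo : Geo C P Qt (sR k) (sd k) (se k) (sD k) (sQ k)
  occ : Occ C c0 P Qt (sR k) (sd k) (se k) (sD k) (sQ k) mu mus

/-- The critical sum (statement). -/
def CritSum : Prop := ∀ C : ℝ, 1 ≤ C → ∃ C2 : ℝ, 0 ≤ C2 ∧ ∀ c0 P Qt : ℝ, 0 < c0 → c0 ≤ 1 →
  Large C c0 P → P ^ (11 / 20 : ℝ) ≤ Qt → Qt ≤ P → ∀ (K : Finset Sh) (mu mus : Sh → ℝ),
  (∀ k ∈ K, Good C c0 P Qt k (mu k) (mus k) ∧ InB C P Qt (sd k) (se k) (sQ k) ∧
    sR k ≤ win c0 P Qt ∧ P ^ (-(1 / 10) : ℝ) ≤ sD k) →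
  ∑ k ∈ K, cCut (sR k) (sd k) (se k) (sD k) (mu k) ≤ C2 * √c0 * Qt

end Crest.Agent.R106.Num
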