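import Crest.Agent.R106.AbsL2
import Crest.Agent.R106.NumDefs

/-!
# Row 106, node ABS (helper72): kernels as functions of `(s,z)`, the "lines" (sum over shells).
-/

set_option autoImplicit false

open MeasureTheory Set
open scoped ENNReal

namespace Crest.Agent.R106.Abs

open Crest.Agent.R106.Num (cT cA cB cG cCut cb cM cP cH sq2)

variable {Z : Type} [MeasurableSpace Z]

namespace TD

noncomputable def fT (T : TD Z) (s : ℝ) (z : Z) : ℝ≥0∞ :=
  ENNReal.ofReal (kT (T.dl s z) (T.ep s z) (T.ga s z) (T.R s z))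
noncomputable def fSK (T : TD Z) (s : ℝ) (z : Z) : ℝ≥0∞ :=
  ENNReal.ofReal (kS (T.dl s z) (T.ep s z) (T.ga s z) (T.R s z)) * ENNReal.ofReal (T.Kg s z)
noncomputable def fSB (T : TD Z) (s : ℝ) (z : Z) : ℝ≥0∞ :=
  ENNReal.ofReal (kS (T.dl s z) (T.ep s z) (T.ga s z) (T.R s z) * √(T.ep s z)) *
    ENNReal.ofReal (T.Bs s z)
noncomputable def fG (T : TD Z) (Qt : ℝ) (s : ℝ) (z : Z) : ℝ≥0∞ :=
  ENNReal.ofReal (kGam Qt (T.dl s z) (T.ep s z) (T.R s z))
noncomputable def fC (T : TD Z) (Qt : ℝ) (s : ℝ) (z : Z) : ℝ≥0∞ :=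
  ENNReal.ofReal (kC Qt (T.dl s z) (T.ep s z) (T.R s z))
noncomputable def fcut (T : TD Z) (s : ℝ) (z : Z) : ℝ≥0∞ :=
  ENNReal.ofReal (kcut (T.dl s z) (T.ep s z) (T.D s z) (T.R s z))
noncomputable def fb (T : TD Z) (s : ℝ) (z : Z) : ℝ≥0∞ :=
  ENNReal.ofReal (kG (T.dl s z) (T.ep s z) (T.R s z))

section meas

variable {T : TD Z} {Tm P Qt : ℝ}

theorem m_fT (hT : T.Geo Tm P Qt) : Measurable (Function.uncurry T.fT) := by
  have h1 : Measurable fun x : ℝ × Z => T.dl x.1 x.2 := hT.mdl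
  have h2 : Measurable fun x : ℝ × Z => T.ep x.1 x.2 := hT.mep
  have h3 : Measurable fun x : ℝ × Z => T.ga x.1 x.2 := hT.mga
  have h4 : Measurable fun x : ℝ × Z => T.R x.1 x.2 := hT.mR
  unfold fT kT Function.uncurry
  fun_prop

theorem m_fSK (hT : T.Geo Tm P Qt) : Measurable (Function.uncurry T.fSK) := by
  have h1 : Measurable fun x : ℝ × Z => T.dl x.1 x.2 := hT.mdl
  have h2 : Measurable fun x : ℝ × Z => T.ep x.1 x.2 := hT.mep
  have h3 : Measurable fun x : ℝ × Z => T.ga x.1 x.2 := hT.mga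
  have h4 : Measurable fun x : ℝ × Z => T.R x.1 x.2 := hT.mR
  have h5 : Measurable fun x : ℝ × Z => T.Kg x.1 x.2 := hT.mKg
  unfold fSK kS Function.uncurry
  fun_prop

theorem m_fSB (hT : T.Geo Tm P Qt) : Measurable (Function.uncurry T.fSB) := by
  have h1 : Measurable fun x : ℝ × Z => T.dl x.1 x.2 := hT.mdl
  have h2 : Measurable fun x : ℝ × Z => T.ep x.1 x.2 := hT.mep
  have h3 : Measurable fun x : ℝ × Z => T.ga x.1 x.2 := hT.mga
  have h4 : Measurable fun x : ℝ × Z => T.R x.1 x.2 := hT.mR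
  have h5 : Measurable fun x : ℝ × Z => T.Bs x.1 x.2 := hT.mBs
  unfold fSB kS Function.uncurry
  fun_prop

theorem m_fG (hT : T.Geo Tm P Qt) : Measurable (Function.uncurry (T.fG Qt)) := by
  have h1 : Measurable fun x : ℝ × Z => T.dl x.1 x.2 := hT.mdl
  have h2 : Measurable fun x : ℝ × Z => T.ep x.1 x.2 := hT.mep
  have h4 : Measurable fun x : ℝ × Z => T.R x.1 x.2 := hT.mR
  unfold fG kGam Function.uncurry
  fun_prop

theorem m_fC (hT : T.Geo Tm P Qt) : Measurable (Function.uncurry (T.fC Qt)) := by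
  have h1 : Measurable fun x : ℝ × Z => T.dl x.1 x.2 := hT.mdl
  have h2 : Measurable fun x : ℝ × Z => T.ep x.1 x.2 := hT.mep
  have h4 : Measurable fun x : ℝ × Z => T.R x.1 x.2 := hT.mR
  unfold fC kC Function.uncurry
  fun_prop

theorem m_fcut (hT : T.Geo Tm P Qt) : Measurable (Function.uncurry T.fcut) := by
  have h1 : Measurable fun x : ℝ × Z => T.dl x.1 x.2 := hT.mdl
  have h2 : Measurable fun x : ℝ × Z => T.ep x.1 x.2 := hT.mep
  have h3 : Measurable fun x : ℝ × Z => T.D x.1 x.2 := hT.mD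
  have h4 : Measurable fun x : ℝ × Z => T.R x.1 x.2 := hT.mR
  unfold fcut kcut Function.uncurry
  fun_prop

theorem m_fb (hT : T.Geo Tm P Qt) : Measurable (Function.uncurry T.fb) := by
  have h1 : Measurable fun x : ℝ × Z => T.dl x.1 x.2 := hT.mdl
  have h2 : Measurable fun x : ℝ × Z => T.ep x.1 x.2 := hT.mep
  have h4 : Measurable fun x : ℝ × Z => T.R x.1 x.2 := hT.mR
  unfold fb kG Function.uncurry
  fun_prop

theorem ms_inE (hT : T.Geo Tm P Qt) : MeasurableSet {x : ℝ × Z | T.inE P Qt x.1 x.2} := by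
  have h1 : Measurable fun x : ℝ × Z => T.dl x.1 x.2 := hT.mdl
  have h2 : Measurable fun x : ℝ × Z => T.ep x.1 x.2 := hT.mep
  have h3 : Measurable fun x : ℝ × Z => T.ga x.1 x.2 := hT.mga
  exact (measurableSet_le h3 measurable_const).union
    (measurableSet_le ((h1.pow_const 2).const_mul _) (h2.const_mul _))

theorem ms_inC (hT : T.Geo Tm P Qt) : MeasurableSet {x : ℝ × Z | T.inC P Qt x.1 x.2} := by
  have h1 : Measurable fun x : ℝ × Z => T.dl x.1 x.2 := hT.mdl
  have h2 : Measurable fun x : ℝ × Z => T.ep x.1 x.2 := hT.mep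
  have h3 : Measurable fun x : ℝ × Z => T.ga x.1 x.2 := hT.mga
  exact (measurableSet_le measurable_const h3).inter
    (measurableSet_le h2 (((h1.pow_const 2).const_mul _).const_mul _))

theorem ms_inB (hT : T.Geo Tm P Qt) : MeasurableSet {x : ℝ × Z | T.inB P Qt x.1 x.2} := by
  have h1 : Measurable fun x : ℝ × Z => T.dl x.1 x.2 := hT.mdl
  have h2 : Measurable fun x : ℝ × Z => T.ep x.1 x.2 := hT.mep
  have h3 : Measurable fun x : ℝ × Z => T.ga x.1 x.2 := hT.mga
  exact (measurableSet_le measurable_const h3).inter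
    ((measurableSet_le h2 (((h1.pow_const 2).const_mul _).const_mul _)).inter
      (measurableSet_le ((h1.pow_const 2).const_mul _) (h2.const_mul _)))

end meas

open Classical in
/-- `g` restricted to a region. -/
noncomputable def ind (reg : ℝ → Z → Prop) (g : ℝ → Z → ℝ≥0∞) (s : ℝ) (z : Z) : ℝ≥0∞ :=
  if reg s z then g s z else 0

theorem m_ind {reg : ℝ → Z → Prop} {g : ℝ → Z → ℝ≥0∞}
    (hreg : MeasurableSet {x : ℝ × Z | reg x.1 x.2}) (hg : Measurable (Function.uncurry g)) :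
    Measurable (Function.uncurry (ind reg g)) := by
  classical
  exact Measurable.ite hreg hg measurable_const

omit [MeasurableSpace Z] in
theorem ind_le (reg : ℝ → Z → Prop) (g : ℝ → Z → ℝ≥0∞) (s : ℝ) (z : Z) :
    ind reg g s z ≤ g s z := by
  unfold ind
  split_ifs
  · exact le_rfl
  · exact zero_le

theorem Is_mono (T : TD Z) {g g' : ℝ → Z → ℝ≥0∞} (h : ∀ s z, g s z ≤ g' s z) (k : KI) (s : ℝ) :
    T.Is g k s ≤ T.Is g' k s := by
  unfold Is
  refine lintegral_mono fun z => ?_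
  gcongr
  exact h s z

theorem I_mono (T : TD Z) {g g' : ℝ → Z → ℝ≥0∞} (h : ∀ s z, g s z ≤ g' s z) (k : KI) :
    T.I g k ≤ T.I g' k := lintegral_mono fun s => T.Is_mono h k s

open Classical in
/-- integral over a region `≤` sum over the shells that meet it. -/
theorem line {T : TD Z} {Tm P Qt : ℝ} (hT : T.Geo Tm P Qt) (hQt : 0 < Qt)
    {reg : ℝ → Z → Prop} (hreg : MeasurableSet {x : ℝ × Z | reg x.1 x.2})
    {g : ℝ → Z → ℝ≥0∞} (hg : Measurable (Function.uncurry g))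
    {x : KI → ℝ} (hx0 : ∀ k, 0 ≤ x k) (hx : ∀ k, T.I g k ≤ ENNReal.ofReal (x k)) {B : ℝ}
    (hB : ∀ K : Finset KI, (∀ k ∈ K, T.Act reg k) → ∑ k ∈ K, x k ≤ B) :
    ∫⁻ s in Icc T.a T.b, ∫⁻ z, T.w s z * ind reg g s z ∂T.m ≤ ENNReal.ofReal B := by
  rw [lintegral_eq_tsum hT hQt (m_ind hreg hg)]
  refine le_trans (ENNReal.tsum_le_tsum fun k => ?_) (tsum_le_of_finset hx0 hB)
  split_ifs with h
  · exact (T.I_mono (ind_le reg g) k).trans (hx k)
  · refine (I_eq_zero hT fun s hs z hz hw => ?_).le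
    unfold ind
    rw [if_neg]
    intro hr
    exact h ⟨s, hs, z, hz, hw, hr⟩

open Classical in
/-- the same on one cone. -/
theorem line_s {T : TD Z} {Tm P Qt : ℝ} (hT : T.Geo Tm P Qt) (hQt : 0 < Qt)
    {reg : ℝ → Z → Prop} (hreg : MeasurableSet {x : ℝ × Z | reg x.1 x.2})
    {g : ℝ → Z → ℝ≥0∞} (hg : Measurable (Function.uncurry g)) {s : ℝ} (hs : s ∈ Icc T.a T.b)
    {x : KI → ℝ} (hx0 : ∀ k, 0 ≤ x k) (hx : ∀ k, T.Is g k s ≤ ENNReal.ofReal (x k)) {B : ℝ}
    (hB : ∀ K : Finset KI, (∀ k ∈ K, T.Act reg k) → ∑ k ∈ K, x k ≤ B) :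
    ∫⁻ z, T.w s z * ind reg g s z ∂T.m ≤ ENNReal.ofReal B := by
  rw [lintegral_eq_tsum_s hT hQt (m_ind hreg hg) hs]
  refine le_trans (ENNReal.tsum_le_tsum fun k => ?_) (tsum_le_of_finset hx0 hB)
  split_ifs with h
  · exact (T.Is_mono (ind_le reg g) k s).trans (hx k)
  · refine (Is_eq_zero hT fun z hz hw => ?_).le
    unfold ind
    rw [if_neg]
    intro hr
    exact h ⟨s, hs, z, hz, hw, hr⟩

/-! ### the costs of one shell -/

section cost

variable {T : TD Z} {C Tm P Qt l : ℝ}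

theorem mem_shk {k : KI} {s : ℝ} {z : Z} (h : z ∈ T.shk k s) :
    (kR k ≤ T.R s z ∧ T.R s z < 2 * kR k) ∧ (kd k ≤ T.dl s z ∧ T.dl s z < 2 * kd k) ∧
    (ke k ≤ T.ep s z ∧ T.ep s z < 2 * ke k) ∧ (kD k ≤ T.D s z ∧ T.D s z < 2 * kD k) ∧
    (kQ k ≤ T.ga s z ∧ T.ga s z < 2 * kQ k) := h

theorem I_fT (hT : T.Core C Tm P Qt) (k : KI) :
    T.I T.fT k ≤ ENNReal.ofReal (2 * cT (kR k) (kd k) (ke k) (kQ k) (T.mu k)) := by
  have h := I_le hT.toGeo (G := T.fT) (k := k)
    (c := ENNReal.ofReal (2 * kT (kd k) (ke k) (kQ k) (kR k))) (fun s _ z hz _ => by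
      obtain ⟨h1, h2, h3, h4, h5⟩ := mem_shk hz
      exact ENNReal.ofReal_le_ofReal
        (kT_corner (kd_pos k) (ke_pos k) (kQ_pos k) (kR_pos k) h2 h3 h5 h1))
  refine h.trans (le_of_eq ?_)
  have := kR_pos k; have := kd_pos k; have := ke_pos k; have := kQ_pos k
  rw [nu_eq hT k, ← ENNReal.ofReal_mul (by unfold kT; positivity)]
  congr 1
  unfold kT cT
  ring

theorem I_fG (hT : T.Core C Tm P Qt) (hQt : 0 < Qt) (k : KI) :
    T.I (T.fG Qt) k ≤ ENNReal.ofReal (2 * cG Qt (kR k) (kd k) (ke k) (T.mu k)) := by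
  have h := I_le hT.toGeo (G := T.fG Qt) (k := k)
    (c := ENNReal.ofReal (2 * kGam Qt (kd k) (ke k) (kR k))) (fun s _ z hz _ => by
      obtain ⟨h1, h2, h3, h4, h5⟩ := mem_shk hz
      exact ENNReal.ofReal_le_ofReal
        (kGam_corner hQt (kd_pos k) (ke_pos k) (kR_pos k) h2 h3 h1))
  refine h.trans (le_of_eq ?_)
  have := kR_pos k; have := kd_pos k; have := ke_pos k; have := kQ_pos k
  rw [nu_eq hT k, ← ENNReal.ofReal_mul (by unfold kGam; positivity)]
  congr 1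
  unfold kGam cG
  ring

theorem I_fcut (hT : T.Core C Tm P Qt) (k : KI) :
    T.I T.fcut k ≤ ENNReal.ofReal (2 * cCut (kR k) (kd k) (ke k) (kD k) (T.mu k)) := by
  have h := I_le hT.toGeo (G := T.fcut) (k := k)
    (c := ENNReal.ofReal (2 * kcut (kd k) (ke k) (kD k) (kR k))) (fun s _ z hz _ => by
      obtain ⟨h1, h2, h3, h4, h5⟩ := mem_shk hz
      exact ENNReal.ofReal_le_ofReal
        (kcut_corner (kd_pos k) (ke_pos k) (kD_pos k) (kR_pos k) h2 h3 h4 h1))
  refine h.trans (le_of_eq ?_)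
  have := kR_pos k; have := kd_pos k; have := ke_pos k; have := kD_pos k
  rw [nu_eq hT k, ← ENNReal.ofReal_mul (by unfold kcut; positivity)]
  congr 1
  unfold kcut cCut
  ring

theorem kS_eq_sqrt {d e Q R : ℝ} (he : 0 < e) (hQ : 0 < Q) (hR : 0 < R) :
    kS d e Q R = √(d / (Q ^ 2 * e ^ 2 * R ^ 2)) := by
  unfold kS
  rw [show Q ^ 2 * e ^ 2 * R ^ 2 = (Q * e * R) ^ 2 by ring,
    Real.sqrt_div' _ (by positivity), Real.sqrt_sq (by positivity)]

theorem kSe_eq_sqrt {d e Q R : ℝ} (hd : 0 < d) (he : 0 < e) (hQ : 0 < Q) (hR : 0 < R) :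
    kS d e Q R * √e = √(d / (Q ^ 2 * e * R ^ 2)) := by
  rw [kS_eq_sqrt he hQ hR, ← Real.sqrt_mul (by positivity)]
  congr 1
  field_simp

theorem I_mul_le (hT : T.Geo Tm P Qt) {g f : ℝ → Z → ℝ≥0∞} {k : KI} {c : ℝ≥0∞}
    (hf : Measurable (Function.uncurry f))
    (h : ∀ s ∈ Icc T.a T.b, ∀ z ∈ T.shk k s, T.w s z ≠ 0 → g s z ≤ c * f s z) :
    T.I g k ≤ c * T.I f k := by
  have hmf := measurable_Is hT hf k
  unfold I
  rw [← lintegral_const_mul c hmf]
  refine setLIntegral_mono' measurableSet_Icc fun s hs => ?_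
  unfold Is
  have hm : Measurable fun z : Z => T.w s z * f s z :=
    (hT.mw.comp (measurable_const.prodMk measurable_id)).mul
      (hf.comp (measurable_const.prodMk measurable_id))
  rw [← lintegral_const_mul c hm]
  refine setLIntegral_mono' (measurableSet_shk_s hT k s) fun z hz => ?_
  by_cases hw : T.w s z = 0
  · simp [hw]
  · calc T.w s z * g s z ≤ T.w s z * (c * f s z) := by
          gcongr
          exact h s hs z hz hw
      _ = c * (T.w s z * f s z) := by ring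

theorem Is_mul_le (hT : T.Geo Tm P Qt) {g f : ℝ → Z → ℝ≥0∞} {k : KI} {c : ℝ≥0∞} {s : ℝ}
    (hf : Measurable (Function.uncurry f))
    (h : ∀ z ∈ T.shk k s, T.w s z ≠ 0 → g s z ≤ c * f s z) :
    T.Is g k s ≤ c * T.Is f k s := by
  unfold Is
  have hm : Measurable fun z : Z => T.w s z * f s z :=
    (hT.mw.comp (measurable_const.prodMk measurable_id)).mul
      (hf.comp (measurable_const.prodMk measurable_id))
  rw [← lintegral_const_mul c hm]
  refine setLIntegral_mono' (measurableSet_shk_s hT k s) fun z hz => ?_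
  by_cases hw : T.w s z = 0
  · simp [hw]
  · calc T.w s z * g s z ≤ T.w s z * (c * f s z) := by
          gcongr
          exact h z hz hw
      _ = c * (T.w s z * f s z) := by ring

theorem m_Kg (hT : T.Geo Tm P Qt) :
    Measurable (Function.uncurry fun s z => ENNReal.ofReal (T.Kg s z)) := hT.mKg.ennreal_ofReal

theorem m_Bs (hT : T.Geo Tm P Qt) :
    Measurable (Function.uncurry fun s z => ENNReal.ofReal (T.Bs s z)) := hT.mBs.ennreal_ofReal

theorem Is_fSK_le (hT : T.Core C Tm P Qt) (k : KI) (s : ℝ) :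
    T.Is T.fSK k s ≤
      ENNReal.ofReal (2 * kS (kd k) (ke k) (kQ k) (kR k)) * T.HK k s := by
  refine Is_mul_le (f := fun s z => ENNReal.ofReal (T.Kg s z)) hT.toGeo (m_Kg hT.toGeo)
    (fun z hz _ => ?_)
  obtain ⟨h1, h2, h3, h4, h5⟩ := mem_shk hz
  unfold fSK
  gcongr
  exact kS_corner (kd_pos k) (ke_pos k) (kQ_pos k) (kR_pos k) h2 h3 h5 h1

theorem I_fSK (hC : 0 ≤ C) (hT : T.Core C Tm P Qt) (hab : T.a ≤ T.b) (hl : T.b - T.a ≤ l) (k : KI) :
    T.I T.fSK k ≤
      ENNReal.ofReal (2 * √C * cA l (kR k) (kd k) (ke k) (kD k) (kQ k) (T.mu k)) := by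
  have hR := kR_pos k; have hd := kd_pos k; have he := ke_pos k; have hQ := kQ_pos k
  have hD := kD_pos k
  have hmu := T.mu_nonneg k
  have hl0 : 0 ≤ l := by linarith
  have h1 : T.I T.fSK k ≤ ENNReal.ofReal (2 * kS (kd k) (ke k) (kQ k) (kR k)) *
      ∫⁻ s in Icc T.a T.b, T.HK k s := by
    rw [← lintegral_const_mul _ (measurable_HK hT.toGeo k)]
    exact lintegral_mono fun s => Is_fSK_le hT k s
  have h2 := int_HK hC hT hab k hl
  refine h1.trans ((mul_le_mul_right h2 _).trans (le_of_eq ?_))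
  rw [← ENNReal.ofReal_mul (by unfold kS; positivity)]
  congr 1
  have e1 : kS (kd k) (ke k) (kQ k) (kR k) *
      √(l * (C * (kQ k ^ 3 * min (ke k) (kD k)) * T.mu k)) =
      √C * cA l (kR k) (kd k) (ke k) (kD k) (kQ k) (T.mu k) := by
    unfold cA sq2
    rw [kS_eq_sqrt he hQ hR, ← Real.sqrt_mul (by positivity), ← Real.sqrt_mul hC]
    congr 1
    ring
  rw [mul_assoc, e1, mul_assoc]

theorem I_fSB (hC : 0 ≤ C) (hT : T.Core C Tm P Qt) (hab : T.a ≤ T.b) (hl : T.b - T.a ≤ l) (k : KI) :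
    T.I T.fSB k ≤
      ENNReal.ofReal (4 * √C * cB l (kR k) (kd k) (ke k) (kD k) (kQ k) (T.mu k)) := by
  have hR := kR_pos k; have hd := kd_pos k; have he := ke_pos k; have hQ := kQ_pos k
  have hD := kD_pos k
  have hmu := T.mu_nonneg k
  have hl0 : 0 ≤ l := by linarith
  have h1 : T.I T.fSB k ≤ ENNReal.ofReal (4 * (kS (kd k) (ke k) (kQ k) (kR k) * √(ke k))) *
      T.I (fun s z => ENNReal.ofReal (T.Bs s z)) k := by
    refine I_mul_le hT.toGeo (m_Bs hT.toGeo) (fun s _ z hz _ => ?_)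
    obtain ⟨h1, h2, h3, h4, h5⟩ := mem_shk hz
    unfold fSB
    exact mul_le_mul_left (ENNReal.ofReal_le_ofReal (kSe_corner hd he hQ hR h2 h3 h5 h1)) _
  have h2 := int_BK hC hT hab k hl
  refine h1.trans ((mul_le_mul_right h2 _).trans (le_of_eq ?_))
  rw [← ENNReal.ofReal_mul (by unfold kS; positivity)]
  congr 1
  have e1 : kS (kd k) (ke k) (kQ k) (kR k) * √(ke k) *
      √(C * ((l + kR k) / kd k * (kQ k ^ 3 * min (ke k) (kD k))) * T.mu k) =
      √C * cB l (kR k) (kd k) (ke k) (kD k) (kQ k) (T.mu k) := by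
    unfold cB
    rw [kSe_eq_sqrt hd he hQ hR, ← Real.sqrt_mul (by positivity), ← Real.sqrt_mul hC]
    congr 1
    ring
  rw [mul_assoc, e1, mul_assoc]

theorem Is_fC_le (hT : T.Geo Tm P Qt) (hQt : 0 < Qt) (k : KI) (s : ℝ) :
    T.Is (T.fC Qt) k s ≤
      ENNReal.ofReal (2 * kC Qt (kd k) (ke k) (kR k)) * T.kap s (T.shk k s) := by
  refine Is_le hT fun z hz _ => ?_
  obtain ⟨h1, h2, h3, h4, h5⟩ := mem_shk hz
  exact ENNReal.ofReal_le_ofReal (kC_corner hQt (kd_pos k) (ke_pos k) (kR_pos k) h2 h3 h1)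

theorem Is_fC (hC : 0 ≤ C) (hT : T.CoreAB C Tm P Qt) (hQt : 0 < Qt) (k : KI) {s : ℝ}
    (hs : s ∈ Icc T.a T.b) :
    T.Is (T.fC Qt) k s ≤ ENNReal.ofReal (2 / Qt * cM (kR k) (kd k) (ke k) (mus C k)) := by
  have hR := kR_pos k; have hd := kd_pos k; have he := ke_pos k
  refine (Is_fC_le hT.toGeo hQt k s).trans
    ((mul_le_mul_right (kap_le hC hT k hs) _).trans (le_of_eq ?_))
  rw [← ENNReal.ofReal_mul (by unfold kC; positivity)]
  congr 1
  unfold kC cM
  field_simp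

theorem Is_fb (hC : 0 ≤ C) (hT : T.CoreAB C Tm P Qt) (k : KI) {s : ℝ}
    (hs : s ∈ Icc T.a T.b) :
    T.Is T.fb k s ≤ ENNReal.ofReal (2 * cb (kR k) (kd k) (ke k) (mus C k)) := by
  have hR := kR_pos k; have hd := kd_pos k; have he := ke_pos k
  have h := Is_le hT.toGeo (G := T.fb) (k := k) (s := s)
    (c := ENNReal.ofReal (2 * kG (kd k) (ke k) (kR k))) (fun z hz _ => by
      obtain ⟨h1, h2, h3, h4, h5⟩ := mem_shk hz
      exact ENNReal.ofReal_le_ofReal (kG_corner hd he hR h2 h3 h1))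
  refine h.trans ((mul_le_mul_right (kap_le hC hT k hs) _).trans (le_of_eq ?_))
  rw [← ENNReal.ofReal_mul (by unfold kG; positivity)]
  congr 1
  unfold kG cb
  ring

/-- the product term of the conjugate part. -/
theorem I_prod (hC : 0 ≤ C) (hT : T.Core C Tm P Qt) (hQt : 0 < Qt) (hab : T.a ≤ T.b)
    (hl : T.b - T.a ≤ l) (k k' : KI) :
    ∫⁻ s in Icc T.a T.b, T.Is T.fSK k s * T.Is (T.fC Qt) k' s ≤
      ENNReal.ofReal (2 * √C * cH (kR k) (kd k) (ke k) (kD k) (kQ k) (T.mu k)) *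
      ENNReal.ofReal (2 / Qt * √(cM (kR k') (kd k') (ke k') (mus C k') *
        min (cP (kR k') (kd k') (ke k') (T.mu k'))
          (l * cM (kR k') (kd k') (ke k') (mus C k')))) := by
  have hR := kR_pos k; have hd := kd_pos k; have he := ke_pos k; have hQ := kQ_pos k
  have hD := kD_pos k
  have hR' := kR_pos k'; have hd' := kd_pos k'; have he' := ke_pos k'
  have hmu := T.mu_nonneg k
  have hmu' := T.mu_nonneg k'
  have hms' := mus_nonneg hC k'
  have hl0 : 0 ≤ l := by linarith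
  have hmp : Measurable fun s => T.HK k s * T.kap s (T.shk k' s) :=
    (measurable_HK hT.toGeo k).mul (measurable_kap hT.toGeo k')
  have h1 : ∫⁻ s in Icc T.a T.b, T.Is T.fSK k s * T.Is (T.fC Qt) k' s ≤
      (ENNReal.ofReal (2 * kS (kd k) (ke k) (kQ k) (kR k)) *
        ENNReal.ofReal (2 * kC Qt (kd k') (ke k') (kR k'))) *
      ∫⁻ s in Icc T.a T.b, T.HK k s * T.kap s (T.shk k' s) := by
    rw [← lintegral_const_mul _ hmp]
    refine lintegral_mono fun s => ?_
    calc T.Is T.fSK k s * T.Is (T.fC Qt) k' s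
        ≤ (ENNReal.ofReal (2 * kS (kd k) (ke k) (kQ k) (kR k)) * T.HK k s) *
          (ENNReal.ofReal (2 * kC Qt (kd k') (ke k') (kR k')) * T.kap s (T.shk k' s)) :=
          mul_le_mul' (Is_fSK_le hT k s) (Is_fC_le hT.toGeo hQt k' s)
      _ = _ := by ring
  have h2 := int_HK_kap hC hT hab k k' hl
  refine h1.trans ((mul_le_mul_right h2 _).trans (le_of_eq ?_))
  have p1 : 0 ≤ 2 * kS (kd k) (ke k) (kQ k) (kR k) := by unfold kS; positivity
  have p2 : 0 ≤ 2 * kC Qt (kd k') (ke k') (kR k') := by unfold kC; positivity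
  have p3 : 0 ≤ 2 * √C * cH (kR k) (kd k) (ke k) (kD k) (kQ k) (T.mu k) := by
    unfold cH; positivity
  rw [← ENNReal.ofReal_mul p1, ← ENNReal.ofReal_mul (mul_nonneg p1 p2), ← ENNReal.ofReal_mul p3]
  congr 1
  have e1 : kS (kd k) (ke k) (kQ k) (kR k) *
      √(C * (kQ k ^ 3 * min (ke k) (kD k)) * T.mu k) =
      √C * cH (kR k) (kd k) (ke k) (kD k) (kQ k) (T.mu k) := by
    unfold cH sq2
    rw [kS_eq_sqrt he hQ hR, ← Real.sqrt_mul (by positivity), ← Real.sqrt_mul hC]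
    congr 1
    ring
  have e2 : kC Qt (kd k') (ke k') (kR k') *
      √(mus C k' * min (T.mu k') (l * mus C k')) =
      1 / Qt * √(cM (kR k') (kd k') (ke k') (mus C k') *
        min (cP (kR k') (kd k') (ke k') (T.mu k'))
          (l * cM (kR k') (kd k') (ke k') (mus C k'))) := by
    have hq : 0 ≤ √(ke k') / (kd k' * kR k') := by positivity
    have e3 : min (cP (kR k') (kd k') (ke k') (T.mu k'))
          (l * cM (kR k') (kd k') (ke k') (mus C k')) =
        √(ke k') / (kd k' * kR k') * min (T.mu k') (l * mus C k') := by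
      unfold cP cM
      rw [mul_min_of_nonneg _ _ hq]
      congr 1
      ring
    rw [e3]
    unfold cM
    rw [show √(ke k') / (kd k' * kR k') * mus C k' *
        (√(ke k') / (kd k' * kR k') * min (T.mu k') (l * mus C k')) =
        (√(ke k') / (kd k' * kR k')) ^ 2 * (mus C k' * min (T.mu k') (l * mus C k')) by ring,
      Real.sqrt_mul (sq_nonneg _), Real.sqrt_sq hq]
    unfold kC
    field_simp
  calc 2 * kS (kd k) (ke k) (kQ k) (kR k) * (2 * kC Qt (kd k') (ke k') (kR k')) *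
        (√(C * (kQ k ^ 3 * min (ke k) (kD k)) * T.mu k) *
          √(mus C k' * min (T.mu k') (l * mus C k')))
      = 4 * (kS (kd k) (ke k) (kQ k) (kR k) *
          √(C * (kQ k ^ 3 * min (ke k) (kD k)) * T.mu k)) *
          (kC Qt (kd k') (ke k') (kR k') * √(mus C k' * min (T.mu k') (l * mus C k'))) := by ring
    _ = _ := by rw [e1, e2]; ring

end cost

end TD

end Crest.Agent.R106.Abs
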