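import Crest.Agent.R106.AbsDefs

/-!
# Row 106, node ABS (helper72): the dyadic partition and sums over shells.
-/

set_option autoImplicit false

open MeasureTheory Set
open scoped ENNReal

namespace Crest.Agent.R106.Abs

/-- shell indices `(r,i,j,m,n)`: `R ~ 2^r`, `dl ~ 2^i`, `ep ~ 2^j`, `D ~ 2^m`, `ga ~ 2^n`. -/
abbrev KI := ℤ × ℤ × ℤ × ℤ × ℤ

variable {Z : Type} [MeasurableSpace Z]

/-- the dyadic exponent. -/
theorem dy_exists {x : ℝ} (hx : 0 < x) :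
    (2 : ℝ) ^ (Int.log 2 x) ≤ x ∧ x < 2 * (2 : ℝ) ^ (Int.log 2 x) := by
  constructor
  · have := Int.zpow_log_le_self (b := 2) (r := x) (by norm_num) hx
    simpa using this
  · have := Int.lt_zpow_succ_log_self (R := ℝ) (b := 2) (by norm_num) x
    rw [zpow_add_one₀ (by norm_num)] at this
    simp only [Nat.cast_ofNat] at this
    linarith

theorem dy_unique {x : ℝ} {k : ℤ} (h1 : (2 : ℝ) ^ k ≤ x) (h2 : x < 2 * (2 : ℝ) ^ k) :
    k = Int.log 2 x := by
  have hx : 0 < x := lt_of_lt_of_le (by positivity) h1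
  obtain ⟨h3, h4⟩ := dy_exists hx
  have e1 : (2 : ℝ) ^ k < (2 : ℝ) ^ (Int.log 2 x + 1) := by
    rw [zpow_add_one₀ (by norm_num)]; linarith
  have e2 : (2 : ℝ) ^ (Int.log 2 x) < (2 : ℝ) ^ (k + 1) := by
    rw [zpow_add_one₀ (by norm_num)]; linarith
  have e1' := (zpow_lt_zpow_iff_right₀ (by norm_num : (1 : ℝ) < 2)).1 e1
  have e2' := (zpow_lt_zpow_iff_right₀ (by norm_num : (1 : ℝ) < 2)).1 e2
  omega

namespace TD

/-- the dyadic shell of index `k`. -/
def shk (T : TD Z) (k : KI) (s : ℝ) : Set Z :=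
  T.sh ((2 : ℝ) ^ k.1) ((2 : ℝ) ^ k.2.1) ((2 : ℝ) ^ k.2.2.1) ((2 : ℝ) ^ k.2.2.2.1)
    ((2 : ℝ) ^ k.2.2.2.2) s

theorem exists_shk (T : TD Z) {s : ℝ} {z : Z} (hR : 0 < T.R s z) (hdl : 0 < T.dl s z)
    (hep : 0 < T.ep s z) (hD : 0 < T.D s z) (hga : 0 < T.ga s z) :
    z ∈ T.shk (Int.log 2 (T.R s z), Int.log 2 (T.dl s z), Int.log 2 (T.ep s z),
      Int.log 2 (T.D s z), Int.log 2 (T.ga s z)) s :=
  ⟨dy_exists hR, dy_exists hdl, dy_exists hep, dy_exists hD, dy_exists hga⟩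

theorem shk_unique (T : TD Z) {s : ℝ} {z : Z} {k : KI} (h : z ∈ T.shk k s) :
    k = (Int.log 2 (T.R s z), Int.log 2 (T.dl s z), Int.log 2 (T.ep s z),
      Int.log 2 (T.D s z), Int.log 2 (T.ga s z)) := by
  obtain ⟨h1, h2, h3, h4, h5⟩ := h
  obtain ⟨k1, k2, k3, k4, k5⟩ := k
  simp only [Prod.mk.injEq]
  exact ⟨dy_unique h1.1 h1.2, dy_unique h2.1 h2.2, dy_unique h3.1 h3.2, dy_unique h4.1 h4.2,
    dy_unique h5.1 h5.2⟩

theorem measurableSet_sh {T : TD Z} {Tm P Qt : ℝ} (hT : T.Geo Tm P Qt) (R1 d1 e1 D1 Q1 : ℝ) :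
    MeasurableSet {x : ℝ × Z | x.2 ∈ T.sh R1 d1 e1 D1 Q1 x.1} := by
  have h1 : ∀ (f : ℝ → Z → ℝ) (c : ℝ), Measurable (Function.uncurry f) →
      MeasurableSet {x : ℝ × Z | c ≤ f x.1 x.2 ∧ f x.1 x.2 < 2 * c} := by
    intro f c hf
    have hf' : Measurable fun x : ℝ × Z => f x.1 x.2 := hf
    exact (measurableSet_le measurable_const hf').inter (measurableSet_lt hf' measurable_const)
  exact (h1 _ R1 hT.mR).inter ((h1 _ d1 hT.mdl).inter ((h1 _ e1 hT.mep).inter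
    ((h1 _ D1 hT.mD).inter (h1 _ Q1 hT.mga))))

theorem measurableSet_shk {T : TD Z} {Tm P Qt : ℝ} (hT : T.Geo Tm P Qt) (k : KI) :
    MeasurableSet {x : ℝ × Z | x.2 ∈ T.shk k x.1} := measurableSet_sh hT _ _ _ _ _

theorem measurableSet_shk_s {T : TD Z} {Tm P Qt : ℝ} (hT : T.Geo Tm P Qt) (k : KI) (s : ℝ) :
    MeasurableSet (T.shk k s) :=
  (measurable_const.prodMk measurable_id : Measurable fun z : Z => (s, z)) (measurableSet_shk hT k)

theorem pos_of_geo {T : TD Z} {Tm P Qt : ℝ} (hT : T.Geo Tm P Qt) (hQt : 0 < Qt) {s : ℝ}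
    (hs : s ∈ Icc T.a T.b) {z : Z} (hw : T.w s z ≠ 0) :
    0 < T.R s z ∧ 0 < T.dl s z ∧ 0 < T.ep s z ∧ 0 < T.D s z ∧ 0 < T.ga s z := by
  have hga : 0 < T.ga s z := by have := hT.ga0 s hs z hw; linarith
  refine ⟨hT.R0 s hs z hw, ?_, ?_, ?_, hga⟩
  · exact lt_of_lt_of_le (by positivity) (hT.dl0 s hs z hw)
  · exact lt_of_lt_of_le (by positivity) (hT.ep0 s hs z hw)
  · exact lt_of_lt_of_le (by positivity) (hT.D0 s hs z hw)

/-- integral over one shell of one cone. -/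
noncomputable def Is (T : TD Z) (G : ℝ → Z → ℝ≥0∞) (k : KI) (s : ℝ) : ℝ≥0∞ :=
  ∫⁻ z in T.shk k s, T.w s z * G s z ∂T.m

/-- integral over one shell. -/
noncomputable def I (T : TD Z) (G : ℝ → Z → ℝ≥0∞) (k : KI) : ℝ≥0∞ :=
  ∫⁻ s in Icc T.a T.b, T.Is G k s

theorem lintegral_eq_tsum_s {T : TD Z} {Tm P Qt : ℝ} (hT : T.Geo Tm P Qt) (hQt : 0 < Qt)
    {G : ℝ → Z → ℝ≥0∞} (hG : Measurable (Function.uncurry G)) {s : ℝ} (hs : s ∈ Icc T.a T.b) :
    ∫⁻ z, T.w s z * G s z ∂T.m = ∑' k, T.Is G k s := by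
  have hms : Measurable fun z => T.w s z * G s z := by
    have h1 : Measurable fun z : Z => T.w s z := hT.mw.comp (measurable_const.prodMk measurable_id)
    have h2 : Measurable fun z : Z => G s z := hG.comp (measurable_const.prodMk measurable_id)
    exact h1.mul h2
  have key : ∀ z, T.w s z * G s z =
      ∑' k, (T.shk k s).indicator (fun z => T.w s z * G s z) z := by
    intro z
    by_cases hw : T.w s z = 0
    · have : ∀ k, (T.shk k s).indicator (fun z => T.w s z * G s z) z = 0 := by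
        intro k
        simp [Set.indicator, hw]
      simp [this, hw]
    · obtain ⟨p1, p2, p3, p4, p5⟩ := pos_of_geo hT hQt hs hw
      rw [tsum_eq_single _ (fun k hk => ?_), Set.indicator_of_mem (T.exists_shk p1 p2 p3 p4 p5)]
      apply Set.indicator_of_notMem
      intro hz
      exact hk (T.shk_unique hz)
  calc ∫⁻ z, T.w s z * G s z ∂T.m
      = ∫⁻ z, ∑' k, (T.shk k s).indicator (fun z => T.w s z * G s z) z ∂T.m :=
        lintegral_congr key
    _ = ∑' k, ∫⁻ z, (T.shk k s).indicator (fun z => T.w s z * G s z) z ∂T.m :=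
        lintegral_tsum fun k => (hms.indicator (measurableSet_shk_s hT k s)).aemeasurable
    _ = ∑' k, T.Is G k s := by
        congr 1
        funext k
        rw [lintegral_indicator (measurableSet_shk_s hT k s)]
        rfl

theorem measurable_Is {T : TD Z} {Tm P Qt : ℝ} (hT : T.Geo Tm P Qt)
    {G : ℝ → Z → ℝ≥0∞} (hG : Measurable (Function.uncurry G)) (k : KI) :
    Measurable (T.Is G k) := by
  have := hT.sf
  have h0 : Measurable fun x : ℝ × Z => T.w x.1 x.2 * G x.1 x.2 := hT.mw.mul hG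
  have h1 : Measurable ({x : ℝ × Z | x.2 ∈ T.shk k x.1}.indicator
      fun x : ℝ × Z => T.w x.1 x.2 * G x.1 x.2) := h0.indicator (measurableSet_shk hT k)
  have h2 := h1.lintegral_prod_right' (ν := T.m)
  have e : T.Is G k = fun s => ∫⁻ z, {x : ℝ × Z | x.2 ∈ T.shk k x.1}.indicator
      (fun x : ℝ × Z => T.w x.1 x.2 * G x.1 x.2) (s, z) ∂T.m := by
    funext s
    unfold Is
    rw [← lintegral_indicator (measurableSet_shk_s hT k s)]
    rfl
  rw [e]
  exact h2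

theorem measurable_Itot {T : TD Z} {Tm P Qt : ℝ} (hT : T.Geo Tm P Qt)
    {G : ℝ → Z → ℝ≥0∞} (hG : Measurable (Function.uncurry G)) :
    Measurable fun s => ∫⁻ z, T.w s z * G s z ∂T.m := by
  have := hT.sf
  have h0 : Measurable fun x : ℝ × Z => T.w x.1 x.2 * G x.1 x.2 := hT.mw.mul hG
  exact h0.lintegral_prod_right'

theorem lintegral_eq_tsum {T : TD Z} {Tm P Qt : ℝ} (hT : T.Geo Tm P Qt) (hQt : 0 < Qt)
    {G : ℝ → Z → ℝ≥0∞} (hG : Measurable (Function.uncurry G)) :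
    ∫⁻ s in Icc T.a T.b, ∫⁻ z, T.w s z * G s z ∂T.m = ∑' k, T.I G k := by
  calc ∫⁻ s in Icc T.a T.b, ∫⁻ z, T.w s z * G s z ∂T.m
      = ∫⁻ s in Icc T.a T.b, ∑' k, T.Is G k s :=
        setLIntegral_congr_fun measurableSet_Icc fun s hs => lintegral_eq_tsum_s hT hQt hG hs
    _ = ∑' k, T.I G k := lintegral_tsum fun k => (measurable_Is hT hG k).aemeasurable

/-- a point of the shell `k` that is seen and lies in the region `reg`. -/
def Act (T : TD Z) (reg : ℝ → Z → Prop) (k : KI) : Prop :=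
  ∃ s ∈ Icc T.a T.b, ∃ z ∈ T.shk k s, T.w s z ≠ 0 ∧ reg s z

theorem Is_le {T : TD Z} {Tm P Qt : ℝ} (hT : T.Geo Tm P Qt) {G : ℝ → Z → ℝ≥0∞} {k : KI}
    {c : ℝ≥0∞} {s : ℝ} (h : ∀ z ∈ T.shk k s, T.w s z ≠ 0 → G s z ≤ c) :
    T.Is G k s ≤ c * T.kap s (T.shk k s) := by
  unfold Is kap
  have hm : Measurable fun z : Z => T.w s z := hT.mw.comp (measurable_const.prodMk measurable_id)
  rw [← lintegral_const_mul c hm]
  refine setLIntegral_mono' (measurableSet_shk_s hT k s) fun z hz => ?_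
  by_cases hw : T.w s z = 0
  · simp [hw]
  · rw [mul_comm]
    gcongr
    exact h z hz hw

theorem I_le {T : TD Z} {Tm P Qt : ℝ} (hT : T.Geo Tm P Qt) {G : ℝ → Z → ℝ≥0∞} {k : KI}
    {c : ℝ≥0∞} (h : ∀ s ∈ Icc T.a T.b, ∀ z ∈ T.shk k s, T.w s z ≠ 0 → G s z ≤ c) :
    T.I G k ≤ c * T.nu (T.shk k) := by
  have hmk : Measurable fun s => T.kap s (T.shk k s) := by
    have h0 := measurable_Is hT (G := fun _ _ => 1) measurable_const k
    have e : (fun s => T.kap s (T.shk k s)) = T.Is (fun _ _ => 1) k := by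
      funext s
      simp [Is, kap]
    rw [e]
    exact h0
  unfold I nu
  rw [← lintegral_const_mul c hmk]
  exact setLIntegral_mono' measurableSet_Icc fun s hs => Is_le hT (h s hs)

theorem Is_eq_zero {T : TD Z} {Tm P Qt : ℝ} (hT : T.Geo Tm P Qt) {G : ℝ → Z → ℝ≥0∞} {k : KI}
    {s : ℝ} (h : ∀ z ∈ T.shk k s, T.w s z ≠ 0 → G s z = 0) : T.Is G k s = 0 := by
  have := Is_le hT (G := G) (c := 0) (s := s) (k := k) fun z hz hw => (h z hz hw).le
  simpa using this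

theorem I_eq_zero {T : TD Z} {Tm P Qt : ℝ} (hT : T.Geo Tm P Qt) {G : ℝ → Z → ℝ≥0∞} {k : KI}
    (h : ∀ s ∈ Icc T.a T.b, ∀ z ∈ T.shk k s, T.w s z ≠ 0 → G s z = 0) : T.I G k = 0 := by
  have := I_le hT (G := G) (c := 0) (k := k) fun s hs z hz hw => (h s hs z hz hw).le
  simpa using this

end TD

/-- sums over all shells from sums over finite sets. -/
theorem tsum_le_of_finset {ι : Type*} {x : ι → ℝ} (hx : ∀ k, 0 ≤ x k) {A : ι → Prop}
    [DecidablePred A] {B : ℝ}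
    (h : ∀ K : Finset ι, (∀ k ∈ K, A k) → ∑ k ∈ K, x k ≤ B) :
    ∑' k, (if A k then ENNReal.ofReal (x k) else 0) ≤ ENNReal.ofReal B := by
  rw [ENNReal.tsum_eq_iSup_sum]
  refine iSup_le fun K => ?_
  rw [← Finset.sum_filter, ← ENNReal.ofReal_sum_of_nonneg fun k _ => hx k]
  apply ENNReal.ofReal_le_ofReal
  apply h
  intro k hk
  exact (Finset.mem_filter.1 hk).2

end Crest.Agent.R106.Abs
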