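import Mathlib
import Crest.Prelude.Def_VecCalc3

/-!
Row 106, node BOOT: the bootstrap and the conclusion of note 12144 in abstract form.
A family of momenta `p ξ s`, `s ∈ [0,T)`, Lipschitz on compact subintervals uniformly in `ξ`,
bounded at `s = 0`; for every level `P ≥ P0` and every nominal energy `2 ^ j ∈ [P ^ 0.55, P]`
a nonnegative function `h P (2^j) ξ s` such that (as long as all energies are `≤ P` on `[0,t1]`)
* `hinc` : momentum increments are bounded by the integral of `h` plus `2 P^0.38`,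
* `hsmall` : the integral of `h` over very short intervals is small,
* `hcost` : hypothesis `Hyp t1` implies the improved bound `c1 2^j / 2`.
Conclusion: the momenta are bounded on `[0,T)`.
-/

set_option autoImplicit false

open MeasureTheory Set Filter
open scoped ENNReal Topology

namespace Crest.Agent.R106.Boot

open Crest.AnalysisR.VecCalc3

/-- The energy of a momentum. -/
noncomputable def en (v : R3) : ℝ := Real.sqrt (1 + ‖v‖ ^ 2)

lemma one_le_en (v : R3) : 1 ≤ en v := by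
  unfold en
  rw [Real.one_le_sqrt]
  nlinarith [sq_nonneg ‖v‖]

lemma norm_le_en (v : R3) : ‖v‖ ≤ en v := by
  unfold en
  apply Real.le_sqrt_of_sq_le
  linarith

lemma en_le (v : R3) : en v ≤ 1 + ‖v‖ := by
  unfold en
  rw [Real.sqrt_le_left (by positivity)]
  nlinarith [norm_nonneg v]

lemma en_sub_le (v w : R3) : |en v - en w| ≤ ‖v - w‖ := by
  have key : ∀ v w : R3, en v ≤ en w + ‖v - w‖ := by
    intro v w
    have h1 : ‖v‖ ≤ ‖w‖ + ‖v - w‖ := by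
      have := norm_add_le w (v - w)
      simpa using this
    have h2 : (en w) ^ 2 = 1 + ‖w‖ ^ 2 := by
      unfold en
      rw [Real.sq_sqrt (by positivity)]
    have h3 : ‖w‖ ≤ en w := norm_le_en w
    have h4 : 0 ≤ en w := le_trans zero_le_one (one_le_en w)
    have h5 : en v ^ 2 ≤ (en w + ‖v - w‖) ^ 2 := by
      have : en v ^ 2 = 1 + ‖v‖ ^ 2 := by
        unfold en
        rw [Real.sq_sqrt (by positivity)]
      rw [this]
      nlinarith [norm_nonneg v, norm_nonneg w, norm_nonneg (v - w)]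
    exact le_of_sq_le_sq h5 (by positivity)
  rw [abs_le]
  constructor
  · have := key w v
    rw [norm_sub_rev] at this
    linarith
  · have := key v w
    linarith

/-- Window length at level `P` for the nominal energy `Q`. -/
noncomputable def win (c0 P Q : ℝ) : ℝ := c0 * min ((Q / P) ^ 2) (Q / (P * Real.log P))

/-- All energies are `≤ P` up to time `t`. -/
def Below {Ξ : Type*} (p : Ξ → ℝ → R3) (P t : ℝ) : Prop :=
  ∀ ξ, ∀ s ∈ Icc 0 t, en (p ξ s) ≤ P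

/-- The bootstrap hypothesis `H(t1)` at level `P` (note 12142). -/
def Hyp {Ξ : Type*} (p : Ξ → ℝ → R3) (h : ℝ → ℝ → Ξ → ℝ → ℝ≥0∞) (c0 c1 P t1 : ℝ) : Prop :=
  ∀ j : ℕ, P ^ (0.55 : ℝ) ≤ 2 ^ j → (2 : ℝ) ^ j ≤ P → ∀ ξ : Ξ, ∀ a b : ℝ,
    0 ≤ a → a ≤ b → b ≤ t1 → b - a ≤ win c0 P (2 ^ j) →
    (∀ s ∈ Icc a b, (2 : ℝ) ^ j / 4 ≤ en (p ξ s) ∧ en (p ξ s) ≤ 4 * 2 ^ j) →
    ∫⁻ s in Icc a b, h P (2 ^ j) ξ s ≤ ENNReal.ofReal (c1 * 2 ^ j)

variable {Ξ : Type*} {p : Ξ → ℝ → R3} {h : ℝ → ℝ → Ξ → ℝ → ℝ≥0∞}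

lemma Below.mono {P t t' : ℝ} (hb : Below p P t) (htt : t' ≤ t) : Below p P t' :=
  fun ξ s hs => hb ξ s ⟨hs.1, hs.2.trans htt⟩

/-- The open-closed argument: the hypothesis holds up to every time before the level is passed. -/
lemma hyp_of_below {T c0 c1 P : ℝ} (hc1 : 0 ≤ c1) {t1 : ℝ} (ht1 : t1 ∈ Ico 0 T)
    (hb : Below p P t1)
    (hsmall : ∃ τ0 : ℝ, 0 < τ0 ∧ ∀ j : ℕ, P ^ (0.55 : ℝ) ≤ 2 ^ j → (2 : ℝ) ^ j ≤ P → ∀ ξ : Ξ,
      ∀ a b : ℝ, 0 ≤ a → a ≤ b → b ≤ t1 → b - a ≤ τ0 →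
      (∀ s ∈ Icc a b, (2 : ℝ) ^ j / 4 ≤ en (p ξ s) ∧ en (p ξ s) ≤ 4 * 2 ^ j) →
      ∫⁻ s in Icc a b, h P (2 ^ j) ξ s ≤ ENNReal.ofReal (c1 * 2 ^ j / 2))
    (hcost : ∀ t' ∈ Ico 0 T, Below p P t' → Hyp p h c0 c1 P t' →
      ∀ j : ℕ, P ^ (0.55 : ℝ) ≤ 2 ^ j → (2 : ℝ) ^ j ≤ P → ∀ ξ : Ξ, ∀ a b : ℝ,
      0 ≤ a → a ≤ b → b ≤ t' → b - a ≤ win c0 P (2 ^ j) →
      (∀ s ∈ Icc a b, (2 : ℝ) ^ j / 4 ≤ en (p ξ s) ∧ en (p ξ s) ≤ 4 * 2 ^ j) →
      ∫⁻ s in Icc a b, h P (2 ^ j) ξ s ≤ ENNReal.ofReal (c1 * 2 ^ j / 2)) :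
    Hyp p h c0 c1 P t1 := by
  obtain ⟨τ0, hτ0, hsm⟩ := hsmall
  have half : ∀ j : ℕ, ENNReal.ofReal (c1 * 2 ^ j / 2) ≤ ENNReal.ofReal (c1 * 2 ^ j) := by
    intro j
    apply ENNReal.ofReal_le_ofReal
    have : 0 ≤ c1 * 2 ^ j := by positivity
    linarith
  have key : ∀ n : ℕ, Hyp p h c0 c1 P (min (n * τ0) t1) := by
    intro n
    induction n with
    | zero =>
      intro j _ _ ξ a b ha hab hb' _ _
      have h1 : min ((0 : ℕ) * τ0) t1 ≤ 0 := by simp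
      have h2 : a = 0 := le_antisymm (hab.trans (hb'.trans h1)) ha
      have h3 : b = 0 := le_antisymm (hb'.trans h1) (ha.trans hab)
      subst h2; subst h3
      simp
    | succ n ih =>
      intro j hj1 hj2 ξ a b ha hab hb' hwin hen
      set t' := min (n * τ0) t1 with ht'
      have ht'0 : 0 ≤ t' := le_min (by positivity) ht1.1
      have ht't1 : t' ≤ t1 := min_le_right _ _
      have ht'T : t' ∈ Ico 0 T := ⟨ht'0, lt_of_le_of_lt ht't1 ht1.2⟩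
      have hbt1 : b ≤ t1 := hb'.trans (min_le_right _ _)
      have hbτ : b ≤ t' + τ0 := by
        rcases le_total ((n : ℝ) * τ0) t1 with hle | hle
        · have : t' = n * τ0 := min_eq_left hle
          rw [this]
          refine (hb'.trans (min_le_left _ _)).trans ?_
          push_cast
          linarith
        · have : t' = t1 := min_eq_right hle
          rw [this]
          linarith
      by_cases hbt : b ≤ t'
      · exact ih j hj1 hj2 ξ a b ha hab hbt hwin hen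
      push Not at hbt
      by_cases hat : a ≤ t'
      · have e1 : ∫⁻ s in Icc a t', h P (2 ^ j) ξ s ≤ ENNReal.ofReal (c1 * 2 ^ j / 2) :=
          hcost t' ht'T (hb.mono ht't1) ih j hj1 hj2 ξ a t' ha hat le_rfl
            (by linarith) (fun s hs => hen s ⟨hs.1, hs.2.trans hbt.le⟩)
        have e2 : ∫⁻ s in Icc t' b, h P (2 ^ j) ξ s ≤ ENNReal.ofReal (c1 * 2 ^ j / 2) :=
          hsm j hj1 hj2 ξ t' b ht'0 hbt.le hbt1 (by linarith)
            (fun s hs => hen s ⟨hat.trans hs.1, hs.2⟩)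
        calc ∫⁻ s in Icc a b, h P (2 ^ j) ξ s
            ≤ ∫⁻ s in Icc a t' ∪ Icc t' b, h P (2 ^ j) ξ s := by
              apply lintegral_mono_set
              intro s hs
              rcases le_total s t' with h1 | h1
              · exact Or.inl ⟨hs.1, h1⟩
              · exact Or.inr ⟨h1, hs.2⟩
          _ ≤ (∫⁻ s in Icc a t', h P (2 ^ j) ξ s) + ∫⁻ s in Icc t' b, h P (2 ^ j) ξ s :=
              lintegral_union_le _ _ _
          _ ≤ ENNReal.ofReal (c1 * 2 ^ j / 2) + ENNReal.ofReal (c1 * 2 ^ j / 2) :=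
              add_le_add e1 e2
          _ = ENNReal.ofReal (c1 * 2 ^ j) := by
              rw [← ENNReal.ofReal_add (by positivity) (by positivity)]
              congr 1
              ring
      · push Not at hat
        refine (hsm j hj1 hj2 ξ a b ha hab hbt1 (by linarith) hen).trans (half j)
  obtain ⟨n, hn⟩ := exists_nat_ge (t1 / τ0)
  have hn' : t1 ≤ n * τ0 := by
    rw [div_le_iff₀ hτ0] at hn
    exact hn
  have := key n
  rwa [min_eq_right hn'] at this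

/-- The energy before the passage time: it stays above `3P/4` on the whole window. -/
lemma passage {c0 c1 P : ℝ} (hc0 : 0 < c0) (hc1 : 0 ≤ c1) (hc1' : c1 ≤ 1 / 16) {t1 : ℝ}
    (hb : Below p P t1) (hH : Hyp p h c0 c1 P t1)
    (hcont : ∀ ξ, ContinuousOn (p ξ) (Icc 0 t1))
    (hinc : ∀ j : ℕ, P ^ (0.55 : ℝ) ≤ 2 ^ j → (2 : ℝ) ^ j ≤ P → ∀ ξ : Ξ,
      ∀ a b : ℝ, 0 ≤ a → a ≤ b → b ≤ t1 →
      (∀ s ∈ Icc a b, (2 : ℝ) ^ j / 4 ≤ en (p ξ s) ∧ en (p ξ s) ≤ 4 * 2 ^ j) →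
      ENNReal.ofReal ‖p ξ b - p ξ a‖
        ≤ (∫⁻ s in Icc a b, h P (2 ^ j) ξ s) + ENNReal.ofReal (2 * P ^ (0.38 : ℝ)))
    (hP16 : 16 ≤ P) (hP38 : 2 * P ^ (0.38 : ℝ) ≤ P / 16) (hP55 : P ^ (0.55 : ℝ) ≤ P / 2)
    (hlog : 1 ≤ Real.log P) {ξ : Ξ} (hξ : P - 1 ≤ en (p ξ t1)) :
    ∀ s ∈ Icc (max 0 (t1 - c0 / (4 * Real.log P))) t1, 3 * P / 4 < en (p ξ s) := by
  -- the dyadic nominal energy
  have hP0 : (0 : ℝ) < P := by linarith
  obtain ⟨j, hj1, hj2⟩ : ∃ j : ℕ, (2 : ℝ) ^ j ≤ P ∧ P < 2 ^ (j + 1) :=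
    exists_nat_pow_near (by linarith) (by norm_num)
  have hj2' : P / 2 < 2 ^ j := by
    rw [pow_succ] at hj2
    linarith
  set Q : ℝ := 2 ^ j with hQ
  have hQ0 : 0 < Q := by positivity
  have hwin : c0 / (4 * Real.log P) ≤ win c0 P Q := by
    unfold win
    have hL : 0 < Real.log P := by linarith
    rw [div_eq_mul_inv]
    apply mul_le_mul_of_nonneg_left _ hc0.le
    apply le_min
    · have h1 : 1 / 2 ≤ Q / P := by
        rw [le_div_iff₀ hP0]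
        linarith
      have h2 : (1 / 4 : ℝ) ≤ (Q / P) ^ 2 := by nlinarith
      have h3 : (4 * Real.log P)⁻¹ ≤ 1 / 4 := by
        rw [inv_eq_one_div]
        apply one_div_le_one_div_of_le (by norm_num)
        linarith
      linarith
    · have h1 : (1 / 4 : ℝ) ≤ Q / P := by
        rw [le_div_iff₀ hP0]
        linarith
      calc (4 * Real.log P)⁻¹ = (1 / 4) / Real.log P := by
            field_simp
        _ ≤ (Q / P) / Real.log P := by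
            apply div_le_div_of_nonneg_right h1 hL.le
        _ = Q / (P * Real.log P) := by
            field_simp
  set s0 := max 0 (t1 - c0 / (4 * Real.log P)) with hs0
  have hs00 : 0 ≤ s0 := le_max_left _ _
  have hs0w : t1 - s0 ≤ win c0 P Q := by
    have : t1 - c0 / (4 * Real.log P) ≤ s0 := le_max_right _ _
    linarith
  -- the main estimate on a good subinterval
  have good : ∀ s' ∈ Icc s0 t1, (∀ s ∈ Icc s' t1, 3 * P / 4 ≤ en (p ξ s)) →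
      7 * P / 8 - 1 ≤ en (p ξ s') := by
    intro s' hs' hen
    have hwd : ∀ s ∈ Icc s' t1, (2 : ℝ) ^ j / 4 ≤ en (p ξ s) ∧ en (p ξ s) ≤ 4 * 2 ^ j := by
      intro s hs
      have h1 := hen s hs
      have h2 := hb ξ s ⟨hs00.trans (hs'.1.trans hs.1), hs.2⟩
      constructor
      · linarith
      · linarith
    have h1 := hinc j (by linarith) hj1 ξ s' t1 (hs00.trans hs'.1) hs'.2 le_rfl hwd
    have h2 := hH j (by linarith) hj1 ξ s' t1 (hs00.trans hs'.1) hs'.2 le_rfl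
      (by linarith [hs'.1]) hwd
    have h3 : ENNReal.ofReal ‖p ξ t1 - p ξ s'‖ ≤ ENNReal.ofReal (P / 8) := by
      refine (h1.trans (add_le_add_left h2 _)).trans ?_
      rw [← ENNReal.ofReal_add (by positivity) (by positivity)]
      apply ENNReal.ofReal_le_ofReal
      have : c1 * 2 ^ j ≤ P / 16 := by
        calc c1 * 2 ^ j ≤ (1 / 16) * 2 ^ j := by
              apply mul_le_mul_of_nonneg_right hc1' (by positivity)
          _ ≤ P / 16 := by linarith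
      linarith
    have h4 : ‖p ξ t1 - p ξ s'‖ ≤ P / 8 := by
      rwa [ENNReal.ofReal_le_ofReal_iff (by positivity)] at h3
    have h5 := en_sub_le (p ξ t1) (p ξ s')
    rw [abs_le] at h5
    linarith [h5.2]
  -- last time with energy ≤ 3P/4
  by_contra hcon
  push Not at hcon
  obtain ⟨s1, hs1, hs1e⟩ := hcon
  have henc : ContinuousOn (fun s => en (p ξ s)) (Icc s0 t1) := by
    have : ContinuousOn (p ξ) (Icc s0 t1) := (hcont ξ).mono (Icc_subset_Icc_left hs00)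
    unfold en
    exact (continuousOn_const.add (this.norm.pow 2)).sqrt
  set S : Set ℝ := {s | s ∈ Icc s0 t1 ∧ en (p ξ s) ≤ 3 * P / 4} with hS
  have hSc : IsCompact S := by
    have : S = Icc s0 t1 ∩ (fun s => en (p ξ s)) ⁻¹' Iic (3 * P / 4) := by
      ext s
      simp [hS]
    rw [this]
    exact isCompact_Icc.of_isClosed_subset
      (henc.preimage_isClosed_of_isClosed isClosed_Icc isClosed_Iic) inter_subset_left
  obtain ⟨σ, hσ, hσmax⟩ := hSc.exists_isGreatest ⟨s1, hs1, hs1e⟩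
  have hσt : σ < t1 := by
    rcases lt_or_eq_of_le hσ.1.2 with h1 | h1
    · exact h1
    · exfalso
      have := hσ.2
      rw [h1] at this
      linarith
  have hgt : ∀ s' ∈ Ioc σ t1, 7 * P / 8 - 1 ≤ en (p ξ s') := by
    intro s' hs'
    refine good s' ⟨hσ.1.1.trans hs'.1.le, hs'.2⟩ ?_
    intro s hs
    by_contra hc
    push Not at hc
    have : s ≤ σ := hσmax ⟨⟨hσ.1.1.trans (hs'.1.le.trans hs.1), hs.2⟩, hc.le⟩
    linarith [hs.1, hs'.1]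
  have hlim : Tendsto (fun s => en (p ξ s)) (𝓝[Ioc σ t1] σ) (𝓝 (en (p ξ σ))) := by
    have := henc σ hσ.1
    exact this.mono_left (nhdsWithin_mono _ (fun s hs => ⟨hσ.1.1.trans hs.1.le, hs.2⟩))
  have hne : (𝓝[Ioc σ t1] σ).NeBot := by
    rw [nhdsWithin_Ioc_eq_nhdsGT hσt]
    infer_instance
  have h7 : 7 * P / 8 - 1 ≤ en (p ξ σ) := by
    apply ge_of_tendsto hlim
    filter_upwards [self_mem_nhdsWithin] with s hs using hgt s hs
  have h8 := hσ.2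
  linarith

lemma rpow_le_eps {a ε : ℝ} (ha : a < 1) (hε : 0 < ε) :
    ∀ᶠ P : ℝ in atTop, P ^ a ≤ ε * P := by
  have h1 := (tendsto_rpow_atTop (show 0 < 1 - a by linarith)).eventually
    (eventually_ge_atTop (1 / ε))
  filter_upwards [h1, eventually_ge_atTop (1 : ℝ)] with P h2 h3
  have h4 : P ^ a * P ^ (1 - a) = P := by
    rw [← Real.rpow_add (by linarith)]
    simp
  have h5 : 0 < P ^ a := Real.rpow_pos_of_pos (by linarith) _
  have h6 : P ^ a * (1 / ε) ≤ P := by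
    calc P ^ a * (1 / ε) ≤ P ^ a * P ^ (1 - a) := mul_le_mul_of_nonneg_left h2 h5.le
      _ = P := h4
  calc P ^ a = ε * (P ^ a * (1 / ε)) := by field_simp
    _ ≤ ε * P := mul_le_mul_of_nonneg_left h6 hε.le

/-- Large levels (depending only on `P0`, `M0`). -/
lemma exists_level (P0 M0 : ℝ) : ∃ P1 : ℝ, ∀ P : ℝ, P1 ≤ P → P0 ≤ P ∧ 16 ≤ P ∧
    2 * P ^ (0.38 : ℝ) ≤ P / 16 ∧ P ^ (0.55 : ℝ) ≤ P / 2 ∧ 1 ≤ Real.log P ∧
    2 + M0 < 3 * P / 4 := by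
  have e1 : ∀ᶠ P : ℝ in atTop, 2 * P ^ (0.38 : ℝ) ≤ P / 16 := by
    filter_upwards [rpow_le_eps (show (0.38 : ℝ) < 1 by norm_num)
      (show (0 : ℝ) < 1 / 32 by norm_num)] with P h1
    linarith
  have e2 : ∀ᶠ P : ℝ in atTop, P ^ (0.55 : ℝ) ≤ P / 2 := by
    filter_upwards [rpow_le_eps (show (0.55 : ℝ) < 1 by norm_num)
      (show (0 : ℝ) < 1 / 2 by norm_num)] with P h1
    linarith
  have e3 : ∀ᶠ P : ℝ in atTop, 1 ≤ Real.log P :=
    Real.tendsto_log_atTop.eventually (eventually_ge_atTop 1)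
  have e4 : ∀ᶠ P : ℝ in atTop, 2 + M0 < 3 * P / 4 := by
    filter_upwards [eventually_gt_atTop ((2 + M0) * 4 / 3)] with P hP
    linarith
  have := (((((eventually_ge_atTop P0).and (eventually_ge_atTop (16 : ℝ))).and e1).and e2).and
    e3).and e4
  obtain ⟨P1, h1⟩ := eventually_atTop.mp this
  refine ⟨P1, fun P hP => ?_⟩
  obtain ⟨⟨⟨⟨⟨a1, a2⟩, a3⟩, a4⟩, a5⟩, a6⟩ := h1 P hP
  exact ⟨a1, a2, a3, a4, a5, a6⟩

/-- **BOOT, uniform version.** Bootstrap and conclusion of 12144; the bound depends only on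
`T, c0, P0, M0` (not on the solution, not on its life span `T' ≤ T`). -/
theorem boot_unif (T c0 c1 P0 M0 : ℝ) (hc0 : 0 < c0) (hc1 : 0 ≤ c1) (hc1' : c1 ≤ 1 / 16) :
    ∃ M : ℝ, ∀ (Ξ : Type) (p : Ξ → ℝ → R3) (h : ℝ → ℝ → Ξ → ℝ → ℝ≥0∞) (T' : ℝ), T' ≤ T →
    (∀ t < T', ∃ C : ℝ, ∀ ξ : Ξ, ∀ s ∈ Icc 0 t, ∀ s' ∈ Icc 0 t,
      ‖p ξ s - p ξ s'‖ ≤ C * |s - s'|) →
    (∀ ξ : Ξ, ‖p ξ 0‖ ≤ M0) →
    (∀ P : ℝ, P0 ≤ P → ∀ t1 ∈ Ico 0 T', Below p P t1 →
      ∀ j : ℕ, P ^ (0.55 : ℝ) ≤ 2 ^ j → (2 : ℝ) ^ j ≤ P → ∀ ξ : Ξ,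
      ∀ a b : ℝ, 0 ≤ a → a ≤ b → b ≤ t1 →
      (∀ s ∈ Icc a b, (2 : ℝ) ^ j / 4 ≤ en (p ξ s) ∧ en (p ξ s) ≤ 4 * 2 ^ j) →
      ENNReal.ofReal ‖p ξ b - p ξ a‖
        ≤ (∫⁻ s in Icc a b, h P (2 ^ j) ξ s) + ENNReal.ofReal (2 * P ^ (0.38 : ℝ))) →
    (∀ P : ℝ, P0 ≤ P → ∀ t1 ∈ Ico 0 T', Below p P t1 →
      ∃ τ0 : ℝ, 0 < τ0 ∧ ∀ j : ℕ, P ^ (0.55 : ℝ) ≤ 2 ^ j → (2 : ℝ) ^ j ≤ P → ∀ ξ : Ξ,
      ∀ a b : ℝ, 0 ≤ a → a ≤ b → b ≤ t1 → b - a ≤ τ0 →
      (∀ s ∈ Icc a b, (2 : ℝ) ^ j / 4 ≤ en (p ξ s) ∧ en (p ξ s) ≤ 4 * 2 ^ j) →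
      ∫⁻ s in Icc a b, h P (2 ^ j) ξ s ≤ ENNReal.ofReal (c1 * 2 ^ j / 2)) →
    (∀ P : ℝ, P0 ≤ P → ∀ t1 ∈ Ico 0 T', Below p P t1 → Hyp p h c0 c1 P t1 →
      ∀ j : ℕ, P ^ (0.55 : ℝ) ≤ 2 ^ j → (2 : ℝ) ^ j ≤ P → ∀ ξ : Ξ, ∀ a b : ℝ,
      0 ≤ a → a ≤ b → b ≤ t1 → b - a ≤ win c0 P (2 ^ j) →
      (∀ s ∈ Icc a b, (2 : ℝ) ^ j / 4 ≤ en (p ξ s) ∧ en (p ξ s) ≤ 4 * 2 ^ j) →
      ∫⁻ s in Icc a b, h P (2 ^ j) ξ s ≤ ENNReal.ofReal (c1 * 2 ^ j / 2)) →
    ∀ ξ : Ξ, ∀ s ∈ Ico 0 T', ‖p ξ s‖ ≤ M := by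
  obtain ⟨P1, hP1⟩ := exists_level P0 M0
  -- summation: the number of levels
  set B : ℝ := max P1 16 with hB
  have hB1 : P1 ≤ B := le_max_left _ _
  have hB16 : 16 ≤ B := le_max_right _ _
  have hPk : ∀ k : ℕ, B ≤ B * (4 / 3 : ℝ) ^ k := by
    intro k
    have : (1 : ℝ) ≤ (4 / 3 : ℝ) ^ k := one_le_pow₀ (by norm_num)
    nlinarith
  set lam : ℝ := Real.log B + Real.log (4 / 3) with hlam
  have hlogB : 1 ≤ Real.log B := (hP1 B hB1).2.2.2.2.1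
  have hl43 : 0 < Real.log (4 / 3) := Real.log_pos (by norm_num)
  have hlog : ∀ k : ℕ, Real.log (B * (4 / 3 : ℝ) ^ (k + 1)) ≤ (k + 1) * lam := by
    intro k
    rw [Real.log_mul (by linarith) (by positivity), Real.log_pow]
    push_cast
    rw [hlam]
    have : 0 ≤ (k : ℝ) * Real.log B := by positivity
    nlinarith
  have hdiv := Real.tendsto_sum_range_one_div_nat_succ_atTop
  have hpos : 0 < c0 / (4 * lam) := by positivity
  obtain ⟨N, hN⟩ := (hdiv.eventually (eventually_gt_atTop (T / (c0 / (4 * lam))))).exists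
  rw [div_lt_iff₀ hpos] at hN
  refine ⟨B * (4 / 3 : ℝ) ^ N, ?_⟩
  intro Ξ p h T' hT'T hLip hM0 hinc hsmall hcost
  by_contra hcon
  push Not at hcon
  obtain ⟨ξN, sN, hsN, hsN'⟩ := hcon
  set PN : ℝ := B * (4 / 3 : ℝ) ^ N with hPN
  have hT : 0 < T' := lt_of_le_of_lt hsN.1 hsN.2
  have hunb : ∀ P, P ≤ PN → ∃ ξ s, s ∈ Ico 0 T' ∧ P < ‖p ξ s‖ :=
    fun P hP => ⟨ξN, sN, hsN, lt_of_le_of_lt hP hsN'⟩
  have hcontT : ∀ t < T', ∀ ξ, ContinuousOn (p ξ) (Icc 0 t) := by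
    intro t ht ξ
    obtain ⟨C, hC⟩ := hLip t ht
    have : LipschitzOnWith (Real.toNNReal C) (p ξ) (Icc 0 t) := by
      apply LipschitzOnWith.of_dist_le_mul
      intro s hs s' hs'
      rw [dist_eq_norm, Real.dist_eq]
      refine (hC ξ s hs s' hs').trans ?_
      apply mul_le_mul_of_nonneg_right (Real.le_coe_toNNReal C) (abs_nonneg _)
    exact this.continuousOn
  -- passage times
  set A : ℝ → Set ℝ := fun P => {t | t ∈ Ico 0 T' ∧ Below p P t} with hA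
  set tt : ℝ → ℝ := fun P => sSup (A P) with htt
  have hAbdd : ∀ P, BddAbove (A P) := fun P => ⟨T', fun t ht => ht.1.2.le⟩
  have hA0 : ∀ P, 1 + M0 ≤ P → (0 : ℝ) ∈ A P := by
    intro P hPM
    refine ⟨⟨le_rfl, hT⟩, ?_⟩
    intro ξ s hs
    have : s = 0 := le_antisymm hs.2 hs.1
    subst this
    exact (en_le _).trans (by linarith [hM0 ξ])
  have httT : ∀ P, P1 ≤ P → P ≤ PN → tt P < T' := by
    intro P hP hPN'
    obtain ⟨_, _, _, _, _, b6⟩ := hP1 P hP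
    obtain ⟨ξ, s, hs, hsP⟩ := hunb P hPN'
    refine lt_of_le_of_lt ?_ hs.2
    apply csSup_le ⟨0, hA0 P (by linarith)⟩
    intro t ht
    by_contra hc
    push Not at hc
    have := ht.2 ξ s ⟨hs.1, hc.le⟩
    have := norm_le_en (p ξ s)
    linarith
  have htt0 : ∀ P, P1 ≤ P → 0 ≤ tt P := by
    intro P hP
    obtain ⟨_, _, _, _, _, b6⟩ := hP1 P hP
    exact le_csSup (hAbdd P) (hA0 P (by linarith))
  have hbelow : ∀ P, P1 ≤ P → P ≤ PN → Below p P (tt P) := by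
    intro P hP hPN' ξ s hs
    obtain ⟨_, _, _, _, _, b6⟩ := hP1 P hP
    have hne : (A P).Nonempty := ⟨0, hA0 P (by linarith)⟩
    have hlt : ∀ s', 0 ≤ s' → s' < tt P → en (p ξ s') ≤ P := by
      intro s' hs'0 hs'
      obtain ⟨t, ht, hst⟩ := exists_lt_of_lt_csSup hne hs'
      exact ht.2 ξ s' ⟨hs'0, hst.le⟩
    rcases lt_or_eq_of_le hs.2 with h1 | h1
    · exact hlt s hs.1 h1
    · rcases lt_or_eq_of_le hs.1 with h2 | h2
      · have hc : ContinuousOn (fun s => en (p ξ s)) (Icc 0 s) := by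
          have : ContinuousOn (p ξ) (Icc 0 s) :=
            hcontT s (by rw [h1]; exact httT P hP hPN') ξ
          unfold en
          exact (continuousOn_const.add (this.norm.pow 2)).sqrt
        have hlim : Tendsto (fun s => en (p ξ s)) (𝓝[Ico 0 s] s) (𝓝 (en (p ξ s))) :=
          (hc s ⟨hs.1, le_rfl⟩).mono_left (nhdsWithin_mono _ Ico_subset_Icc_self)
        have hne : (𝓝[Ico 0 s] s).NeBot := by
          rw [nhdsWithin_Ico_eq_nhdsLT h2]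
          infer_instance
        apply le_of_tendsto hlim
        filter_upwards [self_mem_nhdsWithin] with s' hs'
        exact hlt s' hs'.1 (by rw [← h1]; exact hs'.2)
      · have := (hA0 P (by linarith)).2 ξ 0 ⟨le_rfl, le_rfl⟩
        rw [← h2]
        exact this
  -- one step
  have hstep : ∀ P, P1 ≤ P → P ≤ PN → tt (3 * P / 4) ≤ tt P - c0 / (4 * Real.log P) := by
    intro P hP hPN'
    obtain ⟨b1, b2, b3, b4, b5, b6⟩ := hP1 P hP
    have httT := httT P hP hPN'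
    have htt0' := htt0 P hP
    obtain ⟨ξ, hξ⟩ : ∃ ξ, P - 1 ≤ en (p ξ (tt P)) := by
      obtain ⟨C, hC⟩ := hLip ((tt P + T') / 2) (by linarith)
      set C' := max C 1 with hC'
      have hC'1 : 1 ≤ C' := le_max_right _ _
      set η := min ((T' - tt P) / 2) (1 / C') with hη
      have hη0 : 0 < η := lt_min (by linarith) (by positivity)
      have hη1 : η ≤ (T' - tt P) / 2 := min_le_left _ _
      have hη2 : C' * η ≤ 1 := by
        calc C' * η ≤ C' * (1 / C') := mul_le_mul_of_nonneg_left (min_le_right _ _) (by positivity)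
          _ = 1 := by field_simp
      have hnot : ¬ Below p P (tt P + η) := by
        intro hb
        have : tt P + η ∈ A P := ⟨⟨by linarith, by linarith⟩, hb⟩
        have := le_csSup (hAbdd P) this
        have h2 : tt P = sSup (A P) := rfl
        linarith
      unfold Below at hnot
      push Not at hnot
      obtain ⟨ξ, s, hs, hsP⟩ := hnot
      have hs2 : tt P < s := by
        by_contra hc
        push Not at hc
        have := hbelow P hP hPN' ξ s ⟨hs.1, hc⟩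
        linarith
      refine ⟨ξ, ?_⟩
      have h3 := hC ξ s ⟨hs.1, by linarith [hs.2]⟩ (tt P) ⟨htt0', by linarith⟩
      have h4 := en_sub_le (p ξ s) (p ξ (tt P))
      rw [abs_le] at h4
      have h5 : C * |s - tt P| ≤ 1 := by
        rw [abs_of_pos (by linarith)]
        calc C * (s - tt P) ≤ C' * (s - tt P) :=
              mul_le_mul_of_nonneg_right (le_max_left _ _) (by linarith)
          _ ≤ C' * η := mul_le_mul_of_nonneg_left (by linarith [hs.2]) (by positivity)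
          _ ≤ 1 := hη2
      linarith [h4.2]
    have hbel := hbelow P hP hPN'
    have hH : Hyp p h c0 c1 P (tt P) :=
      hyp_of_below hc1 ⟨htt0', httT⟩ hbel
        (hsmall P b1 (tt P) ⟨htt0', httT⟩ hbel)
        (fun t' ht' hb' hH' => hcost P b1 t' ht' hb' hH')
    have hpass := passage hc0 hc1 hc1' hbel hH (hcontT _ httT)
      (hinc P b1 (tt P) ⟨htt0', httT⟩ hbel) b2 b3 b4 b5 hξ
    have hge : 0 ≤ tt P - c0 / (4 * Real.log P) := by
      by_contra hc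
      push Not at hc
      have h1 := hpass 0 ⟨by rw [max_eq_left hc.le], htt0'⟩
      have h2 := en_le (p ξ 0)
      linarith [hM0 ξ]
    have hℓ : 0 ≤ c0 / (4 * Real.log P) := by positivity
    apply csSup_le ⟨0, hA0 (3 * P / 4) (by linarith)⟩
    intro t ht
    by_contra hc
    push Not at hc
    have h1 := hpass (tt P - c0 / (4 * Real.log P)) ⟨by rw [max_eq_right hge], by linarith⟩
    have h2 := ht.2 ξ (tt P - c0 / (4 * Real.log P)) ⟨hge, hc.le⟩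
    linarith
  have hPkN : ∀ k : ℕ, k ≤ N → B * (4 / 3 : ℝ) ^ k ≤ PN := by
    intro k hk
    apply mul_le_mul_of_nonneg_left _ (by linarith)
    exact pow_le_pow_right₀ (by norm_num) hk
  have hsum : ∀ n : ℕ, n ≤ N → (c0 / (4 * lam)) * ∑ k ∈ Finset.range n, (1 : ℝ) / (k + 1)
      ≤ tt (B * (4 / 3 : ℝ) ^ n) := by
    intro n
    induction n with
    | zero =>
      intro _
      simp only [Finset.range_zero, Finset.sum_empty, mul_zero, pow_zero, mul_one]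
      exact htt0 B hB1
    | succ n ih =>
      intro hnN
      have ih := ih (by omega)
      rw [Finset.sum_range_succ, mul_add]
      have h1 := hstep (B * (4 / 3 : ℝ) ^ (n + 1)) (hB1.trans (hPk _)) (hPkN _ hnN)
      have h2 : 3 * (B * (4 / 3 : ℝ) ^ (n + 1)) / 4 = B * (4 / 3 : ℝ) ^ n := by
        rw [pow_succ]
        ring
      rw [h2] at h1
      have h3 : c0 / (4 * lam) * (1 / ((n : ℝ) + 1))
          ≤ c0 / (4 * Real.log (B * (4 / 3 : ℝ) ^ (n + 1))) := by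
        have hL : 0 < Real.log (B * (4 / 3 : ℝ) ^ (n + 1)) := by
          have := (hP1 (B * (4 / 3 : ℝ) ^ (n + 1)) (hB1.trans (hPk _))).2.2.2.2.1
          linarith
        rw [div_mul_div_comm, mul_one]
        apply div_le_div_of_nonneg_left hc0.le (by positivity)
        have := hlog n
        nlinarith
      linarith
  have h1 := hsum N le_rfl
  have h2 := httT PN (hB1.trans (hPk _)) le_rfl
  rw [← hPN] at h1
  linarith

/-- **BOOT.** Bootstrap and conclusion of 12144, for one solution. -/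
theorem boot {Ξ : Type} {p : Ξ → ℝ → R3} {h : ℝ → ℝ → Ξ → ℝ → ℝ≥0∞}
    {T c0 c1 P0 : ℝ} (hc0 : 0 < c0) (hc1 : 0 ≤ c1) (hc1' : c1 ≤ 1 / 16)
    (hLip : ∀ t < T, ∃ C : ℝ, ∀ ξ : Ξ, ∀ s ∈ Icc 0 t, ∀ s' ∈ Icc 0 t,
      ‖p ξ s - p ξ s'‖ ≤ C * |s - s'|)
    (hinit : ∃ M0 : ℝ, ∀ ξ : Ξ, ‖p ξ 0‖ ≤ M0)
    (hinc : ∀ P : ℝ, P0 ≤ P → ∀ t1 ∈ Ico 0 T, Below p P t1 →
      ∀ j : ℕ, P ^ (0.55 : ℝ) ≤ 2 ^ j → (2 : ℝ) ^ j ≤ P → ∀ ξ : Ξ,
      ∀ a b : ℝ, 0 ≤ a → a ≤ b → b ≤ t1 →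
      (∀ s ∈ Icc a b, (2 : ℝ) ^ j / 4 ≤ en (p ξ s) ∧ en (p ξ s) ≤ 4 * 2 ^ j) →
      ENNReal.ofReal ‖p ξ b - p ξ a‖
        ≤ (∫⁻ s in Icc a b, h P (2 ^ j) ξ s) + ENNReal.ofReal (2 * P ^ (0.38 : ℝ)))
    (hsmall : ∀ P : ℝ, P0 ≤ P → ∀ t1 ∈ Ico 0 T, Below p P t1 →
      ∃ τ0 : ℝ, 0 < τ0 ∧ ∀ j : ℕ, P ^ (0.55 : ℝ) ≤ 2 ^ j → (2 : ℝ) ^ j ≤ P → ∀ ξ : Ξ,
      ∀ a b : ℝ, 0 ≤ a → a ≤ b → b ≤ t1 → b - a ≤ τ0 →
      (∀ s ∈ Icc a b, (2 : ℝ) ^ j / 4 ≤ en (p ξ s) ∧ en (p ξ s) ≤ 4 * 2 ^ j) →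
      ∫⁻ s in Icc a b, h P (2 ^ j) ξ s ≤ ENNReal.ofReal (c1 * 2 ^ j / 2))
    (hcost : ∀ P : ℝ, P0 ≤ P → ∀ t1 ∈ Ico 0 T, Below p P t1 → Hyp p h c0 c1 P t1 →
      ∀ j : ℕ, P ^ (0.55 : ℝ) ≤ 2 ^ j → (2 : ℝ) ^ j ≤ P → ∀ ξ : Ξ, ∀ a b : ℝ,
      0 ≤ a → a ≤ b → b ≤ t1 → b - a ≤ win c0 P (2 ^ j) →
      (∀ s ∈ Icc a b, (2 : ℝ) ^ j / 4 ≤ en (p ξ s) ∧ en (p ξ s) ≤ 4 * 2 ^ j) →
      ∫⁻ s in Icc a b, h P (2 ^ j) ξ s ≤ ENNReal.ofReal (c1 * 2 ^ j / 2)) :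
    ∃ M : ℝ, ∀ ξ : Ξ, ∀ s ∈ Ico 0 T, ‖p ξ s‖ ≤ M := by
  obtain ⟨M0, hM0⟩ := hinit
  obtain ⟨M, hM⟩ := boot_unif T c0 c1 P0 M0 hc0 hc1 hc1'
  exact ⟨M, hM Ξ p h T le_rfl hLip hM0 hinc hsmall hcost⟩

end Crest.Agent.R106.Boot
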