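/-
Row 106, NEW PART, measure level: shared vocabulary (helper268).
Everything is in PHASE-SPACE FORM on the backward cone of a test particle:
for a test characteristic (X, p) and a time s, the sources are the points q = (y, w) in R3 x R3
with |X s - y| < s, seen at the retarded time tau = s - |X s - y|, with weight
f (s - |X s - y|) y w  dy dw  (measure kap).
-/
import Mathlib
import Crest.Prelude.Def_VlasovMaxwell
import Crest.Agent.R106.GSRDefs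

set_option autoImplicit false

open MeasureTheory Set Filter Topology
open Crest.AnalysisR.VecCalc3 Crest.AnalysisR.PDE.RVM
open scoped InnerProductSpace ENNReal ContDiff

noncomputable section

namespace Crest.Agent.R106.Mom

open Crest.Agent.R106.GSR (gam acc lor)

/-! ### geometry of a pair (test particle at time `s`, source point `y`, source momentum `w`) -/

/-- distance from the test particle to the source point -/
def Rr (X : ℝ → R3) (s : ℝ) (y : R3) : ℝ := ‖X s - y‖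

/-- retarded time -/
def ret (X : ℝ → R3) (s : ℝ) (y : R3) : ℝ := s - ‖X s - y‖

/-- unit vector from the source point to the test particle -/
def nn (X : ℝ → R3) (s : ℝ) (y : R3) : R3 := ‖X s - y‖⁻¹ • (X s - y)

/-- `δ = 1 - n·V` -/
def dl (X p : ℝ → R3) (s : ℝ) (y : R3) : ℝ := 1 - ⟪nn X s y, relVel (p s)⟫_ℝ

/-- `ε = 1 - n·v` -/
def ep (X : ℝ → R3) (s : ℝ) (y w : R3) : ℝ := 1 - ⟪nn X s y, relVel w⟫_ℝ

/-- `D = 1 - V·v` -/
def Dd (p : ℝ → R3) (s : ℝ) (w : R3) : ℝ := 1 - ⟪relVel (p s), relVel w⟫_ℝ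

/-! ### scalar kernels; arguments: `d = δ`, `e = ε`, `D`, `g = γ` (source), `G = Γ` (test), `R` -/

def kT (d e g R : ℝ) : ℝ := (e + √(d * e)) / (g ^ 2 * e ^ 2 * R ^ 2)
def kS (d e g R : ℝ) : ℝ := √d / (g * e * R)
def kGam (d e G R : ℝ) : ℝ := (d + √(d * e)) / (G ^ 2 * d ^ 2 * R ^ 2)
def kC (d e G R : ℝ) : ℝ := √e / (G * d * R)
def kG (d e R : ℝ) : ℝ := √(e / d) / R
def kcut (d e D R : ℝ) : ℝ := √(D / min d e) / R ^ 2

/-- E-region = support of `1 - χ` (closed form) -/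
def regE (lam Qs d e g : ℝ) : Prop := g ≤ 2 * Qs ∨ lam * d ^ 2 / 2 ≤ e
/-- C-region = support of `χ` -/
def regC (lam Qs d e g : ℝ) : Prop := Qs ≤ g ∧ e ≤ 2 * lam * d ^ 2
/-- border = support of the derivative of the first cut-off -/
def regB (lam Qs d e g : ℝ) : Prop := Qs ≤ g ∧ lam * d ^ 2 / 2 ≤ e ∧ e ≤ 2 * lam * d ^ 2

/-! ### the cone measure -/

/-- `f dy dw` on the backward cone of `(s, X s)` -/
def kap (f : ℝ → R3 → R3 → ℝ) (X : ℝ → R3) (s : ℝ) : Measure (R3 × R3) :=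
  (volume.restrict (Metric.ball (X s) s ×ˢ (univ : Set R3))).withDensity
    (fun q => ENNReal.ofReal (f (ret X s q.1) q.1 q.2))

/-- `|F|` of the source -/
def Fsrc (E B : ℝ → R3 → R3) (X : ℝ → R3) (s : ℝ) (q : R3 × R3) : ℝ :=
  ‖lor E B (ret X s q.1) q.1 q.2‖

/-- `|F_t|` of the test particle -/
def Ftest (E B : ℝ → R3 → R3) (X p : ℝ → R3) (s : ℝ) : ℝ := ‖lor E B s (X s) (p s)‖

open Classical in
/-- integrand of `h` (12141) -/
def hden (E B : ℝ → R3 → R3) (lam Qs : ℝ) (X p : ℝ → R3) (s : ℝ) (q : R3 × R3) : ℝ :=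
  (if regE lam Qs (dl X p s q.1) (ep X s q.1 q.2) (gam q.2) then
      kT (dl X p s q.1) (ep X s q.1 q.2) (gam q.2) (Rr X s q.1)
        + kS (dl X p s q.1) (ep X s q.1 q.2) (gam q.2) (Rr X s q.1) * Fsrc E B X s q else 0)
  + (if regC lam Qs (dl X p s q.1) (ep X s q.1 q.2) (gam q.2) then
      kGam (dl X p s q.1) (ep X s q.1 q.2) (gam (p s)) (Rr X s q.1)
        + kC (dl X p s q.1) (ep X s q.1 q.2) (gam (p s)) (Rr X s q.1) * Ftest E B X p s else 0)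
  + (if regB lam Qs (dl X p s q.1) (ep X s q.1 q.2) (gam q.2) then
      kcut (dl X p s q.1) (ep X s q.1 q.2) (Dd p s q.2) (Rr X s q.1) else 0)

open Classical in
/-- integrand of `b` -/
def bden (lam Qs : ℝ) (X p : ℝ → R3) (s : ℝ) (q : R3 × R3) : ℝ :=
  if regC lam Qs (dl X p s q.1) (ep X s q.1 q.2) (gam q.2) then
    kG (dl X p s q.1) (ep X s q.1 q.2) (Rr X s q.1) else 0

/-- `h(s) = 1 + ∫_{C(s)} f hden` (without the constant `C`) -/
def hh (f : ℝ → R3 → R3 → ℝ) (E B : ℝ → R3 → R3) (lam Qs : ℝ) (X p : ℝ → R3) (s : ℝ) : ℝ≥0∞ :=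
  1 + ∫⁻ q, ENNReal.ofReal (hden E B lam Qs X p s q) ∂(kap f X s)

/-- `b(s)` (without the constant `C`) -/
def bb (f : ℝ → R3 → R3 → ℝ) (lam Qs : ℝ) (X p : ℝ → R3) (s : ℝ) : ℝ≥0∞ :=
  ∫⁻ q, ENNReal.ofReal (bden lam Qs X p s q) ∂(kap f X s)

/-! ### solutions and characteristics -/

/-- the class of the new part: a classical solution on `[0,T)`, smooth on the open set `t < T`
(DECISION 3 of helper124; class of `Glue1`). -/
structure SmoothSol (T : ℝ) (f₀ : R3 → R3 → ℝ) (E₀ B₀ : R3 → R3)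
    (f : ℝ → R3 → R3 → ℝ) (E B : ℝ → R3 → R3) : Prop where
  T_pos : 0 < T
  adm : IsAdmissibleDatum f₀ E₀ B₀
  sol : IsClassicalSolutionOn T f₀ E₀ B₀ f E B
  smf : ContDiffOn ℝ ∞ (fun p : ℝ × R3 × R3 => f p.1 p.2.1 p.2.2) (Set.Iio T ×ˢ Set.univ)
  smE : ContDiffOn ℝ ∞ (fun p : ℝ × R3 => E p.1 p.2) (Set.Iio T ×ˢ Set.univ)
  smB : ContDiffOn ℝ ∞ (fun p : ℝ × R3 => B p.1 p.2) (Set.Iio T ×ˢ Set.univ)

/-- `(X, p)` is a characteristic on `[0,T)` that starts in the support of `f` -/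
structure IsChar (T : ℝ) (f : ℝ → R3 → R3 → ℝ) (E B : ℝ → R3 → R3) (X p : ℝ → R3) : Prop where
  cX : ContinuousOn X (Ico 0 T)
  cp : ContinuousOn p (Ico 0 T)
  dX : ∀ s ∈ Ioo 0 T, HasDerivAt X (relVel (p s)) s
  dp : ∀ s ∈ Ioo 0 T, HasDerivAt p (lor E B s (X s) (p s)) s
  supp : f 0 (X 0) (p 0) ≠ 0

/-- the type of all characteristics starting in the support -/
def Chr (T : ℝ) (f : ℝ → R3 → R3 → ℝ) (E B : ℝ → R3 → R3) : Type :=
  {ξ : (ℝ → R3) × (ℝ → R3) // IsChar T f E B ξ.1 ξ.2}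

/-- momentum of a characteristic (the `p` of `Boot`) -/
def mom {T : ℝ} {f : ℝ → R3 → R3 → ℝ} {E B : ℝ → R3 → R3} (ξ : Chr T f E B) : ℝ → R3 := ξ.1.2

/-- good part of the field on the backward cone: `K_g² = E_n² + B_n² + |B_⊥ - n × E|²` -/
def Kg (E B : ℝ → R3 → R3) (X : ℝ → R3) (s : ℝ) (y : R3) : ℝ :=
  √(⟪nn X s y, E (ret X s y) y⟫_ℝ ^ 2 + ⟪nn X s y, B (ret X s y) y⟫_ℝ ^ 2
    + ‖B (ret X s y) y - ⟪nn X s y, B (ret X s y) y⟫_ℝ • nn X s y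
        - cross3 (nn X s y) (E (ret X s y) y)‖ ^ 2)

/-- one dyadic shell (on the cone of `s`) -/
def shell (X p : ℝ → R3) (R1 d1 e1 D1 Q1 s : ℝ) : Set (R3 × R3) :=
  {q | (R1 ≤ Rr X s q.1 ∧ Rr X s q.1 < 2 * R1) ∧ (d1 ≤ dl X p s q.1 ∧ dl X p s q.1 < 2 * d1) ∧
    (e1 ≤ ep X s q.1 q.2 ∧ ep X s q.1 q.2 < 2 * e1) ∧ (D1 ≤ Dd p s q.2 ∧ Dd p s q.2 < 2 * D1) ∧
    (Q1 ≤ gam q.2 ∧ gam q.2 < 2 * Q1)}

/-! ### parameters -/

/-- cut-off parameter `λ = P^{0.425 - 2.5 (1 - g)}`, `Q = P^g` -/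
def lamQ (P Q : ℝ) : ℝ := P ^ (17 / 40 : ℝ) * (Q / P) ^ (5 / 2 : ℝ)

/-- cut-off energy (the second cut-off is `0` for `γ ≤ QsP`, `1` for `γ ≥ 2 QsP`) -/
def QsP (P : ℝ) : ℝ := 8 * P ^ (11 / 20 : ℝ)

/-- the functions `h` of the bootstrap (`Boot`): constant times `hh` with nominal energy `Q` -/
def hB {T : ℝ} {f : ℝ → R3 → R3 → ℝ} {E B : ℝ → R3 → R3} (C : ℝ) (P Q : ℝ) (ξ : Chr T f E B)
    (s : ℝ) : ℝ≥0∞ :=
  ENNReal.ofReal C * hh f E B (lamQ P Q) (QsP P) ξ.1.1 ξ.1.2 s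

end Crest.Agent.R106.Mom
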