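/-
Row 106, NEW PART: the nodes as Props and the assembly (helper268), version 2 (shape of Boot.lean).
Proof = notes 12141-12144 of helper124.
All constants `C` below depend on the solution (datum, energy, T) only, NOT on P, c0, s, J, shells.
The bootstrap constant is `c1 = 1/16` (the constant of (M) is inside `hB`).
-/
import Crest.Agent.R106.MomDefs
import Crest.Agent.R106.Boot
import Crest.Agent.R106.Main0

set_option autoImplicit false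

open MeasureTheory Set Filter Topology
open Crest.AnalysisR.VecCalc3 Crest.AnalysisR.PDE.RVM
open scoped InnerProductSpace ENNReal ContDiff

noncomputable section

namespace Crest.Agent.R106.Mom

open Crest.Agent.R106.GSR (gam acc lor)
open Crest.Agent.R106.Boot (en win Below Hyp)

variable (T : ℝ) (f : ℝ → R3 → R3 → ℝ) (E B : ℝ → R3 → R3)

/-- (M) of 12141. Owner: MIX (616, 633, 154). -/
def MixP : Prop := ∃ C Q0 : ℝ, 0 ≤ C ∧ 0 < Q0 ∧ ∀ X p : ℝ → R3, IsChar T f E B X p →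
  ∀ lam Qs : ℝ, 0 < lam → Q0 ≤ Qs → ∀ s1 s2 : ℝ, 0 ≤ s1 → s1 ≤ s2 → s2 < T →
    ENNReal.ofReal ‖p s2 - p s1‖ ≤ ENNReal.ofReal C *
      ((∫⁻ s in Icc s1 s2, hh f E B lam Qs X p s) + bb f lam Qs X p s1 + bb f lam Qs X p s2)

/-- field bound at the test particle, from (R). Owner: GSR (801/846) + kernels. -/
def FtP : Prop := ∃ C : ℝ, 0 ≤ C ∧ ∀ X p : ℝ → R3, IsChar T f E B X p → ∀ s ∈ Ioo 0 T,
  ENNReal.ofReal (Ftest E B X p s) ≤ ENNReal.ofReal C * (1 + ∫⁻ q, ENNReal.ofReal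
    (kT (dl X p s q.1) (ep X s q.1 q.2) (gam q.2) (Rr X s q.1)
      + kS (dl X p s q.1) (ep X s q.1 q.2) (gam q.2) (Rr X s q.1) * Fsrc E B X s q) ∂(kap f X s))

/-- (a). Owner: 904. -/
def OccA : Prop := ∃ C : ℝ, 0 ≤ C ∧ ∀ X p : ℝ → R3, IsChar T f E B X p →
  ∀ R1 d1 e1 D1 Q1 : ℝ, 0 < R1 → 0 < d1 → 0 < e1 → 0 < D1 → 0 < Q1 → ∀ s ∈ Ioo 0 T,
    kap f X s (shell X p R1 d1 e1 D1 Q1 s)
      ≤ ENNReal.ofReal (C * (R1 ^ 3 * d1 * Q1 ^ 3 * min e1 D1))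

/-- (b). Owner: 904 (cone flux). -/
def OccB : Prop := ∃ C : ℝ, 0 ≤ C ∧ ∀ X p : ℝ → R3, IsChar T f E B X p →
  ∀ R1 d1 e1 D1 Q1 : ℝ, 0 < R1 → 0 < d1 → 0 < e1 → 0 < D1 → 0 < Q1 → ∀ s ∈ Ioo 0 T,
    kap f X s (shell X p R1 d1 e1 D1 Q1 s) ≤ ENNReal.ofReal (C * (1 / (Q1 * e1)))

/-- (c). Owner: 904. -/
def OccC : Prop := ∃ C : ℝ, 0 ≤ C ∧ ∀ X p : ℝ → R3, IsChar T f E B X p →
  ∀ R1 d1 e1 D1 Q1 : ℝ, 0 < R1 → 0 < d1 → 0 < e1 → 0 < D1 → 0 < Q1 →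
  ∀ a b : ℝ, 0 ≤ a → a ≤ b → b < T →
    ∫⁻ s in Icc a b, kap f X s (shell X p R1 d1 e1 D1 Q1 s)
      ≤ ENNReal.ofReal (C * ((b - a + R1) / (Q1 * d1)))

/-- (A): Cauchy-Schwarz on one cone. Owner: 904. -/
def CoreA : Prop := ∃ C : ℝ, 0 ≤ C ∧ ∀ X p : ℝ → R3, IsChar T f E B X p →
  ∀ R1 d1 e1 D1 Q1 : ℝ, 0 < R1 → 0 < d1 → 0 < e1 → 0 < D1 → 0 < Q1 → ∀ s ∈ Ioo 0 T,
    (∫⁻ q in shell X p R1 d1 e1 D1 Q1 s, ENNReal.ofReal (Kg E B X s q.1) ∂(kap f X s)) ^ 2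
      ≤ ENNReal.ofReal (C * (Q1 ^ 3 * min e1 D1)) * kap f X s (shell X p R1 d1 e1 D1 Q1 s)

/-- (B): the `|B|` part. Owner: 904. -/
def CoreB : Prop := ∃ C : ℝ, 0 ≤ C ∧ ∀ X p : ℝ → R3, IsChar T f E B X p →
  ∀ R1 d1 e1 D1 Q1 : ℝ, 0 < R1 → 0 < d1 → 0 < e1 → 0 < D1 → 0 < Q1 →
  ∀ a b : ℝ, 0 ≤ a → a ≤ b → b < T →
    (∫⁻ s in Icc a b, ∫⁻ q in shell X p R1 d1 e1 D1 Q1 s,
        ENNReal.ofReal ‖B (ret X s q.1) q.1‖ ∂(kap f X s)) ^ 2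
      ≤ ENNReal.ofReal (C * ((b - a + R1) / d1 * (Q1 ^ 3 * min e1 D1))) *
          ∫⁻ s in Icc a b, kap f X s (shell X p R1 d1 e1 D1 Q1 s)

/-- (F): `|F| ≤ 2 K_g + √(2ε) |B|`. Owner: pointwise kernels (898/824/868) or 412. -/
def FsrcP : Prop := ∀ (X : ℝ → R3) (s : ℝ) (q : R3 × R3), X s ≠ q.1 →
  Fsrc E B X s q ≤ 2 * Kg E B X s q.1 + √(2 * ep X s q.1 q.2) * ‖B (ret X s q.1) q.1‖

/-- momentum increments in the shape of `Boot` (consequence of `MixP` and `BsmallP`). -/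
def IncP (C : ℝ) : Prop := ∃ P1 : ℝ, ∀ P : ℝ, P1 ≤ P → ∀ t1 ∈ Ico 0 T,
  Below (mom (T := T) (f := f) (E := E) (B := B)) P t1 →
  ∀ j : ℕ, P ^ (0.55 : ℝ) ≤ 2 ^ j → (2 : ℝ) ^ j ≤ P → ∀ ξ : Chr T f E B,
  ∀ a b : ℝ, 0 ≤ a → a ≤ b → b ≤ t1 →
  (∀ s ∈ Icc a b, (2 : ℝ) ^ j / 4 ≤ en (mom ξ s) ∧ en (mom ξ s) ≤ 4 * 2 ^ j) →
  ENNReal.ofReal ‖mom ξ b - mom ξ a‖
    ≤ (∫⁻ s in Icc a b, hB C P (2 ^ j) ξ s) + ENNReal.ofReal (2 * P ^ (0.38 : ℝ))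

/-- (d): the passage bound under `H(t1)`. Owner: OCC(d) (193, 743).
The constant does not depend on `c0`. -/
def OccD : Prop := ∀ Ch : ℝ, 0 ≤ Ch → IncP T f E B Ch → ∃ C : ℝ, 0 ≤ C ∧
  ∀ c0 : ℝ, 0 < c0 → c0 ≤ 1 → ∃ P1 : ℝ, ∀ P : ℝ, P1 ≤ P → ∀ t1 ∈ Ico 0 T,
    Below (mom (T := T) (f := f) (E := E) (B := B)) P t1 →
    Hyp (mom (T := T) (f := f) (E := E) (B := B)) (hB Ch) c0 (1 / 16) P t1 →
    ∀ j : ℕ, P ^ (0.55 : ℝ) ≤ 2 ^ j → (2 : ℝ) ^ j ≤ P → ∀ ξ : Chr T f E B, ∀ a b : ℝ,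
      0 ≤ a → a ≤ b → b ≤ t1 → b - a ≤ win c0 P (2 ^ j) →
      (∀ s ∈ Icc a b, (2 : ℝ) ^ j / 4 ≤ en (mom ξ s) ∧ en (mom ξ s) ≤ 4 * 2 ^ j) →
    ∀ R1 d1 e1 D1 Q1 : ℝ, 0 < R1 → 0 < d1 → 0 < e1 → 0 < D1 →
      P ^ (11 / 20 : ℝ) ≤ Q1 → Q1 ≤ P → P ^ (2 / 5 : ℝ) ≤ √D1 * min Q1 (2 ^ j) →
      ∫⁻ s in Icc a b, kap f ξ.1.1 s (shell ξ.1.1 ξ.1.2 R1 d1 e1 D1 Q1 s)
        ≤ ENNReal.ofReal (C * (R1 / (Q1 * √(D1 * max d1 D1)) *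
            (1 + (b - a + R1) / win c0 P Q1) / √D1))

/-- crude local bound (for fixed `T' < T`). Owner: MIX-C (154). -/
def LocP : Prop := ∀ T' : ℝ, 0 ≤ T' → T' < T → ∃ C : ℝ, 0 ≤ C ∧ ∀ X p : ℝ → R3,
  IsChar T f E B X p → ∀ lam Qs : ℝ, 0 < lam → 0 < Qs → ∀ s ∈ Icc 0 T',
    hh f E B lam Qs X p s ≤ ENNReal.ofReal C

/-- `sup b ≤ P^0.375`. Owner: ABS/NUM (72, 676) from `OccA`, `OccB`. -/
def BsmallP : Prop := ∃ P1 : ℝ, ∀ P : ℝ, P1 ≤ P → ∀ t1 ∈ Ico 0 T,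
  Below (mom (T := T) (f := f) (E := E) (B := B)) P t1 →
  ∀ j : ℕ, P ^ (0.55 : ℝ) ≤ 2 ^ j → (2 : ℝ) ^ j ≤ P → ∀ ξ : Chr T f E B, ∀ s ∈ Icc 0 t1,
    (2 : ℝ) ^ j / 4 ≤ en (mom ξ s) → en (mom ξ s) ≤ 4 * 2 ^ j →
    bb f (lamQ P (2 ^ j)) (QsP P) ξ.1.1 ξ.1.2 s ≤ ENNReal.ofReal (P ^ (3 / 8 : ℝ))

/-- the improvement step (hypothesis `hcost` of `Boot.boot`, `c1 = 1/16`). Owner: ABS (72) +
NUM (676) + LPC (413), from `OccA, OccB, OccC, CoreA, CoreB, FsrcP, FtP, OccD`. -/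
def ImproveP (Ch : ℝ) : Prop := ∃ c0 : ℝ, 0 < c0 ∧ c0 ≤ 1 ∧ ∃ P1 : ℝ, ∀ P : ℝ, P1 ≤ P →
  ∀ t1 ∈ Ico 0 T, Below (mom (T := T) (f := f) (E := E) (B := B)) P t1 →
  Hyp (mom (T := T) (f := f) (E := E) (B := B)) (hB Ch) c0 (1 / 16) P t1 →
  ∀ j : ℕ, P ^ (0.55 : ℝ) ≤ 2 ^ j → (2 : ℝ) ^ j ≤ P → ∀ ξ : Chr T f E B, ∀ a b : ℝ,
    0 ≤ a → a ≤ b → b ≤ t1 → b - a ≤ win c0 P (2 ^ j) →
    (∀ s ∈ Icc a b, (2 : ℝ) ^ j / 4 ≤ en (mom ξ s) ∧ en (mom ξ s) ≤ 4 * 2 ^ j) →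
    ∫⁻ s in Icc a b, hB Ch P (2 ^ j) ξ s ≤ ENNReal.ofReal ((1 / 16) * 2 ^ j / 2)

/-- every point of the support lies on a characteristic starting in the support. Owner: FLOW. -/
def CharP : Prop := ∀ t ∈ Ico 0 T, ∀ x v : R3, f t x v ≠ 0 →
  ∃ ξ : Chr T f E B, ξ.1.1 t = x ∧ ξ.1.2 t = v

/-- momenta are Lipschitz on compact subintervals and bounded at time 0. Owner: FLOW. -/
def LipP : Prop := (∀ t < T, ∃ C : ℝ, ∀ ξ : Chr T f E B, ∀ s ∈ Icc 0 t, ∀ s' ∈ Icc 0 t,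
      ‖mom ξ s - mom ξ s'‖ ≤ C * |s - s'|) ∧ ∃ M0 : ℝ, ∀ ξ : Chr T f E B, ‖mom ξ 0‖ ≤ M0

/-- ABS: all shell costs together (`CharP` gives: source energies `≤ P` up to time `t1`). -/
def AbsP : Prop := 0 < T → CharP T f E B → OccA T f E B → OccB T f E B → OccC T f E B → CoreA T f E B →
  CoreB T f E B → FsrcP E B → FtP T f E B → OccD T f E B →
  ∀ Ch : ℝ, 0 ≤ Ch → IncP T f E B Ch → ImproveP T f E B Ch

variable {T f E B}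

lemma hB_mul (C : ℝ) (P Q : ℝ) (ξ : Chr T f E B) (a b : ℝ) :
    ∫⁻ s in Icc a b, hB C P Q ξ s = ENNReal.ofReal C *
      ∫⁻ s in Icc a b, hh f E B (lamQ P Q) (QsP P) ξ.1.1 ξ.1.2 s := by
  unfold hB
  rw [lintegral_const_mul' _ _ ENNReal.ofReal_ne_top]

lemma lamQ_pos {P Q : ℝ} (hP : 0 < P) (hQ : 0 < Q) : 0 < lamQ P Q := by
  unfold lamQ
  positivity

/-- (M) and the smallness of `b` give the increments in the shape of `Boot`. -/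
theorem incP_of (hmix : MixP T f E B) (hbs : BsmallP T f E B) :
    ∃ C : ℝ, 0 ≤ C ∧ IncP T f E B C := by
  obtain ⟨C, Q0, hC, hQ0, hM⟩ := hmix
  obtain ⟨P1, hb⟩ := hbs
  refine ⟨C, hC, ?_⟩
  -- P large: C * P^0.375 ≤ P^0.38 and Q0 ≤ 8 P^0.55
  have e1 : ∀ᶠ P : ℝ in atTop, C ≤ P ^ (0.005 : ℝ) :=
    (tendsto_rpow_atTop (by norm_num)).eventually_ge_atTop C
  have e2 : ∀ᶠ P : ℝ in atTop, Q0 ≤ P ^ (11 / 20 : ℝ) :=
    (tendsto_rpow_atTop (by norm_num)).eventually_ge_atTop Q0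
  obtain ⟨P2, h2⟩ := eventually_atTop.mp (((e1.and e2).and (eventually_ge_atTop P1)).and
    (eventually_ge_atTop (1 : ℝ)))
  refine ⟨P2, fun P hP t1 ht1 hbel j hj1 hj2 ξ a b ha hab hbt hen => ?_⟩
  obtain ⟨⟨⟨hCP, hQP⟩, hP1⟩, hP1'⟩ := h2 P hP
  have hP0 : 0 < P := by linarith
  have hQs : Q0 ≤ QsP P := by
    unfold QsP
    have : 0 ≤ P ^ (11 / 20 : ℝ) := by positivity
    linarith
  have hT : b < T := lt_of_le_of_lt hbt ht1.2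
  have h := hM ξ.1.1 ξ.1.2 ξ.2 (lamQ P (2 ^ j)) (QsP P) (lamQ_pos hP0 (by positivity)) hQs a b ha
    hab hT
  have hba := hb P hP1 t1 ht1 hbel j hj1 hj2 ξ a ⟨ha, hab.trans hbt⟩ (hen a ⟨le_rfl, hab⟩).1
    (hen a ⟨le_rfl, hab⟩).2
  have hbb := hb P hP1 t1 ht1 hbel j hj1 hj2 ξ b ⟨ha.trans hab, hbt⟩ (hen b ⟨hab, le_rfl⟩).1
    (hen b ⟨hab, le_rfl⟩).2
  have hkey : ENNReal.ofReal C * ENNReal.ofReal (P ^ (3 / 8 : ℝ)) ≤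
      ENNReal.ofReal (P ^ (0.38 : ℝ)) := by
    rw [← ENNReal.ofReal_mul hC]
    apply ENNReal.ofReal_le_ofReal
    calc C * P ^ (3 / 8 : ℝ) ≤ P ^ (0.005 : ℝ) * P ^ (3 / 8 : ℝ) :=
          mul_le_mul_of_nonneg_right hCP (by positivity)
      _ = P ^ (0.38 : ℝ) := by
          rw [← Real.rpow_add hP0]
          norm_num
  calc ENNReal.ofReal ‖mom ξ b - mom ξ a‖
      ≤ ENNReal.ofReal C * ((∫⁻ s in Icc a b, hh f E B (lamQ P (2 ^ j)) (QsP P) ξ.1.1 ξ.1.2 s)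
        + bb f (lamQ P (2 ^ j)) (QsP P) ξ.1.1 ξ.1.2 a
        + bb f (lamQ P (2 ^ j)) (QsP P) ξ.1.1 ξ.1.2 b) := h
    _ = (∫⁻ s in Icc a b, hB C P (2 ^ j) ξ s)
        + (ENNReal.ofReal C * bb f (lamQ P (2 ^ j)) (QsP P) ξ.1.1 ξ.1.2 a
        + ENNReal.ofReal C * bb f (lamQ P (2 ^ j)) (QsP P) ξ.1.1 ξ.1.2 b) := by
          rw [hB_mul, mul_add, mul_add, add_assoc]
    _ ≤ (∫⁻ s in Icc a b, hB C P (2 ^ j) ξ s)
        + (ENNReal.ofReal (P ^ (0.38 : ℝ)) + ENNReal.ofReal (P ^ (0.38 : ℝ))) := by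
          gcongr
          · exact (mul_le_mul_right hba _).trans hkey
          · exact (mul_le_mul_right hbb _).trans hkey
    _ = (∫⁻ s in Icc a b, hB C P (2 ^ j) ξ s) + ENNReal.ofReal (2 * P ^ (0.38 : ℝ)) := by
          rw [← ENNReal.ofReal_add (by positivity) (by positivity), two_mul]

/-- short windows: `hsmall` of `Boot`. -/
lemma small_of (hloc : LocP T f E B) {C : ℝ} (hC : 0 ≤ C) {P : ℝ} (hP : 1 ≤ P) {t1 : ℝ}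
    (ht1 : t1 ∈ Ico 0 T) :
    ∃ τ0 : ℝ, 0 < τ0 ∧ ∀ j : ℕ, P ^ (0.55 : ℝ) ≤ 2 ^ j → (2 : ℝ) ^ j ≤ P → ∀ ξ : Chr T f E B,
      ∀ a b : ℝ, 0 ≤ a → a ≤ b → b ≤ t1 → b - a ≤ τ0 →
      (∀ s ∈ Icc a b, (2 : ℝ) ^ j / 4 ≤ en (mom ξ s) ∧ en (mom ξ s) ≤ 4 * 2 ^ j) →
      ∫⁻ s in Icc a b, hB C P (2 ^ j) ξ s ≤ ENNReal.ofReal ((1 / 16) * 2 ^ j / 2) := by
  obtain ⟨K, hK, hl⟩ := hloc t1 ht1.1 ht1.2
  have hP0 : 0 < P := by linarith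
  refine ⟨1 / (32 * (C * K + 1)), by positivity, fun j _ _ ξ a b ha hab hbt hτ _ => ?_⟩
  rw [hB_mul]
  have h1 : ∫⁻ s in Icc a b, hh f E B (lamQ P (2 ^ j)) (QsP P) ξ.1.1 ξ.1.2 s ≤
      ENNReal.ofReal K * ENNReal.ofReal (b - a) := by
    calc ∫⁻ s in Icc a b, hh f E B (lamQ P (2 ^ j)) (QsP P) ξ.1.1 ξ.1.2 s
        ≤ ∫⁻ _ in Icc a b, ENNReal.ofReal K := by
          apply setLIntegral_mono measurable_const
          intro s hs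
          exact hl ξ.1.1 ξ.1.2 ξ.2 _ _ (lamQ_pos hP0 (by positivity))
            (by unfold QsP; positivity) s ⟨ha.trans hs.1, hs.2.trans hbt⟩
      _ = ENNReal.ofReal K * ENNReal.ofReal (b - a) := by
          rw [setLIntegral_const, Real.volume_Icc]
  calc ENNReal.ofReal C * ∫⁻ s in Icc a b, hh f E B (lamQ P (2 ^ j)) (QsP P) ξ.1.1 ξ.1.2 s
      ≤ ENNReal.ofReal C * (ENNReal.ofReal K * ENNReal.ofReal (b - a)) := by gcongr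
    _ = ENNReal.ofReal (C * (K * (b - a))) := by
        rw [← ENNReal.ofReal_mul hK, ← ENNReal.ofReal_mul hC]
    _ ≤ ENNReal.ofReal ((1 / 16) * 2 ^ j / 2) := by
        apply ENNReal.ofReal_le_ofReal
        have h2 : C * K * (b - a) ≤ C * K * (1 / (32 * (C * K + 1))) :=
          mul_le_mul_of_nonneg_left hτ (by positivity)
        have h3 : C * K * (1 / (32 * (C * K + 1))) ≤ 1 / 32 := by
          have hCK : 0 ≤ C * K := by positivity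
          rw [mul_one_div, div_le_div_iff₀ (by positivity) (by norm_num)]
          linarith
        have h4 : (1 : ℝ) ≤ 2 ^ j := one_le_pow₀ (by norm_num)
        calc C * (K * (b - a)) = C * K * (b - a) := by ring
          _ ≤ 1 / 32 := h2.trans h3
          _ ≤ (1 / 16) * 2 ^ j / 2 := by linarith

/-- ASSEMBLY of the new part for one solution. -/
theorem momBd_of (hT : 0 < T) (hmix : MixP T f E B) (hft : FtP T f E B) (ha : OccA T f E B)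
    (hb : OccB T f E B) (hc : OccC T f E B) (hA : CoreA T f E B) (hB' : CoreB T f E B)
    (hF : FsrcP E B) (hd : OccD T f E B) (hloc : LocP T f E B) (hbs : BsmallP T f E B)
    (habs : AbsP T f E B) (hlip : LipP T f E B) (hch : CharP T f E B) :
    ∃ M : ℝ, ∀ t ∈ Ico 0 T, ∀ x v : R3, M < ‖v‖ → f t x v = 0 := by
  obtain ⟨C, hC, hinc⟩ := incP_of hmix hbs
  obtain ⟨c0, hc0, hc01, P1, himp⟩ := habs hT hch ha hb hc hA hB' hF hft hd C hC hinc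
  obtain ⟨P2, hinc⟩ := hinc
  obtain ⟨M, hM⟩ := Boot.boot (p := mom (T := T) (f := f) (E := E) (B := B)) (h := hB C)
    (T := T) (c0 := c0) (c1 := 1 / 16) (P0 := max (max P1 P2) 1) hc0 (by norm_num) (by norm_num)
    hlip.1 hlip.2
    (fun P hP => hinc P ((le_max_right _ _).trans ((le_max_left _ _).trans hP)))
    (fun P hP t1 ht1 _ => small_of hloc hC ((le_max_right _ _).trans hP) ht1)
    (fun P hP => himp P ((le_max_left _ _).trans ((le_max_left _ _).trans hP)))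
  refine ⟨M, fun t ht x v hv => ?_⟩
  by_contra hne
  obtain ⟨ξ, -, h2⟩ := hch t ht x v hne
  have := hM ξ t ht
  unfold mom at this
  rw [h2] at this
  linarith

end Crest.Agent.R106.Mom
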