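/-
Row 106, LINK (helper609): the concrete test datum of a characteristic (vocabulary of `MomDefs`) as a
`Abs.TD` (vocabulary of `AbsDefs`); measurability and geometry.
-/
import Crest.Agent.R106.MomIface
import Crest.Agent.R106.AbsDefs

set_option autoImplicit false

open MeasureTheory Set Filter Topology
open Crest.AnalysisR.VecCalc3 Crest.AnalysisR.PDE.RVM
open scoped InnerProductSpace ENNReal ContDiff

noncomputable section

namespace Crest.Agent.R106.Link

open Crest.Agent.R106.GSR (gam acc lor)
open Crest.Agent.R106.Mom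
open Crest.Agent.R106.Abs (TD)

abbrev Z : Type := R3 × R3

/-! ### clamping -/

/-- clamp to `[a,b]` -/
def cl (a b t : ℝ) : ℝ := max a (min t b)

lemma cl_eq {a b t : ℝ} (h : t ∈ Icc a b) : cl a b t = t := by
  unfold cl
  rw [min_eq_left h.2, max_eq_right h.1]

lemma cl_mem {a b : ℝ} (hab : a ≤ b) (t : ℝ) : cl a b t ∈ Icc a b := by
  unfold cl
  exact ⟨le_max_left _ _, max_le hab (min_le_right _ _)⟩

lemma continuous_cl (a b : ℝ) : Continuous (cl a b) := by
  unfold cl
  fun_prop

/-! ### the datum -/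

/-- the part of the cone that is seen -/
def seen (X : ℝ → R3) (s : ℝ) : Set Z := {q | 0 < ‖X s - q.1‖ ∧ ‖X s - q.1‖ < s}

open Classical in
/-- concrete test datum -/
def td (f : ℝ → R3 → R3 → ℝ) (E B : ℝ → R3 → R3) (X p : ℝ → R3) (a b : ℝ) : TD Z where
  m := volume
  a := a
  b := b
  w := fun s q => if q ∈ seen X s then ENNReal.ofReal (f (ret X s q.1) q.1 q.2) else 0
  R := fun s q => Rr X s q.1
  dl := fun s q => Mom.dl X p s q.1
  ep := fun s q => Mom.ep X s q.1 q.2
  D := fun s q => Dd p s q.2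
  ga := fun _ q => gam q.2
  Kg := fun s q => Kg E B X s q.1
  Bs := fun s q => ‖B (ret X s q.1) q.1‖
  Ft := fun s => if s ≤ 0 then 0 else ENNReal.ofReal (Ftest E B X p s)

/-! ### continuity and measurability -/

lemma continuous_cross3 : Continuous (fun ab : R3 × R3 => cross3 ab.1 ab.2) := by
  unfold cross3
  refine (PiLp.continuous_toLp 2 _).comp (continuous_pi fun i => ?_)
  fin_cases i <;> simp <;> fun_prop

lemma measurable_cross3 {α : Type*} [MeasurableSpace α] {u v : α → R3} (hu : Measurable u)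
    (hv : Measurable v) : Measurable (fun x => cross3 (u x) (v x)) :=
  continuous_cross3.measurable.comp (hu.prodMk hv)

lemma continuous_relVel : Continuous relVel := by
  unfold relVel
  have h : ∀ v : R3, Real.sqrt (1 + ‖v‖ ^ 2) ≠ 0 := fun v => by positivity
  exact (Continuous.inv₀ (by fun_prop) h).smul continuous_id

lemma continuous_gam : Continuous gam := by
  unfold gam
  fun_prop

section meas

variable {f : ℝ → R3 → R3 → ℝ} {E B : ℝ → R3 → R3} {X p : ℝ → R3}

lemma meas_R (hX : Continuous X) : Measurable (fun x : ℝ × Z => Rr X x.1 x.2.1) := by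
  unfold Rr
  fun_prop

lemma meas_nn (hX : Continuous X) : Measurable (fun x : ℝ × Z => nn X x.1 x.2.1) := by
  unfold nn
  have h1 : Measurable (fun x : ℝ × Z => X x.1 - x.2.1) := by fun_prop
  exact (h1.norm.inv).smul h1

lemma cont_ret (hX : Continuous X) : Continuous (fun x : ℝ × Z => ret X x.1 x.2.1) := by
  unfold ret
  fun_prop

lemma meas_dl (hX : Continuous X) (hp : Continuous p) :
    Measurable (fun x : ℝ × Z => Mom.dl X p x.1 x.2.1) := by
  unfold Mom.dl
  have h2 : Measurable (fun x : ℝ × Z => relVel (p x.1)) :=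
    (continuous_relVel.comp (hp.comp continuous_fst)).measurable
  exact measurable_const.sub ((meas_nn hX).inner h2)

lemma meas_ep (hX : Continuous X) :
    Measurable (fun x : ℝ × Z => Mom.ep X x.1 x.2.1 x.2.2) := by
  unfold Mom.ep
  have h2 : Measurable (fun x : ℝ × Z => relVel x.2.2) :=
    (continuous_relVel.comp (continuous_snd.comp continuous_snd)).measurable
  exact measurable_const.sub ((meas_nn hX).inner h2)

lemma meas_D (hp : Continuous p) : Measurable (fun x : ℝ × Z => Dd p x.1 x.2.2) := by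
  unfold Dd
  have h1 : Measurable (fun x : ℝ × Z => relVel x.2.2) :=
    (continuous_relVel.comp (continuous_snd.comp continuous_snd)).measurable
  have h2 : Measurable (fun x : ℝ × Z => relVel (p x.1)) :=
    (continuous_relVel.comp (hp.comp continuous_fst)).measurable
  exact measurable_const.sub (h2.inner h1)

lemma cont_field (hX : Continuous X) (hE : Continuous (fun q : ℝ × R3 => E q.1 q.2)) :
    Continuous (fun x : ℝ × Z => E (ret X x.1 x.2.1) x.2.1) :=
  hE.comp ((cont_ret hX).prodMk (continuous_fst.comp continuous_snd))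

lemma meas_Kg (hX : Continuous X) (hE : Continuous (fun q : ℝ × R3 => E q.1 q.2))
    (hB : Continuous (fun q : ℝ × R3 => B q.1 q.2)) :
    Measurable (fun x : ℝ × Z => Kg E B X x.1 x.2.1) := by
  have hn := meas_nn hX
  have hE' := (cont_field hX hE).measurable
  have hB' := (cont_field hX hB).measurable
  have h1 : Measurable (fun x : ℝ × Z =>
      ⟪nn X x.1 x.2.1, E (ret X x.1 x.2.1) x.2.1⟫_ℝ) := hn.inner hE'
  have h2 : Measurable (fun x : ℝ × Z =>
      ⟪nn X x.1 x.2.1, B (ret X x.1 x.2.1) x.2.1⟫_ℝ) := hn.inner hB'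
  have h3 : Measurable (fun x : ℝ × Z => cross3 (nn X x.1 x.2.1) (E (ret X x.1 x.2.1) x.2.1)) :=
    measurable_cross3 hn hE'
  have h4 : Measurable (fun x : ℝ × Z =>
      ⟪nn X x.1 x.2.1, B (ret X x.1 x.2.1) x.2.1⟫_ℝ • nn X x.1 x.2.1) := h2.smul hn
  have h5 : Measurable (fun x : ℝ × Z => ‖B (ret X x.1 x.2.1) x.2.1
      - ⟪nn X x.1 x.2.1, B (ret X x.1 x.2.1) x.2.1⟫_ℝ • nn X x.1 x.2.1
      - cross3 (nn X x.1 x.2.1) (E (ret X x.1 x.2.1) x.2.1)‖) := ((hB'.sub h4).sub h3).norm
  exact (((h1.pow_const 2).add (h2.pow_const 2)).add (h5.pow_const 2)).sqrt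

lemma measSet_seen (hX : Continuous X) : MeasurableSet {x : ℝ × Z | x.2 ∈ seen X x.1} := by
  have h1 : Measurable (fun x : ℝ × Z => ‖X x.1 - x.2.1‖) := by fun_prop
  exact (measurableSet_lt measurable_const h1).inter (measurableSet_lt h1 measurable_fst)

lemma meas_w (hf : Continuous (fun q : ℝ × R3 × R3 => f q.1 q.2.1 q.2.2)) (hX : Continuous X)
    (a b : ℝ) : Measurable (Function.uncurry (td f E B X p a b).w) := by
  classical
  have h1 : Measurable (fun x : ℝ × Z => ENNReal.ofReal (f (ret X x.1 x.2.1) x.2.1 x.2.2)) := by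
    have : Continuous (fun x : ℝ × Z => f (ret X x.1 x.2.1) x.2.1 x.2.2) :=
      hf.comp ((cont_ret hX).prodMk continuous_snd)
    exact this.measurable.ennreal_ofReal
  exact Measurable.ite (measSet_seen hX) h1 measurable_const

end meas

end Crest.Agent.R106.Link
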