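/-
R106, module GSR (helper846): definitions for the representation (R).
-/
import Mathlib
import Crest.Prelude.Def_VlasovMaxwell

set_option autoImplicit false

open MeasureTheory Set Filter Topology
open Crest.AnalysisR.VecCalc3 Crest.AnalysisR.PDE.RVM
open scoped InnerProductSpace

noncomputable section

namespace Crest.Agent.R106.GSR

/-- space-time slab -/
def slab (T : ℝ) : Set (ℝ × R3) := Ioo 0 T ×ˢ univ

/-- time derivative on space-time -/
def pt (u : ℝ × R3 → ℝ) (q : ℝ × R3) : ℝ := fderiv ℝ u q (1, 0)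

/-- space derivative on space-time -/
def px (j : Fin 3) (u : ℝ × R3 → ℝ) (q : ℝ × R3) : ℝ :=
  fderiv ℝ u q (0, EuclideanSpace.single j 1)

/-- wave operator `∂_t² - Δ` -/
def box (u : ℝ × R3 → ℝ) (q : ℝ × R3) : ℝ := pt (pt u) q - ∑ j, px j (px j u) q

/-- time derivative on phase space -/
def ft (f : ℝ × R3 × R3 → ℝ) (q : ℝ × R3 × R3) : ℝ := fderiv ℝ f q (1, 0, 0)

/-- space derivative on phase space -/
def fx (j : Fin 3) (f : ℝ × R3 × R3 → ℝ) (q : ℝ × R3 × R3) : ℝ :=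
  fderiv ℝ f q (0, EuclideanSpace.single j 1, 0)

/-- the density as a function on phase space-time -/
def unc (f : ℝ → R3 → R3 → ℝ) : ℝ × R3 × R3 → ℝ := fun q => f q.1 q.2.1 q.2.2

/-- a field component as a function on space-time -/
def cmp (E : ℝ → R3 → R3) (i : Fin 3) : ℝ × R3 → ℝ := fun q => E q.1 q.2 i

/-- `γ = √(1 + |p|²)` -/
def gam (p : R3) : ℝ := Real.sqrt (1 + ‖p‖ ^ 2)

/-- the acceleration `a = (F - v (v·F)) / γ`, `v = relVel p` -/
def acc (p F : R3) : R3 := (gam p)⁻¹ • (F - ⟪relVel p, F⟫_ℝ • relVel p)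

/-- velocity kernel `e_T = (n - v) / (γ² ε² R²)`, `ε = 1 - n·v` -/
def eT (n p : R3) (R : ℝ) : R3 :=
  ((gam p) ^ 2 * (1 - ⟪n, relVel p⟫_ℝ) ^ 2 * R ^ 2)⁻¹ • (n - relVel p)

/-- acceleration kernel `e_S = [(n - v)(n·a) - ε a] / (ε² R)` -/
def eS (n p a : R3) (R : ℝ) : R3 :=
  ((1 - ⟪n, relVel p⟫_ℝ) ^ 2 * R)⁻¹ • (⟪n, a⟫_ℝ • (n - relVel p) - (1 - ⟪n, relVel p⟫_ℝ) • a)

/-- Lorentz force -/
def lor (E B : ℝ → R3 → R3) (t : ℝ) (x p : R3) : R3 := E t x + cross3 (relVel p) (B t x)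

end Crest.Agent.R106.GSR
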