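/-
Row 106, LINK (helper609): the clamped test datum `tdc`, comparison of `kap` with `withDensity`,
values, geometry.
-/
import Crest.Agent.R106.LinkA
import Crest.Agent.R106.PairDefs

set_option autoImplicit false

open MeasureTheory Set Filter Topology
open Crest.AnalysisR.VecCalc3 Crest.AnalysisR.PDE.RVM
open scoped InnerProductSpace ENNReal ContDiff

noncomputable section

namespace Crest.Agent.R106.Link

open Crest.Agent.R106.GSR (gam acc lor)
open Crest.Agent.R106.Mom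
open Crest.Agent.R106.Abs (TD)

/-- clamped test datum (window `[a,b]`) -/
def tdc (f : ℝ → R3 → R3 → ℝ) (E B : ℝ → R3 → R3) (X p : ℝ → R3) (a b : ℝ) : TD Z :=
  td (fun t => f (cl 0 b t)) (fun t => E (cl 0 b t)) (fun t => B (cl 0 b t))
    (fun s => X (cl a b s)) (fun s => p (cl a b s)) a b

variable {f : ℝ → R3 → R3 → ℝ} {E B : ℝ → R3 → R3} {X p : ℝ → R3} {a b s : ℝ}

@[simp] lemma tdc_a : (tdc f E B X p a b).a = a := rfl
@[simp] lemma tdc_b : (tdc f E B X p a b).b = b := rfl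
@[simp] lemma tdc_m : (tdc f E B X p a b).m = volume := rfl

/-! ### values on the window -/

lemma tdc_R (hs : s ∈ Icc a b) (q : Z) : (tdc f E B X p a b).R s q = Rr X s q.1 := by
  simp only [tdc, td, Rr, cl_eq hs]

lemma tdc_dl (hs : s ∈ Icc a b) (q : Z) :
    (tdc f E B X p a b).dl s q = Mom.dl X p s q.1 := by
  simp only [tdc, td, Mom.dl, nn, cl_eq hs]

lemma tdc_ep (hs : s ∈ Icc a b) (q : Z) :
    (tdc f E B X p a b).ep s q = Mom.ep X s q.1 q.2 := by
  simp only [tdc, td, Mom.ep, nn, cl_eq hs]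

lemma tdc_D (hs : s ∈ Icc a b) (q : Z) : (tdc f E B X p a b).D s q = Dd p s q.2 := by
  simp only [tdc, td, Dd, cl_eq hs]

lemma tdc_ga (q : Z) : (tdc f E B X p a b).ga s q = gam q.2 := rfl

lemma tdc_sh (hs : s ∈ Icc a b) (R1 d1 e1 D1 Q1 : ℝ) :
    (tdc f E B X p a b).sh R1 d1 e1 D1 Q1 s = shell X p R1 d1 e1 D1 Q1 s := by
  ext q
  simp only [TD.sh, shell, mem_ofPred_eq, tdc_R hs, tdc_dl hs, tdc_ep hs, tdc_D hs, tdc_ga]

lemma seen_cl (hs : s ∈ Icc a b) : seen (fun r => X (cl a b r)) s = seen X s := by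
  ext q
  simp only [seen, mem_ofPred_eq, cl_eq hs]

lemma ret_mem (hs : s ∈ Icc a b) {q : Z} (hq : q ∈ seen X s) : ret X s q.1 ∈ Icc 0 b := by
  have h1 : 0 < ‖X s - q.1‖ := hq.1
  have h2 : ‖X s - q.1‖ < s := hq.2
  have h3 := hs.2
  unfold ret
  constructor <;> linarith

open Classical in
lemma tdc_w (hs : s ∈ Icc a b) (q : Z) : (tdc f E B X p a b).w s q =
    if q ∈ seen X s then ENNReal.ofReal (f (ret X s q.1) q.1 q.2) else 0 := by
  have h : (tdc f E B X p a b).w s q =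
      if q ∈ seen (fun r => X (cl a b r)) s then
        ENNReal.ofReal (f (cl 0 b (ret (fun r => X (cl a b r)) s q.1)) q.1 q.2) else 0 := rfl
  rw [h, seen_cl hs]
  by_cases hq : q ∈ seen X s
  · rw [if_pos hq, if_pos hq]
    have e : ret (fun r => X (cl a b r)) s q.1 = ret X s q.1 := by
      simp only [ret, cl_eq hs]
    rw [e, cl_eq (ret_mem hs hq)]
  · rw [if_neg hq, if_neg hq]

lemma seen_of_w (hs : s ∈ Icc a b) {q : Z} (hw : (tdc f E B X p a b).w s q ≠ 0) :
    q ∈ seen X s := by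
  by_contra h
  exact hw (by rw [tdc_w hs, if_neg h])

lemma f_ne_of_w (hs : s ∈ Icc a b) {q : Z} (hw : (tdc f E B X p a b).w s q ≠ 0) :
    0 < f (ret X s q.1) q.1 q.2 := by
  have h1 := seen_of_w hs hw
  rw [tdc_w hs, if_pos h1] at hw
  by_contra h
  exact hw (ENNReal.ofReal_of_nonpos (not_lt.mp h))

lemma Kg_congr {E' B' : ℝ → R3 → R3} {X' : ℝ → R3} {y : R3} (h1 : nn X' s y = nn X s y)
    (h2 : E' (ret X' s y) y = E (ret X s y) y) (h3 : B' (ret X' s y) y = B (ret X s y) y) :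
    Kg E' B' X' s y = Kg E B X s y := by
  simp only [Kg, h1, h2, h3]

lemma tdc_Kg_def' (q : Z) : (tdc f E B X p a b).Kg s q =
    Kg (fun t => E (cl 0 b t)) (fun t => B (cl 0 b t)) (fun s => X (cl a b s)) s q.1 := rfl

lemma tdc_Kg (hs : s ∈ Icc a b) {q : Z} (hq : q ∈ seen X s) :
    (tdc f E B X p a b).Kg s q = Kg E B X s q.1 := by
  have e : ret (fun r => X (cl a b r)) s q.1 = ret X s q.1 := by
    simp only [ret, cl_eq hs]
  have e2 : nn (fun r => X (cl a b r)) s q.1 = nn X s q.1 := by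
    simp only [nn, cl_eq hs]
  have e3 : cl 0 b (ret X s q.1) = ret X s q.1 := cl_eq (ret_mem hs hq)
  rw [tdc_Kg_def']
  refine Kg_congr e2 ?_ ?_
  · show E (cl 0 b _) _ = _
    rw [e, e3]
  · show B (cl 0 b _) _ = _
    rw [e, e3]

lemma tdc_Bs (hs : s ∈ Icc a b) {q : Z} (hq : q ∈ seen X s) :
    (tdc f E B X p a b).Bs s q = ‖B (ret X s q.1) q.1‖ := by
  have e : ret (fun r => X (cl a b r)) s q.1 = ret X s q.1 := by
    simp only [ret, cl_eq hs]
  have h : (tdc f E B X p a b).Bs s q =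
    ‖B (cl 0 b (ret (fun r => X (cl a b r)) s q.1)) q.1‖ := rfl
  rw [h, e, cl_eq (ret_mem hs hq)]

lemma tdc_Ft (ha : 0 ≤ a) (hs : s ∈ Icc a b) :
    (tdc f E B X p a b).Ft s = if s ≤ 0 then 0 else ENNReal.ofReal (Ftest E B X p s) := by
  have h : (tdc f E B X p a b).Ft s = if s ≤ 0 then 0 else ENNReal.ofReal
    (Ftest (fun t => E (cl 0 b t)) (fun t => B (cl 0 b t)) (fun s => X (cl a b s))
      (fun s => p (cl a b s)) s) := rfl
  rw [h]
  simp only [Ftest, GSR.lor, cl_eq hs, cl_eq (show s ∈ Icc 0 b from ⟨ha.trans hs.1, hs.2⟩)]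

/-! ### continuity of the clamped functions -/

variable {T : ℝ}

lemma cont_f (hf : ContinuousOn (fun q : ℝ × R3 × R3 => f q.1 q.2.1 q.2.2) (Ico 0 T ×ˢ univ))
    (hb0 : 0 ≤ b) (hb : b < T) :
    Continuous (fun q : ℝ × R3 × R3 => f (cl 0 b q.1) q.2.1 q.2.2) := by
  have h : Continuous (fun q : ℝ × R3 × R3 => ((cl 0 b q.1, q.2) : ℝ × R3 × R3)) :=
    ((continuous_cl 0 b).comp continuous_fst).prodMk continuous_snd
  exact hf.comp_continuous h (fun q => ⟨⟨(cl_mem hb0 q.1).1, lt_of_le_of_lt (cl_mem hb0 q.1).2 hb⟩,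
    mem_univ _⟩)

lemma cont_E (hE : ContinuousOn (fun q : ℝ × R3 => E q.1 q.2) (Ico 0 T ×ˢ univ))
    (hb0 : 0 ≤ b) (hb : b < T) :
    Continuous (fun q : ℝ × R3 => E (cl 0 b q.1) q.2) := by
  have h : Continuous (fun q : ℝ × R3 => ((cl 0 b q.1, q.2) : ℝ × R3)) :=
    ((continuous_cl 0 b).comp continuous_fst).prodMk continuous_snd
  exact hE.comp_continuous h (fun q => ⟨⟨(cl_mem hb0 q.1).1, lt_of_le_of_lt (cl_mem hb0 q.1).2 hb⟩,
    mem_univ _⟩)

lemma cont_X (hX : ContinuousOn X (Ico 0 T)) (ha : 0 ≤ a) (hab : a ≤ b) (hb : b < T) :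
    Continuous (fun s => X (cl a b s)) :=
  hX.comp_continuous (continuous_cl a b) (fun s => ⟨ha.trans (cl_mem hab s).1,
    lt_of_le_of_lt (cl_mem hab s).2 hb⟩)

/-- the continuity hypotheses of a classical solution -/
structure Reg (T : ℝ) (f : ℝ → R3 → R3 → ℝ) (E B : ℝ → R3 → R3) : Prop where
  cf : ContinuousOn (fun q : ℝ × R3 × R3 => f q.1 q.2.1 q.2.2) (Ico 0 T ×ˢ univ)
  cE : ContinuousOn (fun q : ℝ × R3 => E q.1 q.2) (Ico 0 T ×ˢ univ)
  cB : ContinuousOn (fun q : ℝ × R3 => B q.1 q.2) (Ico 0 T ×ˢ univ)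

lemma reg_of_sol {f₀ : R3 → R3 → ℝ} {E₀ B₀ : R3 → R3}
    (h : IsClassicalSolutionOn T f₀ E₀ B₀ f E B) : Reg T f E B :=
  ⟨h.1.continuousOn, h.2.1.continuousOn, h.2.2.1.continuousOn⟩

/-! ### measurability of the clamped datum -/

lemma tdc_w_def : Function.uncurry (tdc f E B X p a b).w =
    Function.uncurry (td (fun t => f (cl 0 b t)) E B (fun s => X (cl a b s)) p a b).w := rfl

lemma tdc_R_def : Function.uncurry (tdc f E B X p a b).R =
    fun x : ℝ × Z => Rr (fun s => X (cl a b s)) x.1 x.2.1 := rfl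

lemma tdc_dl_def : Function.uncurry (tdc f E B X p a b).dl =
    fun x : ℝ × Z => Mom.dl (fun s => X (cl a b s)) (fun s => p (cl a b s)) x.1 x.2.1 := rfl

lemma tdc_ep_def : Function.uncurry (tdc f E B X p a b).ep =
    fun x : ℝ × Z => Mom.ep (fun s => X (cl a b s)) x.1 x.2.1 x.2.2 := rfl

lemma tdc_D_def : Function.uncurry (tdc f E B X p a b).D =
    fun x : ℝ × Z => Dd (fun s => p (cl a b s)) x.1 x.2.2 := rfl

lemma tdc_ga_def : Function.uncurry (tdc f E B X p a b).ga =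
    fun x : ℝ × Z => gam x.2.2 := rfl

lemma tdc_Kg_def : Function.uncurry (tdc f E B X p a b).Kg =
    fun x : ℝ × Z => Kg (fun t => E (cl 0 b t)) (fun t => B (cl 0 b t)) (fun s => X (cl a b s))
      x.1 x.2.1 := rfl

lemma tdc_Bs_def : Function.uncurry (tdc f E B X p a b).Bs =
    fun x : ℝ × Z => ‖B (cl 0 b (ret (fun s => X (cl a b s)) x.1 x.2.1)) x.2.1‖ := rfl

lemma tdc_mw (hr : Reg T f E B) (hc : IsChar T f E B X p) (ha : 0 ≤ a) (hab : a ≤ b)
    (hb : b < T) : Measurable (Function.uncurry (tdc f E B X p a b).w) := by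
  rw [tdc_w_def]
  exact meas_w (cont_f hr.cf (ha.trans hab) hb) (cont_X hc.cX ha hab hb) a b

lemma tdc_mR (hc : IsChar T f E B X p) (ha : 0 ≤ a) (hab : a ≤ b)
    (hb : b < T) : Measurable (Function.uncurry (tdc f E B X p a b).R) := by
  rw [tdc_R_def]
  exact meas_R (cont_X hc.cX ha hab hb)

lemma tdc_mdl (hc : IsChar T f E B X p) (ha : 0 ≤ a) (hab : a ≤ b)
    (hb : b < T) : Measurable (Function.uncurry (tdc f E B X p a b).dl) := by
  rw [tdc_dl_def]
  exact meas_dl (cont_X hc.cX ha hab hb) (cont_X hc.cp ha hab hb)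

lemma tdc_mep (hc : IsChar T f E B X p) (ha : 0 ≤ a) (hab : a ≤ b)
    (hb : b < T) : Measurable (Function.uncurry (tdc f E B X p a b).ep) := by
  rw [tdc_ep_def]
  exact meas_ep (cont_X hc.cX ha hab hb)

lemma tdc_mD (hc : IsChar T f E B X p) (ha : 0 ≤ a) (hab : a ≤ b)
    (hb : b < T) : Measurable (Function.uncurry (tdc f E B X p a b).D) := by
  rw [tdc_D_def]
  exact meas_D (cont_X hc.cp ha hab hb)

lemma tdc_mga : Measurable (Function.uncurry (tdc f E B X p a b).ga) := by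
  rw [tdc_ga_def]
  exact (continuous_gam.comp (continuous_snd.comp continuous_snd)).measurable

lemma tdc_mKg (hr : Reg T f E B) (hc : IsChar T f E B X p) (ha : 0 ≤ a) (hab : a ≤ b)
    (hb : b < T) : Measurable (Function.uncurry (tdc f E B X p a b).Kg) := by
  rw [tdc_Kg_def]
  exact meas_Kg (cont_X hc.cX ha hab hb) (cont_E hr.cE (ha.trans hab) hb)
    (cont_E hr.cB (ha.trans hab) hb)

lemma tdc_mBs (hr : Reg T f E B) (hc : IsChar T f E B X p) (ha : 0 ≤ a) (hab : a ≤ b)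
    (hb : b < T) : Measurable (Function.uncurry (tdc f E B X p a b).Bs) := by
  rw [tdc_Bs_def]
  have h := cont_E hr.cB (ha.trans hab) hb
  have h2 : Continuous (fun x : ℝ × Z => ret (fun s => X (cl a b s)) x.1 x.2.1) :=
    cont_ret (cont_X hc.cX ha hab hb)
  have h3 : Continuous (fun x : ℝ × Z =>
      B (cl 0 b (ret (fun s => X (cl a b s)) x.1 x.2.1)) x.2.1) :=
    h.comp (h2.prodMk (continuous_fst.comp continuous_snd))
  exact h3.norm.measurable

/-! ### `kap` = `withDensity` -/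

lemma volume_vertex (x : R3) : volume {q : Z | q.1 = x} = 0 := by
  have h : {q : Z | q.1 = x} = {x} ×ˢ (univ : Set R3) := by
    ext q; simp
  rw [h, Measure.volume_eq_prod, Measure.prod_prod]
  simp

theorem kap_eq (hs : s ∈ Icc a b) :
    kap f X s = volume.withDensity ((tdc f E B X p a b).w s) := by
  classical
  have hms : MeasurableSet (Metric.ball (X s) s ×ˢ (univ : Set R3)) :=
    Metric.isOpen_ball.measurableSet.prod MeasurableSet.univ
  unfold kap
  rw [← withDensity_indicator hms]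
  refine withDensity_congr_ae ?_
  have h0 : ∀ᵐ q : Z ∂volume, q.1 ≠ X s := by
    rw [ae_iff]
    simpa using volume_vertex (X s)
  filter_upwards [h0] with q hq
  rw [tdc_w hs]
  have h1 : 0 < ‖X s - q.1‖ := norm_pos_iff.mpr (sub_ne_zero.mpr (Ne.symm hq))
  by_cases h2 : ‖X s - q.1‖ < s
  · have h3 : q ∈ Metric.ball (X s) s ×ˢ (univ : Set R3) :=
      ⟨by rw [Metric.mem_ball, dist_comm, dist_eq_norm]; exact h2, mem_univ _⟩
    rw [indicator_of_mem h3, if_pos ⟨h1, h2⟩]
  · have h3 : q ∉ Metric.ball (X s) s ×ˢ (univ : Set R3) := by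
      rintro ⟨h4, -⟩
      rw [Metric.mem_ball, dist_comm, dist_eq_norm] at h4
      exact h2 h4
    rw [indicator_of_notMem h3, if_neg (fun h => h2 h.2)]

lemma measurable_of_uncurry {α β γ : Type*} [MeasurableSpace α] [MeasurableSpace β]
    [MeasurableSpace γ] {g : α → β → γ} (h : Measurable (Function.uncurry g)) (x : α) :
    Measurable (g x) :=
  h.comp measurable_prodMk_left

lemma meas_ws (hr : Reg T f E B) (hc : IsChar T f E B X p) (ha : 0 ≤ a) (hab : a ≤ b)
    (hb : b < T) (s : ℝ) : Measurable ((tdc f E B X p a b).w s) :=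
  measurable_of_uncurry (tdc_mw hr hc ha hab hb) s

/-- comparison of integrals, upper bound: no measurability of the integrands is needed -/
theorem lint_le (hr : Reg T f E B) (hc : IsChar T f E B X p) (ha : 0 ≤ a) (hab : a ≤ b)
    (hb : b < T) (hs : s ∈ Icc a b) {g g' : Z → ℝ≥0∞}
    (h : ∀ q, (tdc f E B X p a b).w s q ≠ 0 → g q ≤ g' q) {A : Set Z} (hA : MeasurableSet A) :
    ∫⁻ q in A, g q ∂(kap f X s) ≤ ∫⁻ q in A, (tdc f E B X p a b).w s q * g' q := by
  rw [kap_eq (E := E) (B := B) (p := p) hs, restrict_withDensity hA]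
  refine (lintegral_withDensity_le_lintegral_mul _ (meas_ws hr hc ha hab hb s) g).trans ?_
  refine lintegral_mono fun q => ?_
  by_cases hw : (tdc f E B X p a b).w s q = 0
  · simp [hw]
  · exact mul_le_mul_right (h q hw) _

/-- comparison of integrals, lower bound -/
theorem lint_ge (hr : Reg T f E B) (hc : IsChar T f E B X p) (ha : 0 ≤ a) (hab : a ≤ b)
    (hb : b < T) (hs : s ∈ Icc a b) {g g' : Z → ℝ≥0∞} (hg' : Measurable g')
    (h : ∀ q, (tdc f E B X p a b).w s q ≠ 0 → g' q ≤ g q) {A : Set Z} (hA : MeasurableSet A) :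
    ∫⁻ q in A, (tdc f E B X p a b).w s q * g' q ≤ ∫⁻ q in A, g q ∂(kap f X s) := by
  have hw := meas_ws hr hc ha hab hb s
  rw [kap_eq (E := E) (B := B) (p := p) hs, restrict_withDensity hA]
  have e : ∫⁻ q in A, (tdc f E B X p a b).w s q * g' q =
      ∫⁻ q, g' q ∂((volume.restrict A).withDensity ((tdc f E B X p a b).w s)) := by
    rw [lintegral_withDensity_eq_lintegral_mul _ hw hg']
    rfl
  rw [e]
  refine lintegral_mono_ae ?_
  rw [ae_withDensity_iff hw]
  exact ae_of_all _ h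

theorem lint_le' (hr : Reg T f E B) (hc : IsChar T f E B X p) (ha : 0 ≤ a) (hab : a ≤ b)
    (hb : b < T) (hs : s ∈ Icc a b) {g g' : Z → ℝ≥0∞}
    (h : ∀ q, (tdc f E B X p a b).w s q ≠ 0 → g q ≤ g' q) :
    ∫⁻ q, g q ∂(kap f X s) ≤ ∫⁻ q, (tdc f E B X p a b).w s q * g' q := by
  have := lint_le hr hc ha hab hb hs h MeasurableSet.univ
  simpa using this

theorem lint_ge' (hr : Reg T f E B) (hc : IsChar T f E B X p) (ha : 0 ≤ a) (hab : a ≤ b)
    (hb : b < T) (hs : s ∈ Icc a b) {g g' : Z → ℝ≥0∞} (hg' : Measurable g')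
    (h : ∀ q, (tdc f E B X p a b).w s q ≠ 0 → g' q ≤ g q) :
    ∫⁻ q, (tdc f E B X p a b).w s q * g' q ≤ ∫⁻ q, g q ∂(kap f X s) := by
  have := lint_ge hr hc ha hab hb hs hg' h MeasurableSet.univ
  simpa using this

lemma measSet_sh (hc : IsChar T f E B X p) (ha : 0 ≤ a) (hab : a ≤ b)
    (hb : b < T) (R1 d1 e1 D1 Q1 s : ℝ) :
    MeasurableSet ((tdc f E B X p a b).sh R1 d1 e1 D1 Q1 s) := by
  have h1 := measurable_of_uncurry (tdc_mR (f := f) (E := E) (B := B) hc ha hab hb) s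
  have h2 := measurable_of_uncurry (tdc_mdl (f := f) (E := E) (B := B) hc ha hab hb) s
  have h3 := measurable_of_uncurry (tdc_mep (f := f) (E := E) (B := B) hc ha hab hb) s
  have h4 := measurable_of_uncurry (tdc_mD (f := f) (E := E) (B := B) hc ha hab hb) s
  have h5 := measurable_of_uncurry
    (tdc_mga (f := f) (E := E) (B := B) (X := X) (p := p) (a := a) (b := b)) s
  exact ((measurableSet_le measurable_const h1).inter (measurableSet_lt h1 measurable_const)).inter
    (((measurableSet_le measurable_const h2).inter (measurableSet_lt h2 measurable_const)).inter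
    (((measurableSet_le measurable_const h3).inter (measurableSet_lt h3 measurable_const)).inter
    (((measurableSet_le measurable_const h4).inter (measurableSet_lt h4 measurable_const)).inter
    ((measurableSet_le measurable_const h5).inter (measurableSet_lt h5 measurable_const)))))

/-- `kappa_s(shell)` in the two vocabularies -/
theorem kap_shell (hc : IsChar T f E B X p) (ha : 0 ≤ a) (hab : a ≤ b)
    (hb : b < T) (hs : s ∈ Icc a b) (R1 d1 e1 D1 Q1 : ℝ) :
    (tdc f E B X p a b).kap s ((tdc f E B X p a b).sh R1 d1 e1 D1 Q1 s) =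
      kap f X s (shell X p R1 d1 e1 D1 Q1 s) := by
  have hm := measSet_sh (f := f) (E := E) (B := B) hc ha hab hb R1 d1 e1 D1 Q1 s
  rw [kap_eq (E := E) (B := B) (p := p) hs, ← tdc_sh (f := f) (E := E) (B := B) hs,
    withDensity_apply _ hm]
  rfl

theorem nu_shell (hc : IsChar T f E B X p) (ha : 0 ≤ a) (hab : a ≤ b)
    (hb : b < T) (R1 d1 e1 D1 Q1 : ℝ) :
    (tdc f E B X p a b).nu ((tdc f E B X p a b).sh R1 d1 e1 D1 Q1) =
      ∫⁻ s in Icc a b, kap f X s (shell X p R1 d1 e1 D1 Q1 s) := by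
  unfold TD.nu
  exact setLIntegral_congr_fun measurableSet_Icc fun s hs =>
    kap_shell hc ha hab hb hs R1 d1 e1 D1 Q1

end Crest.Agent.R106.Link
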