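/-
R106, module GsrMom (helper846): the relativistic velocity, integration by parts in momentum, and
the resulting kernels `e_S`, `n × e_S`.
-/
import Crest.Agent.R106.GSRDefs

set_option autoImplicit false

open MeasureTheory Set Filter Topology
open Crest.AnalysisR.VecCalc3 Crest.AnalysisR.PDE.RVM
open scoped InnerProductSpace ContDiff

noncomputable section

namespace Crest.Agent.R106.GSR

/-! ### the relativistic velocity -/

theorem gam_pos (p : R3) : 0 < gam p := Real.sqrt_pos.2 (by positivity)

theorem gam_sq (p : R3) : gam p ^ 2 = 1 + ‖p‖ ^ 2 := Real.sq_sqrt (by positivity)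

theorem one_le_gam (p : R3) : 1 ≤ gam p := by
  have h := gam_sq p
  have h1 := gam_pos p
  nlinarith [sq_nonneg ‖p‖]

theorem relVel_eq (p : R3) : relVel p = (gam p)⁻¹ • p := rfl

theorem norm_sq_relVel (p : R3) : ‖relVel p‖ ^ 2 = 1 - ((gam p)⁻¹) ^ 2 := by
  have h := gam_sq p
  have h1 := gam_pos p
  rw [relVel_eq, norm_smul, Real.norm_eq_abs, abs_of_pos (inv_pos.2 h1), mul_pow,
    show ‖p‖ ^ 2 = gam p ^ 2 - 1 by linarith]
  field_simp

theorem norm_relVel_lt (p : R3) : ‖relVel p‖ < 1 := by
  have h := norm_sq_relVel p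
  have h1 : 0 < ((gam p)⁻¹) ^ 2 := by have := gam_pos p; positivity
  have h2 : ‖relVel p‖ ^ 2 < 1 := by linarith
  nlinarith [norm_nonneg (relVel p)]

theorem contDiff_gam : ContDiff ℝ ∞ gam := by
  unfold gam
  refine ContDiff.sqrt (contDiff_const.add (contDiff_norm_sq ℝ)) fun p => ?_
  positivity

theorem contDiff_relVel : ContDiff ℝ ∞ relVel :=
  (contDiff_gam.inv fun p => (gam_pos p).ne').smul contDiff_id

theorem hasFDerivAt_gam (p : R3) : HasFDerivAt gam (innerSL ℝ (relVel p)) p := by
  have h1 : HasFDerivAt (fun p : R3 => 1 + ‖p‖ ^ 2) (2 • innerSL ℝ p) p := by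
    have := (hasStrictFDerivAt_norm_sq p).hasFDerivAt
    exact this.const_add 1
  have h2 := h1.sqrt (by positivity : (1 + ‖p‖ ^ 2) ≠ 0)
  refine h2.congr_fderiv ?_
  ext w
  simp only [smul_apply, innerSL_apply_apply, relVel_eq, real_inner_smul_left,
    smul_eq_mul, nsmul_eq_mul]
  have h3 := gam_pos p
  unfold gam at h3 ⊢
  field_simp
  simp

theorem fderiv_relVel (p w : R3) : fderiv ℝ relVel p w = acc p w := by
  have h1 := hasFDerivAt_gam p
  have h2 : HasFDerivAt (fun p => (gam p)⁻¹)
      ((-(gam p ^ 2)⁻¹) • innerSL ℝ (relVel p)) p :=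
    (hasDerivAt_inv (gam_pos p).ne').comp_hasFDerivAt p h1
  have h3 : HasFDerivAt relVel _ p := h2.smul (hasFDerivAt_id p)
  rw [h3.fderiv]
  simp only [add_apply, smul_apply, ContinuousLinearMap.smulRight_apply,
    innerSL_apply_apply, ContinuousLinearMap.id_apply, acc, relVel_eq, real_inner_smul_left,
    smul_eq_mul]
  have h4 := gam_pos p
  rw [smul_sub, smul_smul, smul_smul, sub_eq_add_neg, ← neg_smul]
  congr 2
  field_simp

/-- the matrix `∂_j v_i` is symmetric -/
theorem fderiv_relVel_symm (p w z : R3) :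
    ⟪fderiv ℝ relVel p w, z⟫_ℝ = ⟪w, fderiv ℝ relVel p z⟫_ℝ := by
  rw [fderiv_relVel, fderiv_relVel, acc, acc, real_inner_smul_left, real_inner_smul_right,
    inner_sub_left, inner_sub_right, real_inner_smul_left, real_inner_smul_right,
    real_inner_comm (relVel p) w]
  ring

/-! ### integration by parts -/

/-- Lorentz force with frozen fields -/
def lorF (E B p : R3) : R3 := E + cross3 (relVel p) B

theorem integral_fderiv_zero {f : R3 → ℝ} (hf : ContDiff ℝ 1 f) (hc : HasCompactSupport f)
    (v : R3) : ∫ x, fderiv ℝ f x v = 0 := by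
  have hfd : Continuous (fderiv ℝ f) := hf.continuous_fderiv one_ne_zero
  have hfc : HasCompactSupport fun x => fderiv ℝ f x v := by
    have h1 : HasCompactSupport (fderiv ℝ f) := hc.fderiv (𝕜 := ℝ)
    exact h1.comp_left (g := fun L : R3 →L[ℝ] ℝ => L v) rfl
  have hi : Integrable fun x => fderiv ℝ f x v :=
    (hfd.clm_apply continuous_const).integrable_of_hasCompactSupport hfc
  have h := integral_mul_fderiv_eq_neg_fderiv_mul_of_integrable (μ := (volume : Measure R3))
    (f := fun _ : R3 => (1 : ℝ)) (g := f) (v := v) (by simp) (by simpa using hi)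
    (by simpa using hf.continuous.integrable_of_hasCompactSupport hc)
    (fun x _ => differentiableAt_const _)
    (fun x _ => (hf.differentiable one_ne_zero) x)
  simpa using h

theorem sum_single (w : R3) : w = ∑ i, w i • EuclideanSpace.single i (1 : ℝ) := by
  have h0 := (EuclideanSpace.basisFun (Fin 3) ℝ).sum_repr w
  simp only [EuclideanSpace.basisFun_repr, EuclideanSpace.basisFun_apply] at h0
  exact h0.symm

theorem fderiv_apply_sum (L : R3 →L[ℝ] ℝ) (w : R3) :
    L w = ∑ i, w i * L (EuclideanSpace.single i 1) := by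
  conv_lhs => rw [sum_single w]
  rw [map_sum]
  exact Finset.sum_congr rfl fun i _ => by rw [map_smul, smul_eq_mul]

/-- component of the derivative of `relVel` -/
theorem fderiv_relVel_comp (p w : R3) (i : Fin 3) :
    fderiv ℝ (fun p => relVel p i) p w = acc p w i := by
  have hd : DifferentiableAt ℝ relVel p := (contDiff_relVel.differentiable (by simp)) p
  have h1 := ((EuclideanSpace.proj (𝕜 := ℝ) i).hasFDerivAt (x := relVel p)).comp p hd.hasFDerivAt
  have h2 : fderiv ℝ (fun p => relVel p i) p
      = (EuclideanSpace.proj (𝕜 := ℝ) i).comp (fderiv ℝ relVel p) := h1.fderiv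
  rw [h2, ContinuousLinearMap.comp_apply, fderiv_relVel]
  rfl

theorem acc_single_symm (p : R3) (i j : Fin 3) :
    acc p (EuclideanSpace.single i 1) j = acc p (EuclideanSpace.single j 1) i := by
  have h := fderiv_relVel_symm p (EuclideanSpace.single i 1) (EuclideanSpace.single j 1)
  rw [fderiv_relVel, fderiv_relVel, EuclideanSpace.inner_single_right,
    EuclideanSpace.inner_single_left] at h
  simpa using h

theorem lorF_0 (E B p : R3) :
    lorF E B p 0 = E 0 + (relVel p 1 * B 2 - relVel p 2 * B 1) := rfl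

theorem lorF_1 (E B p : R3) :
    lorF E B p 1 = E 1 + (relVel p 2 * B 0 - relVel p 0 * B 2) := rfl

theorem lorF_2 (E B p : R3) :
    lorF E B p 2 = E 2 + (relVel p 0 * B 1 - relVel p 1 * B 0) := rfl

theorem contDiff_relVel_comp (j : Fin 3) : ContDiff ℝ ∞ fun p => relVel p j :=
  (EuclideanSpace.proj (𝕜 := ℝ) j).contDiff.comp contDiff_relVel

theorem contDiff_lorF_comp (E B : R3) (i : Fin 3) : ContDiff ℝ ∞ fun p => lorF E B p i := by
  have key : ∀ (a b : Fin 3) (c d e : ℝ),
      ContDiff ℝ ∞ fun p => e + (relVel p a * c - relVel p b * d) := fun a b c d e =>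
    contDiff_const.add (((contDiff_relVel_comp a).mul contDiff_const).sub
      ((contDiff_relVel_comp b).mul contDiff_const))
  fin_cases i
  · exact key 1 2 _ _ _
  · exact key 2 0 _ _ _
  · exact key 0 1 _ _ _

theorem contDiff_lorF (E B : R3) : ContDiff ℝ ∞ fun p => lorF E B p :=
  contDiff_euclidean.2 (contDiff_lorF_comp E B)

/-- the Lorentz force is divergence free in momentum -/
theorem div_lorF (E B p : R3) :
    ∑ i, fderiv ℝ (fun p => lorF E B p i) p (EuclideanSpace.single i 1) = 0 := by
  have hd : ∀ j, DifferentiableAt ℝ (fun p => relVel p j) p := fun j =>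
    (contDiff_relVel_comp j).differentiable (by simp) p
  have key : ∀ (i a b : Fin 3) (c d e : ℝ),
      fderiv ℝ (fun p => e + (relVel p a * c - relVel p b * d)) p (EuclideanSpace.single i 1)
        = acc p (EuclideanSpace.single i 1) a * c - acc p (EuclideanSpace.single i 1) b * d := by
    intro i a b c d e
    rw [fderiv_const_add, fderiv_fun_sub ((hd a).mul_const c) ((hd b).mul_const d),
      fderiv_mul_const (hd a), fderiv_mul_const (hd b)]
    simp only [sub_apply, smul_apply, smul_eq_mul, fderiv_relVel_comp]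
    ring
  have e0 : (fun p => lorF E B p 0) = fun p => E 0 + (relVel p 1 * B 2 - relVel p 2 * B 1) := rfl
  have e1 : (fun p => lorF E B p 1) = fun p => E 1 + (relVel p 2 * B 0 - relVel p 0 * B 2) := rfl
  have e2 : (fun p => lorF E B p 2) = fun p => E 2 + (relVel p 0 * B 1 - relVel p 1 * B 0) := rfl
  rw [Fin.sum_univ_three, e0, e1, e2, key, key, key, acc_single_symm p 1 0,
    acc_single_symm p 2 0, acc_single_symm p 2 1]
  ring

/-- **integration by parts in momentum** -/
theorem ibp {κ φ : R3 → ℝ} (hκ : ContDiff ℝ 1 κ) (hφ : ContDiff ℝ 1 φ)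
    (hc : HasCompactSupport φ) (E B : R3) :
    ∫ p, κ p * fderiv ℝ φ p (lorF E B p) = - ∫ p, φ p * fderiv ℝ κ p (lorF E B p) := by
  have hF : ∀ i, ContDiff ℝ 1 fun p => lorF E B p i := fun i =>
    (contDiff_lorF_comp E B i).of_le (by simp)
  have hG : ContDiff ℝ 1 fun p => κ p * φ p := hκ.mul hφ
  have hGF : ∀ i, ContDiff ℝ 1 fun p => (κ p * φ p) * lorF E B p i := fun i => hG.mul (hF i)
  have hcs : ∀ i, HasCompactSupport fun p => (κ p * φ p) * lorF E B p i := fun i =>
    (hc.mul_left (f := κ)).mul_right
  have h0 : ∀ i, ∫ p, fderiv ℝ (fun p => (κ p * φ p) * lorF E B p i) p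
      (EuclideanSpace.single i 1) = 0 := fun i => integral_fderiv_zero (hGF i) (hcs i) _
  have hint : ∀ i, Integrable fun p => fderiv ℝ (fun p => (κ p * φ p) * lorF E B p i) p
      (EuclideanSpace.single i 1) := fun i => by
    have h1 : HasCompactSupport (fderiv ℝ fun p => (κ p * φ p) * lorF E B p i) :=
      (hcs i).fderiv (𝕜 := ℝ)
    exact (((hGF i).continuous_fderiv one_ne_zero).clm_apply
      continuous_const).integrable_of_hasCompactSupport
        (h1.comp_left (g := fun L : R3 →L[ℝ] ℝ => L _) rfl)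
  have h1 : ∫ p, ∑ i, fderiv ℝ (fun p => (κ p * φ p) * lorF E B p i) p
      (EuclideanSpace.single i 1) = 0 := by
    rw [integral_finsetSum _ fun i _ => hint i]
    exact Finset.sum_eq_zero fun i _ => h0 i
  have h2 : ∀ p, ∑ i, fderiv ℝ (fun p => (κ p * φ p) * lorF E B p i) p
      (EuclideanSpace.single i 1)
      = κ p * fderiv ℝ φ p (lorF E B p) + φ p * fderiv ℝ κ p (lorF E B p) := by
    intro p
    have hκd := hκ.differentiable one_ne_zero p
    have hφd := hφ.differentiable one_ne_zero p
    have hFd : ∀ i, DifferentiableAt ℝ (fun p => lorF E B p i) p := fun i =>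
      (hF i).differentiable one_ne_zero p
    have h3 : ∀ i, fderiv ℝ (fun p => (κ p * φ p) * lorF E B p i) p (EuclideanSpace.single i 1)
        = (κ p * φ p) * fderiv ℝ (fun p => lorF E B p i) p (EuclideanSpace.single i 1)
          + (κ p * (lorF E B p i * fderiv ℝ φ p (EuclideanSpace.single i 1))
          + φ p * (lorF E B p i * fderiv ℝ κ p (EuclideanSpace.single i 1))) := by
      intro i
      rw [fderiv_fun_mul (hκd.fun_mul hφd) (hFd i), fderiv_fun_mul hκd hφd]
      simp only [add_apply, smul_apply, smul_eq_mul]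
      ring
    rw [Finset.sum_congr rfl fun i _ => h3 i, Finset.sum_add_distrib, ← Finset.mul_sum,
      div_lorF, mul_zero, zero_add, Finset.sum_add_distrib, ← Finset.mul_sum, ← Finset.mul_sum,
      ← fderiv_apply_sum, ← fderiv_apply_sum]
  have hi1 : Integrable fun p => κ p * fderiv ℝ φ p (lorF E B p) := by
    have hcont : Continuous fun p => lorF E B p := (contDiff_lorF E B).continuous
    refine (hκ.continuous.mul ((hφ.continuous_fderiv one_ne_zero).clm_apply
      hcont)).integrable_of_hasCompactSupport ?_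
    refine HasCompactSupport.mul_left ?_
    have h1 : HasCompactSupport (fderiv ℝ φ) := hc.fderiv (𝕜 := ℝ)
    refine h1.mono' ?_
    intro p hp
    refine subset_tsupport _ ?_
    intro h0
    apply hp
    simp only at h0 ⊢
    rw [h0]; rfl
  have hi2 : Integrable fun p => φ p * fderiv ℝ κ p (lorF E B p) := by
    have hcont : Continuous fun p => lorF E B p := (contDiff_lorF E B).continuous
    exact (hφ.continuous.mul ((hκ.continuous_fderiv one_ne_zero).clm_apply
      hcont)).integrable_of_hasCompactSupport hc.mul_right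
  rw [integral_congr_ae (Eventually.of_forall h2), integral_add hi1 hi2] at h1
  linarith

end Crest.Agent.R106.GSR
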