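import Mathlib
import Crest.Prelude.Def_VecCalc3

/-!
# Row 106, node PAIR, part P1: static kernel algebra for one (test, source) pair

`n` = unit vector from the source to the test, `v` = velocity of the source, `V` = velocity of the
test, `R` = distance, `dl = 1 - n.V` (delta), `ep = 1 - n.v` (epsilon), `D = 1 - V.v`.
All statements hold in an arbitrary real inner product space (the cross product only enters in the
last section).
-/

set_option autoImplicit false
open scoped RealInnerProductSpace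

namespace Crest.Agent.R106.Pair

variable {H : Type*} [NormedAddCommGroup H] [InnerProductSpace ℝ H]

/-- `1 - a·b`. -/
noncomputable def om (a b : H) : ℝ := 1 - ⟪a, b⟫

/-- Lienard-Wiechert velocity field per unit phase space (without `1/4π`). -/
noncomputable def eT (n v : H) (R : ℝ) : H := ((1 - ‖v‖ ^ 2) / ((om n v) ^ 2 * R ^ 2)) • (n - v)

/-- Lienard-Wiechert acceleration field per unit phase space (without `1/4π`). -/
noncomputable def eS (n v a : H) (R : ℝ) : H :=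
  (1 / ((om n v) ^ 2 * R)) • (⟪n, a⟫ • (n - v) - (om n v) • a)

/-- Lorentz force on the test of a retarded field with `B = n × E`. -/
noncomputable def lor (n V e : H) : H := (om n V) • e + ⟪V, e⟫ • n

noncomputable def KT (n v V : H) (R : ℝ) : H := lor n V (eT n v R)

noncomputable def KS (n v V a : H) (R : ℝ) : H := lor n V (eS n v a R)

/-- boundary kernel of the conjugate representation -/
noncomputable def KG (n v V : H) (R : ℝ) : H :=
  (1 / (om n V * om n v * R)) • ((om V v) • n - (om n V) • v - (om n v) • V)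

/-- conjugate kernel (per unit source per unit source time) -/
noncomputable def KC (n v V A : H) (R : ℝ) : H :=
  ((1 - ‖V‖ ^ 2) / ((om n V) ^ 3 * R ^ 2)) • ((om V v) • n - (om n v) • V) +
  (1 / ((om n V) ^ 3 * R)) •
    ((om n v * om n V) • A + (om n v * ⟪n, A⟫) • V + (om n V * ⟪A, v⟫) • n
      - (om V v * ⟪n, A⟫) • n)

/-- acceleration of a particle with velocity `v` (energy `(1-|v|²)^(-1/2)`) under the force `F` -/
noncomputable def acc (v F : H) : H := Real.sqrt (1 - ‖v‖ ^ 2) • (F - ⟪v, F⟫ • v)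

section basic
variable {n v V : H}

theorem om_comm (a b : H) : om a b = om b a := by simp [om, real_inner_comm]

theorem om_pos (hn : ‖n‖ = 1) (hv : ‖v‖ < 1) : 0 < om n v := by
  have h := real_inner_le_norm n v
  rw [hn, one_mul] at h
  unfold om; linarith

theorem om_pos' (hV : ‖V‖ < 1) (hv : ‖v‖ < 1) : 0 < om V v := by
  have h := real_inner_le_norm V v
  have h2 : ‖V‖ * ‖v‖ < 1 := by nlinarith [norm_nonneg V, norm_nonneg v]
  unfold om; linarith

theorem om_le_two (ha : ‖n‖ ≤ 1) (hv : ‖v‖ ≤ 1) : om n v ≤ 2 := by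
  have h := neg_le_of_abs_le (abs_real_inner_le_norm n v)
  have h2 : ‖n‖ * ‖v‖ ≤ 1 := by nlinarith [norm_nonneg n, norm_nonneg v]
  unfold om; linarith

/-- `|n - v|² = 2 ep - γ⁻²`. -/
theorem norm_sub_sq_eq (hn : ‖n‖ = 1) : ‖n - v‖ ^ 2 = 2 * om n v - (1 - ‖v‖ ^ 2) := by
  rw [norm_sub_sq_real, hn]; unfold om; ring

theorem norm_sub_sq_le (hn : ‖n‖ = 1) (hv : ‖v‖ ≤ 1) : ‖n - v‖ ^ 2 ≤ 2 * om n v := by
  have h1 : ‖v‖ ^ 2 ≤ 1 := by nlinarith [norm_nonneg v]
  rw [norm_sub_sq_eq hn]; linarith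

theorem norm_sub_le_sqrt (hn : ‖n‖ = 1) (hv : ‖v‖ ≤ 1) : ‖n - v‖ ≤ Real.sqrt (2 * om n v) :=
  Real.le_sqrt_of_sq_le (norm_sub_sq_le hn hv)

/-- `|V - v|² = 2 D - γ⁻² - Γ⁻²`. -/
theorem norm_sub_sq_eq' : ‖V - v‖ ^ 2 = 2 * om V v - (1 - ‖v‖ ^ 2) - (1 - ‖V‖ ^ 2) := by
  rw [norm_sub_sq_real]; unfold om; ring

theorem gam_le_ep (hn : ‖n‖ = 1) : 1 - ‖v‖ ^ 2 ≤ 2 * om n v := by
  have h := norm_sub_sq_eq (v := v) hn
  nlinarith [sq_nonneg ‖n - v‖]

theorem gam_add_le_D : (1 - ‖v‖ ^ 2) + (1 - ‖V‖ ^ 2) ≤ 2 * om V v := by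
  have h := norm_sub_sq_eq' (v := v) (V := V)
  nlinarith [sq_nonneg ‖V - v‖]

/-- `D - delta - eps = -(V - n)·(v - n)`. -/
theorem D_sub_eq (hn : ‖n‖ = 1) : om V v - om n V - om n v = - ⟪V - n, v - n⟫ := by
  have h : ⟪n, n⟫ = 1 := by rw [real_inner_self_eq_norm_sq, hn]; norm_num
  simp only [om, inner_sub_left, inner_sub_right, h, real_inner_comm n V]
  ring

theorem abs_D_sub_le (hn : ‖n‖ = 1) (hv : ‖v‖ ≤ 1) (hV : ‖V‖ ≤ 1) :
    |om V v - om n V - om n v| ≤ 2 * Real.sqrt (om n V * om n v) := by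
  rw [D_sub_eq hn, abs_neg]
  have h0 : 0 ≤ om n V := by
    have := real_inner_le_norm n V; rw [hn, one_mul] at this; unfold om; linarith
  have h0' : 0 ≤ om n v := by
    have := real_inner_le_norm n v; rw [hn, one_mul] at this; unfold om; linarith
  calc |⟪V - n, v - n⟫| ≤ ‖V - n‖ * ‖v - n‖ := abs_real_inner_le_norm _ _
    _ ≤ Real.sqrt (2 * om n V) * Real.sqrt (2 * om n v) := by
        apply mul_le_mul _ _ (norm_nonneg _) (Real.sqrt_nonneg _)
        · rw [norm_sub_rev]; exact norm_sub_le_sqrt hn hV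
        · rw [norm_sub_rev]; exact norm_sub_le_sqrt hn hv
    _ = 2 * Real.sqrt (om n V * om n v) := by
        rw [← Real.sqrt_mul (by linarith)]
        rw [show 2 * om n V * (2 * om n v) = 2 ^ 2 * (om n V * om n v) by ring]
        rw [Real.sqrt_mul (by norm_num), Real.sqrt_sq (by norm_num)]

theorem D_le_of (hn : ‖n‖ = 1) (hv : ‖v‖ ≤ 1) (hV : ‖V‖ ≤ 1) :
    om V v ≤ 2 * (om n V + om n v) := by
  have h := abs_D_sub_le (n := n) (v := v) (V := V) hn hv hV
  have h0 : 0 ≤ om n V := by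
    have := real_inner_le_norm n V; rw [hn, one_mul] at this; unfold om; linarith
  have h0' : 0 ≤ om n v := by
    have := real_inner_le_norm n v; rw [hn, one_mul] at this; unfold om; linarith
  have h1 : 2 * Real.sqrt (om n V * om n v) ≤ om n V + om n v := by
    have h2 := Real.sqrt_mul_self (add_nonneg h0 h0')
    have h3 : Real.sqrt (om n V * om n v) ≤ (om n V + om n v) / 2 := by
      apply Real.sqrt_le_iff.mpr ⟨by linarith, by nlinarith [sq_nonneg (om n V - om n v)]⟩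
    linarith
  have := (abs_le.mp h).2
  linarith

/-- `|eps - delta| ≤ 2 sqrt(delta D) + D`. -/
theorem abs_ep_sub_dl_le (hn : ‖n‖ = 1) (hv : ‖v‖ ≤ 1) (hV : ‖V‖ ≤ 1) :
    |om n v - om n V| ≤ 2 * Real.sqrt (om n V * om V v) + om V v := by
  -- eps - delta = n·(V - v); write n = V + (n - V)
  have e : om n v - om n V = ⟪n - V, V - v⟫ + (‖V‖ ^ 2 - ⟪V, v⟫) := by
    simp only [om, inner_sub_left, inner_sub_right, real_inner_self_eq_norm_sq]
    ring
  have h0 : 0 ≤ om n V := by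
    have := real_inner_le_norm n V; rw [hn, one_mul] at this; unfold om; linarith
  have hVv : ‖V - v‖ ≤ Real.sqrt (2 * om V v) := by
    apply Real.le_sqrt_of_sq_le
    rw [norm_sub_sq_eq']
    have h1 : ‖v‖ ^ 2 ≤ 1 := by nlinarith [norm_nonneg v]
    have h2 : ‖V‖ ^ 2 ≤ 1 := by nlinarith [norm_nonneg V]
    linarith
  have hD : 0 ≤ om V v := by
    have h2 : ‖V‖ * ‖v‖ ≤ 1 := by nlinarith [norm_nonneg V, norm_nonneg v]
    have := real_inner_le_norm V v; unfold om; linarith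
  have t1 : |⟪n - V, V - v⟫| ≤ 2 * Real.sqrt (om n V * om V v) := by
    calc |⟪n - V, V - v⟫| ≤ ‖n - V‖ * ‖V - v‖ := abs_real_inner_le_norm _ _
      _ ≤ Real.sqrt (2 * om n V) * Real.sqrt (2 * om V v) :=
          mul_le_mul (norm_sub_le_sqrt hn hV) hVv (norm_nonneg _) (Real.sqrt_nonneg _)
      _ = 2 * Real.sqrt (om n V * om V v) := by
        rw [← Real.sqrt_mul (by linarith)]
        rw [show 2 * om n V * (2 * om V v) = 2 ^ 2 * (om n V * om V v) by ring]
        rw [Real.sqrt_mul (by norm_num), Real.sqrt_sq (by norm_num)]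
  have t2 : |‖V‖ ^ 2 - ⟪V, v⟫| ≤ om V v := by
    have hg := gam_add_le_D (v := v) (V := V)
    have h1 : ‖v‖ ^ 2 ≤ 1 := by nlinarith [norm_nonneg v]
    have h2 : ‖V‖ ^ 2 ≤ 1 := by nlinarith [norm_nonneg V]
    have hD' : om V v = 1 - ⟪V, v⟫ := rfl
    rw [abs_le]; constructor <;> linarith
  calc |om n v - om n V| = |⟪n - V, V - v⟫ + (‖V‖ ^ 2 - ⟪V, v⟫)| := by rw [e]
    _ ≤ |⟪n - V, V - v⟫| + |‖V‖ ^ 2 - ⟪V, v⟫| := abs_add_le _ _
    _ ≤ _ := add_le_add t1 t2

end basic

end Crest.Agent.R106.Pair
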