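import Crest.Agent.R106.MomIface
import Crest.Agent.R106.GsrMom
import Crest.Agent.R106.PairAlg

/-!
# Row 106 (S0140): `|E + v × B| ≤ K_g + √(2ε) |B|`, `K_g²/2 = e - n·(E × B)` (helper868)
-/

set_option autoImplicit false

open MeasureTheory Set Filter Topology
open Crest.AnalysisR.VecCalc3 Crest.AnalysisR.PDE.RVM
open scoped InnerProductSpace ENNReal ContDiff

namespace Crest.Agent.R106.Mom

open Crest.Agent.R106.GSR (gam acc lor)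

theorem cr0 (a b : R3) : cross3 a b 0 = a 1 * b 2 - a 2 * b 1 := rfl
theorem cr1 (a b : R3) : cross3 a b 1 = a 2 * b 0 - a 0 * b 2 := rfl
theorem cr2 (a b : R3) : cross3 a b 2 = a 0 * b 1 - a 1 * b 0 := rfl

theorem nsq (a : R3) : ‖a‖ ^ 2 = a 0 ^ 2 + a 1 ^ 2 + a 2 ^ 2 := by
  rw [EuclideanSpace.norm_sq_eq, Fin.sum_univ_three]
  simp only [Real.norm_eq_abs, sq_abs]

theorem inr (a b : R3) : ⟪a, b⟫_ℝ = a 0 * b 0 + a 1 * b 1 + a 2 * b 2 := by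
  rw [PiLp.inner_apply, Fin.sum_univ_three]
  simp only [RCLike.inner_apply, conj_trivial]
  ring

/-- Lagrange identity -/
theorem norm_cross3_sq (a b : R3) : ‖cross3 a b‖ ^ 2 = ‖a‖ ^ 2 * ‖b‖ ^ 2 - ⟪a, b⟫_ℝ ^ 2 := by
  rw [nsq, nsq, nsq, inr, cr0, cr1, cr2]
  ring

theorem norm_cross3_le (a b : R3) : ‖cross3 a b‖ ≤ ‖a‖ * ‖b‖ := by
  apply le_of_sq_le_sq _ (by positivity)
  rw [norm_cross3_sq, mul_pow]
  nlinarith [sq_nonneg ⟪a, b⟫_ℝ]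

/-- the square of the good part of the field (direction `n`) -/
noncomputable def kg2 (n E B : R3) : ℝ :=
  ⟪n, E⟫_ℝ ^ 2 + ⟪n, B⟫_ℝ ^ 2 + ‖B - ⟪n, B⟫_ℝ • n - cross3 n E‖ ^ 2

theorem kg2_nonneg (n E B : R3) : 0 ≤ kg2 n E B := by unfold kg2; positivity

/-- `K_g² = |E|² + |B|² - 2 n·(E × B)`. -/
theorem kg2_eq {n : R3} (hn : ‖n‖ = 1) (E B : R3) :
    kg2 n E B = ‖E‖ ^ 2 + ‖B‖ ^ 2 - 2 * ⟪n, cross3 E B⟫_ℝ := by
  have h : n 0 ^ 2 + n 1 ^ 2 + n 2 ^ 2 = 1 := by rw [← nsq, hn]; norm_num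
  unfold kg2
  rw [nsq, nsq, nsq, inr, inr, inr]
  simp only [PiLp.sub_apply, PiLp.smul_apply, smul_eq_mul, cr0, cr1, cr2]
  have h0 : n 0 ^ 2 = 1 - n 1 ^ 2 - n 2 ^ 2 := by linarith
  have e0 : (n 0 * E 0 + n 1 * E 1 + n 2 * E 2) ^ 2 + (n 0 * B 0 + n 1 * B 1 + n 2 * B 2) ^ 2 +
      ((B 0 - (n 0 * B 0 + n 1 * B 1 + n 2 * B 2) * n 0 - (n 1 * E 2 - n 2 * E 1)) ^ 2 +
          (B 1 - (n 0 * B 0 + n 1 * B 1 + n 2 * B 2) * n 1 - (n 2 * E 0 - n 0 * E 2)) ^ 2 +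
        (B 2 - (n 0 * B 0 + n 1 * B 1 + n 2 * B 2) * n 2 - (n 0 * E 1 - n 1 * E 0)) ^ 2) -
      (E 0 ^ 2 + E 1 ^ 2 + E 2 ^ 2 + (B 0 ^ 2 + B 1 ^ 2 + B 2 ^ 2) -
        2 * (n 0 * (E 1 * B 2 - E 2 * B 1) + n 1 * (E 2 * B 0 - E 0 * B 2) +
          n 2 * (E 0 * B 1 - E 1 * B 0))) =
      (n 0 ^ 2 + n 1 ^ 2 + n 2 ^ 2 - 1) * ((E 0 ^ 2 + E 1 ^ 2 + E 2 ^ 2) +
        (n 0 * B 0 + n 1 * B 1 + n 2 * B 2) ^ 2) := by ring
  have e1 := e0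
  rw [h, sub_self, zero_mul] at e1
  linarith

/-- `K_g²/2 = e - n·(E × B)` for the field energy density `e = (|E|²+|B|²)/2`. -/
theorem kg2_half {n : R3} (hn : ‖n‖ = 1) (E B : R3) :
    kg2 n E B / 2 = (‖E‖ ^ 2 + ‖B‖ ^ 2) / 2 - ⟪n, cross3 E B⟫_ℝ := by
  rw [kg2_eq hn]; ring

/-- `|E + n × B|² = K_g² - (n·B)²`. -/
theorem norm_add_cross_sq {n : R3} (hn : ‖n‖ = 1) (E B : R3) :
    ‖E + cross3 n B‖ ^ 2 = kg2 n E B - ⟪n, B⟫_ℝ ^ 2 := by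
  rw [kg2_eq hn, norm_add_sq_real, norm_cross3_sq, hn]
  have : ⟪E, cross3 n B⟫_ℝ = - ⟪n, cross3 E B⟫_ℝ := by
    rw [inr, inr, cr0, cr1, cr2, cr0, cr1, cr2]; ring
  rw [this]; ring

theorem norm_add_cross_le {n : R3} (hn : ‖n‖ = 1) (E B : R3) :
    ‖E + cross3 n B‖ ≤ √(kg2 n E B) := by
  apply Real.le_sqrt_of_sq_le
  rw [norm_add_cross_sq hn]
  nlinarith [sq_nonneg ⟪n, B⟫_ℝ]

theorem cross3_sub_left (a b c : R3) : cross3 (a - b) c = cross3 a c - cross3 b c := by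
  ext i; fin_cases i <;> simp [cross3] <;> ring

/-- `|E + v × B| ≤ K_g + √(2ε) |B|` -/
theorem norm_lor_le {n v : R3} (hn : ‖n‖ = 1) (hv : ‖v‖ ≤ 1) (E B : R3) :
    ‖E + cross3 v B‖ ≤ √(kg2 n E B) + √(2 * (1 - ⟪n, v⟫_ℝ)) * ‖B‖ := by
  have e : E + cross3 v B = (E + cross3 n B) - cross3 (n - v) B := by
    rw [cross3_sub_left]; abel
  rw [e]
  refine (norm_sub_le _ _).trans (add_le_add (norm_add_cross_le hn E B) ?_)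
  refine (norm_cross3_le _ _).trans (mul_le_mul_of_nonneg_right ?_ (norm_nonneg _))
  exact Pair.norm_sub_le_sqrt hn hv

/-- (F) of the interface, with constant `1`. -/
theorem fsrc_le (E B : ℝ → R3 → R3) (X : ℝ → R3) (s : ℝ) (q : R3 × R3) (h : X s ≠ q.1) :
    Fsrc E B X s q ≤ Kg E B X s q.1 + √(2 * ep X s q.1 q.2) * ‖B (ret X s q.1) q.1‖ := by
  have hne : ‖X s - q.1‖ ≠ 0 := norm_ne_zero_iff.mpr (sub_ne_zero.mpr h)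
  have hn : ‖nn X s q.1‖ = 1 := by
    unfold nn
    rw [norm_smul, norm_inv, norm_norm, inv_mul_cancel₀ hne]
  exact norm_lor_le hn (GSR.norm_relVel_lt q.2).le _ _

/-- **(F) of the interface.** -/
theorem fsrcP (E B : ℝ → R3 → R3) : FsrcP E B := by
  intro X s q h
  refine (fsrc_le E B X s q h).trans ?_
  have : 0 ≤ Kg E B X s q.1 := Real.sqrt_nonneg _
  linarith

end Crest.Agent.R106.Mom
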