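/-
Row 106, LINK (helper268): pointwise comparison of the kernels of `MomDefs` (real energy `Γ` of the test,
`|F|` of the source) with those of `AbsDefs` (nominal energy `Q`, `K_g`, `|B|`).
-/
import Crest.Agent.R106.MomIface
import Crest.Agent.R106.AbsDefs
import Crest.Agent.R106.KerFsrc

set_option autoImplicit false

open MeasureTheory Set Filter Topology
open Crest.AnalysisR.VecCalc3 Crest.AnalysisR.PDE.RVM
open scoped InnerProductSpace ENNReal ContDiff

noncomputable section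

namespace Crest.Agent.R106.Link

open Crest.Agent.R106.GSR (gam acc lor)
open Crest.Agent.R106.Mom

/-! ### numbers -/

section num

variable {P Q d e g G R : ℝ}

lemma regE_iff : regE (lamQ P Q) (QsP P) d e g ↔
    (g ≤ 16 * P ^ (11 / 20 : ℝ) ∨ Abs.lamc P Q * d ^ 2 ≤ 2 * e) := by
  unfold regE lamQ QsP Abs.lamc
  constructor
  · rintro (h | h)
    · left; linarith
    · right; linarith
  · rintro (h | h)
    · left; linarith
    · right; linarith

lemma regC_iff : regC (lamQ P Q) (QsP P) d e g ↔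
    (8 * P ^ (11 / 20 : ℝ) ≤ g ∧ e ≤ 2 * (Abs.lamc P Q * d ^ 2)) := by
  unfold regC lamQ QsP Abs.lamc
  simp only [mul_assoc]

lemma regB_iff : regB (lamQ P Q) (QsP P) d e g ↔
    (8 * P ^ (11 / 20 : ℝ) ≤ g ∧ e ≤ 2 * (Abs.lamc P Q * d ^ 2) ∧ Abs.lamc P Q * d ^ 2 ≤ 2 * e) := by
  unfold regB lamQ QsP Abs.lamc
  constructor
  · rintro ⟨h1, h2, h3⟩
    exact ⟨h1, by linarith, by linarith⟩
  · rintro ⟨h1, h2, h3⟩
    exact ⟨h1, by linarith, by linarith⟩

lemma kGam_le (hQ : 0 < Q) (hG : Q / 4 ≤ G) (hd : 0 < d) (hR : 0 < R) :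
    Mom.kGam d e G R ≤ 16 * Abs.kGam Q d e R := by
  unfold Mom.kGam Abs.kGam
  have hG0 : 0 < G := by linarith
  have h1 : Q ^ 2 ≤ 16 * G ^ 2 := by nlinarith
  have h2 : 0 ≤ d + √(d * e) := by positivity
  rw [← mul_div_assoc, div_le_div_iff₀ (by positivity) (by positivity)]
  have h3 : 0 ≤ (d + √(d * e)) * (d ^ 2 * R ^ 2) := by positivity
  nlinarith [mul_le_mul_of_nonneg_left h1 h3]

lemma kC_le (hQ : 0 < Q) (hG : Q / 4 ≤ G) (hd : 0 < d) (hR : 0 < R) :
    Mom.kC d e G R ≤ 16 * Abs.kC Q d e R := by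
  unfold Mom.kC Abs.kC
  have hG0 : 0 < G := by linarith
  have h2 : 0 ≤ √e := by positivity
  rw [← mul_div_assoc, div_le_div_iff₀ (by positivity) (by positivity)]
  have h3 : 0 ≤ √e * (d * R) := by positivity
  nlinarith [mul_le_mul_of_nonneg_left hG h3]

lemma gRnum_le {F K Bs : ℝ} (hd : 0 < d) (he : 0 < e) (hg : 0 < g) (hR : 0 < R)
    (hK : 0 ≤ K) (hB : 0 ≤ Bs) (hF : F ≤ 2 * K + √(2 * e) * Bs) :
    Mom.kT d e g R + Mom.kS d e g R * F ≤
      16 * (Abs.kT d e g R + Abs.kS d e g R * (K + √e * Bs)) := by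
  have hT : Mom.kT d e g R = Abs.kT d e g R := rfl
  have hS : Mom.kS d e g R = Abs.kS d e g R := rfl
  rw [hT, hS]
  have h1 : 0 ≤ Abs.kT d e g R := by unfold Abs.kT; positivity
  have h2 : 0 ≤ Abs.kS d e g R := by unfold Abs.kS; positivity
  have h3 : √(2 * e) ≤ 2 * √e := by
    rw [Real.sqrt_mul (by norm_num)]
    apply mul_le_mul_of_nonneg_right _ (Real.sqrt_nonneg _)
    rw [Real.sqrt_le_left (by norm_num)]
    norm_num
  have h4 : F ≤ 2 * (K + √e * Bs) := by nlinarith [mul_le_mul_of_nonneg_right h3 hB]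
  have h5 : 0 ≤ K + √e * Bs := by positivity
  nlinarith [mul_le_mul_of_nonneg_left h4 h2, mul_nonneg h2 h5]

end num

open Classical in
/-- pointwise comparison of `hden` with the integrand of `Abs.TD.h`. -/
lemma ofReal_hden_le {E B : ℝ → R3 → R3} {X p : ℝ → R3} {s : ℝ} {q : R3 × R3} {P Q : ℝ}
    (hQ : 0 < Q) (hG : Q / 4 ≤ gam (p s)) (hne : X s ≠ q.1)
    (hd : 0 < Mom.dl X p s q.1) (he : 0 < Mom.ep X s q.1 q.2) (hg : 0 < gam q.2) :
    ENNReal.ofReal (hden E B (lamQ P Q) (QsP P) X p s q) ≤ ENNReal.ofReal 16 *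
      ((if (gam q.2 ≤ 16 * P ^ (11 / 20 : ℝ) ∨
            Abs.lamc P Q * Mom.dl X p s q.1 ^ 2 ≤ 2 * Mom.ep X s q.1 q.2) then
          ENNReal.ofReal (Abs.kT (Mom.dl X p s q.1) (Mom.ep X s q.1 q.2) (gam q.2) (Rr X s q.1)
            + Abs.kS (Mom.dl X p s q.1) (Mom.ep X s q.1 q.2) (gam q.2) (Rr X s q.1) *
              (Kg E B X s q.1 + √(Mom.ep X s q.1 q.2) * ‖B (ret X s q.1) q.1‖)) else 0) +
       (if (8 * P ^ (11 / 20 : ℝ) ≤ gam q.2 ∧
            Mom.ep X s q.1 q.2 ≤ 2 * (Abs.lamc P Q * Mom.dl X p s q.1 ^ 2)) then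
          ENNReal.ofReal (Abs.kGam Q (Mom.dl X p s q.1) (Mom.ep X s q.1 q.2) (Rr X s q.1)) +
          ENNReal.ofReal (Abs.kC Q (Mom.dl X p s q.1) (Mom.ep X s q.1 q.2) (Rr X s q.1)) *
            ENNReal.ofReal (Ftest E B X p s) else 0) +
       (if (8 * P ^ (11 / 20 : ℝ) ≤ gam q.2 ∧
            Mom.ep X s q.1 q.2 ≤ 2 * (Abs.lamc P Q * Mom.dl X p s q.1 ^ 2) ∧
            Abs.lamc P Q * Mom.dl X p s q.1 ^ 2 ≤ 2 * Mom.ep X s q.1 q.2) then
          ENNReal.ofReal (Abs.kcut (Mom.dl X p s q.1) (Mom.ep X s q.1 q.2) (Dd p s q.2)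
            (Rr X s q.1)) else 0)) := by
  have hR : 0 < Rr X s q.1 := by
    unfold Rr
    exact norm_pos_iff.mpr (sub_ne_zero.mpr hne)
  unfold hden
  simp only [regE_iff, regC_iff, regB_iff]
  refine (ENNReal.ofReal_add_le.trans (add_le_add ENNReal.ofReal_add_le le_rfl)).trans ?_
  rw [mul_add, mul_add]
  refine add_le_add (add_le_add ?_ ?_) ?_
  · split_ifs
    · rw [← ENNReal.ofReal_mul (by norm_num)]
      apply ENNReal.ofReal_le_ofReal
      apply gRnum_le hd he hg hR (Real.sqrt_nonneg _) (norm_nonneg _)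
      exact fsrcP E B X s q hne
    · simp
  · split_ifs
    · have h0 : 0 ≤ Ftest E B X p s := norm_nonneg _
      refine ENNReal.ofReal_add_le.trans ?_
      rw [mul_add, ← ENNReal.ofReal_mul (by norm_num)]
      refine add_le_add (ENNReal.ofReal_le_ofReal (kGam_le hQ hG hd hR)) ?_
      rw [← mul_assoc, ← ENNReal.ofReal_mul (by norm_num), ← ENNReal.ofReal_mul' h0]
      exact ENNReal.ofReal_le_ofReal (mul_le_mul_of_nonneg_right (kC_le hQ hG hd hR) h0)
    · simp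
  · split_ifs
    · rw [← ENNReal.ofReal_mul (by norm_num)]
      apply ENNReal.ofReal_le_ofReal
      have h1 : Mom.kcut (Mom.dl X p s q.1) (Mom.ep X s q.1 q.2) (Dd p s q.2) (Rr X s q.1) =
        Abs.kcut (Mom.dl X p s q.1) (Mom.ep X s q.1 q.2) (Dd p s q.2) (Rr X s q.1) := rfl
      rw [h1]
      have h2 : 0 ≤ Abs.kcut (Mom.dl X p s q.1) (Mom.ep X s q.1 q.2) (Dd p s q.2) (Rr X s q.1) := by
        unfold Abs.kcut
        positivity
      linarith
    · simp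

open Classical in
lemma ofReal_bden_eq {X p : ℝ → R3} {s : ℝ} {q : R3 × R3} {P Q : ℝ} :
    ENNReal.ofReal (bden (lamQ P Q) (QsP P) X p s q) =
      (if (8 * P ^ (11 / 20 : ℝ) ≤ gam q.2 ∧
            Mom.ep X s q.1 q.2 ≤ 2 * (Abs.lamc P Q * Mom.dl X p s q.1 ^ 2)) then
        ENNReal.ofReal (Abs.kG (Mom.dl X p s q.1) (Mom.ep X s q.1 q.2) (Rr X s q.1)) else 0) := by
  unfold bden
  simp only [regC_iff]
  split_ifs
  · rfl
  · simp

end Crest.Agent.R106.Link
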