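/-
Row 106, LINK (helper268): (iv) comparison of `hh`, `bb` (MomDefs) with `TD.h`, `TD.bd` (AbsDefs).
-/
import Crest.Agent.R106.LinkB
import Crest.Agent.R106.LinkC0

set_option autoImplicit false

open MeasureTheory Set Filter Topology
open Crest.AnalysisR.VecCalc3 Crest.AnalysisR.PDE.RVM
open scoped InnerProductSpace ENNReal ContDiff

noncomputable section

namespace Crest.Agent.R106.Link

open Crest.Agent.R106.GSR (gam acc lor)
open Crest.Agent.R106.Mom
open Crest.Agent.R106.Abs (TD)

variable {T : ℝ} {f : ℝ → R3 → R3 → ℝ} {E B : ℝ → R3 → R3} {X p : ℝ → R3} {a b s : ℝ}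

lemma kap_zero' (f : ℝ → R3 → R3 → ℝ) (X : ℝ → R3) {s : ℝ} (hs : s ≤ 0) : kap f X s = 0 := by
  unfold kap
  rw [Metric.ball_eq_empty.mpr hs, empty_prod, Measure.restrict_empty, withDensity_zero_left]

lemma norm_nn_seen {q : Z} (hq : q ∈ seen X s) : ‖nn X s q.1‖ = 1 := by
  unfold nn
  rw [norm_smul, norm_inv, norm_norm]
  exact inv_mul_cancel₀ hq.1.ne'

lemma dl_pos {q : Z} (hq : q ∈ seen X s) : 0 < Mom.dl X p s q.1 := by
  unfold Mom.dl
  have h1 := real_inner_le_norm (nn X s q.1) (relVel (p s))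
  have h2 := GSR.norm_relVel_lt (p s)
  rw [norm_nn_seen hq, one_mul] at h1
  linarith

lemma ep_pos {q : Z} (hq : q ∈ seen X s) : 0 < Mom.ep X s q.1 q.2 := by
  unfold Mom.ep
  have h1 := real_inner_le_norm (nn X s q.1) (relVel q.2)
  have h2 := GSR.norm_relVel_lt q.2
  rw [norm_nn_seen hq, one_mul] at h1
  linarith

lemma gam_pos' (w : R3) : 0 < gam w := by
  unfold gam
  positivity

/-- (iv), `h`. -/
theorem hh_le (hr : Reg T f E B) (hc : IsChar T f E B X p) (ha : 0 ≤ a) (hab : a ≤ b)
    (hb : b < T) (hs : s ∈ Icc a b) {P Q : ℝ} (hQ : 0 < Q) (hG : Q / 4 ≤ gam (p s)) :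
    hh f E B (lamQ P Q) (QsP P) X p s ≤ (tdc f E B X p a b).h 16 P Q s := by
  classical
  unfold hh TD.h
  have h16 : (1 : ℝ≥0∞) ≤ ENNReal.ofReal 16 := by
    rw [ENNReal.one_le_ofReal]; norm_num
  rcases le_or_gt s 0 with h0 | h0
  · rw [kap_zero' f X h0, lintegral_zero_measure, add_zero]
    calc (1 : ℝ≥0∞) ≤ ENNReal.ofReal 16 * 1 := by rw [mul_one]; exact h16
      _ ≤ _ := mul_le_mul_right le_self_add _
  · have key := lint_le' hr hc ha hab hb hs
      (g := fun q => ENNReal.ofReal (hden E B (lamQ P Q) (QsP P) X p s q))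
      (g' := fun z => ENNReal.ofReal 16 *
        ((if (tdc f E B X p a b).inE P Q s z then ENNReal.ofReal ((tdc f E B X p a b).gR s z) else 0) +
     (if (tdc f E B X p a b).inC P Q s z then
        ENNReal.ofReal (Abs.kGam Q ((tdc f E B X p a b).dl s z) ((tdc f E B X p a b).ep s z)
          ((tdc f E B X p a b).R s z)) +
        ENNReal.ofReal (Abs.kC Q ((tdc f E B X p a b).dl s z) ((tdc f E B X p a b).ep s z)
          ((tdc f E B X p a b).R s z)) * (tdc f E B X p a b).Ft s else 0) +
     (if (tdc f E B X p a b).inB P Q s z then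
        ENNReal.ofReal (Abs.kcut ((tdc f E B X p a b).dl s z) ((tdc f E B X p a b).ep s z)
          ((tdc f E B X p a b).D s z) ((tdc f E B X p a b).R s z)) else 0)))
      (fun q hw => by
        have hq := seen_of_w hs hw
        have hne : X s ≠ q.1 := by
          intro h
          have := hq.1
          rw [h, sub_self, norm_zero] at this
          exact lt_irrefl _ this
        have h1 := ofReal_hden_le (E := E) (B := B) (X := X) (p := p) (s := s) (q := q) (P := P)
          hQ hG hne (dl_pos hq) (ep_pos hq) (gam_pos' q.2)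
        simp only [TD.inE, TD.inC, TD.inB, TD.gR, tdc_R hs, tdc_dl hs, tdc_ep hs, tdc_D hs, tdc_ga,
          tdc_Kg hs hq, tdc_Bs hs hq, tdc_Ft ha hs, if_neg (not_le.mpr h0)]
        exact h1)
    have e : ∀ z : Z, (tdc f E B X p a b).w s z * (ENNReal.ofReal 16 *
        ((if (tdc f E B X p a b).inE P Q s z then ENNReal.ofReal ((tdc f E B X p a b).gR s z) else 0) +
     (if (tdc f E B X p a b).inC P Q s z then
        ENNReal.ofReal (Abs.kGam Q ((tdc f E B X p a b).dl s z) ((tdc f E B X p a b).ep s z)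
          ((tdc f E B X p a b).R s z)) +
        ENNReal.ofReal (Abs.kC Q ((tdc f E B X p a b).dl s z) ((tdc f E B X p a b).ep s z)
          ((tdc f E B X p a b).R s z)) * (tdc f E B X p a b).Ft s else 0) +
     (if (tdc f E B X p a b).inB P Q s z then
        ENNReal.ofReal (Abs.kcut ((tdc f E B X p a b).dl s z) ((tdc f E B X p a b).ep s z)
          ((tdc f E B X p a b).D s z) ((tdc f E B X p a b).R s z)) else 0))) =
        ENNReal.ofReal 16 * ((tdc f E B X p a b).w s z *
        ((if (tdc f E B X p a b).inE P Q s z then ENNReal.ofReal ((tdc f E B X p a b).gR s z) else 0) +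
     (if (tdc f E B X p a b).inC P Q s z then
        ENNReal.ofReal (Abs.kGam Q ((tdc f E B X p a b).dl s z) ((tdc f E B X p a b).ep s z)
          ((tdc f E B X p a b).R s z)) +
        ENNReal.ofReal (Abs.kC Q ((tdc f E B X p a b).dl s z) ((tdc f E B X p a b).ep s z)
          ((tdc f E B X p a b).R s z)) * (tdc f E B X p a b).Ft s else 0) +
     (if (tdc f E B X p a b).inB P Q s z then
        ENNReal.ofReal (Abs.kcut ((tdc f E B X p a b).dl s z) ((tdc f E B X p a b).ep s z)
          ((tdc f E B X p a b).D s z) ((tdc f E B X p a b).R s z)) else 0))) := fun z => by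
      rw [mul_left_comm]
    simp only [e] at key
    rw [lintegral_const_mul' _ _ ENNReal.ofReal_ne_top] at key
    rw [mul_add, mul_one]
    exact add_le_add h16 key

/-- (iv), `b`. -/
theorem bb_le (hr : Reg T f E B) (hc : IsChar T f E B X p) (ha : 0 ≤ a) (hab : a ≤ b)
    (hb : b < T) (hs : s ∈ Icc a b) {P Q : ℝ} :
    bb f (lamQ P Q) (QsP P) X p s ≤ (tdc f E B X p a b).bd 1 P Q s := by
  classical
  unfold bb TD.bd
  rw [ENNReal.ofReal_one, one_mul]
  refine lint_le' hr hc ha hab hb hs (fun q hw => ?_)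
  have hq := seen_of_w hs hw
  simp only [TD.inC, tdc_R hs, tdc_dl hs, tdc_ep hs, tdc_ga]
  exact ofReal_bden_eq.le

end Crest.Agent.R106.Link
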