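/-
Row 106, LINK (helper609): geometry, `CoreAB`, `Core`, `CoreD` of the clamped test datum `tdc`
from the Props of `MomIface`.
-/
import Crest.Agent.R106.LinkB

set_option autoImplicit false

open MeasureTheory Set Filter Topology
open Crest.AnalysisR.VecCalc3 Crest.AnalysisR.PDE.RVM
open scoped InnerProductSpace ENNReal ContDiff

noncomputable section

namespace Crest.Agent.R106.Link

open Crest.Agent.R106.GSR (gam acc lor)
open Crest.Agent.R106.Mom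
open Crest.Agent.R106.Abs (TD lw)
open Crest.Agent.R106.Boot (en win Below Hyp)

variable {f : ℝ → R3 → R3 → ℝ} {E B : ℝ → R3 → R3} {X p : ℝ → R3} {a b s T : ℝ}

/-! ### monotonicity in the constant -/

section mono
variable {Z : Type} [MeasurableSpace Z] {S : TD Z} {C C' Tm P Qt : ℝ}

lemma ofReal_mono_const {x : ℝ} (hx : 0 ≤ x) (h : C ≤ C') :
    ENNReal.ofReal (C * x) ≤ ENNReal.ofReal (C' * x) :=
  ENNReal.ofReal_le_ofReal (mul_le_mul_of_nonneg_right h hx)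

lemma coreAB_mono (h : S.CoreAB C Tm P Qt) (hC : C ≤ C') : S.CoreAB C' Tm P Qt := by
  refine { h with ca := ?_, cb := ?_ }
  · intro R1 d1 e1 D1 Q1 h1 h2 h3 h4 h5 s hs
    have h6 : 0 ≤ min e1 D1 := le_min h3.le h4.le
    exact (h.ca R1 d1 e1 D1 Q1 h1 h2 h3 h4 h5 s hs).trans
      (ofReal_mono_const (by positivity) hC)
  · intro R1 d1 e1 D1 Q1 h1 h2 h3 h4 h5 s hs
    exact (h.cb R1 d1 e1 D1 Q1 h1 h2 h3 h4 h5 s hs).trans
      (ofReal_mono_const (by positivity) hC)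

lemma lw_nonneg {c0 Q : ℝ} (hc0 : 0 ≤ c0) (hP : 1 ≤ P) (hQ : 0 ≤ Q) : 0 ≤ lw c0 P Q := by
  have h1 : 0 ≤ Real.log P := Real.log_nonneg hP
  have h2 : 0 ≤ P := by linarith
  unfold lw
  refine mul_nonneg hc0 (le_min (by positivity) (by positivity))

lemma coreD_mono {c0 : ℝ} (hc0 : 0 ≤ c0) (hP : 1 ≤ P) (hab : S.a ≤ S.b)
    (h : S.CoreD C P c0 Qt) (hC : C ≤ C') : S.CoreD C' P c0 Qt := by
  intro R1 d1 e1 D1 Q1 h1 h2 h3 h4 h5 h6 h7 h8
  have h9 := lw_nonneg hc0 hP h5.le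
  have h10 : 0 ≤ S.b - S.a := by linarith
  exact (h R1 d1 e1 D1 Q1 h1 h2 h3 h4 h5 h6 h7 h8).trans
    (ofReal_mono_const (by positivity) hC)

end mono

/-! ### geometry -/

lemma norm_nn_of_seen {q : Z} (hq : q ∈ seen X s) : ‖nn X s q.1‖ = 1 := by
  have h1 : ‖X s - q.1‖ ≠ 0 := hq.1.ne'
  unfold nn
  rw [norm_smul, norm_inv, norm_norm, inv_mul_cancel₀ h1]

lemma inv_gam_sq_le {w : R3} {Qt : ℝ} (h : gam w ≤ 4 * Qt) :
    1 / (32 * Qt ^ 2) ≤ ((gam w ^ 2)⁻¹) / 2 := by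
  have h0 := Pair.gam_pos w
  have hQ : 0 < Qt := by linarith
  have h1 : gam w ^ 2 ≤ 16 * Qt ^ 2 := by nlinarith
  rw [div_le_iff₀ (by positivity), inv_eq_one_div, div_div, div_mul_eq_mul_div, one_mul,
    le_div_iff₀ (by positivity)]
  linarith

/-- sources seen on the cone have energy `≤ P` -/
lemma src_le {P t1 : ℝ} (hch : CharP T f E B) (ht1 : t1 ∈ Ico 0 T)
    (hbel : Below (mom (T := T) (f := f) (E := E) (B := B)) P t1) (hb : b ≤ t1) :
    ∀ t ∈ Icc 0 b, ∀ y w : R3, f t y w ≠ 0 → gam w ≤ P := by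
  intro t ht y w hne
  obtain ⟨ξ, -, h2⟩ := hch t ⟨ht.1, lt_of_le_of_lt (ht.2.trans hb) ht1.2⟩ y w hne
  have h3 := hbel ξ t ⟨ht.1, ht.2.trans hb⟩
  unfold mom at h3
  rw [h2] at h3
  exact h3

theorem geo_of (hr : Reg T f E B) (hc : IsChar T f E B X p) (ha : 0 ≤ a) (hab : a ≤ b)
    (hb : b < T) {P Qt : ℝ} (hen : ∀ s ∈ Icc a b, gam (p s) ≤ 4 * Qt)
    (hP : ∀ t ∈ Icc 0 b, ∀ y w : R3, f t y w ≠ 0 → gam w ≤ P) :
    (tdc f E B X p a b).Geo T P Qt where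
  sf := by
    rw [tdc_m]
    infer_instance
  mw := tdc_mw hr hc ha hab hb
  mR := tdc_mR hc ha hab hb
  mdl := tdc_mdl hc ha hab hb
  mep := tdc_mep hc ha hab hb
  mD := tdc_mD hc ha hab hb
  mga := tdc_mga
  mKg := tdc_mKg hr hc ha hab hb
  mBs := tdc_mBs hr hc ha hab hb
  R0 := by
    intro s (hs : s ∈ Icc a b) z hw
    rw [tdc_R hs]
    exact (seen_of_w hs hw).1
  R1 := by
    intro s (hs : s ∈ Icc a b) z hw
    rw [tdc_R hs]
    have h1 : ‖X s - z.1‖ < s := (seen_of_w hs hw).2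
    have h2 : s ≤ b := hs.2
    unfold Rr
    linarith
  dl0 := by
    intro s (hs : s ∈ Icc a b) z hw
    rw [tdc_dl hs]
    have hn := norm_nn_of_seen (seen_of_w hs hw)
    have h1 := Pair.gam_le_ep (v := relVel (p s)) hn
    rw [Pair.one_sub_normSq_relVel] at h1
    have h2 := inv_gam_sq_le (hen s hs)
    have h3 : Mom.dl X p s z.1 = Pair.om (nn X s z.1) (relVel (p s)) := rfl
    rw [h3]
    linarith
  dl1 := by
    intro s (hs : s ∈ Icc a b) z hw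
    rw [tdc_dl hs]
    have hn := norm_nn_of_seen (seen_of_w hs hw)
    exact Pair.om_le_two hn.le (Pair.norm_relVel_lt_one (p s)).le
  ep0 := by
    intro s (hs : s ∈ Icc a b) z hw
    rw [tdc_ep hs, tdc_ga]
    have hn := norm_nn_of_seen (seen_of_w hs hw)
    have h1 := Pair.gam_le_ep (v := relVel z.2) hn
    rw [Pair.one_sub_normSq_relVel] at h1
    have h3 : Mom.ep X s z.1 z.2 = Pair.om (nn X s z.1) (relVel z.2) := rfl
    rw [h3]
    have h4 : 1 / (2 * gam z.2 ^ 2) = (gam z.2 ^ 2)⁻¹ / 2 := by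
      rw [one_div, mul_inv]
      ring
    rw [h4]
    linarith
  ep1 := by
    intro s (hs : s ∈ Icc a b) z hw
    rw [tdc_ep hs]
    have hn := norm_nn_of_seen (seen_of_w hs hw)
    exact Pair.om_le_two hn.le (Pair.norm_relVel_lt_one z.2).le
  D0 := by
    intro s (hs : s ∈ Icc a b) z hw
    rw [tdc_D hs]
    have h1 := Pair.gam_add_le_D (v := relVel z.2) (V := relVel (p s))
    rw [Pair.one_sub_normSq_relVel, Pair.one_sub_normSq_relVel] at h1
    have h2 := inv_gam_sq_le (hen s hs)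
    have h3 : Dd p s z.2 = Pair.om (relVel (p s)) (relVel z.2) := rfl
    rw [h3]
    have h5 : 0 ≤ (gam z.2 ^ 2)⁻¹ := by positivity
    linarith
  D0' := by
    intro s (hs : s ∈ Icc a b) z hw
    rw [tdc_D hs, tdc_ga]
    have h1 := Pair.gam_add_le_D (v := relVel z.2) (V := relVel (p s))
    rw [Pair.one_sub_normSq_relVel, Pair.one_sub_normSq_relVel] at h1
    have h3 : Dd p s z.2 = Pair.om (relVel (p s)) (relVel z.2) := rfl
    rw [h3]
    have h4 : 1 / (2 * gam z.2 ^ 2) = (gam z.2 ^ 2)⁻¹ / 2 := by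
      rw [one_div, mul_inv]
      ring
    rw [h4]
    have h5 : 0 ≤ (gam (p s) ^ 2)⁻¹ := by positivity
    linarith
  D1 := by
    intro s (hs : s ∈ Icc a b) z hw
    rw [tdc_D hs]
    exact Pair.om_le_two (Pair.norm_relVel_lt_one (p s)).le (Pair.norm_relVel_lt_one z.2).le
  tri := by
    intro s (hs : s ∈ Icc a b) z hw
    rw [tdc_D hs, tdc_dl hs, tdc_ep hs]
    have hn := norm_nn_of_seen (seen_of_w hs hw)
    exact Pair.abs_D_sub_le hn (Pair.norm_relVel_lt_one z.2).le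
      (Pair.norm_relVel_lt_one (p s)).le
  ga0 := by
    intro s (hs : s ∈ Icc a b) z hw
    rw [tdc_ga]
    exact Pair.one_le_gam z.2
  ga1 := by
    intro s (hs : s ∈ Icc a b) z hw
    rw [tdc_ga]
    exact hP _ (ret_mem hs (seen_of_w hs hw)) _ _ (f_ne_of_w hs hw).ne'
  Kg0 := by
    intro s (hs : s ∈ Icc a b) z hw
    rw [tdc_Kg hs (seen_of_w hs hw)]
    exact Real.sqrt_nonneg _
  Bs0 := by
    intro s (hs : s ∈ Icc a b) z hw
    rw [tdc_Bs hs (seen_of_w hs hw)]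
    exact norm_nonneg _

/-! ### `CoreAB` -/

/-- at time `0` the cone is empty -/
lemma kap_zero (X : ℝ → R3) {s : ℝ} (hs : s ≤ 0) (A : Set Z) : kap f X s A = 0 := by
  unfold kap
  rw [Metric.ball_eq_empty.mpr hs, empty_prod, Measure.restrict_empty]
  simp

theorem coreAB_of (hr : Reg T f E B) (hA : OccA T f E B) (hB : OccB T f E B) :
    ∃ C : ℝ, 0 ≤ C ∧ ∀ X p : ℝ → R3, IsChar T f E B X p → ∀ a b : ℝ, 0 ≤ a → a ≤ b → b < T →
      ∀ P Qt : ℝ, (∀ s ∈ Icc a b, gam (p s) ≤ 4 * Qt) →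
      (∀ t ∈ Icc 0 b, ∀ y w : R3, f t y w ≠ 0 → gam w ≤ P) →
      (tdc f E B X p a b).CoreAB C T P Qt := by
  obtain ⟨C1, hC1, h1⟩ := hA
  obtain ⟨C2, hC2, h2⟩ := hB
  refine ⟨max C1 C2, le_max_of_le_left hC1, fun X p hc a b ha hab hb P Qt hen hP => ?_⟩
  refine { geo_of hr hc ha hab hb hen hP with ca := ?_, cb := ?_ }
  · intro R1 d1 e1 D1 Q1 g1 g2 g3 g4 g5 s (hs : s ∈ Icc a b)
    rw [kap_shell hc ha hab hb hs]
    have h6 : 0 ≤ min e1 D1 := le_min g3.le g4.le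
    rcases le_or_gt s 0 with h0 | h0
    · rw [kap_zero X h0]
      exact zero_le
    · exact (h1 X p hc R1 d1 e1 D1 Q1 g1 g2 g3 g4 g5 s ⟨h0, lt_of_le_of_lt hs.2 hb⟩).trans
        (ofReal_mono_const (by positivity) (le_max_left _ _))
  · intro R1 d1 e1 D1 Q1 g1 g2 g3 g4 g5 s (hs : s ∈ Icc a b)
    rw [kap_shell hc ha hab hb hs]
    rcases le_or_gt s 0 with h0 | h0
    · rw [kap_zero X h0]
      exact zero_le
    · exact (h2 X p hc R1 d1 e1 D1 Q1 g1 g2 g3 g4 g5 s ⟨h0, lt_of_le_of_lt hs.2 hb⟩).trans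
        (ofReal_mono_const (by positivity) (le_max_right _ _))

/-! ### the pointwise comparison of the retarded integrands -/

lemma kT_nonneg {d e g R : ℝ} (he : 0 ≤ e) : 0 ≤ Mom.kT d e g R := by
  unfold Mom.kT
  positivity

lemma kS_nonneg {d e g R : ℝ} (he : 0 ≤ e) (hg : 0 ≤ g) (hR : 0 ≤ R) : 0 ≤ Mom.kS d e g R := by
  unfold Mom.kS
  positivity

/-- on the seen part: retarded integrand `≤ 2 gR` -/
lemma gR_le (hF : FsrcP E B) (hs : s ∈ Icc a b) {q : Z}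
    (hw : (tdc f E B X p a b).w s q ≠ 0) :
    Mom.kT (Mom.dl X p s q.1) (Mom.ep X s q.1 q.2) (gam q.2) (Rr X s q.1)
      + Mom.kS (Mom.dl X p s q.1) (Mom.ep X s q.1 q.2) (gam q.2) (Rr X s q.1) * Fsrc E B X s q
      ≤ 2 * (tdc f E B X p a b).gR s q := by
  have hq := seen_of_w hs hw
  have hn := norm_nn_of_seen hq
  have he : 0 ≤ Mom.ep X s q.1 q.2 := (Pair.om_pos hn (Pair.norm_relVel_lt_one q.2)).le
  have hg : 0 ≤ gam q.2 := (Pair.gam_pos q.2).le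
  have hR : 0 ≤ Rr X s q.1 := norm_nonneg _
  have hkT := kT_nonneg (d := Mom.dl X p s q.1) (g := gam q.2) (R := Rr X s q.1) he
  have hkS := kS_nonneg (d := Mom.dl X p s q.1) (g := gam q.2) (R := Rr X s q.1) he hg hR
  have hne : X s ≠ q.1 := by
    intro h
    have : 0 < ‖X s - q.1‖ := hq.1
    rw [h, sub_self, norm_zero] at this
    exact lt_irrefl _ this
  have hFs := hF X s q hne
  have hKg : 0 ≤ Kg E B X s q.1 := Real.sqrt_nonneg _
  have h2 : √(2 * Mom.ep X s q.1 q.2) ≤ 2 * √(Mom.ep X s q.1 q.2) := by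
    rw [Real.sqrt_mul (by norm_num)]
    have : √2 ≤ 2 := by
      rw [Real.sqrt_le_left (by norm_num)]
      norm_num
    exact mul_le_mul_of_nonneg_right this (Real.sqrt_nonneg _)
  have h3 : √(2 * Mom.ep X s q.1 q.2) * ‖B (ret X s q.1) q.1‖ ≤
      2 * √(Mom.ep X s q.1 q.2) * ‖B (ret X s q.1) q.1‖ :=
    mul_le_mul_of_nonneg_right h2 (norm_nonneg _)
  have h4 : Fsrc E B X s q ≤
      2 * (Kg E B X s q.1 + √(Mom.ep X s q.1 q.2) * ‖B (ret X s q.1) q.1‖) := by linarith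
  have e1 : (tdc f E B X p a b).gR s q =
      Mom.kT (Mom.dl X p s q.1) (Mom.ep X s q.1 q.2) (gam q.2) (Rr X s q.1)
      + Mom.kS (Mom.dl X p s q.1) (Mom.ep X s q.1 q.2) (gam q.2) (Rr X s q.1) *
        (Kg E B X s q.1 + √(Mom.ep X s q.1 q.2) * ‖B (ret X s q.1) q.1‖) := by
    unfold TD.gR
    rw [tdc_dl hs, tdc_ep hs, tdc_R hs, tdc_Kg hs hq, tdc_Bs hs hq, tdc_ga]
    rfl
  rw [e1]
  have h5 := mul_le_mul_of_nonneg_left h4 hkS
  nlinarith [h5, hkT]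

/-! ### `Core` -/

theorem core_of (hr : Reg T f E B) (hOA : OccA T f E B) (hOB : OccB T f E B)
    (hOC : OccC T f E B) (hA : Mom.CoreA T f E B) (hB : Mom.CoreB T f E B) (hF : FsrcP E B)
    (hft : FtP T f E B) :
    ∃ C : ℝ, 0 ≤ C ∧ ∀ X p : ℝ → R3, IsChar T f E B X p → ∀ a b : ℝ, 0 ≤ a → a ≤ b → b < T →
      ∀ P Qt : ℝ, (∀ s ∈ Icc a b, gam (p s) ≤ 4 * Qt) →
      (∀ t ∈ Icc 0 b, ∀ y w : R3, f t y w ≠ 0 → gam w ≤ P) →
      (tdc f E B X p a b).Core C T P Qt := by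
  obtain ⟨C0, hC0, h0⟩ := coreAB_of hr hOA hOB
  obtain ⟨C1, hC1, h1⟩ := hOC
  obtain ⟨C2, hC2, h2⟩ := hA
  obtain ⟨C3, hC3, h3⟩ := hB
  obtain ⟨C4, hC4, h4⟩ := hft
  set C : ℝ := C0 + C1 + C2 + C3 + 2 * C4 with hC
  refine ⟨C, by positivity, fun X p hc a b ha hab hb P Qt hen hP => ?_⟩
  have hAB := coreAB_mono (C' := C) (h0 X p hc a b ha hab hb P Qt hen hP) (by rw [hC]; linarith)
  refine { hAB with cc := ?_, cA := ?_, cB := ?_, cR := ?_ }
  · intro R1 d1 e1 D1 Q1 g1 g2 g3 g4 g5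
    rw [nu_shell hc ha hab hb]
    have h6 : 0 ≤ b - a := by linarith
    exact (h1 X p hc R1 d1 e1 D1 Q1 g1 g2 g3 g4 g5 a b ha hab hb).trans
      (ofReal_mono_const (by positivity) (by rw [hC]; linarith))
  · intro R1 d1 e1 D1 Q1 g1 g2 g3 g4 g5 s (hs : s ∈ Icc a b)
    have hs' : s ∈ Icc a b := hs
    rw [kap_shell hc ha hab hb hs']
    have h6 : 0 ≤ min e1 D1 := le_min g3.le g4.le
    have hm := measSet_sh (f := f) (E := E) (B := B) hc ha hab hb R1 d1 e1 D1 Q1 s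
    have hKm : Measurable (fun q => ENNReal.ofReal ((tdc f E B X p a b).Kg s q)) :=
      (measurable_of_uncurry (tdc_mKg hr hc ha hab hb) s).ennreal_ofReal
    have hle : ∫⁻ z in (tdc f E B X p a b).sh R1 d1 e1 D1 Q1 s, (tdc f E B X p a b).w s z *
          ENNReal.ofReal ((tdc f E B X p a b).Kg s z) ∂(tdc f E B X p a b).m ≤
        ∫⁻ q in shell X p R1 d1 e1 D1 Q1 s, ENNReal.ofReal (Kg E B X s q.1) ∂(kap f X s) := by
      rw [← tdc_sh (f := f) (E := E) (B := B) hs']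
      refine lint_ge hr hc ha hab hb hs' hKm (fun q hq => ?_) hm
      rw [tdc_Kg hs' (seen_of_w hs' hq)]
    rcases le_or_gt s 0 with h0' | h0'
    · have hz : ∫⁻ q in shell X p R1 d1 e1 D1 Q1 s, ENNReal.ofReal (Kg E B X s q.1) ∂(kap f X s)
          = 0 := by
        have : kap f X s = 0 := by
          ext A hA
          simpa using kap_zero (f := f) X h0' A
        rw [this]
        simp
      rw [hz] at hle
      have h7 := nonpos_iff_eq_zero.mp hle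
      rw [h7]
      simp
    · refine (pow_le_pow_left' hle 2).trans ?_
      refine (h2 X p hc R1 d1 e1 D1 Q1 g1 g2 g3 g4 g5 s ⟨h0', lt_of_le_of_lt hs'.2 hb⟩).trans ?_
      gcongr
      rw [hC]
      linarith
  · intro R1 d1 e1 D1 Q1 g1 g2 g3 g4 g5
    rw [nu_shell hc ha hab hb]
    have h6 : 0 ≤ min e1 D1 := le_min g3.le g4.le
    have h7 : 0 ≤ b - a := by linarith
    have hle : ∫⁻ s in Icc a b, ∫⁻ z in (tdc f E B X p a b).sh R1 d1 e1 D1 Q1 s,
          (tdc f E B X p a b).w s z *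
          ENNReal.ofReal ((tdc f E B X p a b).Bs s z) ∂(tdc f E B X p a b).m ≤
        ∫⁻ s in Icc a b, ∫⁻ q in shell X p R1 d1 e1 D1 Q1 s,
          ENNReal.ofReal ‖B (ret X s q.1) q.1‖ ∂(kap f X s) := by
      refine setLIntegral_mono' measurableSet_Icc fun s hs => ?_
      have hm := measSet_sh (f := f) (E := E) (B := B) hc ha hab hb R1 d1 e1 D1 Q1 s
      have hKm : Measurable (fun q => ENNReal.ofReal ((tdc f E B X p a b).Bs s q)) :=
        (measurable_of_uncurry (tdc_mBs hr hc ha hab hb) s).ennreal_ofReal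
      rw [← tdc_sh (f := f) (E := E) (B := B) hs]
      refine lint_ge hr hc ha hab hb hs hKm (fun q hq => ?_) hm
      rw [tdc_Bs hs (seen_of_w hs hq)]
    refine (pow_le_pow_left' hle 2).trans ?_
    refine (h3 X p hc R1 d1 e1 D1 Q1 g1 g2 g3 g4 g5 a b ha hab hb).trans ?_
    simp only [tdc_a, tdc_b]
    gcongr
    rw [hC]
    linarith
  · intro s hs
    have hs' : s ∈ Icc a b := hs
    rw [tdc_Ft ha hs']
    rcases le_or_gt s 0 with h0' | h0'
    · rw [if_pos h0']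
      exact zero_le
    · rw [if_neg (not_le.mpr h0')]
      have hle := lint_le' hr hc ha hab hb hs'
        (g := fun q => ENNReal.ofReal (Mom.kT (Mom.dl X p s q.1) (Mom.ep X s q.1 q.2) (gam q.2)
          (Rr X s q.1) + Mom.kS (Mom.dl X p s q.1) (Mom.ep X s q.1 q.2) (gam q.2) (Rr X s q.1) *
          Fsrc E B X s q))
        (g' := fun q => 2 * ENNReal.ofReal ((tdc f E B X p a b).gR s q)) (fun q hq => by
          have := gR_le hF hs' hq
          refine (ENNReal.ofReal_le_ofReal this).trans ?_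
          rw [ENNReal.ofReal_mul (by norm_num)]
          simp)
      have h5 := h4 X p hc s ⟨h0', lt_of_le_of_lt hs'.2 hb⟩
      refine h5.trans ?_
      have e2 : ∫⁻ q, (tdc f E B X p a b).w s q * (2 * ENNReal.ofReal ((tdc f E B X p a b).gR s q))
          = 2 * ∫⁻ q, (tdc f E B X p a b).w s q * ENNReal.ofReal ((tdc f E B X p a b).gR s q) := by
        rw [← lintegral_const_mul' _ _ (by norm_num)]
        refine lintegral_congr fun q => ?_
        ring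
      rw [e2] at hle
      have h6 : (1 : ℝ≥0∞) + ∫⁻ q, ENNReal.ofReal (Mom.kT (Mom.dl X p s q.1)
          (Mom.ep X s q.1 q.2) (gam q.2) (Rr X s q.1) + Mom.kS (Mom.dl X p s q.1)
          (Mom.ep X s q.1 q.2) (gam q.2) (Rr X s q.1) * Fsrc E B X s q) ∂(kap f X s) ≤
          2 * (1 + ∫⁻ q, (tdc f E B X p a b).w s q *
            ENNReal.ofReal ((tdc f E B X p a b).gR s q)) := by
        rw [mul_add, mul_one]
        exact add_le_add (by norm_num) hle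
      calc ENNReal.ofReal C4 * (1 + _)
          ≤ ENNReal.ofReal C4 * (2 * (1 + ∫⁻ q, (tdc f E B X p a b).w s q *
            ENNReal.ofReal ((tdc f E B X p a b).gR s q))) := by gcongr
        _ = ENNReal.ofReal (2 * C4) * (1 + ∫⁻ q, (tdc f E B X p a b).w s q *
            ENNReal.ofReal ((tdc f E B X p a b).gR s q)) := by
          rw [ENNReal.ofReal_mul (by norm_num), ENNReal.ofReal_ofNat]
          ring
        _ ≤ ENNReal.ofReal C * (1 + ∫⁻ q, (tdc f E B X p a b).w s q *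
            ENNReal.ofReal ((tdc f E B X p a b).gR s q)) := by
          gcongr
          rw [hC]
          linarith

/-! ### `CoreD` and the final form -/

theorem coreD_of (hD : OccD T f E B) {Ch : ℝ} (hCh : 0 ≤ Ch) (hinc : IncP T f E B Ch) :
    ∃ C : ℝ, 0 ≤ C ∧ ∀ c0 : ℝ, 0 < c0 → c0 ≤ 1 → ∃ P1 : ℝ, ∀ P : ℝ, P1 ≤ P → ∀ t1 ∈ Ico 0 T,
    Below (mom (T := T) (f := f) (E := E) (B := B)) P t1 →
    Hyp (mom (T := T) (f := f) (E := E) (B := B)) (hB Ch) c0 (1 / 16) P t1 →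
    ∀ j : ℕ, P ^ (0.55 : ℝ) ≤ 2 ^ j → (2 : ℝ) ^ j ≤ P → ∀ ξ : Chr T f E B, ∀ a b : ℝ,
      0 ≤ a → a ≤ b → b ≤ t1 → b - a ≤ win c0 P (2 ^ j) →
      (∀ s ∈ Icc a b, (2 : ℝ) ^ j / 4 ≤ en (mom ξ s) ∧ en (mom ξ s) ≤ 4 * 2 ^ j) →
      (tdc f E B ξ.1.1 ξ.1.2 a b).CoreD C P c0 (2 ^ j) := by
  obtain ⟨C, hC, h⟩ := hD Ch hCh hinc
  refine ⟨C, hC, fun c0 hc0 hc01 => ?_⟩
  obtain ⟨P1, hP1⟩ := h c0 hc0 hc01
  refine ⟨P1, fun P hP t1 ht1 hbel hhyp j hj1 hj2 ξ a b ha hab hbt hwin hen => ?_⟩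
  intro R1 d1 e1 D1 Q1 g1 g2 g3 g4 g5 g6 g7 g8
  rw [nu_shell ξ.2 ha hab (lt_of_le_of_lt hbt ht1.2)]
  exact hP1 P hP t1 ht1 hbel hhyp j hj1 hj2 ξ a b ha hab hbt hwin hen R1 d1 e1 D1 Q1 g1 g2 g3 g4
    g6 g7 g8

/-- FINAL: all the hypotheses of the abstract cost theorem -/
theorem core_and_coreD (hr : Reg T f E B) (hch : CharP T f E B) (hOA : OccA T f E B)
    (hOB : OccB T f E B) (hOC : OccC T f E B) (hA : Mom.CoreA T f E B) (hB' : Mom.CoreB T f E B)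
    (hF : FsrcP E B) (hft : FtP T f E B) (hD : OccD T f E B) {Ch : ℝ} (hCh : 0 ≤ Ch)
    (hinc : IncP T f E B Ch) :
    ∃ C : ℝ, 0 ≤ C ∧ ∀ c0 : ℝ, 0 < c0 → c0 ≤ 1 → ∃ P1 : ℝ, ∀ P : ℝ, P1 ≤ P → ∀ t1 ∈ Ico 0 T,
    Below (mom (T := T) (f := f) (E := E) (B := B)) P t1 →
    Hyp (mom (T := T) (f := f) (E := E) (B := B)) (hB Ch) c0 (1 / 16) P t1 →
    ∀ j : ℕ, P ^ (0.55 : ℝ) ≤ 2 ^ j → (2 : ℝ) ^ j ≤ P → ∀ ξ : Chr T f E B, ∀ a b : ℝ,
      0 ≤ a → a ≤ b → b ≤ t1 → b - a ≤ win c0 P (2 ^ j) →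
      (∀ s ∈ Icc a b, (2 : ℝ) ^ j / 4 ≤ en (mom ξ s) ∧ en (mom ξ s) ≤ 4 * 2 ^ j) →
      (tdc f E B ξ.1.1 ξ.1.2 a b).Core C T P (2 ^ j) ∧
      (tdc f E B ξ.1.1 ξ.1.2 a b).CoreD C P c0 (2 ^ j) := by
  obtain ⟨C1, hC1, h1⟩ := core_of hr hOA hOB hOC hA hB' hF hft
  obtain ⟨C2, hC2, h2⟩ := coreD_of hD hCh hinc
  refine ⟨C1 + C2, by positivity, fun c0 hc0 hc01 => ?_⟩
  obtain ⟨P1, hP1⟩ := h2 c0 hc0 hc01
  refine ⟨max P1 1, fun P hP t1 ht1 hbel hhyp j hj1 hj2 ξ a b ha hab hbt hwin hen => ⟨?_, ?_⟩⟩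
  · have h3 := h1 ξ.1.1 ξ.1.2 ξ.2 a b ha hab (lt_of_le_of_lt hbt ht1.2) P (2 ^ j)
      (fun s hs => (hen s hs).2) (src_le hch ht1 hbel hbt)
    exact { coreAB_mono h3.toCoreAB (by linarith) with
      cc := fun R1 d1 e1 D1 Q1 g1 g2 g3 g4 g5 => (h3.cc R1 d1 e1 D1 Q1 g1 g2 g3 g4 g5).trans
        (ofReal_mono_const (by
          have : 0 ≤ b - a := by linarith
          simp only [tdc_a, tdc_b]
          positivity) (by linarith))
      cA := fun R1 d1 e1 D1 Q1 g1 g2 g3 g4 g5 s hs =>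
        (h3.cA R1 d1 e1 D1 Q1 g1 g2 g3 g4 g5 s hs).trans (by
          have h6 : 0 ≤ min e1 D1 := le_min g3.le g4.le
          gcongr
          linarith)
      cB := fun R1 d1 e1 D1 Q1 g1 g2 g3 g4 g5 =>
        (h3.cB R1 d1 e1 D1 Q1 g1 g2 g3 g4 g5).trans (by
          have h6 : 0 ≤ min e1 D1 := le_min g3.le g4.le
          have : 0 ≤ b - a := by linarith
          simp only [tdc_a, tdc_b]
          gcongr
          linarith)
      cR := fun s hs => (h3.cR s hs).trans (by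
          gcongr
          linarith) }
  · exact coreD_mono hc0.le ((le_max_right _ _).trans hP) hab
      (hP1 P ((le_max_left _ _).trans hP) t1 ht1 hbel hhyp j hj1 hj2 ξ a b ha hab hbt hwin hen)
      (by linarith)

end Crest.Agent.R106.Link
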