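/-
Row 106, LINK (helper268): `AbsP` and `BsmallP` from the abstract theorems (shell sums, 72/676) and
the cores of the concrete datum (LinkD, 609).
-/
import Crest.Agent.R106.LinkC
import Crest.Agent.R106.LinkD

set_option autoImplicit false

open MeasureTheory Set Filter Topology
open Crest.AnalysisR.VecCalc3 Crest.AnalysisR.PDE.RVM
open scoped InnerProductSpace ENNReal ContDiff

noncomputable section

namespace Crest.Agent.R106.Link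

open Crest.Agent.R106.GSR (gam acc lor)
open Crest.Agent.R106.Mom
open Crest.Agent.R106.Abs (TD lw)
open Crest.Agent.R106.Boot (en win Below Hyp)

/-! ### the two abstract theorems (72/676) as hypotheses -/

/-- abstract improvement step -/
def FinH : Prop := ∀ C Ch Tm c1 : ℝ, 0 ≤ C → 0 ≤ Ch → 0 < Tm → 0 < c1 →
  ∃ c0 : ℝ, 0 < c0 ∧ c0 ≤ 1 ∧ ∃ P0 : ℝ, ∀ P : ℝ, P0 ≤ P → ∀ Q : ℝ, P ^ (11 / 20 : ℝ) ≤ Q → Q ≤ P →
    ∀ S : TD (R3 × R3), S.a ≤ S.b → S.b - S.a ≤ lw c0 P Q → S.Core C Tm P Q → S.CoreD C P c0 Q →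
      ∫⁻ s in Icc S.a S.b, S.h Ch P Q s ≤ ENNReal.ofReal (c1 * Q)

/-- abstract bound for the boundary terms -/
def FinB : Prop := ∀ C Cb Tm : ℝ, 0 ≤ C → 0 ≤ Cb → 0 < Tm →
  ∃ P0 : ℝ, ∀ P : ℝ, P0 ≤ P → ∀ Q : ℝ, P ^ (11 / 20 : ℝ) ≤ Q → Q ≤ P →
    ∀ S : TD (R3 × R3), S.CoreAB C Tm P Q → ∀ s ∈ Icc S.a S.b,
      S.bd Cb P Q s ≤ ENNReal.ofReal (P ^ (3 / 8 : ℝ))

variable {T : ℝ} {f : ℝ → R3 → R3 → ℝ} {E B : ℝ → R3 → R3}

lemma pow_eq55 (P : ℝ) : P ^ (0.55 : ℝ) = P ^ (11 / 20 : ℝ) := by norm_num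

/-- ABS -/
theorem absP_of (hr : Reg T f E B) (hfin : FinH) : AbsP T f E B := by
  intro hT hch ha hb hc hA hB' hF hft hd Ch hCh hinc
  obtain ⟨C, hC, hcore⟩ := core_and_coreD hr hch ha hb hc hA hB' hF hft hd hCh hinc
  obtain ⟨c0, hc0, hc01, P0, hfin⟩ := hfin C (16 * Ch) T (1 / 32) hC (by positivity) hT
    (by norm_num)
  obtain ⟨P1, hcore⟩ := hcore c0 hc0 hc01
  refine ⟨c0, hc0, hc01, max P0 P1,
    fun P hP t1 ht1 hbel hhyp j hj1 hj2 ξ a b ha0 hab hbt hwin hen => ?_⟩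
  have hP0 : P0 ≤ P := (le_max_left _ _).trans hP
  have hP1 : P1 ≤ P := (le_max_right _ _).trans hP
  have hbT : b < T := lt_of_le_of_lt hbt ht1.2
  have hQ : (0 : ℝ) < 2 ^ j := by positivity
  obtain ⟨hco, hcd⟩ := hcore P hP1 t1 ht1 hbel hhyp j hj1 hj2 ξ a b ha0 hab hbt hwin hen
  have hmain := hfin P hP0 (2 ^ j) (by rw [← pow_eq55]; exact hj1) hj2
    (tdc f E B ξ.1.1 ξ.1.2 a b) hab hwin hco hcd
  have hle : ∀ s ∈ Icc a b, hB Ch P (2 ^ j) ξ s ≤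
      (tdc f E B ξ.1.1 ξ.1.2 a b).h (16 * Ch) P (2 ^ j) s := by
    intro s hs
    have h1 := hh_le hr ξ.2 ha0 hab hbT hs (P := P) hQ (hen s hs).1
    unfold hB
    refine (mul_le_mul_right h1 _).trans ?_
    unfold TD.h
    rw [← mul_assoc, ← ENNReal.ofReal_mul hCh, mul_comm Ch 16]
  calc ∫⁻ s in Icc a b, hB Ch P (2 ^ j) ξ s
      ≤ ∫⁻ s in Icc a b, (tdc f E B ξ.1.1 ξ.1.2 a b).h (16 * Ch) P (2 ^ j) s :=
        setLIntegral_mono' measurableSet_Icc hle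
    _ ≤ ENNReal.ofReal (1 / 32 * 2 ^ j) := hmain
    _ = ENNReal.ofReal ((1 / 16) * 2 ^ j / 2) := by congr 1; ring

/-- smallness of the boundary terms -/
theorem bsmallP_of (hr : Reg T f E B) (hfin : FinB) (hT : 0 < T) (hch : CharP T f E B)
    (hA : OccA T f E B) (hB' : OccB T f E B) : BsmallP T f E B := by
  obtain ⟨C, hC, hcor⟩ := coreAB_of hr hA hB'
  obtain ⟨P0, hfin⟩ := hfin C 1 T hC zero_le_one hT
  refine ⟨P0, fun P hP t1 ht1 hbel j hj1 hj2 ξ s hs he1 he2 => ?_⟩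
  have hsT : s < T := lt_of_le_of_lt hs.2 ht1.2
  have hss : s ∈ Icc s s := ⟨le_rfl, le_rfl⟩
  have hco := hcor ξ.1.1 ξ.1.2 ξ.2 s s hs.1 le_rfl hsT P (2 ^ j) (fun r hr => by
    have : r = s := le_antisymm hr.2 hr.1
    rw [this]
    exact he2) (src_le hch ht1 hbel hs.2)
  refine (bb_le hr ξ.2 hs.1 le_rfl hsT hss).trans ?_
  exact hfin P hP (2 ^ j) (by rw [← pow_eq55]; exact hj1) hj2 _ hco s hss

end Crest.Agent.R106.Link
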