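import Crest.Agent.R106.AbsFin
import Crest.Agent.R106.AbsGood
import Crest.Agent.R106.LinkE

/-!
# Row 106, node ABS: final theorems `fin_h` (helper72 + 676 + 413 + 180), `finH`, `finB`, and
`absP`, `bsmallP` for the concrete solution.
-/

set_option autoImplicit false

open MeasureTheory Set
open scoped ENNReal
open Crest.AnalysisR.VecCalc3 Crest.AnalysisR.PDE.RVM

namespace Crest.Agent.R106.Abs

/-- (F1): the integral of the majorant over a window. -/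
theorem fin_h (C Ch Tm c1 : ℝ) (hC : 0 ≤ C) (hCh : 0 ≤ Ch) (hTm : 0 ≤ Tm) (hc1 : 0 < c1) :
    ∃ c0 : ℝ, 0 < c0 ∧ c0 ≤ 1 ∧ ∃ P0 : ℝ, ∀ P, P0 ≤ P → ∀ Qt, P ^ (11 / 20 : ℝ) ≤ Qt → Qt ≤ P →
      ∀ {Z : Type} [MeasurableSpace Z] (T : TD Z), T.a ≤ T.b → T.b - T.a ≤ lw c0 P Qt →
        T.Core C Tm P Qt → T.CoreD C P c0 Qt →
        ∫⁻ s in Icc T.a T.b, T.h Ch P Qt s ≤ ENNReal.ofReal (c1 * Qt) := by
  refine fin_h_of C Ch Tm c1 hC hCh hc1 (cG' C Tm) (by unfold cG'; linarith) ?_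
  intro c0 P Qt Z _ T hc0 hc01 hL hQ1 hQ2 hab hl hcore hcoreD
  have hP : 0 < P := by linarith [hL.P1]
  have hQt : 0 < Qt := lt_of_lt_of_le (Real.rpow_pos_of_pos hP _) hQ1
  exact
    { good := fun k hk => TD.num_good hL hc0 hC hTm hab hl hcore hcoreD hQt hk
      hE := fun k hk => TD.num_inE hC hTm hP hQt hk
      hC := fun k hk => TD.num_inC hC hTm hP hQt hk
      hB := fun k hk => TD.num_inB hC hTm hP hQt hk }

theorem finH : Link.FinH := by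
  intro C Ch Tm c1 hC hCh hTm hc1
  obtain ⟨c0, h0, h1, P0, h⟩ := fin_h C Ch Tm c1 hC hCh hTm.le hc1
  exact ⟨c0, h0, h1, P0, fun P hP Q hQ1 hQ2 S => h P hP Q hQ1 hQ2 S⟩

theorem finB : Link.FinB := by
  intro C Cb Tm hC hCb hTm
  obtain ⟨P0, h⟩ := fin_b C Cb Tm hC hCb hTm.le
  exact ⟨P0, fun P hP Q hQ1 hQ2 S => h P hP Q hQ1 hQ2 S⟩

variable {T : ℝ} {f : ℝ → R3 → R3 → ℝ} {E B : ℝ → R3 → R3}

theorem absP (hr : Link.Reg T f E B) : Mom.AbsP T f E B := Link.absP_of hr finH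

theorem bsmallP (hr : Link.Reg T f E B) (hT : 0 < T) (hch : Mom.CharP T f E B)
    (ha : Mom.OccA T f E B) (hb : Mom.OccB T f E B) : Mom.BsmallP T f E B :=
  Link.bsmallP_of hr finB hT hch ha hb

end Crest.Agent.R106.Abs
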