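import Mathlib
import Crest.Prelude.Def_VlasovMaxwell

/-!
Row 106, node ITER-A: smooth functions of (time, space) all of whose derivatives are bounded on
compact time intervals.
-/

set_option autoImplicit false

open Set Filter Topology
open scoped ContDiff

noncomputable section

namespace Crest.Agent.R106.IterA

variable {X : Type*} [NormedAddCommGroup X] [NormedSpace ℝ X]
variable {Y : Type*} [NormedAddCommGroup Y] [NormedSpace ℝ Y]

/-- The derivatives of a slice `x ↦ F (t, x)` are bounded by the joint derivatives. -/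
theorem norm_iteratedFDeriv_slice_le {F : ℝ × X → Y} (hF : ContDiff ℝ ∞ F) (n : ℕ) (t : ℝ)
    (x : X) :
    ‖iteratedFDeriv ℝ n (fun y => F (t, y)) x‖ ≤ ‖iteratedFDeriv ℝ n F (t, x)‖ := by
  set F' : ℝ × X → Y := fun p => F (p + (t, 0)) with hF'
  have hF's : ContDiff ℝ ∞ F' := hF.comp (contDiff_id.add contDiff_const)
  have h1 : (fun y => F (t, y)) = F' ∘ (ContinuousLinearMap.inr ℝ ℝ X) := by
    funext y; simp [hF']
  have h2 := (ContinuousLinearMap.inr ℝ ℝ X).iteratedFDeriv_comp_right (f := F') hF's x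
    (i := n) (by exact_mod_cast le_top)
  have h3 : iteratedFDeriv ℝ n F' (0, x) = iteratedFDeriv ℝ n F (t, x) := by
    have := iteratedFDeriv_comp_add_right (𝕜 := ℝ) (f := F) n (t, (0 : X)) (0, x)
    rw [hF']
    simpa using this
  rw [h1, h2]
  have h4 : (ContinuousLinearMap.inr ℝ ℝ X) x = (0, x) := rfl
  rw [h4, h3]
  refine (ContinuousMultilinearMap.norm_compContinuousLinearMap_le _ _).trans ?_
  have h5 : ∏ _i : Fin n, ‖(ContinuousLinearMap.inr ℝ ℝ X)‖ ≤ 1 := by
    refine Finset.prod_le_one (fun _ _ => norm_nonneg _) (fun _ _ => ?_)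
    exact ContinuousLinearMap.opNorm_le_bound _ zero_le_one (fun y => by simp [Prod.norm_def])
  calc _ ≤ ‖iteratedFDeriv ℝ n F (t, x)‖ * 1 :=
        mul_le_mul_of_nonneg_left h5 (norm_nonneg _)
    _ = _ := mul_one _

/-- A smooth function with compact support in `x`, locally uniformly in time, has all its
derivatives bounded on compact time intervals. -/
theorem exists_bound_of_support [FiniteDimensional ℝ X] {F : ℝ × X → Y} (hF : ContDiff ℝ ∞ F)
    (hs : ∀ T : ℝ, ∃ R : ℝ, ∀ t x, |t| ≤ T → R < ‖x‖ → F (t, x) = 0) (n : ℕ) (T : ℝ) :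
    ∃ C : ℝ, 0 ≤ C ∧ ∀ t x, |t| ≤ T → ‖iteratedFDeriv ℝ n F (t, x)‖ ≤ C := by
  obtain ⟨R, hR⟩ := hs (T + 1)
  have hpX : ProperSpace X := FiniteDimensional.proper ℝ X
  have hK : IsCompact (Icc (-T) T ×ˢ Metric.closedBall (0 : X) R) :=
    isCompact_Icc.prod (isCompact_closedBall _ _)
  have hc : Continuous (fun p => ‖iteratedFDeriv ℝ n F p‖) :=
    (hF.continuous_iteratedFDeriv (by exact_mod_cast le_top)).norm
  obtain ⟨C, hC⟩ := (hK.image hc).bddAbove
  refine ⟨max C 0, le_max_right _ _, fun t x ht => ?_⟩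
  by_cases hx : ‖x‖ ≤ R
  · exact (hC ⟨(t, x), ⟨abs_le.1 ht, by simpa using hx⟩, rfl⟩).trans (le_max_left _ _)
  · push Not at hx
    have h1 : F =ᶠ[𝓝 (t, x)] fun _ => (0 : Y) := by
      have h2 : {p : ℝ × X | |p.1| < T + 1 ∧ R < ‖p.2‖} ∈ 𝓝 (t, x) := by
        apply IsOpen.mem_nhds
        · have h5 : IsOpen {p : ℝ × X | |p.1| < T + 1} :=
            isOpen_lt (continuous_abs.comp continuous_fst) continuous_const
          have h6 : IsOpen {p : ℝ × X | R < ‖p.2‖} :=
            isOpen_lt continuous_const (continuous_norm.comp continuous_snd)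
          exact h5.inter h6
        · exact ⟨by simpa using ht.trans_lt (by linarith), hx⟩
      filter_upwards [h2] with p hp
      exact hR p.1 p.2 hp.1.le hp.2
    have h3 : iteratedFDeriv ℝ n F (t, x) = iteratedFDeriv ℝ n (fun _ : ℝ × X => (0 : Y)) (t, x) :=
      (Filter.EventuallyEq.iteratedFDeriv ℝ h1 n).eq_of_nhds
    rw [h3]
    have h4 : iteratedFDeriv ℝ n (fun _ : ℝ × X => (0 : Y)) = 0 := iteratedFDeriv_fun_zero
    rw [h4]
    simp

end Crest.Agent.R106.IterA
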