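import Mathlib
import Crest.Prelude.Def_VecCalc3

/-!
R106, module OCC (helper193): kinematics of one source, one window.

`passage`: on an interval on which both velocities vary by at most `κ`, two pair times in the same
shell are at distance `≤ R1 (16 sqrt(δ1/D1) + 2)`.
`one_window`: total `∫ dτ/δ` of one source in one window.
-/

set_option autoImplicit false

open MeasureTheory Set
open Crest.AnalysisR.VecCalc3

namespace Crest.Agent.R106.Occ

/-- The direction from the source point `y` to the test point `x`. -/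
noncomputable def dir (x y : R3) : R3 := (‖x - y‖)⁻¹ • (x - y)

lemma norm_dir {x y : R3} (h : 0 < ‖x - y‖) : ‖dir x y‖ = 1 := by
  unfold dir
  rw [norm_smul, norm_inv, norm_norm]
  exact inv_mul_cancel₀ h.ne'

lemma norm_smul_dir {x y : R3} (h : 0 < ‖x - y‖) : ‖x - y‖ • dir x y = x - y := by
  unfold dir
  rw [smul_smul, mul_inv_cancel₀ h.ne', one_smul]

/-- velocity stability of a curve on `[a,b]`: total variation budget `A`, jump budget `B` -/
def VStab (v : ℝ → R3) (a b A B : ℝ) : Prop :=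
  ∃ G : ℝ → ℝ, Monotone G ∧ (∀ t, 0 ≤ G t) ∧ (∀ t, G t ≤ A) ∧
    ∀ s ∈ Icc a b, ∀ t ∈ Icc a b, s ≤ t → ‖v t - v s‖ ≤ G t - G s + B

/-- distance of the test direction to `n` -/
lemma norm_sub_sq_le {n V : R3} (hn : ‖n‖ = 1) (hV : ‖V‖ ≤ 1) :
    ‖V - n‖ ^ 2 ≤ 2 * (1 - inner ℝ n V) := by
  rw [@norm_sub_sq_real]
  rw [hn, real_inner_comm]
  nlinarith [norm_nonneg V]

/-- position bound for a pair: `|y(τ) - X(τ)| ≤ R (sqrt(2δ) + κ)`. -/
lemma pair_pos {X V : ℝ → R3} {yt : R3} {τ s κ : ℝ} (hτs : τ < s)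
    (hc : s - τ = ‖X s - yt‖)
    (hXc : ContinuousOn X (Icc τ s)) (hX : ∀ t ∈ Ioo τ s, HasDerivAt X (V t) t)
    (hV1 : ‖V s‖ ≤ 1) (hvar : ∀ t ∈ Icc τ s, ‖V t - V s‖ ≤ κ) :
    ‖yt - X τ‖ ≤ (s - τ) * (Real.sqrt (2 * (1 - inner ℝ (dir (X s) yt) (V s))) + κ) := by
  have hR : 0 < ‖X s - yt‖ := by rw [← hc]; linarith
  -- mean value
  have hmv : ‖(X s - s • V s) - (X τ - τ • V s)‖ ≤ κ * (s - τ) := by
    have h1 : ContinuousOn (fun t => X t - t • V s) (Icc τ s) :=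
      hXc.sub (continuousOn_id.smul continuousOn_const)
    have h3 : ∀ t ∈ Ioo τ s, HasDerivAt (fun t => X t - t • V s) (V t - V s) t := by
      intro t ht
      have h8 := (hX t ht).fun_sub ((hasDerivAt_id' t).smul_const (V s))
      simpa using h8
    have h5 : ∀ a' ∈ Ioo τ s, ∀ b' ∈ Ioo τ s, a' ≤ b' →
        ‖(X b' - b' • V s) - (X a' - a' • V s)‖ ≤ κ * (b' - a') := by
      intro a' ha' b' hb' hab
      have := (convex_Ioo τ s).norm_image_sub_le_of_norm_hasDerivWithin_le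
        (f := fun t => X t - t • V s) (f' := fun t => V t - V s) (C := κ)
        (fun t ht => (h3 t ht).hasDerivWithinAt)
        (fun t ht => hvar t (Ioo_subset_Icc_self ht)) ha' hb'
      rw [Real.norm_of_nonneg (by linarith : (0:ℝ) ≤ b' - a')] at this
      exact this
    -- pass to the limit
    have h6 : ∀ b' ∈ Ioo τ s, ‖(X b' - b' • V s) - (X τ - τ • V s)‖ ≤ κ * (b' - τ) := by
      intro b' hb'
      have hL : Filter.Tendsto (fun a' => ‖(X b' - b' • V s) - (X a' - a' • V s)‖)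
          (nhdsWithin τ (Ioi τ)) (nhds ‖(X b' - b' • V s) - (X τ - τ • V s)‖) := by
        have : ContinuousWithinAt (fun t => X t - t • V s) (Icc τ s) τ :=
          h1 τ (left_mem_Icc.2 hτs.le)
        have h7 : ContinuousWithinAt (fun t => X t - t • V s) (Ioi τ) τ :=
          (this.mono Ioc_subset_Icc_self).mono_of_mem_nhdsWithin (Ioc_mem_nhdsGT hτs)
        exact (tendsto_const_nhds.sub h7).norm
      have hR' : Filter.Tendsto (fun a' => κ * (b' - a')) (nhdsWithin τ (Ioi τ))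
          (nhds (κ * (b' - τ))) := by
        have : Continuous (fun a' : ℝ => κ * (b' - a')) := by fun_prop
        exact (this.tendsto τ).mono_left nhdsWithin_le_nhds
      refine le_of_tendsto_of_tendsto hL hR' ?_
      filter_upwards [Ioo_mem_nhdsGT hb'.1] with a' ha'
      exact h5 a' ⟨ha'.1, ha'.2.trans hb'.2⟩ b' hb' ha'.2.le
    have hL : Filter.Tendsto (fun b' => ‖(X b' - b' • V s) - (X τ - τ • V s)‖)
        (nhdsWithin s (Iio s)) (nhds ‖(X s - s • V s) - (X τ - τ • V s)‖) := by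
      have : ContinuousWithinAt (fun t => X t - t • V s) (Icc τ s) s :=
        h1 s (right_mem_Icc.2 hτs.le)
      have h7 : ContinuousWithinAt (fun t => X t - t • V s) (Iio s) s :=
        (this.mono Ico_subset_Icc_self).mono_of_mem_nhdsWithin (Ico_mem_nhdsLT hτs)
      exact (h7.sub tendsto_const_nhds).norm
    have hR' : Filter.Tendsto (fun b' => κ * (b' - τ)) (nhdsWithin s (Iio s))
        (nhds (κ * (s - τ))) := by
      have : Continuous (fun b' : ℝ => κ * (b' - τ)) := by fun_prop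
      exact (this.tendsto s).mono_left nhdsWithin_le_nhds
    refine le_of_tendsto_of_tendsto hL hR' ?_
    filter_upwards [Ioo_mem_nhdsLT hτs] with b' hb'
    exact h6 b' hb'
  have hn := norm_dir hR
  have hnd := norm_smul_dir hR
  have hVn : ‖V s - dir (X s) yt‖ ≤
      Real.sqrt (2 * (1 - inner ℝ (dir (X s) yt) (V s))) :=
    Real.le_sqrt_of_sq_le (norm_sub_sq_le hn hV1)
  have key : yt - X τ = (s - τ) • (V s - dir (X s) yt) +
      ((X s - s • V s) - (X τ - τ • V s)) := by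
    have : (s - τ) • dir (X s) yt = X s - yt := by rw [hc]; exact hnd
    rw [smul_sub, this, sub_smul]
    abel
  rw [key]
  refine (norm_add_le _ _).trans ?_
  rw [norm_smul, Real.norm_of_nonneg (by linarith : (0:ℝ) ≤ s - τ), mul_add]
  refine add_le_add ?_ ?_
  · exact mul_le_mul_of_nonneg_left hVn (by linarith)
  · rw [mul_comm (s - τ) κ]; exact hmv

/-- The passage lemma. -/
theorem passage {X V y v : ℝ → R3} {τ1 τ2 s1 s2 e κ R1 δ1 D1 : ℝ} (hκ : 0 ≤ κ)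
    (h12 : τ1 ≤ τ2) (hs1 : τ1 < s1) (hs2 : τ2 < s2) (hs1e : s1 ≤ e) (hs2e : s2 ≤ e)
    (hc1 : s1 - τ1 = ‖X s1 - y τ1‖) (hc2 : s2 - τ2 = ‖X s2 - y τ2‖)
    (hyc : ContinuousOn y (Icc τ1 τ2)) (hy : ∀ t ∈ Ioo τ1 τ2, HasDerivAt y (v t) t)
    (hXc : ContinuousOn X (Icc τ1 e)) (hX : ∀ t ∈ Ioo τ1 e, HasDerivAt X (V t) t)
    (hV1 : ‖V s1‖ ≤ 1) (hV2 : ‖V s2‖ ≤ 1)
    (hvv : ∀ t ∈ Icc τ1 τ2, ‖v t - v τ1‖ ≤ κ) (hVV : ∀ t ∈ Icc τ1 τ2, ‖V t - V τ1‖ ≤ κ)
    (hp1 : ∀ t ∈ Icc τ1 s1, ‖V t - V s1‖ ≤ κ) (hp2 : ∀ t ∈ Icc τ2 s2, ‖V t - V s2‖ ≤ κ)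
    (hR1 : s1 - τ1 ≤ 2 * R1) (hR2 : s2 - τ2 ≤ 2 * R1)
    (hδ1 : 1 - inner ℝ (dir (X s1) (y τ1)) (V s1) ≤ 2 * δ1)
    (hδ2 : 1 - inner ℝ (dir (X s2) (y τ2)) (V s2) ≤ 2 * δ1)
    (hD : Real.sqrt D1 ≤ ‖v τ1 - V s1‖) (hDκ : 3 * κ < Real.sqrt D1) :
    (Real.sqrt D1 - 3 * κ) * (τ2 - τ1) ≤ 4 * R1 * (2 * Real.sqrt δ1 + κ) := by
  have hτ2e : τ2 ≤ e := hs2.le.trans hs2e
  -- bounds on relative positions
  have hb : ∀ q : ℝ, q ≤ 2 * δ1 → Real.sqrt (2 * q) ≤ 2 * Real.sqrt δ1 := by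
    intro q hq
    have h4 : (2:ℝ) * Real.sqrt δ1 = Real.sqrt (4 * δ1) := by
      rw [Real.sqrt_mul (by norm_num : (0:ℝ) ≤ 4)]
      congr 1
      rw [show (4:ℝ) = 2 ^ 2 by norm_num, Real.sqrt_sq (by norm_num)]
    rw [h4]
    exact Real.sqrt_le_sqrt (by linarith)
  have hr1 : ‖y τ1 - X τ1‖ ≤ 2 * R1 * (2 * Real.sqrt δ1 + κ) := by
    have := pair_pos (κ := κ) hs1 hc1 (hXc.mono (Icc_subset_Icc_right hs1e))
      (fun t ht => hX t ⟨ht.1, ht.2.trans_le hs1e⟩) hV1 hp1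
    refine this.trans ?_
    have h0 : 0 ≤ 2 * Real.sqrt δ1 + κ := by positivity
    exact mul_le_mul hR1 (by linarith [hb _ hδ1]) (by positivity) (by linarith)
  have hr2 : ‖y τ2 - X τ2‖ ≤ 2 * R1 * (2 * Real.sqrt δ1 + κ) := by
    have := pair_pos (κ := κ) hs2 hc2 (hXc.mono (Icc_subset_Icc h12 hs2e))
      (fun t ht => hX t ⟨h12.trans_lt ht.1, ht.2.trans_le hs2e⟩) hV2 hp2
    refine this.trans ?_
    have h0 : 0 ≤ 2 * Real.sqrt δ1 + κ := by positivity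
    exact mul_le_mul hR2 (by linarith [hb _ hδ2]) (by positivity) (by linarith)
  set u0 : R3 := v τ1 - V τ1 with hu0
  have hu0n : Real.sqrt D1 - κ ≤ ‖u0‖ := by
    have h1 : ‖v τ1 - V s1‖ ≤ ‖u0‖ + ‖V τ1 - V s1‖ := by
      have : v τ1 - V s1 = u0 + (V τ1 - V s1) := by rw [hu0]; abel
      rw [this]; exact norm_add_le _ _
    have h2 := hp1 τ1 (left_mem_Icc.2 hs1.le)
    linarith
  have hu0pos : 0 < ‖u0‖ := by linarith
  -- the monotone function
  set g : ℝ → ℝ := fun t => inner ℝ (y t - X t) u0 with hg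
  have hgc : ContinuousOn g (Icc τ1 τ2) := by
    have : ContinuousOn (fun t => y t - X t) (Icc τ1 τ2) :=
      hyc.sub (hXc.mono (Icc_subset_Icc_right hτ2e))
    exact this.inner continuousOn_const
  have hgd : ∀ t ∈ Ioo τ1 τ2, HasDerivAt g (inner ℝ (v t - V t) u0) t := by
    intro t ht
    have h1 : HasDerivAt (fun t => y t - X t) (v t - V t) t :=
      (hy t ht).fun_sub (hX t ⟨ht.1, ht.2.trans_le hτ2e⟩)
    have h2 := h1.inner ℝ (hasDerivAt_const t u0)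
    simpa using h2
  have hgl : ∀ t ∈ Ioo τ1 τ2, ‖u0‖ * (Real.sqrt D1 - 3 * κ) ≤ inner ℝ (v t - V t) u0 := by
    intro t ht
    have ht' := Ioo_subset_Icc_self ht
    have h1 : v t - V t = u0 + ((v t - v τ1) - (V t - V τ1)) := by rw [hu0]; abel
    have h2 : |inner ℝ ((v t - v τ1) - (V t - V τ1)) u0| ≤ (2 * κ) * ‖u0‖ := by
      refine (abs_real_inner_le_norm _ _).trans ?_
      refine mul_le_mul_of_nonneg_right ?_ (norm_nonneg _)
      refine (norm_sub_le _ _).trans ?_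
      linarith [hvv t ht', hVV t ht']
    rw [h1, inner_add_left, real_inner_self_eq_norm_sq]
    have h3 := (abs_le.1 h2).1
    nlinarith
  have hmono : (‖u0‖ * (Real.sqrt D1 - 3 * κ)) * (τ2 - τ1) ≤ g τ2 - g τ1 := by
    refine (convex_Icc τ1 τ2).mul_sub_le_image_sub_of_le_deriv hgc ?_ ?_ τ1
      (left_mem_Icc.2 h12) τ2 (right_mem_Icc.2 h12) h12
    · intro t ht
      rw [interior_Icc] at ht
      exact (hgd t ht).differentiableAt.differentiableWithinAt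
    · intro t ht
      rw [interior_Icc] at ht
      rw [(hgd t ht).deriv]
      exact hgl t ht
  have hup : g τ2 - g τ1 ≤ ‖u0‖ * (4 * R1 * (2 * Real.sqrt δ1 + κ)) := by
    have h1 : g τ2 ≤ ‖y τ2 - X τ2‖ * ‖u0‖ := real_inner_le_norm _ _
    have h2 : -(‖y τ1 - X τ1‖ * ‖u0‖) ≤ g τ1 := (abs_le.1 (abs_real_inner_le_norm _ _)).1
    nlinarith
  have := hmono.trans hup
  rw [mul_assoc] at this
  exact le_of_mul_le_mul_left this hu0pos

lemma meas_inter {S : Set ℝ} (hS : MeasurableSet S) {f : ℝ → ℝ}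
    (hf : Measurable (Set.domRestrict S f))
    {U : Set ℝ} (hU : MeasurableSet U) : MeasurableSet (S ∩ f ⁻¹' U) := by
  have h1 := hf hU
  have h2 := hS.subtype_image h1
  convert h2 using 1
  ext x
  simp only [mem_inter_iff, mem_preimage, mem_image, Set.domRestrict_apply, Subtype.exists,
    exists_and_left, exists_prop, exists_eq_right_right]
  tauto

/-- shell membership of the pair `(s τ, τ)` -/
structure InShell (X V y v : ℝ → R3) (s : ℝ → ℝ) (R1 δ1 ε1 D1 : ℝ) (τ : ℝ) : Prop where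
  lt : τ < s τ
  cone : s τ - τ = ‖X (s τ) - y τ‖
  Rl : R1 ≤ s τ - τ
  Ru : s τ - τ ≤ 2 * R1
  dl : δ1 ≤ 1 - inner ℝ (dir (X (s τ)) (y τ)) (V (s τ))
  du : 1 - inner ℝ (dir (X (s τ)) (y τ)) (V (s τ)) ≤ 2 * δ1
  el : ε1 ≤ 1 - inner ℝ (dir (X (s τ)) (y τ)) (v τ)
  Dl : Real.sqrt D1 ≤ ‖v τ - V (s τ)‖

/-- the integrand `1/δ` -/
noncomputable def invδ (X V y : ℝ → R3) (s : ℝ → ℝ) (τ : ℝ) : ENNReal :=
  ENNReal.ofReal (1 / (1 - inner ℝ (dir (X (s τ)) (y τ)) (V (s τ))))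

lemma piece_bound {X V y v : ℝ → R3} {s : ℝ → ℝ} {R1 δ1 ε1 D1 L : ℝ} {T : Set ℝ}
    (hT : MeasurableSet T) (hδ1 : 0 < δ1) (hε1 : 0 < ε1)
    (hsh : ∀ τ ∈ T, InShell X V y v s R1 δ1 ε1 D1 τ)
    (hs' : ∀ τ ∈ T, HasDerivWithinAt s ((1 - inner ℝ (dir (X (s τ)) (y τ)) (v τ)) /
      (1 - inner ℝ (dir (X (s τ)) (y τ)) (V (s τ)))) T τ)
    (hinj : InjOn s T) (hL : ∀ τ1 ∈ T, ∀ τ2 ∈ T, τ1 ≤ τ2 → τ2 - τ1 ≤ L) (hR1 : 0 ≤ R1) :
    ∫⁻ τ in T, invδ X V y s τ ≤ ENNReal.ofReal ((L + R1) / max δ1 ε1) := by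
  have hL' : ∀ τ1 ∈ T, ∀ τ2 ∈ T, |τ1 - τ2| ≤ L := by
    intro τ1 h1 τ2 h2
    rcases le_total τ1 τ2 with h | h
    · rw [abs_sub_comm, abs_of_nonneg (by linarith)]; exact hL _ h1 _ h2 h
    · rw [abs_of_nonneg (by linarith)]; exact hL _ h2 _ h1 h
  rcases le_total ε1 δ1 with hle | hle
  · rw [max_eq_left hle]
    have hvol : volume T ≤ ENNReal.ofReal L := by
      refine (Real.volume_le_diam T).trans (Metric.ediam_le fun x hx z hz => ?_)
      rw [edist_dist, Real.dist_eq]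
      exact ENNReal.ofReal_le_ofReal (hL' x hx z hz)
    calc ∫⁻ τ in T, invδ X V y s τ ≤ ∫⁻ _ in T, ENNReal.ofReal (1 / δ1) := by
          refine setLIntegral_mono' hT fun τ hτ => ?_
          refine ENNReal.ofReal_le_ofReal ?_
          exact one_div_le_one_div_of_le hδ1 (hsh τ hτ).dl
      _ = ENNReal.ofReal (1 / δ1) * volume T := by rw [setLIntegral_const]
      _ ≤ ENNReal.ofReal (1 / δ1) * ENNReal.ofReal L := by gcongr
      _ = ENNReal.ofReal (1 / δ1 * L) := (ENNReal.ofReal_mul (by positivity)).symm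
      _ ≤ ENNReal.ofReal ((L + R1) / δ1) := by
          refine ENNReal.ofReal_le_ofReal ?_
          rw [div_mul_eq_mul_div, one_mul]
          gcongr
          linarith
  · rw [max_eq_right hle]
    have hvol : volume (s '' T) ≤ ENNReal.ofReal (L + R1) := by
      refine (Real.volume_le_diam _).trans (Metric.ediam_le ?_)
      rintro _ ⟨x, hx, rfl⟩ _ ⟨z, hz, rfl⟩
      rw [edist_dist, Real.dist_eq]
      refine ENNReal.ofReal_le_ofReal ?_
      have h1 := hL' x hx z hz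
      have h2 := hsh x hx
      have h3 := hsh z hz
      rw [abs_le] at h1 ⊢
      constructor
      · linarith [h2.Rl, h2.Ru, h3.Rl, h3.Ru, h1.1, h1.2]
      · linarith [h2.Rl, h2.Ru, h3.Rl, h3.Ru, h1.1, h1.2]
    have himg := lintegral_image_eq_lintegral_abs_deriv_mul hT hs' hinj (fun _ => (1 : ENNReal))
    rw [lintegral_const, one_mul, Measure.restrict_apply_univ] at himg
    simp only [mul_one] at himg
    calc ∫⁻ τ in T, invδ X V y s τ ≤
        ∫⁻ τ in T, ENNReal.ofReal (1 / ε1) *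
          ENNReal.ofReal |(1 - inner ℝ (dir (X (s τ)) (y τ)) (v τ)) /
            (1 - inner ℝ (dir (X (s τ)) (y τ)) (V (s τ)))| := by
          refine setLIntegral_mono' hT fun τ hτ => ?_
          rw [← ENNReal.ofReal_mul (by positivity)]
          refine ENNReal.ofReal_le_ofReal ?_
          have hd : 0 < 1 - inner ℝ (dir (X (s τ)) (y τ)) (V (s τ)) :=
            hδ1.trans_le (hsh τ hτ).dl
          have he := (hsh τ hτ).el
          rw [abs_of_pos (div_pos (hε1.trans_le he) hd), ← mul_div_assoc, one_div_mul_eq_div]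
          refine div_le_div_of_nonneg_right ?_ hd.le
          rw [le_div_iff₀ hε1]; linarith
      _ = ENNReal.ofReal (1 / ε1) * volume (s '' T) := by
          rw [lintegral_const_mul' _ _ ENNReal.ofReal_ne_top, himg]
      _ ≤ ENNReal.ofReal (1 / ε1) * ENNReal.ofReal (L + R1) := by gcongr
      _ = ENNReal.ofReal ((L + R1) / ε1) := by
          rw [← ENNReal.ofReal_mul (by positivity)]
          congr 1
          rw [div_mul_eq_mul_div, one_mul]

lemma piece_const {R1 δ1 ε1 D1 : ℝ} (hR1 : 0 ≤ R1) (hδ1 : 0 < δ1) (hD1 : 0 < D1)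
    (hM : D1 ≤ 8 * max δ1 ε1) :
    (R1 * (16 * Real.sqrt δ1 / Real.sqrt D1 + 2) + R1) / max δ1 ε1 ≤
      25 * R1 / (Real.sqrt D1 * Real.sqrt (max δ1 ε1)) := by
  set M := max δ1 ε1 with hMdef
  have hMpos : 0 < M := hδ1.trans_le (le_max_left _ _)
  have hsM : 0 < Real.sqrt M := Real.sqrt_pos.2 hMpos
  have hsD : 0 < Real.sqrt D1 := Real.sqrt_pos.2 hD1
  have h1 : Real.sqrt δ1 ≤ Real.sqrt M := Real.sqrt_le_sqrt (le_max_left _ _)
  have h2 : Real.sqrt D1 ≤ 3 * Real.sqrt M := by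
    have : Real.sqrt D1 ≤ Real.sqrt (9 * M) := Real.sqrt_le_sqrt (by linarith)
    rw [Real.sqrt_mul (by norm_num : (0:ℝ) ≤ 9), show (9:ℝ) = 3 ^ 2 by norm_num,
      Real.sqrt_sq (by norm_num)] at this
    exact this
  have hMsq : M = Real.sqrt M * Real.sqrt M := (Real.mul_self_sqrt hMpos.le).symm
  rw [div_le_div_iff₀ hMpos (by positivity)]
  have h3 : (R1 * (16 * Real.sqrt δ1 / Real.sqrt D1 + 2) + R1) * (Real.sqrt D1 * Real.sqrt M) =
      R1 * Real.sqrt M * (16 * Real.sqrt δ1 + 3 * Real.sqrt D1) := by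
    field_simp
    ring
  rw [h3]
  have h4 : 16 * Real.sqrt δ1 + 3 * Real.sqrt D1 ≤ 25 * Real.sqrt M := by linarith
  calc R1 * Real.sqrt M * (16 * Real.sqrt δ1 + 3 * Real.sqrt D1)
      ≤ R1 * Real.sqrt M * (25 * Real.sqrt M) := by gcongr
    _ = 25 * R1 * (Real.sqrt M * Real.sqrt M) := by ring
    _ = 25 * R1 * M := by rw [← hMsq]

/-- **One source, one window.** -/
theorem one_window {X V y v : ℝ → R3} {s : ℝ → ℝ} {R1 δ1 ε1 D1 A B a b c e : ℝ} {S : Set ℝ}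
    (hR1 : 0 ≤ R1) (hδ1 : 0 < δ1) (hε1 : 0 < ε1) (hD1 : 0 < D1) (hD2 : D1 ≤ 2)
    (hM : D1 ≤ 8 * max δ1 ε1) (hA : 0 ≤ A) (hB : B ≤ Real.sqrt D1 / 12)
    (hca : c ≤ a) (hab : a ≤ b) (hbe : b ≤ e)
    (hXc : ContinuousOn X (Icc c e)) (hX : ∀ t ∈ Ioo c e, HasDerivAt X (V t) t)
    (hV1 : ∀ t ∈ Icc c e, ‖V t‖ ≤ 1) (hVs : VStab V c e A B)
    (hyc : ContinuousOn y (Icc a b)) (hy : ∀ t ∈ Ioo a b, HasDerivAt y (v t) t)
    (hvs : VStab v a b A B)
    (hS : MeasurableSet S) (hSab : S ⊆ Icc a b) (hSe : ∀ τ ∈ S, s τ ≤ e)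
    (hsh : ∀ τ ∈ S, InShell X V y v s R1 δ1 ε1 D1 τ)
    (hs' : ∀ τ ∈ S, HasDerivWithinAt s ((1 - inner ℝ (dir (X (s τ)) (y τ)) (v τ)) /
      (1 - inner ℝ (dir (X (s τ)) (y τ)) (V (s τ)))) S τ)
    (hinj : InjOn s S) :
    ∫⁻ τ in S, invδ X V y s τ ≤
      ENNReal.ofReal ((36 * A + 4) * (25 * R1) / (D1 * Real.sqrt (max δ1 ε1))) := by
  classical
  have hce : c ≤ e := hca.trans (hab.trans hbe)
  obtain ⟨GV, hGVm, hGV0', hGVA', hVvar⟩ := hVs
  obtain ⟨Gv, hGvm, hGv0', hGvA', hvvar⟩ := hvs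
  have hGV0 : ∀ t, c ≤ t → 0 ≤ GV t := fun t _ => hGV0' t
  have hGv0 : ∀ t, a ≤ t → 0 ≤ Gv t := fun t _ => hGv0' t
  have hGVA : ∀ t, t ≤ e → GV t ≤ A := fun t _ => hGVA' t
  have hGvA : ∀ t, t ≤ b → Gv t ≤ A := fun t _ => hGvA' t
  have hsD : 0 < Real.sqrt D1 := Real.sqrt_pos.2 hD1
  set κ : ℝ := Real.sqrt D1 / 6 with hκ
  set θ : ℝ := Real.sqrt D1 / 12 with hθ
  have hκ0 : 0 < κ := by positivity
  have hθ0 : 0 < θ := by positivity
  have hκθ : θ + B ≤ κ := by rw [hκ, hθ]; linarith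
  have hsc : ContinuousOn s S := fun τ hτ => (hs' τ hτ).continuousWithinAt
  -- the pieces
  set T1 : ℕ → Set ℝ := fun k =>
    (S ∩ (fun τ => (Gv τ + GV τ) / θ) ⁻¹' Ico (k:ℝ) (k+1)) ∩
      (S ∩ (fun τ => GV (s τ) - GV τ) ⁻¹' Iio θ) with hT1
  set T2 : ℕ → Set ℝ := fun k =>
    (S ∩ GV ⁻¹' Iio (k * θ)) ∩ (S ∩ (fun τ => GV (s τ)) ⁻¹' Ici (k * θ)) with hT2
  have hsm : Measurable (Set.domRestrict S s) :=
    (continuousOn_iff_continuous_domRestrict.1 hsc).measurable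
  have hGVs : Measurable (Set.domRestrict S (fun τ => GV (s τ))) := hGVm.measurable.comp hsm
  have hT1m : ∀ k, MeasurableSet (T1 k) := by
    intro k
    refine (meas_inter hS ?_ measurableSet_Ico).inter (meas_inter hS ?_ measurableSet_Iio)
    · exact (((hGvm.measurable.add hGVm.measurable).div_const θ)).comp measurable_subtype_coe
    · exact hGVs.sub (hGVm.measurable.comp measurable_subtype_coe)
  have hT2m : ∀ k, MeasurableSet (T2 k) := by
    intro k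
    exact (meas_inter hS (hGVm.measurable.comp measurable_subtype_coe) measurableSet_Iio).inter
      (meas_inter hS hGVs measurableSet_Ici)
  have hT1S : ∀ k, T1 k ⊆ S := fun k τ hτ => hτ.1.1
  have hT2S : ∀ k, T2 k ⊆ S := fun k τ hτ => hτ.1.1
  set L : ℝ := R1 * (16 * Real.sqrt δ1 / Real.sqrt D1 + 2) with hL
  have hL2 : 2 * R1 ≤ L := by
    rw [hL]
    have : 0 ≤ 16 * Real.sqrt δ1 / Real.sqrt D1 := by positivity
    nlinarith
  -- bound for T1 pieces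
  have hb1 : ∀ k, ∫⁻ τ in T1 k, invδ X V y s τ ≤ ENNReal.ofReal ((L + R1) / max δ1 ε1) := by
    intro k
    refine piece_bound (hT1m k) hδ1 hε1 (fun τ hτ => hsh τ (hT1S k hτ))
      (fun τ hτ => (hs' τ (hT1S k hτ)).mono (hT1S k)) (hinj.mono (hT1S k)) ?_ hR1
    intro τ1 h1 τ2 h2 h12
    have hS1 := hT1S k h1
    have hS2 := hT1S k h2
    have hab1 := hSab hS1
    have hab2 := hSab hS2
    have hI1 := hsh τ1 hS1
    have hI2 := hsh τ2 hS2
    have he1 := hSe τ1 hS1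
    have he2 := hSe τ2 hS2
    have hgood1 : GV (s τ1) - GV τ1 < θ := h1.2.2
    have hgood2 : GV (s τ2) - GV τ2 < θ := h2.2.2
    have hlev1 : (k:ℝ) ≤ (Gv τ1 + GV τ1) / θ := h1.1.2.1
    have hlev2 : (Gv τ2 + GV τ2) / θ < k + 1 := h2.1.2.2
    have hdiff : (Gv τ2 - Gv τ1) + (GV τ2 - GV τ1) < θ := by
      rw [le_div_iff₀ hθ0] at hlev1
      rw [div_lt_iff₀ hθ0] at hlev2
      nlinarith
    have hGvd : 0 ≤ Gv τ2 - Gv τ1 := by linarith [hGvm h12]
    have hGVd : 0 ≤ GV τ2 - GV τ1 := by linarith [hGVm h12]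
    have hceI : ∀ t, τ1 ≤ t → t ≤ e → t ∈ Icc c e := fun t h3 h4 => ⟨hca.trans (hab1.1.trans h3), h4⟩
    have hpass := passage (X := X) (V := V) (y := y) (v := v) (τ1 := τ1) (τ2 := τ2)
      (s1 := s τ1) (s2 := s τ2) (e := e) (κ := κ) (R1 := R1) (δ1 := δ1) (D1 := D1) hκ0.le h12
      hI1.lt hI2.lt he1 he2 hI1.cone hI2.cone
      (hyc.mono (Icc_subset_Icc hab1.1 hab2.2))
      (fun t ht => hy t ⟨hab1.1.trans_lt ht.1, ht.2.trans_le hab2.2⟩)
      (hXc.mono (Icc_subset_Icc_left (hca.trans hab1.1)))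
      (fun t ht => hX t ⟨(hca.trans hab1.1).trans_lt ht.1, ht.2⟩)
      (hV1 _ (hceI _ hI1.lt.le he1)) (hV1 _ (hceI _ (h12.trans hI2.lt.le) he2))
      ?_ ?_ ?_ ?_ hI1.Ru hI2.Ru hI1.du hI2.du hI1.Dl ?_
    · -- conclude
      have h5 : Real.sqrt D1 - 3 * κ = Real.sqrt D1 / 2 := by rw [hκ]; ring
      rw [h5] at hpass
      have h6 : L * (Real.sqrt D1 / 2) = R1 * (8 * Real.sqrt δ1 + Real.sqrt D1) := by
        rw [hL]; field_simp; ring
      have h7 : 4 * R1 * (2 * Real.sqrt δ1 + κ) ≤ R1 * (8 * Real.sqrt δ1 + Real.sqrt D1) := by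
        rw [hκ]; nlinarith [mul_nonneg hR1 hsD.le]
      have h8 : (Real.sqrt D1 / 2) * (τ2 - τ1) ≤ (Real.sqrt D1 / 2) * L := by linarith
      exact le_of_mul_le_mul_left h8 (by positivity)
    · intro t ht
      have h3 := hvvar τ1 hab1 t ⟨hab1.1.trans ht.1, ht.2.trans hab2.2⟩ ht.1
      have h4 := hGvm ht.2
      linarith
    · intro t ht
      have h3 := hVvar τ1 (hceI _ le_rfl (hab1.2.trans hbe)) t
        (hceI _ ht.1 (ht.2.trans (hab2.2.trans hbe))) ht.1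
      have h4 := hGVm ht.2
      linarith
    · intro t ht
      have h3 := hVvar t (hceI _ ht.1 (ht.2.trans he1)) (s τ1) (hceI _ hI1.lt.le he1) ht.2
      rw [norm_sub_rev] at h3
      have h4 := hGVm ht.1
      linarith
    · intro t ht
      have h3 := hVvar t (hceI _ (h12.trans ht.1) (ht.2.trans he2)) (s τ2)
        (hceI _ (h12.trans hI2.lt.le) he2) ht.2
      rw [norm_sub_rev] at h3
      have h4 := hGVm ht.1
      linarith
    · rw [hκ]; linarith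
  -- bound for T2 pieces
  have hb2 : ∀ k, ∫⁻ τ in T2 k, invδ X V y s τ ≤ ENNReal.ofReal ((L + R1) / max δ1 ε1) := by
    intro k
    refine piece_bound (hT2m k) hδ1 hε1 (fun τ hτ => hsh τ (hT2S k hτ))
      (fun τ hτ => (hs' τ (hT2S k hτ)).mono (hT2S k)) (hinj.mono (hT2S k)) ?_ hR1
    intro τ1 h1 τ2 h2 h12
    have h3 : (k:ℝ) * θ ≤ GV (s τ1) := h1.2.2
    have h4 : GV τ2 < k * θ := h2.1.2
    have h5 : τ2 < s τ1 := by
      by_contra hcon
      have := hGVm (not_lt.1 hcon)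
      linarith
    have h6 := (hsh τ1 (hT2S k h1)).Ru
    linarith
  -- cover
  set N1 : ℕ := ⌊2 * A / θ⌋₊ + 1 with hN1
  set N2 : ℕ := ⌊A / θ⌋₊ + 1 with hN2
  have hcover : S ⊆ (⋃ k : Fin N1, T1 k) ∪ (⋃ k : Fin N2, T2 k) := by
    intro τ hτ
    have hab' := hSab hτ
    have hG0 : 0 ≤ (Gv τ + GV τ) / θ :=
      div_nonneg (add_nonneg (hGv0 τ hab'.1) (hGV0 τ (hca.trans hab'.1))) hθ0.le
    by_cases hg : GV (s τ) - GV τ < θ
    · left
      rw [mem_iUnion]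
      refine ⟨⟨⌊(Gv τ + GV τ) / θ⌋₊, ?_⟩, ?_⟩
      · rw [hN1]
        refine Nat.lt_succ_of_le (Nat.floor_le_floor ?_)
        refine div_le_div_of_nonneg_right ?_ hθ0.le
        linarith [hGvA τ hab'.2, hGVA τ (hab'.2.trans hbe)]
      · refine ⟨⟨hτ, ?_⟩, ⟨hτ, hg⟩⟩
        exact ⟨Nat.floor_le hG0, Nat.lt_floor_add_one _⟩
    · right
      rw [mem_iUnion]
      have hGV0' : 0 ≤ GV τ / θ := div_nonneg (hGV0 τ (hca.trans hab'.1)) hθ0.le
      have h7 : ((⌊GV τ / θ⌋₊ + 1 : ℕ) : ℝ) * θ ≤ GV (s τ) := by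
        push_cast
        have h8 := Nat.floor_le hGV0'
        rw [le_div_iff₀ hθ0] at h8
        nlinarith [not_lt.1 hg]
      refine ⟨⟨⌊GV τ / θ⌋₊ + 1, ?_⟩, ?_⟩
      · rw [hN2]
        refine Nat.lt_succ_of_le (Nat.le_floor ?_)
        rw [le_div_iff₀ hθ0]
        exact h7.trans (hGVA _ (hSe τ hτ))
      · refine ⟨⟨hτ, ?_⟩, ⟨hτ, h7⟩⟩
        show GV τ < ((⌊GV τ / θ⌋₊ + 1 : ℕ) : ℝ) * θ
        have h8 := Nat.lt_floor_add_one (GV τ / θ)
        rw [div_lt_iff₀ hθ0] at h8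
        push_cast
        exact h8
  set K : ℝ := (L + R1) / max δ1 ε1 with hK
  have hmax : 0 < max δ1 ε1 := hδ1.trans_le (le_max_left _ _)
  have hK0 : 0 ≤ K := by
    rw [hK]
    refine div_nonneg ?_ hmax.le
    linarith
  have hsum : ∫⁻ τ in S, invδ X V y s τ ≤ ((N1 + N2 : ℕ) : ENNReal) * ENNReal.ofReal K := by
    calc ∫⁻ τ in S, invδ X V y s τ
        ≤ ∫⁻ τ in (⋃ k : Fin N1, T1 k) ∪ (⋃ k : Fin N2, T2 k), invδ X V y s τ :=
          lintegral_mono_set hcover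
      _ ≤ (∫⁻ τ in (⋃ k : Fin N1, T1 k), invδ X V y s τ) +
          ∫⁻ τ in (⋃ k : Fin N2, T2 k), invδ X V y s τ := lintegral_union_le _ _ _
      _ ≤ (∑' k : Fin N1, ∫⁻ τ in T1 k, invδ X V y s τ) +
          ∑' k : Fin N2, ∫⁻ τ in T2 k, invδ X V y s τ :=
          add_le_add (lintegral_iUnion_le _ _) (lintegral_iUnion_le _ _)
      _ ≤ (∑' _ : Fin N1, ENNReal.ofReal K) + ∑' _ : Fin N2, ENNReal.ofReal K :=
          add_le_add (ENNReal.tsum_le_tsum fun k => hb1 k) (ENNReal.tsum_le_tsum fun k => hb2 k)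
      _ = ((N1 + N2 : ℕ) : ENNReal) * ENNReal.ofReal K := by
          rw [tsum_fintype, tsum_fintype, Finset.sum_const, Finset.sum_const, Finset.card_univ,
            Finset.card_univ, Fintype.card_fin, Fintype.card_fin, nsmul_eq_mul, nsmul_eq_mul]
          push_cast
          ring
  refine hsum.trans ?_
  rw [show ((N1 + N2 : ℕ) : ENNReal) = ENNReal.ofReal ((N1 + N2 : ℕ) : ℝ) from
    (ENNReal.ofReal_natCast _).symm, ← ENNReal.ofReal_mul (Nat.cast_nonneg _)]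
  refine ENNReal.ofReal_le_ofReal ?_
  have hKb : K ≤ 25 * R1 / (Real.sqrt D1 * Real.sqrt (max δ1 ε1)) := by
    rw [hK, hL]; exact piece_const hR1 hδ1 hD1 hM
  have hN : ((N1 + N2 : ℕ) : ℝ) ≤ (36 * A + 4) / Real.sqrt D1 := by
    rw [hN1, hN2]
    push_cast
    have h1 : (⌊2 * A / θ⌋₊ : ℝ) ≤ 2 * A / θ := Nat.floor_le (by positivity)
    have h2 : (⌊A / θ⌋₊ : ℝ) ≤ A / θ := Nat.floor_le (by positivity)
    have h3 : 2 * A / θ + A / θ = 36 * A / Real.sqrt D1 := by rw [hθ]; field_simp; ring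
    have h4 : (2:ℝ) ≤ 4 / Real.sqrt D1 := by
      rw [le_div_iff₀ hsD]
      have : Real.sqrt D1 ≤ 2 := by
        rw [show (2:ℝ) = Real.sqrt (2 ^ 2) by rw [Real.sqrt_sq (by norm_num)]]
        exact Real.sqrt_le_sqrt (by linarith)
      linarith
    have h5 : (36 * A + 4) / Real.sqrt D1 = 36 * A / Real.sqrt D1 + 4 / Real.sqrt D1 := add_div _ _ _
    linarith
  have hDD : Real.sqrt D1 * Real.sqrt D1 = D1 := Real.mul_self_sqrt hD1.le
  calc ((N1 + N2 : ℕ) : ℝ) * K ≤ ((36 * A + 4) / Real.sqrt D1) *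
        (25 * R1 / (Real.sqrt D1 * Real.sqrt (max δ1 ε1))) := by
        refine mul_le_mul hN hKb hK0 ?_
        positivity
    _ = (36 * A + 4) * (25 * R1) / (D1 * Real.sqrt (max δ1 ε1)) := by
        rw [div_mul_div_comm, ← mul_assoc (Real.sqrt D1), hDD]

end Crest.Agent.R106.Occ
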