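import Crest.Agent.R106.ConeMu
import Crest.Agent.R106.PairKin
import Crest.Agent.R106.OccKin

/-!
# Row 106, CM: per-label substitution `∫ ds/ε = ∫ dτ/δ`

`X` test curve, `Y` source curve, both strictly subluminal on `[0,T)`.
`rt Y s (X s)` = retarded time, `adv T X Y τ` = its inverse (advanced time).
-/

set_option autoImplicit false

open MeasureTheory Set Filter Topology
open scoped ENNReal NNReal InnerProductSpace

noncomputable section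

namespace Crest.Agent.R106.CM

open Crest.AnalysisR.VecCalc3

variable {T : ℝ} {X Y V v : ℝ → R3}

/-- the set of test times whose backward cone meets the source at a positive time -/
def meet (T : ℝ) (X Y : ℝ → R3) : Set ℝ := {s | s ∈ Ioo 0 T ∧ ‖X s - Y 0‖ < s}

/-- the meeting condition propagates forward -/
lemma meet_mono (hX : SubL T X) {s₁ s₂ : ℝ} (h1 : s₁ ∈ meet T X Y) (h12 : s₁ ≤ s₂) (h2 : s₂ < T) :
    s₂ ∈ meet T X Y := by
  rcases h12.lt_or_eq with h | h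
  · refine ⟨⟨h1.1.1.trans h, h2⟩, ?_⟩
    have h3 := hX s₁ ⟨h1.1.1.le, h1.1.2⟩ s₂ ⟨(h1.1.1.trans h).le, h2⟩ h
    have h4 : X s₂ - Y 0 = (X s₂ - X s₁) + (X s₁ - Y 0) := by abel
    rw [h4]
    have := norm_add_le (X s₂ - X s₁) (X s₁ - Y 0)
    linarith [h1.2]
  · rwa [← h]

lemma rt_strictMono (hX : SubL T X) (hY : SubL T Y) {s₁ s₂ : ℝ} (h1 : s₁ ∈ meet T X Y)
    (h2 : s₂ ∈ meet T X Y) (h12 : s₁ < s₂) : rt Y s₁ (X s₁) < rt Y s₂ (X s₂) := by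
  have m1 : s₁ ∈ Ico 0 T := ⟨h1.1.1.le, h1.1.2⟩
  have m2 : s₂ ∈ Ico 0 T := ⟨h2.1.1.le, h2.1.2⟩
  obtain ⟨a1, a2⟩ := rt_spec hY m1 h1.2.le
  obtain ⟨b1, b2⟩ := rt_spec hY m2 h2.2.le
  by_contra hlt
  push Not at hlt
  set τ₁ := rt Y s₁ (X s₁)
  set τ₂ := rt Y s₂ (X s₂)
  have c1 := hX s₁ m1 s₂ m2 h12
  have c2 : ‖X s₂ - Y τ₂‖ ≤ ‖X s₂ - X s₁‖ + ‖X s₁ - Y τ₂‖ := by
    have : X s₂ - Y τ₂ = (X s₂ - X s₁) + (X s₁ - Y τ₂) := by abel
    rw [this]; exact norm_add_le _ _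
  have c3 : τ₂ + ‖X s₁ - Y τ₂‖ ≤ τ₁ + ‖X s₁ - Y τ₁‖ := by
    rcases hlt.lt_or_eq with h | h
    · exact (strictMono_aux hY (X s₁) ⟨b1.1, by linarith [a1.2, m1.2]⟩
        ⟨a1.1, by linarith [a1.2, m1.2]⟩ h).le
    · rw [h]
  linarith

lemma rt_injOn (hX : SubL T X) (hY : SubL T Y) :
    InjOn (fun s => rt Y s (X s)) (meet T X Y) := by
  have : StrictMonoOn (fun s => rt Y s (X s)) (meet T X Y) :=
    fun a ha b hb hab => rt_strictMono hX hY ha hb hab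
  exact this.injOn

lemma isOpen_meet (hX : SubL T X) : IsOpen (meet T X Y) := by
  have h1 : ContinuousOn (fun s => ‖X s - Y 0‖ - s) (Ioo 0 T) := by
    refine ContinuousOn.sub ?_ continuousOn_id
    exact ((hX.continuousOn.mono Ioo_subset_Ico_self).sub continuousOn_const).norm
  have h2 : meet T X Y = Ioo 0 T ∩ (fun s => ‖X s - Y 0‖ - s) ⁻¹' Iio 0 := by
    ext s
    simp only [meet, mem_ofPred_eq, mem_inter_iff, mem_preimage, mem_Iio, sub_neg]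
  rw [h2]
  exact h1.isOpen_inter_preimage isOpen_Ioo isOpen_Iio

/-- continuity of the retarded time along the test curve (collisions allowed) -/
lemma rt_continuousAt (hX : SubL T X) (hY : SubL T Y) {s₀ : ℝ} (hs : s₀ ∈ meet T X Y) :
    ContinuousAt (fun s => rt Y s (X s)) s₀ := by
  have m0 : s₀ ∈ Ico 0 T := ⟨hs.1.1.le, hs.1.2⟩
  obtain ⟨a1, a2⟩ := rt_spec hY m0 hs.2.le
  have a3 := rt_pos hY m0 hs.2
  set τ₀ := rt Y s₀ (X s₀) with hτ₀
  have hXc : ContinuousAt X s₀ := (hX.continuousOn.mono Ioo_subset_Ico_self).continuousAt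
    (isOpen_Ioo.mem_nhds hs.1)
  have hev : ∀ᶠ s in 𝓝 s₀, s ∈ meet T X Y := (isOpen_meet hX).mem_nhds hs
  rw [Metric.continuousAt_iff']
  intro η hη
  -- lower bound
  have hlow : ∀ᶠ s in 𝓝 s₀, τ₀ - η < rt Y s (X s) := by
    set τl : ℝ := max (τ₀ / 2) (τ₀ - η / 2) with hτl
    have l1 : τl < τ₀ := max_lt (by linarith) (by linarith)
    have l2 : 0 ≤ τl := le_max_of_le_left (by linarith)
    have l3 : τl + ‖X s₀ - Y τl‖ < s₀ := by
      have := strictMono_aux hY (X s₀) (a := τl) (b := τ₀) ⟨l2, by linarith [a1.2, m0.2]⟩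
        ⟨a1.1, by linarith [a1.2, m0.2]⟩ l1
      linarith
    have l4 : ContinuousAt (fun s => s - (τl + ‖X s - Y τl‖)) s₀ :=
      continuousAt_id.sub (continuousAt_const.add (hXc.sub continuousAt_const).norm)
    have l5 : ∀ᶠ s in 𝓝 s₀, 0 < s - (τl + ‖X s - Y τl‖) :=
      l4.eventually (lt_mem_nhds (by simpa using l3))
    filter_upwards [l5, hev] with s h1 h2
    have h3 : τl ≤ rt Y s (X s) := by
      refine le_csSup ⟨s, fun τ hτ => hτ.1.2⟩ ⟨⟨l2, ?_⟩, by linarith⟩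
      linarith [norm_nonneg (X s - Y τl)]
    have h4 : τ₀ - η / 2 ≤ τl := le_max_right _ _
    linarith
  have hup : ∀ᶠ s in 𝓝 s₀, rt Y s (X s) < τ₀ + η := by
    rcases a1.2.lt_or_eq with h | h
    · set τu : ℝ := min ((τ₀ + s₀) / 2) (τ₀ + η / 2) with hτu
      have u1 : τ₀ < τu := lt_min (by linarith) (by linarith)
      have u2 : τu < s₀ := (min_le_left _ _).trans_lt (by linarith)
      have u3 : s₀ < τu + ‖X s₀ - Y τu‖ := by
        have := strictMono_aux hY (X s₀) (a := τ₀) (b := τu) ⟨a1.1, by linarith [m0.2]⟩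
          ⟨by linarith [a1.1], by linarith [m0.2]⟩ u1
        linarith
      have u4 : ContinuousAt (fun s => (τu + ‖X s - Y τu‖) - s) s₀ :=
        (continuousAt_const.add (hXc.sub continuousAt_const).norm).sub continuousAt_id
      have u5 : ∀ᶠ s in 𝓝 s₀, 0 < (τu + ‖X s - Y τu‖) - s :=
        u4.eventually (lt_mem_nhds (by simpa using u3))
      filter_upwards [u5, hev] with s h1 h2
      have m2 : s ∈ Ico 0 T := ⟨h2.1.1.le, h2.1.2⟩
      obtain ⟨b1, b2⟩ := rt_spec hY m2 h2.2.le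
      have h3 : rt Y s (X s) < τu := by
        by_contra hge
        push Not at hge
        have : τu + ‖X s - Y τu‖ ≤ rt Y s (X s) + ‖X s - Y (rt Y s (X s))‖ := by
          rcases hge.lt_or_eq with h' | h'
          · exact (strictMono_aux hY (X s) ⟨by linarith [a1.1], by linarith [m0.2]⟩
              ⟨b1.1, by linarith [b1.2, m2.2]⟩ h').le
          · rw [← h']
        linarith
      have h4 : τu ≤ τ₀ + η / 2 := min_le_right _ _
      linarith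
    · filter_upwards [hev, (isOpen_Iio.mem_nhds (show s₀ < s₀ + η by linarith) :
        ∀ᶠ s in 𝓝 s₀, s < s₀ + η)] with s h2 h3
      have m2 : s ∈ Ico 0 T := ⟨h2.1.1.le, h2.1.2⟩
      obtain ⟨b1, b2⟩ := rt_spec hY m2 h2.2.le
      have h4 : s < s₀ + η := h3
      linarith [b1.2]
  filter_upwards [hlow, hup] with s h1 h2
  rw [Real.dist_eq, abs_lt]
  constructor <;> linarith

/-- derivative of the retarded time away from collisions -/
theorem rt_hasDerivAt (hX : SubL T X) (hY : SubL T Y)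
    (hXd : ∀ s ∈ Ioo 0 T, HasDerivAt X (V s) s) (hYd : ∀ τ ∈ Ioo 0 T, HasDerivAt Y (v τ) τ)
    (hv : ∀ τ ∈ Ioo 0 T, ‖v τ‖ < 1) {s₀ : ℝ} (hs : s₀ ∈ meet T X Y)
    (hne : X s₀ ≠ Y (rt Y s₀ (X s₀))) :
    HasDerivAt (fun s => rt Y s (X s))
      ((1 - ⟪nv (X s₀) (Y (rt Y s₀ (X s₀))), V s₀⟫_ℝ) /
        (1 - ⟪nv (X s₀) (Y (rt Y s₀ (X s₀))), v (rt Y s₀ (X s₀))⟫_ℝ)) s₀ := by
  have m0 : s₀ ∈ Ico 0 T := ⟨hs.1.1.le, hs.1.2⟩
  obtain ⟨a1, a2⟩ := rt_spec hY m0 hs.2.le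
  have a3 := rt_pos hY m0 hs.2
  have hR : 0 < s₀ - rt Y s₀ (X s₀) := by
    have : 0 < ‖X s₀ - Y (rt Y s₀ (X s₀))‖ := norm_pos_iff.2 (sub_ne_zero.2 hne)
    linarith
  have hτ : rt Y s₀ (X s₀) ∈ Ioo 0 T := ⟨a3, by linarith [m0.2]⟩
  have h := Pair.hasDerivAt_tau_of_null (X := X) (y := Y) (τ := fun s => rt Y s (X s)) (s₀ := s₀)
    (V₀ := V s₀) (v₀ := v (rt Y s₀ (X s₀))) (hXd s₀ hs.1) (hYd _ hτ)
    (rt_continuousAt hX hY hs) ?_ hR (hv _ hτ)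
  · have e : Pair.nvec X Y s₀ (rt Y s₀ (X s₀)) = nv (X s₀) (Y (rt Y s₀ (X s₀))) := by
      unfold Pair.nvec nv
      congr 2
      linarith
    simpa only [Pair.om, e] using h
  · filter_upwards [(isOpen_meet hX).mem_nhds hs] with s h2
    have m2 : s ∈ Ico 0 T := ⟨h2.1.1.le, h2.1.2⟩
    obtain ⟨b1, b2⟩ := rt_spec hY m2 h2.2.le
    linarith

/-! ### The inverse: advanced time -/

open Classical in
/-- advanced time: inverse of `s ↦ rt Y s (X s)` on `meet T X Y` -/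
def adv (T : ℝ) (X Y : ℝ → R3) (τ : ℝ) : ℝ :=
  if h : ∃ s ∈ meet T X Y, rt Y s (X s) = τ then h.choose else 0

lemma adv_rt (hX : SubL T X) (hY : SubL T Y) {s : ℝ} (hs : s ∈ meet T X Y) :
    adv T X Y (rt Y s (X s)) = s := by
  have h : ∃ s' ∈ meet T X Y, rt Y s' (X s') = rt Y s (X s) := ⟨s, hs, rfl⟩
  rw [adv, dif_pos h]
  exact rt_injOn hX hY h.choose_spec.1 hs h.choose_spec.2

/-- around a point of the image, `adv` is a genuine local inverse, arbitrarily close -/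
lemma adv_eventually (hX : SubL T X) (hY : SubL T Y) {s₀ : ℝ} (hs : s₀ ∈ meet T X Y) {η : ℝ}
    (hη : 0 < η) : ∀ᶠ τ in 𝓝 (rt Y s₀ (X s₀)), adv T X Y τ ∈ meet T X Y ∧
      rt Y (adv T X Y τ) (X (adv T X Y τ)) = τ ∧ |adv T X Y τ - s₀| < η := by
  obtain ⟨ρ, hρ, hball⟩ := Metric.isOpen_iff.1 (isOpen_meet (X := X) (Y := Y) hX) s₀ hs
  set r : ℝ := min (ρ / 2) (η / 2) with hr
  have r0 : 0 < r := lt_min (by linarith) (by linarith)
  have rρ : r < ρ := (min_le_left _ _).trans_lt (by linarith)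
  have rη : r < η := (min_le_right _ _).trans_lt (by linarith)
  have hI : Icc (s₀ - r) (s₀ + r) ⊆ meet T X Y := by
    intro s h
    refine hball ?_
    rw [Metric.mem_ball, Real.dist_eq, abs_lt]
    constructor <;> linarith [h.1, h.2]
  have hlo : s₀ - r ∈ Icc (s₀ - r) (s₀ + r) := ⟨le_rfl, by linarith⟩
  have hhi : s₀ + r ∈ Icc (s₀ - r) (s₀ + r) := ⟨by linarith, le_rfl⟩
  have h1 := rt_strictMono hX hY (hI hlo) hs (by linarith)
  have h2 := rt_strictMono hX hY hs (hI hhi) (by linarith)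
  have hc : ContinuousOn (fun s => rt Y s (X s)) (Icc (s₀ - r) (s₀ + r)) :=
    fun s h => (rt_continuousAt hX hY (hI h)).continuousWithinAt
  filter_upwards [Ioo_mem_nhds h1 h2] with τ hτ
  obtain ⟨s, hs1, hs2⟩ := intermediate_value_Icc (by linarith) hc
    (⟨hτ.1.le, hτ.2.le⟩ : τ ∈ Icc (rt Y (s₀ - r) (X (s₀ - r))) (rt Y (s₀ + r) (X (s₀ + r))))
  have hs3 : adv T X Y τ = s := by
    rw [← hs2]; exact adv_rt hX hY (hI hs1)
  rw [hs3]
  refine ⟨hI hs1, hs2, ?_⟩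
  rw [abs_lt]
  constructor <;> linarith [hs1.1, hs1.2]

lemma adv_continuousAt (hX : SubL T X) (hY : SubL T Y) {s₀ : ℝ} (hs : s₀ ∈ meet T X Y) :
    ContinuousAt (adv T X Y) (rt Y s₀ (X s₀)) := by
  rw [Metric.continuousAt_iff']
  intro η hη
  filter_upwards [adv_eventually hX hY hs hη] with τ h
  rw [adv_rt hX hY hs, Real.dist_eq]
  exact h.2.2

lemma one_sub_inner_nv_pos {x y w : R3} (hw : ‖w‖ < 1) : 0 < 1 - ⟪nv x y, w⟫_ℝ := by
  have h1 := real_inner_le_norm (nv x y) w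
  have h2 : ‖nv x y‖ * ‖w‖ ≤ 1 * ‖w‖ := mul_le_mul_of_nonneg_right (norm_nv_le x y) (norm_nonneg _)
  linarith

/-- derivative of the advanced time -/
theorem adv_hasDerivAt (hX : SubL T X) (hY : SubL T Y)
    (hXd : ∀ s ∈ Ioo 0 T, HasDerivAt X (V s) s) (hYd : ∀ τ ∈ Ioo 0 T, HasDerivAt Y (v τ) τ)
    (hV : ∀ s ∈ Ioo 0 T, ‖V s‖ < 1) (hv : ∀ τ ∈ Ioo 0 T, ‖v τ‖ < 1) {s₀ τ₀ : ℝ}
    (hs : s₀ ∈ meet T X Y) (hτ : rt Y s₀ (X s₀) = τ₀) (hne : X s₀ ≠ Y τ₀) :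
    HasDerivAt (adv T X Y)
      ((1 - ⟪nv (X s₀) (Y τ₀), v τ₀⟫_ℝ) / (1 - ⟪nv (X s₀) (Y τ₀), V s₀⟫_ℝ)) τ₀ := by
  subst hτ
  have m0 : s₀ ∈ Ico 0 T := ⟨hs.1.1.le, hs.1.2⟩
  have a1 := (rt_spec hY m0 hs.2.le).1
  have a3 := rt_pos hY m0 hs.2
  have hτT : rt Y s₀ (X s₀) ∈ Ioo 0 T := ⟨a3, by linarith [m0.2, a1.2]⟩
  have hd := rt_hasDerivAt hX hY hXd hYd hv hs hne
  have p1 := one_sub_inner_nv_pos (x := X s₀) (y := Y (rt Y s₀ (X s₀))) (hV _ hs.1)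
  have p2 := one_sub_inner_nv_pos (x := X s₀) (y := Y (rt Y s₀ (X s₀))) (hv _ hτT)
  have h := HasDerivAt.of_local_left_inverse (f := fun s => rt Y s (X s)) (g := adv T X Y)
    (a := rt Y s₀ (X s₀)) (adv_continuousAt hX hY hs) (by rw [adv_rt hX hY hs]; exact hd)
    (div_pos p1 p2).ne' ?_
  · rwa [inv_div] at h
  · filter_upwards [adv_eventually hX hY hs one_pos] with τ h
    exact h.2.1

/-! ### The substitution -/

/-- collision free meeting times -/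
def meet' (T : ℝ) (X Y : ℝ → R3) : Set ℝ := {s | s ∈ meet T X Y ∧ X s ≠ Y (rt Y s (X s))}

/-- **Per-label substitution.**  `A` measurable set of collision free meeting times,
`S = {τ(s) : s ∈ A}`. -/
theorem lintegral_rt (hX : SubL T X) (hY : SubL T Y)
    (hXd : ∀ s ∈ Ioo 0 T, HasDerivAt X (V s) s) (hYd : ∀ τ ∈ Ioo 0 T, HasDerivAt Y (v τ) τ)
    (hV : ∀ s ∈ Ioo 0 T, ‖V s‖ < 1) (hv : ∀ τ ∈ Ioo 0 T, ‖v τ‖ < 1)
    {A : Set ℝ} (hA : MeasurableSet A) (hAm : A ⊆ meet' T X Y) (g : ℝ → ℝ≥0∞) :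
    ∫⁻ s in A, g s * ENNReal.ofReal
        (1 / (1 - ⟪nv (X s) (Y (rt Y s (X s))), v (rt Y s (X s))⟫_ℝ)) =
      ∫⁻ τ in (fun s => rt Y s (X s)) '' A, g (adv T X Y τ) * Occ.invδ X V Y (adv T X Y) τ := by
  rw [lintegral_image_eq_lintegral_abs_deriv_mul hA
    (fun s hs => (rt_hasDerivAt hX hY hXd hYd hv (hAm hs).1 (hAm hs).2).hasDerivWithinAt)
    ((rt_injOn hX hY).mono fun _ hs => (hAm hs).1)]
  refine setLIntegral_congr_fun hA fun s hs => ?_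
  have hs1 := (hAm hs).1
  have m0 : s ∈ Ico 0 T := ⟨hs1.1.1.le, hs1.1.2⟩
  have a1 := (rt_spec hY m0 hs1.2.le).1
  have a3 := rt_pos hY m0 hs1.2
  have hτT : rt Y s (X s) ∈ Ioo 0 T := ⟨a3, by linarith [m0.2, a1.2]⟩
  have p1 := one_sub_inner_nv_pos (x := X s) (y := Y (rt Y s (X s))) (hV _ hs1.1)
  have p2 := one_sub_inner_nv_pos (x := X s) (y := Y (rt Y s (X s))) (hv _ hτT)
  simp only [adv_rt hX hY hs1, Occ.invδ]
  have e : Occ.dir (X s) (Y (rt Y s (X s))) = nv (X s) (Y (rt Y s (X s))) := rfl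
  rw [e, abs_of_pos (div_pos p1 p2), mul_left_comm, ← ENNReal.ofReal_mul (div_pos p1 p2).le]
  congr 2
  field_simp

/-- measurability of the image -/
lemma measurableSet_image_rt (hX : SubL T X) (hY : SubL T Y) {A : Set ℝ} (hA : MeasurableSet A)
    (hAm : A ⊆ meet T X Y) : MeasurableSet ((fun s => rt Y s (X s)) '' A) :=
  hA.image_of_continuousOn_injOn
    (fun s hs => (rt_continuousAt hX hY (hAm hs)).continuousWithinAt)
    ((rt_injOn hX hY).mono hAm)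

/-- what one knows about a point `τ` of the image -/
lemma image_rt_spec (hX : SubL T X) (hY : SubL T Y) {A : Set ℝ} (hAm : A ⊆ meet' T X Y) {τ : ℝ}
    (hτ : τ ∈ (fun s => rt Y s (X s)) '' A) :
    adv T X Y τ ∈ A ∧ rt Y (adv T X Y τ) (X (adv T X Y τ)) = τ ∧ 0 < τ ∧ τ < adv T X Y τ ∧
      adv T X Y τ - τ = ‖X (adv T X Y τ) - Y τ‖ ∧ adv T X Y τ < T := by
  obtain ⟨s, hs, rfl⟩ := hτ
  have hs1 := (hAm hs).1
  have m0 : s ∈ Ico 0 T := ⟨hs1.1.1.le, hs1.1.2⟩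
  obtain ⟨a1, a2⟩ := rt_spec hY m0 hs1.2.le
  have a3 := rt_pos hY m0 hs1.2
  simp only [adv_rt hX hY hs1]
  have hR : 0 < ‖X s - Y (rt Y s (X s))‖ := norm_pos_iff.2 (sub_ne_zero.2 (hAm hs).2)
  exact ⟨hs, trivial, a3, by linarith, by linarith, m0.2⟩

lemma adv_injOn (hX : SubL T X) (hY : SubL T Y) {A : Set ℝ} (hAm : A ⊆ meet T X Y) :
    InjOn (adv T X Y) ((fun s => rt Y s (X s)) '' A) := by
  rintro _ ⟨s, hs, rfl⟩ _ ⟨s', hs', rfl⟩ h
  simp only [adv_rt hX hY (hAm hs), adv_rt hX hY (hAm hs')] at h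
  rw [h]

/-- the derivative hypothesis of `Occ.one_window` -/
lemma adv_hasDerivWithinAt (hX : SubL T X) (hY : SubL T Y)
    (hXd : ∀ s ∈ Ioo 0 T, HasDerivAt X (V s) s) (hYd : ∀ τ ∈ Ioo 0 T, HasDerivAt Y (v τ) τ)
    (hV : ∀ s ∈ Ioo 0 T, ‖V s‖ < 1) (hv : ∀ τ ∈ Ioo 0 T, ‖v τ‖ < 1) {A : Set ℝ}
    (hAm : A ⊆ meet' T X Y) {τ : ℝ} (hτ : τ ∈ (fun s => rt Y s (X s)) '' A) :
    HasDerivWithinAt (adv T X Y)
      ((1 - inner ℝ (Occ.dir (X (adv T X Y τ)) (Y τ)) (v τ)) /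
        (1 - inner ℝ (Occ.dir (X (adv T X Y τ)) (Y τ)) (V (adv T X Y τ))))
      ((fun s => rt Y s (X s)) '' A) τ := by
  obtain ⟨h1, h2, -, -, -, -⟩ := image_rt_spec hX hY hAm hτ
  have hne := (hAm h1).2
  rw [h2] at hne
  exact (adv_hasDerivAt hX hY hXd hYd hV hv (hAm h1).1 h2 hne).hasDerivWithinAt

end Crest.Agent.R106.CM
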