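import Mathlib

/-!
Row 106 (S0140): calculus lemmas for the energy method (helper756).

* `integral_fderiv_eq_zero` : `∫ ∂_d w = 0` for `w` C¹ with compact support (any Haar measure).
* `contOn_integral`, `hasDerivAt_integral` : continuity on `[0,T']` and derivative on `(0,T')` of
  `s ↦ ∫ H(s,x) dx`, for `H` C⁰ / C¹ on `[0,T) × X` and `H(s,·)` supported in a fixed compact set.
-/

set_option autoImplicit false
set_option linter.unusedSectionVars false

open MeasureTheory Set Topology Filter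
open scoped ContDiff

namespace Crest.Agent.R106.UQ

section
variable {V : Type*} [NormedAddCommGroup V] [NormedSpace ℝ V] [FiniteDimensional ℝ V]
  [MeasurableSpace V] [BorelSpace V] (μ : Measure V) [μ.IsAddHaarMeasure]

theorem integrable_fderiv {w : V → ℝ} (hw : ContDiff ℝ 1 w) (hc : HasCompactSupport w)
    (d : V) : Integrable (fun x => fderiv ℝ w x d) μ := by
  have hw' : Continuous (fun x => fderiv ℝ w x d) :=
    (hw.continuous_fderiv one_ne_zero).clm_apply continuous_const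
  have hc' : HasCompactSupport (fun x => fderiv ℝ w x d) := by
    refine (hc.fderiv (𝕜 := ℝ)).mono' ?_
    intro x hx
    apply subset_tsupport
    intro h
    apply hx
    simp [h]
  exact hw'.integrable_of_hasCompactSupport hc'

/-- The integral of a directional derivative of a compactly supported C¹ function vanishes. -/
theorem integral_fderiv_eq_zero {w : V → ℝ} (hw : ContDiff ℝ 1 w) (hc : HasCompactSupport w)
    (d : V) : ∫ x, fderiv ℝ w x d ∂μ = 0 := by
  have hw' : Continuous (fun x => fderiv ℝ w x d) :=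
    (hw.continuous_fderiv one_ne_zero).clm_apply continuous_const
  have hc' : HasCompactSupport (fun x => fderiv ℝ w x d) := by
    refine (hc.fderiv (𝕜 := ℝ)).mono' ?_
    intro x hx
    apply subset_tsupport
    intro h
    apply hx
    simp [h]
  have h := integral_mul_fderiv_eq_neg_fderiv_mul_of_integrable (μ := μ) (f := fun _ : V => (1:ℝ))
    (g := w) (v := d) (by simp) (by simpa using hw'.integrable_of_hasCompactSupport hc')
    (by simpa using hw.continuous.integrable_of_hasCompactSupport hc)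
    (by intros; fun_prop) (by intro x _; exact (hw.differentiable one_ne_zero) x)
  simpa using h

end

section
variable {X : Type*} [NormedAddCommGroup X] [NormedSpace ℝ X] [FiniteDimensional ℝ X]
  [MeasurableSpace X] [BorelSpace X] (μ : Measure X) [μ.IsAddHaarMeasure]

theorem slice_continuous {Y : Type*} [TopologicalSpace Y] {T : ℝ} {H : ℝ → X → Y}
    (hH : ContinuousOn (fun p : ℝ × X => H p.1 p.2) (Ico 0 T ×ˢ univ)) {s : ℝ} (hs : s ∈ Ico 0 T) :
    Continuous (H s) := by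
  have h : ContinuousOn (fun x : X => H s x) univ :=
    hH.comp (f := fun x : X => ((s, x) : ℝ × X)) (by fun_prop) (fun x _ => ⟨hs, mem_univ _⟩)
  exact continuousOn_univ.1 h

theorem slice_continuousOn_time {Y : Type*} [TopologicalSpace Y] {T : ℝ} {H : ℝ → X → Y}
    (hH : ContinuousOn (fun p : ℝ × X => H p.1 p.2) (Ico 0 T ×ˢ univ)) (x : X) :
    ContinuousOn (fun s => H s x) (Ico 0 T) :=
  hH.comp (f := fun s : ℝ => ((s, x) : ℝ × X)) (by fun_prop) (fun s hs => ⟨hs, mem_univ _⟩)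

theorem exists_bound_of_compact {T T' : ℝ} (hT' : T' < T) {H : ℝ → X → ℝ}
    (hH : ContinuousOn (fun p : ℝ × X => H p.1 p.2) (Ico 0 T ×ˢ univ)) {K : Set X}
    (hK : IsCompact K) : ∃ C : ℝ, 0 ≤ C ∧ ∀ s ∈ Icc 0 T', ∀ x ∈ K, |H s x| ≤ C := by
  have hc : IsCompact (Icc (0:ℝ) T' ×ˢ K) := isCompact_Icc.prod hK
  have hsub : Icc (0:ℝ) T' ×ˢ K ⊆ Ico 0 T ×ˢ univ := by
    rintro ⟨s, x⟩ ⟨hs, _⟩
    exact ⟨⟨hs.1, hs.2.trans_lt hT'⟩, mem_univ _⟩
  obtain ⟨C, hC⟩ := hc.exists_bound_of_continuousOn (hH.mono hsub)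
  refine ⟨max C 0, le_max_right _ _, fun s hs x hx => ?_⟩
  exact (hC (s, x) ⟨hs, hx⟩).trans (le_max_left _ _)

theorem contOn_integral {T T' : ℝ} (hT' : T' < T) {H : ℝ → X → ℝ}
    (hH : ContinuousOn (fun p : ℝ × X => H p.1 p.2) (Ico 0 T ×ˢ univ)) {K : Set X}
    (hK : IsCompact K) (h0 : ∀ s ∈ Icc 0 T', ∀ x, x ∉ K → H s x = 0) :
    ContinuousOn (fun s => ∫ x, H s x ∂μ) (Icc 0 T') := by
  obtain ⟨C, hC0, hC⟩ := exists_bound_of_compact hT' hH hK
  have hsub : Icc (0:ℝ) T' ⊆ Ico 0 T := fun s hs => ⟨hs.1, hs.2.trans_lt hT'⟩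
  refine continuousOn_of_dominated (bound := K.indicator (fun _ => C)) ?_ ?_ ?_ ?_
  · intro s hs
    exact (slice_continuous hH (hsub hs)).aestronglyMeasurable
  · intro s hs
    refine Eventually.of_forall fun x => ?_
    by_cases hx : x ∈ K
    · rw [indicator_of_mem hx]; exact hC s hs x hx
    · rw [indicator_of_notMem hx, h0 s hs x hx]; simp
  · rw [integrable_indicator_iff hK.measurableSet]
    exact integrableOn_const hK.measure_lt_top.ne (by simp)
  · exact Eventually.of_forall fun x => (slice_continuousOn_time hH x).mono hsub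

theorem integrable_slice {T T' : ℝ} (hT' : T' < T) {H : ℝ → X → ℝ}
    (hH : ContinuousOn (fun p : ℝ × X => H p.1 p.2) (Ico 0 T ×ˢ univ)) {K : Set X}
    (hK : IsCompact K) (h0 : ∀ s ∈ Icc 0 T', ∀ x, x ∉ K → H s x = 0) {s : ℝ} (hs : s ∈ Icc 0 T') :
    Integrable (H s) μ := by
  have hsub : Icc (0:ℝ) T' ⊆ Ico 0 T := fun s hs => ⟨hs.1, hs.2.trans_lt hT'⟩
  refine (slice_continuous hH (hsub hs)).integrable_of_hasCompactSupport ?_
  exact HasCompactSupport.intro hK (fun x hx => h0 s hs x hx)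

variable {E : Type*} [NormedAddCommGroup E] [NormedSpace ℝ E]

/-- At an interior time, joint differentiability. -/
theorem hasFDerivAt_of_contDiffOn {Y : Type*} [NormedAddCommGroup Y] [NormedSpace ℝ Y]
    {T : ℝ} {H : ℝ → X → Y}
    (hH : ContDiffOn ℝ 1 (fun p : ℝ × X => H p.1 p.2) (Ico 0 T ×ˢ univ)) {s : ℝ}
    (hs : s ∈ Ioo 0 T) (x : X) :
    ContDiffAt ℝ 1 (fun p : ℝ × X => H p.1 p.2) (s, x) := by
  refine hH.contDiffAt ?_
  rw [mem_nhds_iff]
  exact ⟨Ioo 0 T ×ˢ univ, prod_mono Ioo_subset_Ico_self Subset.rfl, isOpen_Ioo.prod isOpen_univ,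
    ⟨hs, mem_univ _⟩⟩

theorem slice_contDiff {Y : Type*} [NormedAddCommGroup Y] [NormedSpace ℝ Y]
    {T : ℝ} {H : ℝ → X → Y}
    (hH : ContDiffOn ℝ 1 (fun p : ℝ × X => H p.1 p.2) (Ico 0 T ×ˢ univ)) {s : ℝ}
    (hs : s ∈ Ico 0 T) : ContDiff ℝ 1 (H s) := by
  have h : ContDiffOn ℝ 1 (fun x : X => H s x) univ :=
    hH.comp (f := fun x : X => ((s, x) : ℝ × X)) (by fun_prop) (fun x _ => ⟨hs, mem_univ _⟩)
  exact contDiffOn_univ.1 h

theorem slice_hasDerivAt {Y : Type*} [NormedAddCommGroup Y] [NormedSpace ℝ Y]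
    {T : ℝ} {H : ℝ → X → Y}
    (hH : ContDiffOn ℝ 1 (fun p : ℝ × X => H p.1 p.2) (Ico 0 T ×ˢ univ)) {s : ℝ}
    (hs : s ∈ Ioo 0 T) (x : X) :
    HasDerivAt (fun r => H r x) (fderivWithin ℝ (fun p : ℝ × X => H p.1 p.2)
      (Ico 0 T ×ˢ univ) (s, x) (1, 0)) s := by
  have h1 := (hasFDerivAt_of_contDiffOn hH hs x).differentiableAt one_ne_zero
  have hn : Ico 0 T ×ˢ (univ : Set X) ∈ 𝓝 ((s, x) : ℝ × X) := by
    rw [mem_nhds_iff]
    exact ⟨Ioo 0 T ×ˢ univ, prod_mono Ioo_subset_Ico_self Subset.rfl, isOpen_Ioo.prod isOpen_univ,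
      ⟨hs, mem_univ _⟩⟩
  rw [fderivWithin_of_mem_nhds hn]
  have h2 := h1.hasFDerivAt.comp_hasDerivAt (f := fun r : ℝ => ((r, x) : ℝ × X)) s
    ((hasDerivAt_id s).prodMk (hasDerivAt_const s x))
  exact h2

theorem uniqueDiffOn_strip (T : ℝ) : UniqueDiffOn ℝ (Ico 0 T ×ˢ (univ : Set X)) :=
  (uniqueDiffOn_Ico 0 T).prod uniqueDiffOn_univ

theorem continuousOn_tderiv {Y : Type*} [NormedAddCommGroup Y] [NormedSpace ℝ Y]
    {T : ℝ} {H : ℝ → X → Y}
    (hH : ContDiffOn ℝ 1 (fun p : ℝ × X => H p.1 p.2) (Ico 0 T ×ˢ univ)) (d : ℝ × X) :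
    ContinuousOn (fun p : ℝ × X => fderivWithin ℝ (fun p : ℝ × X => H p.1 p.2)
      (Ico 0 T ×ˢ univ) p d) (Ico 0 T ×ˢ univ) :=
  (hH.continuousOn_fderivWithin (uniqueDiffOn_strip T) le_rfl).clm_apply continuousOn_const

theorem hasDerivAt_integral {T T' : ℝ} (hT' : T' < T) {H : ℝ → X → ℝ}
    (hH : ContDiffOn ℝ 1 (fun p : ℝ × X => H p.1 p.2) (Ico 0 T ×ˢ univ)) {K : Set X}
    (hK : IsCompact K) (h0 : ∀ s ∈ Icc 0 T', ∀ x, x ∉ K → H s x = 0) {s : ℝ}
    (hs : s ∈ Ioo 0 T') :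
    Integrable (fun x => deriv (fun r => H r x) s) μ ∧
      HasDerivAt (fun s => ∫ x, H s x ∂μ) (∫ x, deriv (fun r => H r x) s ∂μ) s := by
  have hsub : Ioo (0:ℝ) T' ⊆ Ioo 0 T := fun s hs => ⟨hs.1, hs.2.trans hT'⟩
  obtain ⟨C, hC0, hC⟩ := exists_bound_of_compact (H := fun s x =>
    fderivWithin ℝ (fun p : ℝ × X => H p.1 p.2) (Ico 0 T ×ˢ univ) (s, x) (1, 0)) hT'
    (continuousOn_tderiv hH (1, 0)) hK
  have hd : ∀ s ∈ Ioo (0:ℝ) T', ∀ x : X, deriv (fun r => H r x) s =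
      fderivWithin ℝ (fun p : ℝ × X => H p.1 p.2) (Ico 0 T ×ˢ (univ : Set X)) (s, x) (1, 0) :=
    fun s hs x => (slice_hasDerivAt hH (hsub hs) x).deriv
  have hz : ∀ s ∈ Ioo (0:ℝ) T', ∀ x, x ∉ K → deriv (fun r => H r x) s = 0 := by
    intro s hs x hx
    have : (fun r => H r x) =ᶠ[𝓝 s] fun _ => 0 := by
      filter_upwards [Ioo_mem_nhds hs.1 hs.2] with r hr
      exact h0 r (Ioo_subset_Icc_self hr) x hx
    rw [this.deriv_eq]; simp
  refine hasDerivAt_integral_of_dominated_loc_of_deriv_le (𝕜 := ℝ) (μ := μ) (F := H)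
    (F' := fun s x => deriv (fun r => H r x) s) (s := Ioo 0 T')
    (bound := K.indicator (fun _ => C)) (Ioo_mem_nhds hs.1 hs.2) ?_ ?_ ?_ ?_ ?_ ?_
  · filter_upwards [Ioo_mem_nhds hs.1 hs.2] with r hr
    exact (slice_continuous hH.continuousOn ⟨hr.1.le, hr.2.trans hT'⟩).aestronglyMeasurable
  · exact integrable_slice μ hT' hH.continuousOn hK h0 (Ioo_subset_Icc_self hs)
  · have : (fun x => deriv (fun r => H r x) s) = fun x =>
        fderivWithin ℝ (fun p : ℝ × X => H p.1 p.2) (Ico 0 T ×ˢ univ) (s, x) (1, 0) :=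
      funext fun x => hd s hs x
    rw [this]
    exact (slice_continuous (H := fun s x => fderivWithin ℝ (fun p : ℝ × X => H p.1 p.2)
      (Ico 0 T ×ˢ univ) (s, x) (1, 0)) (continuousOn_tderiv hH (1, 0))
      ⟨hs.1.le, hs.2.trans hT'⟩).aestronglyMeasurable
  · refine Eventually.of_forall fun x r hr => ?_
    by_cases hx : x ∈ K
    · rw [indicator_of_mem hx, hd r hr x]; exact hC r (Ioo_subset_Icc_self hr) x hx
    · rw [indicator_of_notMem hx, hz r hr x hx]; simp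
  · rw [integrable_indicator_iff hK.measurableSet]
    exact integrableOn_const hK.measure_lt_top.ne (by simp)
  · refine Eventually.of_forall fun x r hr => ?_
    exact (slice_hasDerivAt hH (hsub hr) x).differentiableAt.hasDerivAt

end

/-- Gronwall: `Y ≥ 0` continuous on `[0,T']`, `Y(0)=0`, `Y' ≤ C Y` on `(0,T')` implies `Y = 0`. -/
theorem gronwall_zero {T' C : ℝ} {Y Y' : ℝ → ℝ} (hc : ContinuousOn Y (Icc 0 T'))
    (hd : ∀ s ∈ Ioo 0 T', HasDerivAt Y (Y' s) s) (hle : ∀ s ∈ Ioo 0 T', Y' s ≤ C * Y s)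
    (h0 : Y 0 ≤ 0) {t : ℝ} (ht : t ∈ Icc 0 T') : Y t ≤ 0 := by
  have hT : 0 ≤ T' := ht.1.trans ht.2
  have hd' : ∀ s ∈ Ioo 0 T', HasDerivAt (fun s => Y s * Real.exp (-C * s))
      (Y' s * Real.exp (-C * s) + Y s * (Real.exp (-C * s) * (-C))) s := by
    intro s hs
    have h1 : HasDerivAt (fun s : ℝ => Real.exp (-C * s)) (Real.exp (-C * s) * (-C)) s := by
      have := (hasDerivAt_id s).const_mul (-C)
      simpa using this.exp
    exact (hd s hs).mul h1
  have hanti : AntitoneOn (fun s => Y s * Real.exp (-C * s)) (Icc 0 T') := by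
    refine antitoneOn_of_deriv_nonpos (convex_Icc 0 T') ?_ ?_ ?_
    · exact hc.mul (by fun_prop)
    · rw [interior_Icc]
      intro s hs
      exact (hd' s hs).differentiableAt.differentiableWithinAt
    · rw [interior_Icc]
      intro s hs
      rw [(hd' s hs).deriv]
      have h1 := hle s hs
      have h2 := Real.exp_pos (-C * s)
      nlinarith
  have h1 := hanti (left_mem_Icc.2 hT) ht ht.1
  have h2 : Y t * Real.exp (-C * t) ≤ 0 := by
    refine h1.trans ?_
    simpa using h0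
  by_contra h
  push Not at h
  have := mul_pos h (Real.exp_pos (-C * t))
  linarith

end Crest.Agent.R106.UQ
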