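import Mathlib
import Crest.Prelude.Def_VecCalc3
import Crest.Agent.R106.MomDefs

/-!
# Row 106, CM: the cone measure in advanced time form

`X` a test curve on all of `ℝ` with speed `≤ θ < 1`; `advT X τ y` = the unique `s` with
`s - ‖X s - y‖ = τ`.  For a measure preserving label flow `Zf τ` (`0 < τ < T`) and a density `F` with
`F (τ, Zf τ z) = F0 z`:

`∫_J ds ∫_{C(s)} φ F = ∫ dz F0(z) ∫ dτ φ / δ`.
-/

set_option autoImplicit false

open MeasureTheory Set Filter Topology
open scoped ENNReal NNReal InnerProductSpace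

noncomputable section

namespace Crest.Agent.R106.CM

open Crest.AnalysisR.VecCalc3

/-- a test curve on `ℝ` with speed at most `θ < 1` -/
structure TestCurve (X V : ℝ → R3) (θ : ℝ) : Prop where
  deriv : ∀ s, HasDerivAt X (V s) s
  speed : ∀ s, ‖V s‖ ≤ θ
  lt : θ < 1
  meas : Measurable V

/-- advanced time -/
def advT (X : ℝ → R3) (τ : ℝ) (y : R3) : ℝ := sSup {s | s - ‖X s - y‖ ≤ τ}

/-- `δ = 1 - n·V` at time `s` for the source point `y` -/
def dlt (X V : ℝ → R3) (s : ℝ) (y : R3) : ℝ := 1 - ⟪‖X s - y‖⁻¹ • (X s - y), V s⟫_ℝ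

section

variable {X V : ℝ → R3} {θ : ℝ}

lemma TestCurve.nonneg (h : TestCurve X V θ) : 0 ≤ θ := (norm_nonneg _).trans (h.speed 0)

lemma TestCurve.lip (h : TestCurve X V θ) (s t : ℝ) : ‖X t - X s‖ ≤ θ * |t - s| := by
  have := convex_univ.norm_image_sub_le_of_norm_hasDerivWithin_le (f := X) (f' := V)
    (fun x _ => (h.deriv x).hasDerivWithinAt) (fun x _ => h.speed x) (mem_univ s) (mem_univ t)
  rwa [Real.norm_eq_abs] at this

lemma TestCurve.continuous (h : TestCurve X V θ) : Continuous X :=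
  continuous_iff_continuousAt.2 fun s => (h.deriv s).continuousAt

lemma TestCurve.grow (h : TestCurve X V θ) {s t : ℝ} (hst : s ≤ t) (y : R3) :
    (1 - θ) * (t - s) ≤ (t - ‖X t - y‖) - (s - ‖X s - y‖) := by
  have h1 := h.lip s t
  rw [abs_of_nonneg (by linarith)] at h1
  have h2 : ‖X t - y‖ ≤ ‖X t - X s‖ + ‖X s - y‖ := by
    calc ‖X t - y‖ = ‖(X t - X s) + (X s - y)‖ := by congr 1; abel
      _ ≤ _ := norm_add_le _ _
  nlinarith

lemma TestCurve.strictMono (h : TestCurve X V θ) (y : R3) :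
    StrictMono fun s => s - ‖X s - y‖ := by
  intro s t hst
  have h1 := h.grow hst.le y
  have h2 : 0 < (1 - θ) * (t - s) := mul_pos (by linarith [h.lt]) (by linarith)
  simp only
  linarith

lemma TestCurve.exists_adv (h : TestCurve X V θ) (τ : ℝ) (y : R3) :
    ∃ s, s - ‖X s - y‖ = τ := by
  have hc : Continuous fun s => s - ‖X s - y‖ :=
    continuous_id.sub ((h.continuous.sub continuous_const).norm)
  have h1θ : 0 < 1 - θ := by linarith [h.lt]
  set c := τ - (0 - ‖X 0 - y‖) with hcdef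
  -- a large time
  have hup : τ ≤ (|c| / (1 - θ)) - ‖X (|c| / (1 - θ)) - y‖ := by
    have h1 := h.grow (s := 0) (t := |c| / (1 - θ)) (by positivity) y
    rw [sub_zero, mul_div_cancel₀ _ h1θ.ne'] at h1
    have := le_abs_self c
    linarith
  have hdn : (-(|c| / (1 - θ))) - ‖X (-(|c| / (1 - θ))) - y‖ ≤ τ := by
    have h1 := h.grow (s := -(|c| / (1 - θ))) (t := 0)
      (by have : 0 ≤ |c| / (1 - θ) := by positivity
          linarith) y
    rw [zero_sub, neg_neg, mul_div_cancel₀ _ h1θ.ne'] at h1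
    have := neg_abs_le c
    linarith
  have hle : -(|c| / (1 - θ)) ≤ |c| / (1 - θ) := by
    have : 0 ≤ |c| / (1 - θ) := by positivity
    linarith
  obtain ⟨s, -, hs⟩ := intermediate_value_Icc hle hc.continuousOn ⟨hdn, hup⟩
  exact ⟨s, hs⟩

lemma TestCurve.adv_eq (h : TestCurve X V θ) {s τ : ℝ} {y : R3} (hs : s - ‖X s - y‖ = τ) :
    advT X τ y = s := by
  have : IsGreatest {s | s - ‖X s - y‖ ≤ τ} s :=
    ⟨hs.le, fun t ht => (h.strictMono y).le_iff_le.1 (show t - ‖X t - y‖ ≤ s - ‖X s - y‖ by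
      rw [hs]; exact ht)⟩
  exact this.csSup_eq

lemma TestCurve.adv_spec (h : TestCurve X V θ) (τ : ℝ) (y : R3) :
    advT X τ y - ‖X (advT X τ y) - y‖ = τ := by
  obtain ⟨s, hs⟩ := h.exists_adv τ y
  rw [h.adv_eq hs]
  exact hs

lemma TestCurve.le_adv (h : TestCurve X V θ) (τ : ℝ) (y : R3) : τ ≤ advT X τ y := by
  have := h.adv_spec τ y
  linarith [norm_nonneg (X (advT X τ y) - y)]

lemma TestCurve.adv_eq_iff (h : TestCurve X V θ) {s τ : ℝ} {y : R3} :
    advT X τ y = s ↔ s - ‖X s - y‖ = τ :=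
  ⟨fun e => by rw [← e]; exact h.adv_spec τ y, fun e => h.adv_eq e⟩

/-- `advT` is Lipschitz. -/
lemma TestCurve.adv_lip (h : TestCurve X V θ) (τ τ' : ℝ) (y y' : R3) :
    (1 - θ) * |advT X τ y - advT X τ' y'| ≤ |τ - τ'| + ‖y - y'‖ := by
  set s := advT X τ y with hs
  set s' := advT X τ' y' with hs'
  have e1 : s - ‖X s - y‖ = τ := h.adv_spec τ y
  have e2 : s' - ‖X s' - y'‖ = τ' := h.adv_spec τ' y'
  have e3 : |‖X s' - y‖ - ‖X s' - y'‖| ≤ ‖y - y'‖ := by
    have := abs_norm_sub_norm_le (X s' - y) (X s' - y')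
    have e : (X s' - y) - (X s' - y') = y' - y := by abel
    rwa [e, norm_sub_rev y' y] at this
  have h3 := abs_le.1 e3
  have h4 := le_abs_self (τ - τ')
  have h5 := neg_abs_le (τ - τ')
  rcases le_total s s' with hss | hss
  · have h1 := h.grow hss y
    rw [abs_of_nonpos (by linarith)]
    have : (1 - θ) * -(s - s') = (1 - θ) * (s' - s) := by ring
    rw [this]
    linarith [h3.1, h3.2]
  · have h1 := h.grow hss y
    rw [abs_of_nonneg (by linarith)]
    linarith [h3.1, h3.2]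

lemma TestCurve.continuous_adv (h : TestCurve X V θ) :
    Continuous fun p : ℝ × R3 => advT X p.1 p.2 := by
  have h1θ : 0 < 1 - θ := by linarith [h.lt]
  have : LipschitzWith (Real.toNNReal (2 / (1 - θ))) fun p : ℝ × R3 => advT X p.1 p.2 := by
    refine LipschitzWith.of_dist_le_mul fun p q => ?_
    rw [Real.dist_eq, Real.coe_toNNReal _ (by positivity)]
    have h1 := h.adv_lip p.1 q.1 p.2 q.2
    have h2 : |p.1 - q.1| ≤ dist p q := by
      rw [← Real.dist_eq]; exact le_max_left _ _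
    have h3 : ‖p.2 - q.2‖ ≤ dist p q := by
      rw [← dist_eq_norm]; exact le_max_right _ _
    rw [div_mul_eq_mul_div, le_div_iff₀ h1θ]
    nlinarith
  exact this.continuous

lemma TestCurve.dlt_pos (h : TestCurve X V θ) (s : ℝ) (y : R3) : 0 < dlt X V s y := by
  have h1 : ⟪‖X s - y‖⁻¹ • (X s - y), V s⟫_ℝ ≤ ‖‖X s - y‖⁻¹ • (X s - y)‖ * ‖V s‖ :=
    real_inner_le_norm _ _
  have h2 : ‖‖X s - y‖⁻¹ • (X s - y)‖ ≤ 1 := by
    rw [norm_smul, norm_inv, norm_norm]
    by_cases h0 : ‖X s - y‖ = 0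
    · simp [h0]
    · rw [inv_mul_cancel₀ h0]
  have h3 := h.speed s
  have h4 : ‖‖X s - y‖⁻¹ • (X s - y)‖ * ‖V s‖ ≤ 1 * ‖V s‖ :=
    mul_le_mul_of_nonneg_right h2 (norm_nonneg _)
  rw [dlt]; linarith [h.lt]

lemma TestCurve.measurable_dlt (h : TestCurve X V θ) :
    Measurable fun p : ℝ × R3 => dlt X V p.1 p.2 := by
  have h1 : Measurable fun p : ℝ × R3 => X p.1 - p.2 :=
    ((h.continuous.comp continuous_fst).sub continuous_snd).measurable
  have h2 : Measurable fun p : ℝ × R3 => V p.1 := h.meas.comp measurable_fst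
  unfold dlt
  exact measurable_const.sub ((h1.norm.inv.smul h1).inner h2)

lemma TestCurve.hasDerivAt_ret (h : TestCurve X V θ) {s : ℝ} {y : R3} (hne : X s ≠ y) :
    HasDerivAt (fun s => s - ‖X s - y‖) (dlt X V s y) s := by
  have h1 : HasDerivAt (fun s => X s - y) (V s) s := (h.deriv s).sub_const y
  have h2 := h1.norm_sq
  have hpos : 0 < ‖X s - y‖ := norm_pos_iff.2 (sub_ne_zero.2 hne)
  have h3 := h2.sqrt (by positivity)
  have h4 : (fun s => Real.sqrt (‖X s - y‖ ^ 2)) = fun s => ‖X s - y‖ := by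
    funext s
    exact Real.sqrt_sq (norm_nonneg _)
  rw [h4] at h3
  have h5 := (hasDerivAt_id s).sub h3
  refine h5.congr_deriv ?_
  rw [Real.sqrt_sq (norm_nonneg _), dlt, real_inner_smul_left]
  field_simp

/-- the set of the advanced times in `[a,b]` without collision -/
def advSet (X : ℝ → R3) (a b : ℝ) : Set (ℝ × R3) :=
  {p | advT X p.1 p.2 ∈ Icc a b ∧ X (advT X p.1 p.2) ≠ p.2}

lemma TestCurve.measurableSet_advSet (h : TestCurve X V θ) (a b : ℝ) :
    MeasurableSet (advSet X a b) := by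
  refine MeasurableSet.inter ?_ ?_
  · exact (h.continuous_adv.measurable) measurableSet_Icc
  · have h1 : Measurable fun p : ℝ × R3 => X (advT X p.1 p.2) :=
      (h.continuous.comp h.continuous_adv).measurable
    exact (measurableSet_eq_fun h1 measurable_snd).compl

/-- one-dimensional substitution `s ↦ τ = s - ‖X s - y‖` -/
lemma TestCurve.subst (h : TestCurve X V θ) (y : R3) (a b : ℝ) (H : ℝ → ℝ → ℝ≥0∞) :
    ∫⁻ s in {s | s ∈ Icc a b ∧ X s ≠ y}, H s (s - ‖X s - y‖)
      = ∫⁻ τ in {τ | (τ, y) ∈ advSet X a b},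
          H (advT X τ y) τ / ENNReal.ofReal (dlt X V (advT X τ y) y) := by
  have hS : MeasurableSet {s | s ∈ Icc a b ∧ X s ≠ y} := by
    refine measurableSet_Icc.inter ?_
    exact (measurableSet_eq_fun h.continuous.measurable measurable_const).compl
  have himg : (fun s => s - ‖X s - y‖) '' {s | s ∈ Icc a b ∧ X s ≠ y}
      = {τ | (τ, y) ∈ advSet X a b} := by
    ext τ
    constructor
    · rintro ⟨s, ⟨hs1, hs2⟩, rfl⟩
      have : advT X (s - ‖X s - y‖) y = s := h.adv_eq rfl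
      exact ⟨by simp only; rw [this]; exact hs1, by simp only; rw [this]; exact hs2⟩
    · rintro ⟨h1, h2⟩
      exact ⟨advT X τ y, ⟨h1, h2⟩, h.adv_spec τ y⟩
  rw [← himg, lintegral_image_eq_lintegral_abs_deriv_mul hS
    (fun s hs => (h.hasDerivAt_ret hs.2).hasDerivWithinAt) ((h.strictMono y).injective.injOn)]
  refine setLIntegral_congr_fun hS fun s _ => ?_
  have e : advT X (s - ‖X s - y‖) y = s := h.adv_eq rfl
  have hp := h.dlt_pos s y
  rw [e, abs_of_pos hp, ENNReal.mul_div_cancel]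
  · rw [Ne, ENNReal.ofReal_eq_zero, not_le]; exact hp
  · exact ENNReal.ofReal_ne_top

/-- Tonelli with a measurable set of pairs. -/
lemma tonelli_set {α β : Type*} [MeasurableSpace α] [MeasurableSpace β] {μ : Measure α}
    {ν : Measure β} [SFinite μ] [SFinite ν] {S : Set (α × β)} (hS : MeasurableSet S)
    {g : α → β → ℝ≥0∞} (hg : Measurable (Function.uncurry g)) :
    ∫⁻ a, ∫⁻ b in {b | (a, b) ∈ S}, g a b ∂ν ∂μ = ∫⁻ b, ∫⁻ a in {a | (a, b) ∈ S}, g a b ∂μ ∂ν := by
  have hl : ∀ a : α, MeasurableSet {b | (a, b) ∈ S} := fun a => measurable_prodMk_left hS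
  have hr : ∀ b : β, MeasurableSet {a | (a, b) ∈ S} := fun b => measurable_prodMk_right hS
  have e1 : ∀ a, ∫⁻ b in {b | (a, b) ∈ S}, g a b ∂ν
      = ∫⁻ b, S.indicator (Function.uncurry g) (a, b) ∂ν := by
    intro a
    rw [← lintegral_indicator (hl a)]
    refine lintegral_congr fun b => ?_
    by_cases hb : (a, b) ∈ S
    · rw [indicator_of_mem hb, indicator_of_mem (show b ∈ {b | (a, b) ∈ S} from hb)]
      rfl
    · rw [indicator_of_notMem hb, indicator_of_notMem (show b ∉ {b | (a, b) ∈ S} from hb)]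
  have e2 : ∀ b, ∫⁻ a in {a | (a, b) ∈ S}, g a b ∂μ
      = ∫⁻ a, S.indicator (Function.uncurry g) (a, b) ∂μ := by
    intro b
    rw [← lintegral_indicator (hr b)]
    refine lintegral_congr fun a => ?_
    by_cases hb : (a, b) ∈ S
    · rw [indicator_of_mem hb, indicator_of_mem (show a ∈ {a | (a, b) ∈ S} from hb)]
      rfl
    · rw [indicator_of_notMem hb, indicator_of_notMem (show a ∉ {a | (a, b) ∈ S} from hb)]
  simp_rw [e1, e2]
  exact lintegral_lintegral_swap (f := fun a b => S.indicator (Function.uncurry g) (a, b))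
    (hg.indicator hS).aemeasurable

section maps

attribute [local irreducible] advT dlt

lemma TestCurve.meas_X1 (h : TestCurve X V θ) : Measurable fun p : ℝ × (R3 × R3) => X p.1 :=
  h.continuous.measurable.comp measurable_fst

lemma meas_y1 : Measurable fun p : ℝ × (R3 × R3) => p.2.1 := measurable_fst.comp measurable_snd

lemma meas_ty : Measurable fun p : ℝ × (R3 × R3) => ((p.1, p.2.1) : ℝ × R3) :=
  measurable_fst.prodMk meas_y1

lemma TestCurve.meas_ret (h : TestCurve X V θ) :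
    Measurable fun p : ℝ × (R3 × R3) => p.1 - ‖X p.1 - p.2.1‖ :=
  measurable_fst.sub (h.meas_X1.sub meas_y1).norm

lemma TestCurve.meas_adv (h : TestCurve X V θ) :
    Measurable fun p : ℝ × (R3 × R3) => advT X p.1 p.2.1 := by
  have h1 := h.continuous_adv.measurable.comp meas_ty
  exact h1

lemma TestCurve.meas_dl (h : TestCurve X V θ) :
    Measurable fun p : ℝ × (R3 × R3) => dlt X V (advT X p.1 p.2.1) p.2.1 := by
  have h1 := h.measurable_dlt.comp (h.meas_adv.prodMk meas_y1)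
  exact h1

lemma TestCurve.meas_m1 (h : TestCurve X V θ)
    {φ : ℝ × ℝ × (R3 × R3) → ℝ≥0∞} (hφ : Measurable φ) :
    Measurable fun p : ℝ × (R3 × R3) => φ (p.1, p.1 - ‖X p.1 - p.2.1‖, p.2) := by
  have h1 := hφ.comp (measurable_fst.prodMk (h.meas_ret.prodMk measurable_snd))
  exact h1

lemma TestCurve.meas_m2 (h : TestCurve X V θ)
    {φ : ℝ × ℝ × (R3 × R3) → ℝ≥0∞} (hφ : Measurable φ) :
    Measurable fun p : ℝ × (R3 × R3) => φ (advT X p.1 p.2.1, p.1, p.2)
      / ENNReal.ofReal (dlt X V (advT X p.1 p.2.1) p.2.1) := by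
  have h1 := (hφ.comp (h.meas_adv.prodMk (measurable_fst.prodMk measurable_snd))).div
    h.meas_dl.ennreal_ofReal
  exact h1

lemma TestCurve.measSet_S (h : TestCurve X V θ) :
    MeasurableSet {p : ℝ × (R3 × R3) | X p.1 ≠ p.2.1} :=
  (measurableSet_eq_fun h.meas_X1 meas_y1).compl

lemma TestCurve.measSet_T (h : TestCurve X V θ) (a b : ℝ) :
    MeasurableSet {p : ℝ × (R3 × R3) | (p.1, p.2.1) ∈ advSet X a b} :=
  meas_ty (h.measurableSet_advSet a b)

end maps

/-- **Cone measure in advanced time form** (no labels yet): integrate first over the phase space. -/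
theorem TestCurve.cone_adv_phase (h : TestCurve X V θ) (a b : ℝ)
    (φ : ℝ × ℝ × (R3 × R3) → ℝ≥0∞) (hφ : Measurable φ) :
    ∫⁻ s in Icc a b, ∫⁻ w : R3 × R3 in {w | X s ≠ w.1}, φ (s, s - ‖X s - w.1‖, w)
      = ∫⁻ τ, ∫⁻ w : R3 × R3 in {w | (τ, w.1) ∈ advSet X a b},
          φ (advT X τ w.1, τ, w) / ENNReal.ofReal (dlt X V (advT X τ w.1) w.1) := by
  have e1 := tonelli_set (μ := (volume : Measure ℝ).restrict (Icc a b))
    (ν := (volume : Measure (R3 × R3))) h.measSet_S
    (g := fun s w => φ (s, s - ‖X s - w.1‖, w)) (h.meas_m1 hφ)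
  have e2 := tonelli_set (μ := (volume : Measure ℝ))
    (ν := (volume : Measure (R3 × R3))) (h.measSet_T a b)
    (g := fun τ w => φ (advT X τ w.1, τ, w) / ENNReal.ofReal (dlt X V (advT X τ w.1) w.1))
    (h.meas_m2 hφ)
  refine (e1.trans ?_).trans e2.symm
  refine lintegral_congr fun w => ?_
  have h1 := h.subst w.1 a b (fun s τ => φ (s, τ, w))
  have hm : MeasurableSet {a : ℝ | (a, w) ∈ {p : ℝ × (R3 × R3) | X p.1 ≠ p.2.1}} :=
    measurable_prodMk_right h.measSet_S
  rw [Measure.restrict_restrict hm]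
  have e3 : {s | (s, w) ∈ {p : ℝ × (R3 × R3) | X p.1 ≠ p.2.1}} ∩ Icc a b
      = {s | s ∈ Icc a b ∧ X s ≠ w.1} := by
    ext s; exact and_comm
  rw [e3]
  exact h1

/-- the pairs `(τ, w)` seenT from `X` at a time in `[a,b]`, `τ > 0` -/
def seenT (X : ℝ → R3) (a b : ℝ) : Set (ℝ × (R3 × R3)) :=
  {p | 0 < p.1 ∧ (p.1, p.2.1) ∈ advSet X a b}

lemma TestCurve.measSet_seen (h : TestCurve X V θ) (a b : ℝ) : MeasurableSet (seenT X a b) :=
  (measurableSet_lt measurable_const measurable_fst).inter (h.measSet_T a b)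

section labels

attribute [local irreducible] advT dlt

/-- the label integrand `φ / δ` on the seenT pairs -/
def kernT (X V : ℝ → R3) (a b : ℝ) (φ : ℝ × ℝ × (R3 × R3) → ℝ≥0∞) : ℝ × (R3 × R3) → ℝ≥0∞ :=
  (seenT X a b).indicator fun p => φ (advT X p.1 p.2.1, p.1, p.2)
      / ENNReal.ofReal (dlt X V (advT X p.1 p.2.1) p.2.1)

lemma TestCurve.meas_kern (h : TestCurve X V θ) (a b : ℝ)
    {φ : ℝ × ℝ × (R3 × R3) → ℝ≥0∞} (hφ : Measurable φ) : Measurable (kernT X V a b φ) :=
  (h.meas_m2 hφ).indicator (h.measSet_seen a b)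

/-- **Cone measure in advanced time and label form.** -/
theorem TestCurve.cone_adv_label (h : TestCurve X V θ) {a b T : ℝ} (hb : b < T)
    {φ : ℝ × ℝ × (R3 × R3) → ℝ≥0∞} (hφ : Measurable φ)
    {F : ℝ → R3 × R3 → ℝ≥0∞} (hF : Measurable (Function.uncurry F))
    {F0 : R3 × R3 → ℝ≥0∞} (hF0 : Measurable F0)
    {Zf : ℝ → R3 × R3 → R3 × R3} (hZ : Measurable (Function.uncurry Zf))
    (hmp : ∀ τ ∈ Ioo 0 T, MeasurePreserving (Zf τ) volume volume)
    (hFZ : ∀ τ ∈ Ioo 0 T, ∀ z, F τ (Zf τ z) = F0 z) :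
    ∫⁻ s in Icc a b, ∫⁻ w : R3 × R3 in {w | X s ≠ w.1},
        {τ : ℝ | 0 < τ}.indicator (fun τ => φ (s, τ, w) * F τ w) (s - ‖X s - w.1‖)
      = ∫⁻ z, F0 z * ∫⁻ τ in {τ | (τ, Zf τ z) ∈ seenT X a b},
          φ (advT X τ (Zf τ z).1, τ, Zf τ z)
            / ENNReal.ofReal (dlt X V (advT X τ (Zf τ z).1) (Zf τ z).1) := by
  -- the modified integrand
  set φ' : ℝ × ℝ × (R3 × R3) → ℝ≥0∞ := {q | 0 < q.2.1}.indicator
    (fun q => φ q * F q.2.1 q.2.2) with hφ'
  have hφ'm : Measurable φ' := by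
    refine Measurable.indicator ?_ ?_
    · exact hφ.mul (hF.comp (measurable_snd))
    · exact measurableSet_lt measurable_const (measurable_fst.comp measurable_snd)
  have h1 := h.cone_adv_phase a b φ' hφ'm
  have eL : ∀ s w, {τ : ℝ | 0 < τ}.indicator (fun τ => φ (s, τ, w) * F τ w) (s - ‖X s - w.1‖)
      = φ' (s, s - ‖X s - w.1‖, w) := by
    intro s w
    by_cases hp : 0 < s - ‖X s - w.1‖
    · rw [indicator_of_mem (show s - ‖X s - w.1‖ ∈ {τ : ℝ | 0 < τ} from hp), hφ',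
        indicator_of_mem (show (s, s - ‖X s - w.1‖, w) ∈
          {q : ℝ × ℝ × (R3 × R3) | 0 < q.2.1} from hp)]
    · rw [indicator_of_notMem (show s - ‖X s - w.1‖ ∉ {τ : ℝ | 0 < τ} from hp), hφ',
        indicator_of_notMem (show (s, s - ‖X s - w.1‖, w) ∉
          {q : ℝ × ℝ × (R3 × R3) | 0 < q.2.1} from hp)]
  simp_rw [eL]
  rw [h1]
  -- the right-hand side in terms of `kernT`
  have hk := h.meas_kern a b hφ
  have e2 : ∀ τ, ∫⁻ w : R3 × R3 in {w | (τ, w.1) ∈ advSet X a b},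
          φ' (advT X τ w.1, τ, w) / ENNReal.ofReal (dlt X V (advT X τ w.1) w.1)
      = ∫⁻ w, kernT X V a b φ (τ, w) * F τ w := by
    intro τ
    have hm : MeasurableSet {w : R3 × R3 | (τ, w.1) ∈ advSet X a b} :=
      measurable_prodMk_left (h.measSet_T a b)
    rw [← lintegral_indicator hm]
    refine lintegral_congr fun w => ?_
    by_cases h2 : (τ, w.1) ∈ advSet X a b
    · rw [indicator_of_mem (show w ∈ {w : R3 × R3 | (τ, w.1) ∈ advSet X a b} from h2)]
      by_cases hp : 0 < τ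
      · rw [hφ', indicator_of_mem (show (advT X τ w.1, τ, w) ∈
          {q : ℝ × ℝ × (R3 × R3) | 0 < q.2.1} from hp), kernT,
          indicator_of_mem (show (τ, w) ∈ seenT X a b from ⟨hp, h2⟩)]
        simp only
        rw [ENNReal.div_eq_inv_mul, ENNReal.div_eq_inv_mul]
        ring
      · rw [hφ', indicator_of_notMem (show (advT X τ w.1, τ, w) ∉
          {q : ℝ × ℝ × (R3 × R3) | 0 < q.2.1} from hp), kernT,
          indicator_of_notMem (show (τ, w) ∉ seenT X a b from fun h => hp h.1)]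
        simp
    · rw [indicator_of_notMem (show w ∉ {w : R3 × R3 | (τ, w.1) ∈ advSet X a b} from h2), kernT,
        indicator_of_notMem (show (τ, w) ∉ seenT X a b from fun h => h2 h.2)]
      simp
  simp_rw [e2]
  -- restrict to `(0,T)`
  have e3 : ∫⁻ τ, ∫⁻ w, kernT X V a b φ (τ, w) * F τ w
      = ∫⁻ τ in Ioo 0 T, ∫⁻ z, kernT X V a b φ (τ, Zf τ z) * F0 z := by
    rw [← lintegral_indicator measurableSet_Ioo]
    refine lintegral_congr fun τ => ?_
    by_cases hτ : τ ∈ Ioo 0 T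
    · rw [indicator_of_mem hτ]
      have hm : Measurable fun w => kernT X V a b φ (τ, w) * F τ w :=
        (hk.comp measurable_prodMk_left).mul (hF.comp measurable_prodMk_left)
      rw [← (hmp τ hτ).lintegral_comp hm]
      refine lintegral_congr fun z => ?_
      rw [hFZ τ hτ]
    · rw [indicator_of_notMem hτ]
      refine (lintegral_congr fun w => ?_).trans lintegral_zero
      have : (τ, w) ∉ seenT X a b := by
        intro hs
        have h3 : τ ≤ b := (h.le_adv τ w.1).trans hs.2.1.2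
        exact hτ ⟨hs.1, h3.trans_lt hb⟩
      rw [kernT, indicator_of_notMem this, zero_mul]
  rw [e3]
  have hkz : Measurable fun p : ℝ × (R3 × R3) => kernT X V a b φ (p.1, Zf p.1 p.2) :=
    hk.comp (measurable_fst.prodMk hZ)
  have hsw := lintegral_lintegral_swap (μ := (volume : Measure ℝ).restrict (Ioo 0 T))
    (ν := (volume : Measure (R3 × R3)))
    (f := fun τ z => kernT X V a b φ (τ, Zf τ z) * F0 z)
    ((hkz.mul (hF0.comp measurable_snd)).aemeasurable)
  rw [hsw]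
  refine lintegral_congr fun z => ?_
  have hkz1 : Measurable fun τ : ℝ => kernT X V a b φ (τ, Zf τ z) :=
    hkz.comp measurable_prodMk_right
  rw [lintegral_mul_const _ hkz1, mul_comm]
  congr 1
  have hms : MeasurableSet {τ : ℝ | (τ, Zf τ z) ∈ seenT X a b} :=
    (measurable_id.prodMk (hZ.comp measurable_prodMk_right)) (h.measSet_seen a b)
  rw [← lintegral_indicator hms, ← lintegral_indicator measurableSet_Ioo]
  refine lintegral_congr fun τ => ?_
  by_cases hs : (τ, Zf τ z) ∈ seenT X a b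
  · have h3 : τ ≤ b := (h.le_adv τ _).trans hs.2.1.2
    have hτ : τ ∈ Ioo 0 T := ⟨hs.1, h3.trans_lt hb⟩
    rw [indicator_of_mem hτ, indicator_of_mem (show τ ∈ {τ : ℝ | (τ, Zf τ z) ∈ seenT X a b} from hs),
      kernT, indicator_of_mem hs]
  · rw [indicator_of_notMem (show τ ∉ {τ : ℝ | (τ, Zf τ z) ∈ seenT X a b} from hs)]
    by_cases hτ : τ ∈ Ioo 0 T
    · rw [indicator_of_mem hτ, kernT, indicator_of_notMem hs]
    · rw [indicator_of_notMem hτ]

end labels

section kap

attribute [local irreducible] advT dlt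

/-- **The measures `kap` in advanced time and label form** (phase space version of `kap`). -/
theorem TestCurve.kap_adv (h : TestCurve X V θ) {a b T : ℝ} (hb : b < T)
    {f : ℝ → R3 → R3 → ℝ}
    (hfc : ContinuousOn (fun p : ℝ × R3 × R3 => f p.1 p.2.1 p.2.2) (Ioo 0 T ×ˢ univ))
    (hf0 : Measurable fun z : R3 × R3 => f 0 z.1 z.2)
    {Zf : ℝ → R3 × R3 → R3 × R3}
    (hZ : ContinuousOn (fun p : ℝ × (R3 × R3) => Zf p.1 p.2) (Ioo 0 T ×ˢ univ))
    (hmp : ∀ τ ∈ Ioo 0 T, MeasurePreserving (Zf τ) volume volume)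
    (hfZ : ∀ τ ∈ Ioo 0 T, ∀ z, f τ (Zf τ z).1 (Zf τ z).2 = f 0 z.1 z.2)
    {g : ℝ → R3 × R3 → ℝ≥0∞} (hg : Measurable (Function.uncurry g)) :
    ∫⁻ s in Icc a b, ∫⁻ q, g s q ∂(Mom.kap f X s)
      = ∫⁻ z : R3 × R3, ENNReal.ofReal (f 0 z.1 z.2) *
          ∫⁻ τ in {τ | 0 < τ ∧ τ < T ∧ (τ, (Zf τ z).1) ∈ advSet X a b},
          g (advT X τ (Zf τ z).1) (Zf τ z)
            / ENNReal.ofReal (dlt X V (advT X τ (Zf τ z).1) (Zf τ z).1) := by
  classical
  have hI : MeasurableSet (Ioo 0 T ×ˢ (univ : Set (R3 × R3))) :=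
    measurableSet_Ioo.prod MeasurableSet.univ
  -- measurable modifications
  set S : Set (ℝ × (R3 × R3)) := Ioo 0 T ×ˢ univ with hSdef
  set F : ℝ → R3 × R3 → ℝ≥0∞ := fun τ w => S.piecewise
    (fun p : ℝ × (R3 × R3) => ENNReal.ofReal (f p.1 p.2.1 p.2.2)) (fun _ => 0) (τ, w) with hFdef
  have hF : Measurable (Function.uncurry F) := by
    have h1 : ContinuousOn (fun p : ℝ × (R3 × R3) => ENNReal.ofReal (f p.1 p.2.1 p.2.2)) S :=
      ENNReal.continuous_ofReal.comp_continuousOn hfc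
    exact h1.measurable_piecewise continuousOn_const hI
  set Z' : ℝ → R3 × R3 → R3 × R3 := fun τ w => S.piecewise
    (fun p : ℝ × (R3 × R3) => Zf p.1 p.2) (fun p => p.2) (τ, w) with hZ'def
  have hZ'm : Measurable (Function.uncurry Z') :=
    hZ.measurable_piecewise continuous_snd.continuousOn hI
  have hFeq : ∀ τ ∈ Ioo 0 T, ∀ w : R3 × R3, F τ w = ENNReal.ofReal (f τ w.1 w.2) := by
    intro τ hτ w
    exact Set.piecewise_eq_of_mem _ _ _ (show (τ, w) ∈ S from ⟨hτ, mem_univ _⟩)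
  have hZeq : ∀ τ ∈ Ioo 0 T, ∀ w : R3 × R3, Z' τ w = Zf τ w := by
    intro τ hτ w
    exact Set.piecewise_eq_of_mem _ _ _ (show (τ, w) ∈ S from ⟨hτ, mem_univ _⟩)
  have hmp' : ∀ τ ∈ Ioo 0 T, MeasurePreserving (Z' τ) volume volume := by
    intro τ hτ
    have : Z' τ = Zf τ := funext (hZeq τ hτ)
    rw [this]; exact hmp τ hτ
  have hφ : Measurable fun q : ℝ × ℝ × (R3 × R3) => g q.1 q.2.2 :=
    hg.comp (measurable_fst.prodMk (measurable_snd.comp measurable_snd))
  have h1 := h.cone_adv_label (a := a) hb (φ := fun q => g q.1 q.2.2) hφ hF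
    (F0 := fun z => ENNReal.ofReal (f 0 z.1 z.2)) hf0.ennreal_ofReal hZ'm hmp'
    (fun τ hτ z => by rw [hZeq τ hτ, hFeq τ hτ, hfZ τ hτ])
  -- left-hand side
  have hL : ∀ s ∈ Icc a b, ∫⁻ q, g s q ∂(Mom.kap f X s)
      = ∫⁻ w : R3 × R3 in {w | X s ≠ w.1},
        {τ : ℝ | 0 < τ}.indicator (fun τ => g s w * F τ w) (s - ‖X s - w.1‖) := by
    intro s hs
    have hsT : s < T := hs.2.trans_lt hb
    have hopen : IsOpen (Metric.ball (X s) s ×ˢ (univ : Set R3)) :=
      Metric.isOpen_ball.prod isOpen_univ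
    have hret : ∀ w ∈ Metric.ball (X s) s ×ˢ (univ : Set R3), s - ‖X s - w.1‖ ∈ Ioo 0 T := by
      intro w hw
      have h2 : ‖X s - w.1‖ < s := by
        have := hw.1
        rwa [Metric.mem_ball, dist_comm, dist_eq_norm] at this
      exact ⟨by linarith, by linarith [norm_nonneg (X s - w.1)]⟩
    have hc : ContinuousOn (fun w : R3 × R3 => f (s - ‖X s - w.1‖) w.1 w.2)
        (Metric.ball (X s) s ×ˢ (univ : Set R3)) := by
      refine hfc.comp (f := fun w : R3 × R3 => ((s - ‖X s - w.1‖, w.1, w.2) : ℝ × R3 × R3))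
        (by fun_prop) (fun w hw => ⟨hret w hw, mem_univ _⟩)
    have hgs : Measurable (g s) := hg.comp measurable_prodMk_left
    have e1 : ∫⁻ q, g s q ∂(Mom.kap f X s)
        = ∫⁻ w in Metric.ball (X s) s ×ˢ (univ : Set R3),
            ENNReal.ofReal (f (s - ‖X s - w.1‖) w.1 w.2) * g s w := by
      rw [Mom.kap, lintegral_withDensity_eq_lintegral_mul₀ _ hgs.aemeasurable]
      · rfl
      · exact (hc.aemeasurable hopen.measurableSet).ennreal_ofReal
    have hne : ∀ᵐ w : R3 × R3, X s ≠ w.1 := by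
      have h3 : (volume : Measure (R3 × R3)) {w | w.1 = X s} = 0 := by
        have : {w : R3 × R3 | w.1 = X s} = ({X s} : Set R3) ×ˢ (univ : Set R3) := by
          ext w; simp
        rw [this, Measure.volume_eq_prod, Measure.prod_prod]
        simp
      rw [ae_iff]
      convert h3 using 2
      ext w
      simp [eq_comm]
    have hmN : MeasurableSet {w : R3 × R3 | X s ≠ w.1} :=
      (measurableSet_eq_fun measurable_const measurable_fst).compl
    rw [e1, ← lintegral_indicator hopen.measurableSet, ← lintegral_indicator hmN]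
    refine lintegral_congr_ae ?_
    filter_upwards [hne] with w hw
    rw [indicator_of_mem (show w ∈ {w : R3 × R3 | X s ≠ w.1} from hw)]
    by_cases hb' : w ∈ Metric.ball (X s) s ×ˢ (univ : Set R3)
    · have h4 := hret w hb'
      rw [indicator_of_mem hb', indicator_of_mem (show s - ‖X s - w.1‖ ∈ {τ : ℝ | 0 < τ} from h4.1),
        hFeq _ h4, mul_comm]
    · rw [indicator_of_notMem hb']
      have h5 : ¬ 0 < s - ‖X s - w.1‖ := by
        intro h6
        refine hb' ⟨?_, mem_univ _⟩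
        rw [Metric.mem_ball, dist_comm, dist_eq_norm]
        linarith
      rw [indicator_of_notMem (show s - ‖X s - w.1‖ ∉ {τ : ℝ | 0 < τ} from h5)]
  rw [setLIntegral_congr_fun measurableSet_Icc hL, h1]
  refine lintegral_congr fun z => ?_
  congr 1
  have hset : {τ | (τ, Z' τ z) ∈ seenT X a b}
      = {τ | 0 < τ ∧ τ < T ∧ (τ, (Zf τ z).1) ∈ advSet X a b} := by
    ext τ
    constructor
    · rintro ⟨h2, h3⟩
      have h4 : τ ≤ b := (h.le_adv τ _).trans h3.1.2
      have h5 : τ ∈ Ioo 0 T := ⟨h2, h4.trans_lt hb⟩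
      simp only at h3
      rw [hZeq τ h5] at h3
      exact ⟨h2, h5.2, h3⟩
    · rintro ⟨h2, h3, h4⟩
      refine ⟨h2, ?_⟩
      simp only
      rw [hZeq τ ⟨h2, h3⟩]
      exact h4
  have hms : MeasurableSet {τ | (τ, Z' τ z) ∈ seenT X a b} :=
    (measurable_id.prodMk (hZ'm.comp measurable_prodMk_right)) (h.measSet_seen a b)
  rw [← hset]
  refine setLIntegral_congr_fun hms fun τ hτ => ?_
  rw [hset] at hτ
  simp only
  rw [hZeq τ ⟨hτ.1, hτ.2.1⟩]

/-- measurability of the `τ`-sets (for every label) -/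
theorem TestCurve.measurableSet_tau (h : TestCurve X V θ) (a b : ℝ) {T : ℝ}
    {Zf : ℝ → R3 × R3 → R3 × R3}
    (hZ : ContinuousOn (fun p : ℝ × (R3 × R3) => Zf p.1 p.2) (Ioo 0 T ×ˢ univ)) (z : R3 × R3) :
    MeasurableSet {τ | 0 < τ ∧ τ < T ∧ (τ, (Zf τ z).1) ∈ advSet X a b} := by
  classical
  have hI : MeasurableSet (Ioo 0 T ×ˢ (univ : Set (R3 × R3))) :=
    measurableSet_Ioo.prod MeasurableSet.univ
  set S : Set (ℝ × (R3 × R3)) := Ioo 0 T ×ˢ univ with hSdef
  set Z' : ℝ → R3 × R3 → R3 × R3 := fun τ w => S.piecewise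
    (fun p : ℝ × (R3 × R3) => Zf p.1 p.2) (fun p => p.2) (τ, w) with hZ'def
  have hZ'm : Measurable (Function.uncurry Z') :=
    hZ.measurable_piecewise continuous_snd.continuousOn hI
  have hZeq : ∀ τ ∈ Ioo 0 T, ∀ w : R3 × R3, Z' τ w = Zf τ w := by
    intro τ hτ w
    exact Set.piecewise_eq_of_mem _ _ _ (show (τ, w) ∈ S from ⟨hτ, mem_univ _⟩)
  have hms : MeasurableSet {τ | (τ, Z' τ z) ∈ seenT X a b} :=
    (measurable_id.prodMk (hZ'm.comp measurable_prodMk_right)) (h.measSet_seen a b)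
  have : {τ | 0 < τ ∧ τ < T ∧ (τ, (Zf τ z).1) ∈ advSet X a b}
      = {τ | (τ, Z' τ z) ∈ seenT X a b} ∩ Ioo 0 T := by
    ext τ
    constructor
    · rintro ⟨h2, h3, h4⟩
      refine ⟨⟨h2, ?_⟩, h2, h3⟩
      simp only
      rw [hZeq τ ⟨h2, h3⟩]
      exact h4
    · rintro ⟨⟨h2, h3⟩, h4⟩
      simp only at h3
      rw [hZeq τ h4] at h3
      exact ⟨h2, h4.2, h3⟩
  rw [this]
  exact hms.inter measurableSet_Ioo

end kap

end

end Crest.Agent.R106.CM
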