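import Crest.Agent.R106.MixNoColl

/-!
# Row 106, MIX-C: joint measurability and integrability over (test time) × (labels)

`Z` = particle labels with finite measure `m`, `Y τ z` = position of the source `z` at time `τ`,
`X s` = position of the test particle, `τ s z` = retarded time.
-/

set_option autoImplicit false

open MeasureTheory Set Metric Filter
open scoped ENNReal NNReal Topology

namespace Crest.Agent.R106.Mix

open Crest.AnalysisR.VecCalc3

/-! ### measurability on a set -/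

/-- `f` agrees on `A` with a measurable function. -/
def MeasOn {α β : Type*} [MeasurableSpace α] [MeasurableSpace β] (A : Set α) (f : α → β) : Prop :=
  ∃ F : α → β, Measurable F ∧ EqOn f F A

namespace MeasOn

variable {α β γ δ : Type*} [MeasurableSpace α] [MeasurableSpace β] [MeasurableSpace γ]
  [MeasurableSpace δ] {A B : Set α} {f : α → β} {g : α → γ}

lemma of_measurable (hf : Measurable f) : MeasOn A f := ⟨f, hf, fun _ _ => rfl⟩

lemma mono (hf : MeasOn B f) (h : A ⊆ B) : MeasOn A f := by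
  obtain ⟨F, hF, he⟩ := hf
  exact ⟨F, hF, he.mono h⟩

lemma comp {φ : β → γ} (hφ : Measurable φ) (hf : MeasOn A f) : MeasOn A (fun a => φ (f a)) := by
  obtain ⟨F, hF, he⟩ := hf
  exact ⟨fun a => φ (F a), hφ.comp hF, fun a ha => by simp only [he ha]⟩

lemma prodMk (hf : MeasOn A f) (hg : MeasOn A g) : MeasOn A (fun a => (f a, g a)) := by
  obtain ⟨F, hF, he⟩ := hf
  obtain ⟨G, hG, hg'⟩ := hg
  exact ⟨fun a => (F a, G a), hF.prodMk hG, fun a ha => by simp only [he ha, hg' ha]⟩

lemma comp₂ {φ : β → γ → δ} (hφ : Measurable (fun p : β × γ => φ p.1 p.2))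
    (hf : MeasOn A f) (hg : MeasOn A g) : MeasOn A (fun a => φ (f a) (g a)) :=
  comp (φ := fun p : β × γ => φ p.1 p.2) hφ (hf.prodMk hg)

lemma congr {f' : α → β} (hf : MeasOn A f) (h : EqOn f' f A) : MeasOn A f' := by
  obtain ⟨F, hF, he⟩ := hf
  exact ⟨F, hF, h.trans he⟩

lemma indicator [Zero β] (hA : MeasurableSet A) (hf : MeasOn A f) : Measurable (A.indicator f) := by
  obtain ⟨F, hF, he⟩ := hf
  have : A.indicator f = A.indicator F := by
    ext a
    by_cases ha : a ∈ A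
    · simp [ha, he ha]
    · simp [ha]
  rw [this]
  exact hF.indicator hA

lemma add [Add β] [MeasurableAdd₂ β] {f' : α → β} (hf : MeasOn A f) (hf' : MeasOn A f') :
    MeasOn A (fun a => f a + f' a) := comp₂ measurable_add hf hf'

lemma sub [Sub β] [MeasurableSub₂ β] {f' : α → β} (hf : MeasOn A f) (hf' : MeasOn A f') :
    MeasOn A (fun a => f a - f' a) := comp₂ measurable_sub hf hf'

lemma mul [Mul β] [MeasurableMul₂ β] {f' : α → β} (hf : MeasOn A f) (hf' : MeasOn A f') :
    MeasOn A (fun a => f a * f' a) := comp₂ measurable_mul hf hf'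

lemma div [Div β] [MeasurableDiv₂ β] {f' : α → β} (hf : MeasOn A f) (hf' : MeasOn A f') :
    MeasOn A (fun a => f a / f' a) := comp₂ measurable_div hf hf'

lemma measurableSet_inter (hA : MeasurableSet A) (hf : MeasOn A f) {S : Set β}
    (hS : MeasurableSet S) : MeasurableSet (A ∩ f ⁻¹' S) := by
  obtain ⟨F, hF, he⟩ := hf
  have : A ∩ f ⁻¹' S = A ∩ F ⁻¹' S := by
    ext a
    constructor
    · rintro ⟨h1, h2⟩; exact ⟨h1, by simpa [← he h1] using h2⟩
    · rintro ⟨h1, h2⟩; exact ⟨h1, by simpa [he h1] using h2⟩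
  rw [this]
  exact hA.inter (hF hS)

end MeasOn

/-! ### clamping to `[0, t1]` -/

/-- clamp to `[0, t1]` -/
noncomputable def clampT (t1 s : ℝ) : ℝ := max 0 (min s t1)

lemma clampT_mem {t1 : ℝ} (h : 0 ≤ t1) (s : ℝ) : clampT t1 s ∈ Icc 0 t1 := by
  unfold clampT
  constructor
  · exact le_max_left _ _
  · exact max_le h (min_le_right _ _)

lemma clampT_of_mem {t1 s : ℝ} (hs : s ∈ Icc 0 t1) : clampT t1 s = s := by
  unfold clampT
  rw [min_eq_left hs.2, max_eq_right hs.1]

lemma continuous_clampT (t1 : ℝ) : Continuous (clampT t1) := by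
  unfold clampT; fun_prop

lemma abs_clampT_sub_le (t1 s t : ℝ) : |clampT t1 s - clampT t1 t| ≤ |s - t| := by
  unfold clampT
  rw [max_comm, max_comm 0]
  exact (abs_max_sub_max_le_abs _ _ _).trans (abs_min_sub_min_le_max _ _ _ _ |>.trans (by simp))

/-- `g` measurable in the label for each time, continuous in time on `[0, t1]`. -/
structure Cara {Z W : Type*} [MeasurableSpace Z] [TopologicalSpace W] [MeasurableSpace W]
    (t1 : ℝ) (g : ℝ → Z → W) : Prop where
  meas : ∀ c ∈ Icc 0 t1, Measurable (g c)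
  cont : ∀ z, ContinuousOn (fun c => g c z) (Icc 0 t1)

lemma Cara.measurable {Z W : Type*} [MeasurableSpace Z] [TopologicalSpace W]
    [MeasurableSpace W] [TopologicalSpace.PseudoMetrizableSpace W] [BorelSpace W] {t1 : ℝ}
    (h0 : 0 ≤ t1) {g : ℝ → Z → W} (hg : Cara t1 g) :
    Measurable (fun p : ℝ × Z => g (clampT t1 p.1) p.2) := by
  have := measurable_uncurry_of_continuous_of_measurable (ι := ℝ) (α := Z) (β := W)
    (u := fun c z => g (clampT t1 c) z)
    (fun z => by
      rw [← continuousOn_univ]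
      exact (hg.cont z).comp (continuous_clampT t1).continuousOn (fun s _ => clampT_mem h0 s))
    (fun c => hg.meas _ (clampT_mem h0 c))
  exact this

/-! ### retarded time -/

section Ret

variable {Z : Type*} [MeasurableSpace Z] {t1 : ℝ} {X : ℝ → R3} {Y : ℝ → Z → R3} {τ : ℝ → Z → ℝ}

/-- subluminal worldlines on `[0, t1]` (weak form), measurable in the label. -/
structure Sublum (t1 : ℝ) (X : ℝ → R3) (Y : ℝ → Z → R3) : Prop where
  nonneg : 0 ≤ t1
  hX : ∀ s ∈ Icc 0 t1, ∀ t ∈ Icc 0 t1, ‖X s - X t‖ ≤ |s - t|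
  hY : ∀ z, ∀ s ∈ Icc 0 t1, ∀ t ∈ Icc 0 t1, s ≠ t → ‖Y s z - Y t z‖ < |s - t|
  hYm : ∀ s ∈ Icc 0 t1, Measurable (Y s)

/-- the set of (test time, label) such that the worldline of the label meets the backward cone
at a positive time. -/
def coneSet (t1 : ℝ) (X : ℝ → R3) (Y : ℝ → Z → R3) : Set (ℝ × Z) :=
  {p | p.1 ∈ Icc 0 t1 ∧ ‖X p.1 - Y 0 p.2‖ < p.1}

/-- `τ s z` is the retarded time. -/
def IsRet (t1 : ℝ) (X : ℝ → R3) (Y : ℝ → Z → R3) (τ : ℝ → Z → ℝ) : Prop :=
  ∀ s ∈ Icc 0 t1, ∀ z, ‖X s - Y 0 z‖ < s →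
    0 < τ s z ∧ τ s z ≤ s ∧ s - τ s z = ‖X s - Y (τ s z) z‖

lemma Sublum.hY' (h : Sublum t1 X Y) (z : Z) {s t : ℝ} (hs : s ∈ Icc 0 t1) (ht : t ∈ Icc 0 t1) :
    ‖Y s z - Y t z‖ ≤ |s - t| := by
  by_cases hst : s = t
  · subst hst; simp
  · exact (h.hY z s hs t ht hst).le

lemma Sublum.continuous_X (h : Sublum t1 X Y) : Continuous (fun s => X (clampT t1 s)) := by
  refine (LipschitzWith.of_dist_le_mul (K := 1) (fun s t => ?_)).continuous
  rw [dist_eq_norm, NNReal.coe_one, one_mul, Real.dist_eq]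
  exact (h.hX _ (clampT_mem h.nonneg s) _ (clampT_mem h.nonneg t)).trans (abs_clampT_sub_le _ _ _)

lemma Sublum.cara (h : Sublum t1 X Y) : Cara t1 Y where
  meas := h.hYm
  cont := fun z => by
    have : LipschitzOnWith 1 (fun c => Y c z) (Icc 0 t1) := by
      refine LipschitzOnWith.of_dist_le_mul (fun s hs t ht => ?_)
      rw [dist_eq_norm, NNReal.coe_one, one_mul, Real.dist_eq]
      exact h.hY' z hs ht
    exact this.continuousOn

lemma ret_gt_iff (h : Sublum t1 X Y) (hτ : IsRet t1 X Y τ) {s : ℝ} (hs : s ∈ Icc 0 t1) {z : Z}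
    (hsz : ‖X s - Y 0 z‖ < s) {c : ℝ} (hc : 0 ≤ c) (hcs : c ≤ s) :
    c < τ s z ↔ ‖X s - Y c z‖ < s - c := by
  obtain ⟨h1, h2, h3⟩ := hτ s hs z hsz
  have hτm : τ s z ∈ Icc 0 t1 := ⟨h1.le, h2.trans hs.2⟩
  have hcm : c ∈ Icc 0 t1 := ⟨hc, hcs.trans hs.2⟩
  constructor
  · intro hlt
    have h4 := h.hY z _ hτm _ hcm hlt.ne'
    rw [abs_of_pos (by linarith)] at h4
    calc ‖X s - Y c z‖ = ‖(X s - Y (τ s z) z) + (Y (τ s z) z - Y c z)‖ := by congr 1; abel
      _ ≤ ‖X s - Y (τ s z) z‖ + ‖Y (τ s z) z - Y c z‖ := norm_add_le _ _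
      _ < (s - τ s z) + (τ s z - c) := by rw [← h3]; linarith
      _ = s - c := by ring
  · intro hlt
    by_contra hcon
    push Not at hcon
    have h4 := h.hY' z hcm hτm
    rw [abs_of_nonneg (by linarith)] at h4
    have h5 : ‖X s - Y (τ s z) z‖ ≤ ‖X s - Y c z‖ + ‖Y c z - Y (τ s z) z‖ := by
      calc _ = ‖(X s - Y c z) + (Y c z - Y (τ s z) z)‖ := by congr 1; abel
        _ ≤ _ := norm_add_le _ _
    linarith

lemma measurableSet_coneSet (h : Sublum t1 X Y) : MeasurableSet (coneSet t1 X Y) := by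
  have h1 : coneSet t1 X Y = {p : ℝ × Z | p.1 ∈ Icc 0 t1} ∩
      {p : ℝ × Z | ‖X (clampT t1 p.1) - Y 0 p.2‖ < p.1} := by
    ext p
    simp only [coneSet, mem_ofPred_eq, mem_inter_iff]
    constructor
    · rintro ⟨a, b⟩; exact ⟨a, by rwa [clampT_of_mem a]⟩
    · rintro ⟨a, b⟩; exact ⟨a, by rwa [clampT_of_mem a] at b⟩
  rw [h1]
  refine (measurable_fst measurableSet_Icc).inter (measurableSet_lt ?_ measurable_fst)
  have h2 : Measurable (fun p : ℝ × Z => X (clampT t1 p.1)) :=
    h.continuous_X.measurable.comp measurable_fst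
  have h3 : Measurable (fun p : ℝ × Z => Y 0 p.2) :=
    (h.hYm 0 ⟨le_rfl, h.nonneg⟩).comp measurable_snd
  exact (h2.sub h3).norm

/-- The retarded time is jointly measurable on the cone set. -/
theorem measOn_ret (h : Sublum t1 X Y) (hτ : IsRet t1 X Y τ) :
    MeasOn (coneSet t1 X Y) (fun p => τ p.1 p.2) := by
  refine ⟨(coneSet t1 X Y).indicator (fun p => τ p.1 p.2), ?_, fun p hp => by simp [hp]⟩
  refine measurable_of_Ioi (fun c => ?_)
  have hA := measurableSet_coneSet h
  rcases lt_or_ge c 0 with hc | hc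
  · have : (coneSet t1 X Y).indicator (fun p => τ p.1 p.2) ⁻¹' Ioi c = univ := by
      ext p
      simp only [mem_preimage, mem_Ioi, mem_univ, iff_true]
      by_cases hp : p ∈ coneSet t1 X Y
      · rw [indicator_of_mem hp]
        exact hc.trans (hτ p.1 hp.1 p.2 hp.2).1
      · rw [indicator_of_notMem hp]; exact hc
    rw [this]; exact MeasurableSet.univ
  · rcases lt_or_ge t1 c with hc1 | hc1
    · have : (coneSet t1 X Y).indicator (fun p => τ p.1 p.2) ⁻¹' Ioi c = ∅ := by
        ext p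
        simp only [mem_preimage, mem_Ioi, mem_empty_iff_false, iff_false, not_lt]
        by_cases hp : p ∈ coneSet t1 X Y
        · rw [indicator_of_mem hp]
          have := (hτ p.1 hp.1 p.2 hp.2).2.1
          linarith [hp.1.2]
        · rw [indicator_of_notMem hp]; exact hc
      rw [this]; exact MeasurableSet.empty
    · have : (coneSet t1 X Y).indicator (fun p => τ p.1 p.2) ⁻¹' Ioi c =
          coneSet t1 X Y ∩ {p | ‖X (clampT t1 p.1) - Y c p.2‖ < p.1 - c} := by
        ext p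
        simp only [mem_preimage, mem_Ioi, mem_inter_iff, mem_ofPred_eq]
        by_cases hp : p ∈ coneSet t1 X Y
        · rw [indicator_of_mem hp, clampT_of_mem hp.1]
          simp only [hp, true_and]
          rcases le_or_gt c p.1 with hcp | hcp
          · exact ret_gt_iff h hτ hp.1 hp.2 hc hcp
          · constructor
            · intro h1
              have := (hτ p.1 hp.1 p.2 hp.2).2.1
              linarith
            · intro h1
              have := norm_nonneg (X p.1 - Y c p.2)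
              linarith
        · rw [indicator_of_notMem hp]
          simp only [hp, false_and, iff_false, not_lt]
          exact hc
      rw [this]
      refine hA.inter (measurableSet_lt ?_ (by fun_prop))
      have h2 : Measurable (fun p : ℝ × Z => X (clampT t1 p.1)) :=
        h.continuous_X.measurable.comp measurable_fst
      have h3 : Measurable (fun p : ℝ × Z => Y c p.2) :=
        (h.hYm c ⟨hc, hc1⟩).comp measurable_snd
      exact (h2.sub h3).norm

/-- Evaluation at the retarded time. -/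
theorem measOn_comp_ret {W : Type*} [TopologicalSpace W]
    [MeasurableSpace W] [TopologicalSpace.PseudoMetrizableSpace W] [BorelSpace W]
    (h : Sublum t1 X Y) (hτ : IsRet t1 X Y τ) {g : ℝ → Z → W} (hg : Cara t1 g) :
    MeasOn (coneSet t1 X Y) (fun p => g (τ p.1 p.2) p.2) := by
  have h1 : MeasOn (coneSet t1 X Y) (fun p : ℝ × Z => (τ p.1 p.2, p.2)) :=
    (measOn_ret h hτ).prodMk (MeasOn.of_measurable measurable_snd)
  have h2 := h1.comp (Cara.measurable h.nonneg hg)
  refine h2.congr (fun p hp => ?_)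
  obtain ⟨a, b, _⟩ := hτ p.1 hp.1 p.2 hp.2
  simp only
  rw [clampT_of_mem ⟨a.le, b.trans hp.1.2⟩]

/-- Functions of the test time only. -/
theorem measOn_time {W : Type*} [TopologicalSpace W]
    [MeasurableSpace W] [BorelSpace W] (h0 : 0 ≤ t1)
    {g : ℝ → W} (hg : ContinuousOn g (Icc 0 t1)) :
    MeasOn (coneSet t1 X Y) (fun p => g p.1) := by
  have hc : Continuous (fun s => g (clampT t1 s)) := by
    rw [← continuousOn_univ]
    exact hg.comp (continuous_clampT t1).continuousOn (fun s _ => clampT_mem h0 s)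
  refine ⟨fun p => g (clampT t1 p.1), hc.measurable.comp measurable_fst, fun p hp => ?_⟩
  simp only
  rw [clampT_of_mem hp.1]

/-- the distance `R = s - τ` controls the simultaneous distance. -/
lemma dist_le_two_mul (h : Sublum t1 X Y) (hτ : IsRet t1 X Y τ) {s : ℝ} (hs : s ∈ Icc 0 t1) {z : Z}
    (hsz : ‖X s - Y 0 z‖ < s) : ‖X s - Y s z‖ ≤ 2 * (s - τ s z) := by
  obtain ⟨h1, h2, h3⟩ := hτ s hs z hsz
  have h4 := h.hY' z ⟨h1.le, h2.trans hs.2⟩ hs
  rw [abs_of_nonpos (by linarith)] at h4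
  calc ‖X s - Y s z‖ = ‖(X s - Y (τ s z) z) + (Y (τ s z) z - Y s z)‖ := by congr 1; abel
    _ ≤ ‖X s - Y (τ s z) z‖ + ‖Y (τ s z) z - Y s z‖ := norm_add_le _ _
    _ ≤ 2 * (s - τ s z) := by linarith

end Ret

/-! ### integrability of the singular kernels -/

section Int

variable {Z : Type*} [MeasurableSpace Z] (m : Measure Z) {t1 : ℝ} {X : ℝ → R3} {Y : ℝ → Z → R3}
  {τ : ℝ → Z → ℝ}

/-- `∫_{|y|<1} |y|^{-k} dy` -/
noncomputable def Ik (k : ℕ) : ℝ≥0∞ := ∫⁻ y in ball (0 : R3) 1, (‖y‖ₑ⁻¹) ^ k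

lemma Ik_lt_top {k : ℕ} (hk : k ≤ 2) : Ik k < ∞ := lintegral_inv_enorm_pow_lt_top k hk 1

/-- simultaneous distance: the singularity `|X - Y|^{-k}`, `k ≤ 2`, is integrable over labels. -/
theorem lintegral_inv_dist_le {C : ℝ≥0∞} {y : Z → R3} (hy : Measurable y)
    (hdens : m.map y ≤ C • volume) (x : R3) (k : ℕ) :
    ∫⁻ z, (‖x - y z‖ₑ⁻¹) ^ k ∂m ≤ C * Ik k + m univ := by
  have h1 : ∫⁻ z, (‖x - y z‖ₑ⁻¹) ^ k ∂m = ∫⁻ w, (‖x - w‖ₑ⁻¹) ^ k ∂(m.map y) := by
    rw [lintegral_map (by fun_prop) hy]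
  have h2 : ∀ w : R3, (‖x - w‖ₑ⁻¹) ^ k ≤
      (ball x 1).indicator (fun w => (‖w - x‖ₑ⁻¹) ^ k) w + 1 := by
    intro w
    by_cases hw : w ∈ ball x 1
    · rw [indicator_of_mem hw, ← enorm_neg, neg_sub]
      exact le_self_add
    · rw [indicator_of_notMem hw, zero_add]
      have h3 : 1 ≤ ‖x - w‖ := by
        have : ¬ dist w x < 1 := by simpa [mem_ball] using hw
        rw [dist_comm, dist_eq_norm] at this
        linarith
      have h4 : (1 : ℝ≥0∞) ≤ ‖x - w‖ₑ := by
        rw [← ofReal_norm, ← ENNReal.ofReal_one]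
        exact ENNReal.ofReal_le_ofReal h3
      exact pow_le_one' (ENNReal.inv_le_one.mpr h4) k
  rw [h1]
  calc ∫⁻ w, (‖x - w‖ₑ⁻¹) ^ k ∂(m.map y)
      ≤ ∫⁻ w, ((ball x 1).indicator (fun w => (‖w - x‖ₑ⁻¹) ^ k) w + 1) ∂(m.map y) :=
        lintegral_mono h2
    _ = (∫⁻ w, (ball x 1).indicator (fun w => (‖w - x‖ₑ⁻¹) ^ k) w ∂(m.map y)) + (m.map y) univ := by
        rw [lintegral_add_right _ measurable_const]; simp
    _ ≤ C * Ik k + m univ := by
        refine add_le_add ?_ ?_
        · calc _ ≤ ∫⁻ w, (ball x 1).indicator (fun w => (‖w - x‖ₑ⁻¹) ^ k) w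
                ∂(C • (volume : Measure R3)) := lintegral_mono' hdens le_rfl
            _ = C * Ik k := by
                rw [lintegral_smul_measure, lintegral_indicator measurableSet_ball,
                  lintegral_inv_enorm_pow_ball, smul_eq_mul, Ik]
        · rw [Measure.map_apply hy MeasurableSet.univ, preimage_univ]

/-- inverse powers of `R = s - τ` over the cone set -/
theorem lintegral_inv_R_le (h : Sublum t1 X Y) (hτ : IsRet t1 X Y τ) {C : ℝ≥0∞}
    (hdens : ∀ s ∈ Icc 0 t1, m.map (Y s) ≤ C • volume) {s : ℝ} (hs : s ∈ Icc 0 t1) (k : ℕ) :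
    ∫⁻ z, (coneSet t1 X Y).indicator
      (fun p => ((ENNReal.ofReal (p.1 - τ p.1 p.2))⁻¹) ^ k) (s, z) ∂m
      ≤ 2 ^ k * (C * Ik k + m univ) := by
  calc
    ∫⁻ z, (coneSet t1 X Y).indicator
      (fun p => ((ENNReal.ofReal (p.1 - τ p.1 p.2))⁻¹) ^ k) (s, z) ∂m
      ≤ ∫⁻ z, 2 ^ k * (‖X s - Y s z‖ₑ⁻¹) ^ k ∂m := by
        refine lintegral_mono (fun z => ?_)
        by_cases hz : (s, z) ∈ coneSet t1 X Y
        · rw [indicator_of_mem hz, ← mul_pow]
          refine pow_le_pow_left' ?_ k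
          have h1 := dist_le_two_mul h hτ hs hz.2
          have h2 : ‖X s - Y s z‖ₑ ≤ 2 * ENNReal.ofReal (s - τ s z) := by
            rw [← ofReal_norm]
            calc _ ≤ ENNReal.ofReal (2 * (s - τ s z)) := ENNReal.ofReal_le_ofReal h1
              _ = _ := by rw [ENNReal.ofReal_mul (by norm_num)]; simp
          rw [← div_eq_mul_inv, ENNReal.le_div_iff_mul_le (Or.inr (by simp)) (Or.inr (by simp))]
          calc (ENNReal.ofReal (s - τ s z))⁻¹ * ‖X s - Y s z‖ₑ
              ≤ (ENNReal.ofReal (s - τ s z))⁻¹ * (2 * ENNReal.ofReal (s - τ s z)) := by gcongr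
            _ = 2 * ((ENNReal.ofReal (s - τ s z))⁻¹ * ENNReal.ofReal (s - τ s z)) := by ring
            _ ≤ 2 * 1 := by gcongr; exact ENNReal.inv_mul_le_one _
            _ = 2 := by simp
        · rw [indicator_of_notMem hz]; exact zero_le
    _ = 2 ^ k * ∫⁻ z, (‖X s - Y s z‖ₑ⁻¹) ^ k ∂m := by
        rw [lintegral_const_mul]
        have := h.hYm s hs
        fun_prop
    _ ≤ 2 ^ k * (C * Ik k + m univ) := by
        gcongr
        exact lintegral_inv_dist_le m (h.hYm s hs) (hdens s hs) (X s) k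

end Int

end Crest.Agent.R106.Mix
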