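import Crest.Agent.R106.PairDer

/-!
# Row 106, retarded kinematics (helper824), part 1: the retarded time

`rtm y s x` is the retarded time of the source curve `y` seen from the space-time point `(s, x)`:
the unique `τ ∈ [0, s]` with `s - τ = |x - y τ|` if `|x - y 0| ≤ s`, and `0` otherwise.
-/

set_option autoImplicit false
open Set Filter Topology
open scoped RealInnerProductSpace

namespace Crest.Agent.R106.Pair

section metric

variable {H : Type*} [NormedAddCommGroup H]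

/-- the retarded time (total function) -/
noncomputable def rtm (y : ℝ → H) (s : ℝ) (x : H) : ℝ := sSup {τ | τ ∈ Icc 0 s ∧ ‖x - y τ‖ ≤ s - τ}

/-- `y` is strictly subluminal on `[0, T]` -/
def SubLum (y : ℝ → H) (T : ℝ) : Prop :=
  ∀ a ∈ Icc 0 T, ∀ b ∈ Icc 0 T, a ≠ b → ‖y a - y b‖ < |a - b|

variable {y : ℝ → H} {T s τ : ℝ} {x : H}

theorem SubLum.le (hy : SubLum y T) {a b : ℝ} (ha : a ∈ Icc 0 T) (hb : b ∈ Icc 0 T) :
    ‖y a - y b‖ ≤ |a - b| := by
  by_cases h : a = b
  · subst h; simp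
  · exact (hy a ha b hb h).le

theorem SubLum.continuousOn (hy : SubLum y T) : ContinuousOn y (Icc 0 T) := by
  rw [Metric.continuousOn_iff]
  intro b hb e he
  refine ⟨e, he, fun a ha hab => ?_⟩
  rw [dist_eq_norm]
  refine lt_of_le_of_lt (hy.le ha hb) ?_
  rwa [← Real.dist_eq]

/-- the retarded set -/
theorem bddAbove_rset (y : ℝ → H) (s : ℝ) (x : H) :
    BddAbove {τ | τ ∈ Icc 0 s ∧ ‖x - y τ‖ ≤ s - τ} := ⟨s, fun _ h => h.1.2⟩

theorem rtm_nonneg (y : ℝ → H) (s : ℝ) (x : H) : 0 ≤ rtm y s x :=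
  Real.sSup_nonneg fun _ h => h.1.1

theorem rtm_le (y : ℝ → H) {s : ℝ} (hs : 0 ≤ s) (x : H) : rtm y s x ≤ s :=
  Real.sSup_le (fun _ h => h.1.2) hs

theorem rtm_mem_Icc (y : ℝ → H) (hs : s ∈ Icc 0 T) (x : H) : rtm y s x ∈ Icc 0 T :=
  ⟨rtm_nonneg y s x, (rtm_le y hs.1 x).trans hs.2⟩

/-- not alive: `rtm = 0` -/
theorem rtm_eq_zero (hy : SubLum y T) (hs : s ∈ Icc 0 T) (h : s < ‖x - y 0‖) : rtm y s x = 0 := by
  have : {τ | τ ∈ Icc 0 s ∧ ‖x - y τ‖ ≤ s - τ} = ∅ := by
    rw [eq_empty_iff_forall_notMem]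
    rintro τ ⟨⟨h0, h1⟩, h2⟩
    have h3 := hy.le (a := τ) (b := 0) ⟨h0, h1.trans hs.2⟩ ⟨le_rfl, hs.1.trans hs.2⟩
    have h4 : ‖x - y 0‖ ≤ ‖x - y τ‖ + ‖y τ - y 0‖ := by
      have := norm_add_le (x - y τ) (y τ - y 0)
      rwa [sub_add_sub_cancel] at this
    rw [sub_zero, abs_of_nonneg h0] at h3
    linarith
  unfold rtm
  rw [this, Real.sSup_empty]

/-- `τ` is before the retarded time iff the point `(τ, y τ)` is inside the backward cone. -/
theorem lt_rtm_iff (hy : SubLum y T) (hs : s ∈ Icc 0 T) (hτ : 0 ≤ τ) :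
    τ < rtm y s x ↔ τ < s ∧ ‖x - y τ‖ < s - τ := by
  constructor
  · intro h
    obtain ⟨τ', ⟨⟨h0, h1⟩, h2⟩, h3⟩ := exists_lt_of_lt_csSup
      (by
        by_contra hne
        rw [not_nonempty_iff_eq_empty] at hne
        unfold rtm at h
        rw [hne, Real.sSup_empty] at h
        linarith) h
    have h4 := hy τ ⟨hτ, (h3.le.trans h1).trans hs.2⟩ τ' ⟨h0, h1.trans hs.2⟩ h3.ne
    have h5 : ‖x - y τ‖ ≤ ‖x - y τ'‖ + ‖y τ - y τ'‖ := by
      have := norm_add_le (x - y τ') (y τ' - y τ)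
      rw [sub_add_sub_cancel, norm_sub_rev (y τ') (y τ)] at this
      exact this
    rw [abs_of_neg (by linarith)] at h4
    exact ⟨by linarith, by linarith⟩
  · rintro ⟨h1, h2⟩
    have hτT : τ ∈ Icc 0 T := ⟨hτ, h1.le.trans hs.2⟩
    -- move a little to the right
    set η := (s - τ - ‖x - y τ‖) / 2 with hη
    have hη0 : 0 < η := by rw [hη]; linarith
    have hle : τ + η ≤ s := by
      have := norm_nonneg (x - y τ)
      rw [hη]; linarith
    have hmem : τ + η ∈ Icc 0 T := ⟨by linarith, hle.trans hs.2⟩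
    have h3 := hy.le hτT hmem
    rw [abs_of_neg (by linarith)] at h3
    have h5 : ‖x - y (τ + η)‖ ≤ ‖x - y τ‖ + ‖y τ - y (τ + η)‖ := by
      have := norm_add_le (x - y τ) (y τ - y (τ + η))
      rwa [sub_add_sub_cancel] at this
    have h6 : τ + η ≤ rtm y s x := by
      refine le_csSup (bddAbove_rset y s x) ⟨⟨by linarith, hle⟩, ?_⟩
      have : s - (τ + η) - ‖x - y τ‖ = η := by rw [hη]; ring
      linarith
    linarith

/-- alive: the retarded time solves the cone equation -/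
theorem rtm_eq (hy : SubLum y T) (hs : s ∈ Icc 0 T) (h : ‖x - y 0‖ ≤ s) :
    ‖x - y (rtm y s x)‖ = s - rtm y s x := by
  have hmem := rtm_mem_Icc (T := T) y hs x
  have hne : {τ | τ ∈ Icc 0 s ∧ ‖x - y τ‖ ≤ s - τ}.Nonempty :=
    ⟨0, ⟨le_rfl, hs.1⟩, by simpa using h⟩
  -- `≤`
  have hle : ‖x - y (rtm y s x)‖ ≤ s - rtm y s x := by
    by_contra hcon
    push Not at hcon
    set η := (‖x - y (rtm y s x)‖ - (s - rtm y s x)) / 2 with hη
    have hη0 : 0 < η := by rw [hη]; linarith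
    obtain ⟨τ', ⟨⟨h0, h1⟩, h2⟩, h3⟩ := exists_lt_of_lt_csSup hne
      (show rtm y s x - η < rtm y s x by linarith)
    have h4 : τ' ≤ rtm y s x := le_csSup (bddAbove_rset y s x) ⟨⟨h0, h1⟩, h2⟩
    have h5 := hy.le (a := τ') (b := rtm y s x) ⟨h0, h1.trans hs.2⟩ hmem
    rw [abs_of_nonpos (by linarith)] at h5
    have h6 : ‖x - y (rtm y s x)‖ ≤ ‖x - y τ'‖ + ‖y τ' - y (rtm y s x)‖ := by
      have := norm_add_le (x - y τ') (y τ' - y (rtm y s x))
      rwa [sub_add_sub_cancel] at this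
    have : 2 * η = ‖x - y (rtm y s x)‖ - (s - rtm y s x) := by rw [hη]; ring
    linarith
  refine le_antisymm hle ?_
  by_contra hcon
  push Not at hcon
  have hs' : rtm y s x < s := by
    have := norm_nonneg (x - y (rtm y s x)); linarith
  have := (lt_rtm_iff (x := x) hy hs (rtm_nonneg y s x)).2 ⟨hs', hcon⟩
  exact lt_irrefl _ this

/-- `τ > 0` is after the retarded time iff `(τ, y τ)` is outside the closed backward cone. -/
theorem rtm_lt_iff (hy : SubLum y T) (hs : s ∈ Icc 0 T) (hτ : 0 < τ) :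
    rtm y s x < τ ↔ s - τ < ‖x - y τ‖ := by
  constructor
  · intro h
    by_contra hcon
    push Not at hcon
    have h1 : τ ≤ s := by have := norm_nonneg (x - y τ); linarith
    have : τ ≤ rtm y s x := le_csSup (bddAbove_rset y s x) ⟨⟨hτ.le, h1⟩, hcon⟩
    linarith
  · intro h
    by_contra hcon
    push Not at hcon
    rcases hcon.lt_or_eq with h1 | h1
    · have := ((lt_rtm_iff (x := x) hy hs hτ.le).1 h1).2
      linarith
    · -- `τ = rtm > 0`: alive
      have halive : ‖x - y 0‖ ≤ s := by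
        by_contra hc
        push Not at hc
        have := rtm_eq_zero hy hs hc
        linarith
      have := rtm_eq hy hs halive
      rw [← h1] at this
      linarith

/-- uniqueness -/
theorem rtm_unique (hy : SubLum y T) (hs : s ∈ Icc 0 T) (hτ : τ ∈ Icc 0 T)
    (h : ‖x - y τ‖ = s - τ) : rtm y s x = τ := by
  have hτs : τ ≤ s := by have := norm_nonneg (x - y τ); linarith
  apply le_antisymm
  · by_contra hcon
    push Not at hcon
    have := ((lt_rtm_iff (x := x) hy hs hτ.1).1 hcon).2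
    linarith
  · exact le_csSup (bddAbove_rset y s x) ⟨⟨hτ.1, hτs⟩, h.le⟩

theorem rtm_pos_iff (hy : SubLum y T) (hs : s ∈ Icc 0 T) :
    0 < rtm y s x ↔ 0 < s ∧ ‖x - y 0‖ < s := by
  have := lt_rtm_iff (x := x) (τ := 0) hy hs le_rfl
  simpa using this

/-- If the space-time point moves subluminally, the retarded time is strictly increasing once
the source is alive. -/
theorem rtm_strictMono {X : ℝ → H} (hX : SubLum X T) (hy : SubLum y T) {s s' : ℝ}
    (hs : s ∈ Icc 0 T) (hs' : s' ∈ Icc 0 T) (hss : s < s') (h : ‖X s - y 0‖ ≤ s) :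
    rtm y s (X s) < rtm y s' (X s') := by
  have h1 := rtm_eq hy hs h
  have h2 := hX s' hs' s hs hss.ne'
  rw [abs_of_pos (by linarith)] at h2
  have h0 := rtm_nonneg y s (X s)
  have hle := rtm_le y hs.1 (X s)
  rw [lt_rtm_iff hy hs' h0]
  refine ⟨by linarith, ?_⟩
  have h3 : ‖X s' - y (rtm y s (X s))‖ ≤ ‖X s' - X s‖ + ‖X s - y (rtm y s (X s))‖ := by
    have := norm_add_le (X s' - X s) (X s - y (rtm y s (X s)))
    rwa [sub_add_sub_cancel] at this
  linarith

/-- persistence of being alive -/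
theorem alive_mono {X : ℝ → H} (hX : SubLum X T) {y0 : H} {s s' : ℝ}
    (hs : s ∈ Icc 0 T) (hs' : s' ∈ Icc 0 T) (hss : s < s') (h : ‖X s - y0‖ ≤ s) :
    ‖X s' - y0‖ < s' := by
  have h2 := hX s' hs' s hs hss.ne'
  rw [abs_of_pos (by linarith)] at h2
  have h3 : ‖X s' - y0‖ ≤ ‖X s' - X s‖ + ‖X s - y0‖ := by
    have := norm_add_le (X s' - X s) (X s - y0)
    rwa [sub_add_sub_cancel] at this
  linarith

/-- monotone on all of `[0, T]` -/
theorem rtm_monotoneOn {X : ℝ → H} (hX : SubLum X T) (hy : SubLum y T) :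
    MonotoneOn (fun s => rtm y s (X s)) (Icc 0 T) := by
  intro s hs s' hs' hss
  rcases hss.lt_or_eq with h | h
  · by_cases ha : ‖X s - y 0‖ ≤ s
    · exact (rtm_strictMono hX hy hs hs' h ha).le
    · push Not at ha
      simp only
      rw [rtm_eq_zero hy hs ha]
      exact rtm_nonneg _ _ _
  · subst h; exact le_rfl

/-- JOINT CONTINUITY of the retarded time in all data. `Y q τ` is the source curve, depending on
a parameter `q`, `S q` the test time and `ξ q` the test position. -/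
theorem continuousOn_rtm {Q : Type*} [TopologicalSpace Q] {Y : Q → ℝ → H} {S : Q → ℝ} {ξ : Q → H}
    {A : Set Q} (hY : ∀ q ∈ A, SubLum (Y q) T) (hS : ContinuousOn S A) (hST : ∀ q ∈ A, S q ∈ Icc 0 T)
    (hξ : ContinuousOn ξ A) (hYc : ∀ τ ∈ Icc 0 T, ContinuousOn (fun q => Y q τ) A) :
    ContinuousOn (fun q => rtm (Y q) (S q) (ξ q)) A := by
  intro q0 hq0
  have hmem0 := rtm_mem_Icc (T := T) (Y q0) (hST q0 hq0) (ξ q0)
  rw [ContinuousWithinAt, tendsto_order]
  constructor
  · intro a ha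
    rcases lt_or_ge a 0 with h | h
    · exact Eventually.of_forall fun q => lt_of_lt_of_le h (rtm_nonneg _ _ _)
    · have haT : a ∈ Icc 0 T := ⟨h, (ha.le.trans hmem0.2)⟩
      have h1 := ((lt_rtm_iff (x := ξ q0) (hY q0 hq0) (hST q0 hq0) h).1 ha)
      have hc : ContinuousWithinAt (fun q => S q - a - ‖ξ q - Y q a‖) A q0 :=
        (((hS q0 hq0).sub continuousWithinAt_const).sub
          ((hξ q0 hq0).sub (hYc a haT q0 hq0)).norm)
      have hc2 : ContinuousWithinAt (fun q => S q - a) A q0 :=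
        ((hS q0 hq0).sub continuousWithinAt_const)
      have e1 : ∀ᶠ q in 𝓝[A] q0, 0 < S q - a - ‖ξ q - Y q a‖ :=
        hc.eventually (lt_mem_nhds (by linarith [h1.2]))
      have e2 : ∀ᶠ q in 𝓝[A] q0, 0 < S q - a :=
        hc2.eventually (lt_mem_nhds (by linarith [h1.1]))
      filter_upwards [e1, e2, self_mem_nhdsWithin] with q h3 h4 h5
      exact (lt_rtm_iff (hY q h5) (hST q h5) h).2 ⟨by linarith, by linarith⟩
  · intro b hb
    have hb0 : 0 < b := lt_of_le_of_lt (rtm_nonneg _ _ _) hb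
    rcases lt_or_ge T b with h | h
    · filter_upwards [self_mem_nhdsWithin] with q hq
      exact lt_of_le_of_lt (rtm_mem_Icc (T := T) (Y q) (hST q hq) (ξ q)).2 h
    · have hbT : b ∈ Icc 0 T := ⟨hb0.le, h⟩
      have h1 := ((rtm_lt_iff (x := ξ q0) (hY q0 hq0) (hST q0 hq0) hb0).1 hb)
      have hc : ContinuousWithinAt (fun q => ‖ξ q - Y q b‖ - (S q - b)) A q0 :=
        ((hξ q0 hq0).sub (hYc b hbT q0 hq0)).norm.sub
          ((hS q0 hq0).sub continuousWithinAt_const)
      have e1 : ∀ᶠ q in 𝓝[A] q0, 0 < ‖ξ q - Y q b‖ - (S q - b) :=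
        hc.eventually (lt_mem_nhds (by linarith))
      filter_upwards [e1, self_mem_nhdsWithin] with q h3 h5
      exact (rtm_lt_iff (hY q h5) (hST q h5) hb0).2 (by linarith)

/-- continuity in the test time, for a fixed source -/
theorem continuousOn_rtm_time {X : ℝ → H} (hX : ContinuousOn X (Icc 0 T)) (hy : SubLum y T) :
    ContinuousOn (fun s => rtm y s (X s)) (Icc 0 T) :=
  continuousOn_rtm (Y := fun _ => y) (S := fun s => s) (ξ := X) (fun _ _ => hy) continuousOn_id
    (fun _ h => h) hX (fun _ _ => continuousOn_const)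

end metric

/-! ### the derivative of an implicit function of one variable -/

/-- If `Φ (s, g s) = 0` near `s0`, `g` is continuous at `s0` and `Φ` is differentiable at
`(s0, g s0)` with partial derivatives `a`, `b`, `b ≠ 0`, then `g' = -a/b`. -/
theorem hasDerivAt_implicit {Φ : ℝ × ℝ → ℝ} {Φ' : ℝ × ℝ →L[ℝ] ℝ} {g : ℝ → ℝ} {s0 : ℝ}
    (hΦ : HasFDerivAt Φ Φ' (s0, g s0)) (h0 : ∀ᶠ s in 𝓝 s0, Φ (s, g s) = 0)
    (hg : ContinuousAt g s0) (hb : Φ' (0, 1) ≠ 0) :
    HasDerivAt g (-(Φ' (1, 0)) / Φ' (0, 1)) s0 := by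
  set a := Φ' (1, 0) with ha
  set b := Φ' (0, 1) with hb'
  have hbp : 0 < |b| := abs_pos.mpr hb
  have hlin : ∀ u w : ℝ, Φ' (u, w) = a * u + b * w := by
    intro u w
    have : (u, w) = u • ((1 : ℝ), (0 : ℝ)) + w • ((0 : ℝ), (1 : ℝ)) := by
      simp
    rw [this, map_add, map_smul, map_smul, ← ha, ← hb', smul_eq_mul, smul_eq_mul]
    ring
  have ho := hΦ.isLittleO
  rw [Asymptotics.isLittleO_iff] at ho
  have hq : Tendsto (fun s => (s, g s)) (𝓝 s0) (𝓝 (s0, g s0)) :=
    (continuousAt_id.prodMk hg)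
  have h00 : Φ (s0, g s0) = 0 := h0.self_of_nhds
  -- basic inequality
  have key : ∀ c : ℝ, 0 < c → ∀ᶠ s in 𝓝 s0,
      |a * (s - s0) + b * (g s - g s0)| ≤ c * (|s - s0| + |g s - g s0|) := by
    intro c hc
    filter_upwards [hq.eventually (ho hc), h0] with s h1 h2
    rw [h2, h00, Prod.mk_sub_mk, hlin] at h1
    have h3 : ‖((s - s0, g s - g s0) : ℝ × ℝ)‖ ≤ |s - s0| + |g s - g s0| := by
      rw [Prod.norm_def]
      simp only [Real.norm_eq_abs]
      exact max_le (by linarith [abs_nonneg (g s - g s0)]) (by linarith [abs_nonneg (s - s0)])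
    have h4 : |a * (s - s0) + b * (g s - g s0)| = ‖(0 : ℝ) - 0 - (a * (s - s0) + b * (g s - g s0))‖ := by
      rw [Real.norm_eq_abs, sub_self, zero_sub, abs_neg]
    rw [h4]
    exact h1.trans (mul_le_mul_of_nonneg_left h3 hc.le)
  -- Lipschitz bound
  have hL : ∀ᶠ s in 𝓝 s0, |g s - g s0| ≤ (2 * |a| / |b| + 1) * |s - s0| := by
    filter_upwards [key (|b| / 2) (by positivity)] with s h1
    have h2 : |b| * |g s - g s0| ≤ |a| * |s - s0| + |b| / 2 * (|s - s0| + |g s - g s0|) := by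
      calc |b| * |g s - g s0| = |b * (g s - g s0)| := (abs_mul _ _).symm
        _ = |(a * (s - s0) + b * (g s - g s0)) - a * (s - s0)| := by ring_nf
        _ ≤ |a * (s - s0) + b * (g s - g s0)| + |a * (s - s0)| := abs_sub _ _
        _ ≤ _ := by rw [abs_mul a]; linarith
    have h3 : |b| * |g s - g s0| ≤ (2 * |a| + |b|) * |s - s0| := by nlinarith
    have h4 : |g s - g s0| ≤ (2 * |a| + |b|) * |s - s0| / |b| := by
      rw [le_div_iff₀ hbp, mul_comm]; exact h3
    refine h4.trans (le_of_eq ?_)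
    field_simp
  rw [hasDerivAt_iff_isLittleO, Asymptotics.isLittleO_iff]
  intro c hc
  set K := 2 * |a| / |b| + 1 with hK
  have hK0 : 0 < K := by positivity
  filter_upwards [key (c * |b| / (1 + K)) (by positivity), hL] with s h1 h2
  rw [Real.norm_eq_abs, Real.norm_eq_abs, smul_eq_mul]
  have h3 : g s - g s0 - (s - s0) * (-a / b) = (a * (s - s0) + b * (g s - g s0)) / b := by
    field_simp; ring
  rw [h3, abs_div, div_le_iff₀ hbp]
  calc |a * (s - s0) + b * (g s - g s0)| ≤ c * |b| / (1 + K) * (|s - s0| + |g s - g s0|) := h1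
    _ ≤ c * |b| / (1 + K) * (|s - s0| + K * |s - s0|) := by gcongr
    _ = c * |s - s0| * |b| := by field_simp

end Crest.Agent.R106.Pair
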