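import Crest.Agent.R106.ConeMu
import Crest.Agent.R106.PairRet
import Crest.Agent.R106.MomDefs
import Crest.Agent.R106.MixInt

/-!
# Row 106, CM: the bridge between `Mom.kap` (phase-space form) and the label form (helper132)

`L : LFlow T a Φ Ψ` (label flow, ConeMu), `f τ w = f 0 (Ψ τ w)` on `[0,T)`.
`m0 f = f 0 · dz` is the label measure, `alive X s = {z : |X s - z.1| < s}`.

* `lintegral_kap`, `integral_kap`, `integrable_kap_iff` : `∫ g dκ_s = ∫_{alive} g(hit)/ε dm0`, for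
  every `g`, no measurability.
* `continuousOn_rtL`, `continuousOn_hit`, `measurable` versions.
* `lintegral_kap_time` : Tonelli.
-/

set_option autoImplicit false

open MeasureTheory Set Filter Topology
open Crest.AnalysisR.VecCalc3 Crest.AnalysisR.PDE.RVM
open scoped ENNReal NNReal InnerProductSpace

noncomputable section

namespace Crest.Agent.R106.CM

open Crest.Agent.R106.Mom (kap Rr nn dl Dd)

/-- the label measure `f₀ dz` -/
def m0 (f : ℝ → R3 → R3 → ℝ) : Measure Z :=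
  (volume : Measure Z).withDensity fun z => ENNReal.ofReal (f 0 z.1 z.2)

/-- the labels that meet the open backward cone of `(s, X s)` -/
def alive (X : ℝ → R3) (s : ℝ) : Set Z := {z | ‖X s - z.1‖ < s}

lemma isOpen_alive (X : ℝ → R3) (s : ℝ) : IsOpen (alive X s) := by
  have : Continuous fun w : Z => ‖X s - w.1‖ := by fun_prop
  exact isOpen_lt this continuous_const

lemma measurableSet_alive (X : ℝ → R3) (s : ℝ) : MeasurableSet (alive X s) :=
  (isOpen_alive X s).measurableSet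

lemma ball_prod_eq (X : ℝ → R3) (s : ℝ) :
    Metric.ball (X s) s ×ˢ (univ : Set R3) = {w : Z | ‖X s - w.1‖ < s} := by
  ext w
  simp [Metric.mem_ball, dist_eq_norm, norm_sub_rev]

lemma continuous_ret (X : ℝ → R3) (s : ℝ) : Continuous fun q : Z => Mom.ret X s q.1 := by
  unfold Mom.ret
  fun_prop

section measurable

variable {f : ℝ → R3 → R3 → ℝ}

lemma measurable_f0 (hf : Measurable fun p : ℝ × R3 × R3 => f p.1 p.2.1 p.2.2) :
    Measurable fun z : Z => ENNReal.ofReal (f 0 z.1 z.2) :=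
  (hf.comp (measurable_const.prodMk measurable_id)).ennreal_ofReal

lemma measurable_fret (hf : Measurable fun p : ℝ × R3 × R3 => f p.1 p.2.1 p.2.2)
    (X : ℝ → R3) (s : ℝ) :
    Measurable fun q : Z => ENNReal.ofReal (f (Mom.ret X s q.1) q.1 q.2) :=
  (hf.comp ((continuous_ret X s).measurable.prodMk measurable_id)).ennreal_ofReal

end measurable

/-- The solution is transported by the flow. -/
def Transp (T : ℝ) (f : ℝ → R3 → R3 → ℝ) (Ψ : ℝ → Z → Z) : Prop :=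
  ∀ τ ∈ Ico 0 T, ∀ w : Z, f τ w.1 w.2 = f 0 (Ψ τ w).1 (Ψ τ w).2

variable {T : ℝ} {a : ℝ → Z → Z} {Φ Ψ : ℝ → Z → Z} {f : ℝ → R3 → R3 → ℝ}

/-- **(K1)** the cone measure in label form, for every `g`. -/
theorem LFlow.lintegral_kap (L : LFlow T a Φ Ψ) (hT : Transp T f Ψ)
    (hf : Measurable fun p : ℝ × R3 × R3 => f p.1 p.2.1 p.2.2) (X : ℝ → R3) {s : ℝ}
    (hs : s ∈ Ioo 0 T) (g : Z → ℝ≥0∞) :
    ∫⁻ q, g q ∂(kap f X s) = ∫⁻ z in alive X s,
      g (hit Φ s (X s) z) / ENNReal.ofReal (ep a (X s) (rtL Φ s (X s) z) (hit Φ s (X s) z))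
        ∂(m0 f) := by
  have h1 : ∫⁻ q, g q ∂(kap f X s)
      = ∫⁻ w in {w : Z | ‖X s - w.1‖ < s}, g w *
          ENNReal.ofReal (f 0 (Ψ (s - ‖X s - w.1‖) w).1 (Ψ (s - ‖X s - w.1‖) w).2) := by
    unfold kap
    rw [lintegral_withDensity_eq_lintegral_mul_non_measurable _ (measurable_fret hf X s)
      (Eventually.of_forall fun _ => ENNReal.ofReal_lt_top), ball_prod_eq]
    refine setLIntegral_congr_fun (measurableSet_alive X s) fun w hw => ?_
    have hw' : ‖X s - w.1‖ < s := hw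
    have h0 : s - ‖X s - w.1‖ ∈ Ico 0 T :=
      ⟨by linarith, by linarith [norm_nonneg (X s - w.1), hs.2]⟩
    simp only [Pi.mul_apply, Mom.ret]
    rw [hT _ h0 w, mul_comm]
  rw [h1, L.lintegral_cone hs (X s) g (fun z => ENNReal.ofReal (f 0 z.1 z.2))]
  unfold m0
  rw [restrict_withDensity (measurableSet_alive X s),
    lintegral_withDensity_eq_lintegral_mul_non_measurable _ (measurable_f0 hf)
      (Eventually.of_forall fun _ => ENNReal.ofReal_lt_top)]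
  rfl

/-- `κ_s` of a set. -/
theorem LFlow.kap_apply (L : LFlow T a Φ Ψ) (hT : Transp T f Ψ)
    (hf : Measurable fun p : ℝ × R3 × R3 => f p.1 p.2.1 p.2.2) (X : ℝ → R3) {s : ℝ}
    (hs : s ∈ Ioo 0 T) {A : Set Z} (hA : MeasurableSet A) :
    kap f X s A = ∫⁻ z in alive X s,
      A.indicator 1 (hit Φ s (X s) z) /
        ENNReal.ofReal (ep a (X s) (rtL Φ s (X s) z) (hit Φ s (X s) z)) ∂(m0 f) := by
  rw [← L.lintegral_kap hT hf X hs, lintegral_indicator_one hA]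

/-- **(K2)** Bochner form, for every `g`. -/
theorem LFlow.integral_kap (L : LFlow T a Φ Ψ) (hT : Transp T f Ψ)
    (hf : Measurable fun p : ℝ × R3 × R3 => f p.1 p.2.1 p.2.2) (hf0 : ∀ t x v, 0 ≤ f t x v)
    {V : Type*} [NormedAddCommGroup V] [NormedSpace ℝ V] (X : ℝ → R3) {s : ℝ}
    (hs : s ∈ Ioo 0 T) (g : Z → V) :
    ∫ q, g q ∂(kap f X s) = ∫ z in alive X s,
      (ep a (X s) (rtL Φ s (X s) z) (hit Φ s (X s) z))⁻¹ • g (hit Φ s (X s) z) ∂(m0 f) := by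
  have h1 : ∫ q, g q ∂(kap f X s)
      = ∫ w in {w : Z | ‖X s - w.1‖ < s},
          f 0 (Ψ (s - ‖X s - w.1‖) w).1 (Ψ (s - ‖X s - w.1‖) w).2 • g w := by
    unfold kap
    rw [integral_withDensity_eq_integral_toReal_smul (measurable_fret hf X s)
      (Eventually.of_forall fun _ => ENNReal.ofReal_lt_top), ball_prod_eq]
    refine setIntegral_congr_fun (measurableSet_alive X s) fun w hw => ?_
    have hw' : ‖X s - w.1‖ < s := hw
    have h0 : s - ‖X s - w.1‖ ∈ Ico 0 T :=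
      ⟨by linarith, by linarith [norm_nonneg (X s - w.1), hs.2]⟩
    simp only [Mom.ret]
    rw [ENNReal.toReal_ofReal (hf0 _ _ _), hT _ h0 w]
  rw [h1, L.integral_cone hs (X s) g (fun z => f 0 z.1 z.2)]
  unfold m0
  rw [restrict_withDensity (measurableSet_alive X s),
    integral_withDensity_eq_integral_toReal_smul (measurable_f0 hf)
      (Eventually.of_forall fun _ => ENNReal.ofReal_lt_top)]
  refine setIntegral_congr_fun (measurableSet_alive X s) fun z _ => ?_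
  simp only [ENNReal.toReal_ofReal (hf0 _ _ _)]

/-- **(K2')** integrability. -/
theorem LFlow.integrable_kap_iff (L : LFlow T a Φ Ψ) (hT : Transp T f Ψ)
    (hf : Measurable fun p : ℝ × R3 × R3 => f p.1 p.2.1 p.2.2) (hf0 : ∀ t x v, 0 ≤ f t x v)
    {V : Type*} [NormedAddCommGroup V] [NormedSpace ℝ V] (X : ℝ → R3) {s : ℝ}
    (hs : s ∈ Ioo 0 T) (g : Z → V) :
    Integrable g (kap f X s) ↔ IntegrableOn (fun z =>
      (ep a (X s) (rtL Φ s (X s) z) (hit Φ s (X s) z))⁻¹ • g (hit Φ s (X s) z)) (alive X s)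
        (m0 f) := by
  have h1 : Integrable g (kap f X s)
      ↔ IntegrableOn (fun w : Z =>
          f 0 (Ψ (s - ‖X s - w.1‖) w).1 (Ψ (s - ‖X s - w.1‖) w).2 • g w)
          {w : Z | ‖X s - w.1‖ < s} := by
    unfold kap
    rw [integrable_withDensity_iff_integrable_smul' (measurable_fret hf X s)
      (Eventually.of_forall fun _ => ENNReal.ofReal_lt_top), ball_prod_eq]
    refine integrableOn_congr_fun (fun w hw => ?_) (measurableSet_alive X s)
    have hw' : ‖X s - w.1‖ < s := hw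
    have h0 : s - ‖X s - w.1‖ ∈ Ico 0 T :=
      ⟨by linarith, by linarith [norm_nonneg (X s - w.1), hs.2]⟩
    simp only [Mom.ret]
    rw [ENNReal.toReal_ofReal (hf0 _ _ _), hT _ h0 w]
  rw [h1, L.integrableOn_cone_iff hs (X s) g (fun z => f 0 z.1 z.2)]
  unfold m0 IntegrableOn
  rw [restrict_withDensity (measurableSet_alive X s),
    integrable_withDensity_iff_integrable_smul' (measurable_f0 hf)
      (Eventually.of_forall fun _ => ENNReal.ofReal_lt_top)]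
  refine integrableOn_congr_fun (fun z _ => ?_) (measurableSet_alive X s)
  simp only [ENNReal.toReal_ofReal (hf0 _ _ _)]

/-! ### measurability and continuity of the flow and of the retarded quantities -/

lemma LFlow.measurable_Phi (L : LFlow T a Φ Ψ) {τ : ℝ} (hτ : τ ∈ Ico 0 T) :
    Measurable (Φ τ) := by
  rcases hτ.1.eq_or_lt with h | h
  · subst h
    have : Φ 0 = id := funext L.zero
    rw [this]; exact measurable_id
  · have hinj : Function.Injective (Ψ τ) := fun w w' h' => by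
      rw [← L.right_inv τ hτ w, ← L.right_inv τ hτ w', h']
    have hc : Continuous (Ψ τ) := by
      rw [continuous_iff_continuousAt]
      intro w
      have h1 : DifferentiableAt ℝ (fun w : Z => ((τ, w) : ℝ × Z)) w := by fun_prop
      exact ((L.diff τ ⟨h, hτ.2⟩ w).comp w h1).continuousAt
    intro A hA
    have : Φ τ ⁻¹' A = Ψ τ '' A := by
      ext z
      constructor
      · intro hz; exact ⟨Φ τ z, hz, L.left_inv τ hτ z⟩
      · rintro ⟨w, hw, rfl⟩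
        rw [mem_preimage, L.right_inv τ hτ]; exact hw
    rw [this]
    exact hA.image_of_continuousOn_injOn hc.continuousOn hinj.injOn

lemma rt_eq_rtm (Y : ℝ → R3) (s : ℝ) (x : R3) : rt Y s x = Pair.rtm Y s x := by
  unfold rt Pair.rtm
  congr 1
  ext τ
  simp only [mem_ofPred_eq, and_congr_right_iff]
  intro _
  constructor <;> intro h <;> linarith

lemma LFlow.subLum (L : LFlow T a Φ Ψ) {t1 : ℝ} (h1 : t1 < T) (z : Z) :
    Pair.SubLum (fun τ => (Φ τ z).1) t1 := by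
  intro s hs t ht hst
  have hs' : s ∈ Ico 0 T := ⟨hs.1, hs.2.trans_lt h1⟩
  have ht' : t ∈ Ico 0 T := ⟨ht.1, ht.2.trans_lt h1⟩
  rcases lt_or_gt_of_ne hst with h | h
  · have := L.subL z s hs' t ht' h
    rw [norm_sub_rev, abs_sub_comm, abs_of_pos (by linarith)]
    exact this
  · have := L.subL z t ht' s hs' h
    rw [abs_of_pos (by linarith)]
    exact this

/-- joint continuity of the retarded time of the labels along the test curve -/
theorem LFlow.continuousOn_rtL (L : LFlow T a Φ Ψ) {t1 : ℝ} (h1 : t1 < T)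
    (hΦ : ∀ τ ∈ Icc 0 t1, Continuous (Φ τ)) {X : ℝ → R3} (hX : ContinuousOn X (Icc 0 t1)) :
    ContinuousOn (fun p : ℝ × Z => rtL Φ p.1 (X p.1) p.2) (Icc 0 t1 ×ˢ univ) := by
  have := Pair.continuousOn_rtm (T := t1) (Y := fun (p : ℝ × Z) τ => (Φ τ p.2).1)
    (S := fun p => p.1) (ξ := fun p => X p.1) (A := Icc 0 t1 ×ˢ (univ : Set Z))
    (fun p _ => L.subLum h1 p.2) continuousOn_fst (fun p hp => hp.1)
    (hX.comp continuousOn_fst fun p hp => hp.1)
    (fun τ hτ => (continuous_fst.comp ((hΦ τ hτ).comp continuous_snd)).continuousOn)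
  refine this.congr fun p _ => ?_
  exact rt_eq_rtm _ _ _

lemma rtL_mem {s : ℝ} (hs : 0 ≤ s) (x : R3) (z : Z) : rtL Φ s x z ∈ Icc 0 s := by
  have := Pair.rtm_nonneg (fun τ => (Φ τ z).1) s x
  have := Pair.rtm_le (fun τ => (Φ τ z).1) hs x
  rw [rtL, rt_eq_rtm]
  constructor <;> assumption

/-- joint continuity of the retarded state -/
theorem LFlow.continuousOn_hit (L : LFlow T a Φ Ψ) {t1 : ℝ} (h1 : t1 < T)
    (hΦ : ContinuousOn (fun p : ℝ × Z => Φ p.1 p.2) (Icc 0 t1 ×ˢ univ)) {X : ℝ → R3}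
    (hX : ContinuousOn X (Icc 0 t1)) :
    ContinuousOn (fun p : ℝ × Z => hit Φ p.1 (X p.1) p.2) (Icc 0 t1 ×ˢ univ) := by
  have hΦ' : ∀ τ ∈ Icc 0 t1, Continuous (Φ τ) := by
    intro τ hτ
    rw [← continuousOn_univ]
    exact hΦ.comp (f := fun z : Z => (τ, z)) (by fun_prop) fun z _ => ⟨hτ, mem_univ _⟩
  refine hΦ.comp ((L.continuousOn_rtL h1 hΦ' hX).prodMk continuousOn_snd) fun p hp => ?_
  have := rtL_mem (Φ := Φ) hp.1.1 (X p.1) p.2
  exact ⟨⟨this.1, this.2.trans hp.1.2⟩, mem_univ _⟩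

/-- `Sublum` of helper154's `MixInt` for the label flow -/
lemma LFlow.sublum (L : LFlow T a Φ Ψ) {t1 : ℝ} (h0 : 0 ≤ t1) (h1 : t1 < T) {X : ℝ → R3}
    (hX : ∀ s ∈ Icc 0 t1, ∀ t ∈ Icc 0 t1, ‖X s - X t‖ ≤ |s - t|) :
    Mix.Sublum t1 X (fun τ z => (Φ τ z).1) where
  nonneg := h0
  hX := hX
  hY := fun z s hs t ht hst => L.subLum h1 z s hs t ht hst
  hYm := fun s hs => measurable_fst.comp (L.measurable_Phi ⟨hs.1, hs.2.trans_lt h1⟩)

lemma LFlow.isRet (L : LFlow T a Φ Ψ) {t1 : ℝ} (h1 : t1 < T) (X : ℝ → R3) :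
    Mix.IsRet t1 X (fun τ z => (Φ τ z).1) (fun s z => rtL Φ s (X s) z) := by
  intro s hs z hz
  have hsT : s ∈ Ico 0 T := ⟨hs.1, hs.2.trans_lt h1⟩
  have h2 := rt_spec (L.subL z) hsT (x := X s) hz.le
  have h3 := rt_pos (L.subL z) hsT (x := X s) hz
  refine ⟨h3, h2.1.2, ?_⟩
  have h4 := h2.2
  simp only [rtL]
  linarith

lemma LFlow.cara (L : LFlow T a Φ Ψ) {t1 : ℝ} (h1 : t1 < T) : Mix.Cara t1 Φ where
  meas := fun c hc => L.measurable_Phi ⟨hc.1, hc.2.trans_lt h1⟩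
  cont := fun z => (L.cont z).mono fun c hc => ⟨hc.1, hc.2.trans_lt h1⟩

lemma LFlow.coneSet_eq (L : LFlow T a Φ Ψ) {t1 : ℝ} (X : ℝ → R3) :
    Mix.coneSet t1 X (fun τ z => (Φ τ z).1) = {p : ℝ × Z | p.1 ∈ Icc 0 t1 ∧ p.2 ∈ alive X p.1} := by
  ext p
  simp only [Mix.coneSet, alive, mem_ofPred_eq, L.zero]

/-- joint measurability of the retarded state on the cone set -/
theorem LFlow.measOn_hit (L : LFlow T a Φ Ψ) {t1 : ℝ} (h0 : 0 ≤ t1) (h1 : t1 < T) {X : ℝ → R3}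
    (hX : ∀ s ∈ Icc 0 t1, ∀ t ∈ Icc 0 t1, ‖X s - X t‖ ≤ |s - t|) :
    Mix.MeasOn (Mix.coneSet t1 X (fun τ z => (Φ τ z).1))
      (fun p : ℝ × Z => hit Φ p.1 (X p.1) p.2) :=
  Mix.measOn_comp_ret (L.sublum h0 h1 hX) (L.isRet h1 X) (L.cara h1)

theorem LFlow.measOn_rtL (L : LFlow T a Φ Ψ) {t1 : ℝ} (h0 : 0 ≤ t1) (h1 : t1 < T) {X : ℝ → R3}
    (hX : ∀ s ∈ Icc 0 t1, ∀ t ∈ Icc 0 t1, ‖X s - X t‖ ≤ |s - t|) :
    Mix.MeasOn (Mix.coneSet t1 X (fun τ z => (Φ τ z).1))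
      (fun p : ℝ × Z => rtL Φ p.1 (X p.1) p.2) :=
  Mix.measOn_ret (L.sublum h0 h1 hX) (L.isRet h1 X)

instance (f : ℝ → R3 → R3 → ℝ) : SFinite (m0 f) := by
  unfold m0; infer_instance

lemma continuous_relVel' : Continuous relVel := by
  have h : ∀ v : R3, Real.sqrt (1 + ‖v‖ ^ 2) ≠ 0 := fun v => by positivity
  unfold relVel
  exact (Continuous.inv₀ (by fun_prop) h).smul continuous_id

/-- (test time, label) pairs in a window -/
def coneW (b c : ℝ) (X : ℝ → R3) : Set (ℝ × Z) := {p | p.1 ∈ Icc b c ∧ p.2 ∈ alive X p.1}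

lemma LFlow.coneW_eq (L : LFlow T a Φ Ψ) {b c : ℝ} (hb : 0 ≤ b) (X : ℝ → R3) :
    coneW b c X = {p : ℝ × Z | p.1 ∈ Icc b c} ∩ Mix.coneSet c X (fun τ z => (Φ τ z).1) := by
  rw [L.coneSet_eq]
  ext p
  simp only [coneW, mem_ofPred_eq, mem_inter_iff]
  constructor
  · rintro ⟨h1, h2⟩; exact ⟨h1, ⟨⟨hb.trans h1.1, h1.2⟩, h2⟩⟩
  · rintro ⟨h1, h2⟩; exact ⟨h1, h2.2⟩

lemma LFlow.measurableSet_coneW (L : LFlow T a Φ Ψ) {b c : ℝ} (hb : 0 ≤ b) (hbc : b ≤ c)
    (hc : c < T) {X : ℝ → R3} (hX : ∀ s ∈ Icc 0 c, ∀ t ∈ Icc 0 c, ‖X s - X t‖ ≤ |s - t|) :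
    MeasurableSet (coneW b c X) := by
  rw [L.coneW_eq hb]
  exact (measurable_fst measurableSet_Icc).inter
    (Mix.measurableSet_coneSet (L.sublum (hb.trans hbc) hc hX))

/-- the factor `1/ε` of the label form is jointly measurable -/
lemma LFlow.measOn_ep (L : LFlow T a Φ Ψ) {t1 : ℝ} (h0 : 0 ≤ t1) (h1 : t1 < T) {X : ℝ → R3}
    (hX : ∀ s ∈ Icc 0 t1, ∀ t ∈ Icc 0 t1, ‖X s - X t‖ ≤ |s - t|)
    (hv : ∀ τ w, (a τ w).1 = relVel w.2) :
    Mix.MeasOn (Mix.coneSet t1 X (fun τ z => (Φ τ z).1))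
      (fun p : ℝ × Z => ep a (X p.1) (rtL Φ p.1 (X p.1) p.2) (hit Φ p.1 (X p.1) p.2)) := by
  have hXm : Mix.MeasOn (Mix.coneSet t1 X (fun τ z => (Φ τ z).1)) (fun p : ℝ × Z => X p.1) := by
    refine Mix.measOn_time h0 ?_
    have : LipschitzOnWith 1 X (Icc 0 t1) := by
      refine LipschitzOnWith.of_dist_le_mul (fun s hs t ht => ?_)
      rw [dist_eq_norm, NNReal.coe_one, one_mul, Real.dist_eq]
      exact hX s hs t ht
    exact this.continuousOn
  have hh := L.measOn_hit h0 h1 hX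
  have key : Measurable (fun q : R3 × Z => 1 - ⟪nv q.1 q.2.1, relVel q.2.2⟫_ℝ) := by
    have := continuous_relVel'.measurable
    unfold nv
    fun_prop
  refine ((hXm.prodMk hh).comp key).congr fun p _ => ?_
  simp only [ep, hv]

/-- the cone is empty at time `0` -/
lemma kap_zero (f : ℝ → R3 → R3 → ℝ) (X : ℝ → R3) {s : ℝ} (hs : s ≤ 0) : kap f X s = 0 := by
  unfold kap
  rw [Metric.ball_eq_empty.2 hs, empty_prod, Measure.restrict_empty]
  ext A hA
  simp [withDensity_apply _ hA]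

lemma alive_zero (X : ℝ → R3) {s : ℝ} (hs : s ≤ 0) : alive X s = ∅ := by
  ext z
  simp only [alive, mem_ofPred_eq, mem_empty_iff_false, iff_false, not_lt]
  exact hs.trans (norm_nonneg _)

/-- the label integrand -/
def lint (a : ℝ → Z → Z) (Φ : ℝ → Z → Z) (X : ℝ → R3) (g : ℝ → Z → ℝ≥0∞) (s : ℝ) (z : Z) : ℝ≥0∞ :=
  g s (hit Φ s (X s) z) / ENNReal.ofReal (ep a (X s) (rtL Φ s (X s) z) (hit Φ s (X s) z))

/-- (K1) for all `s ∈ [0, T)` -/
theorem LFlow.lintegral_kap' (L : LFlow T a Φ Ψ) (hT : Transp T f Ψ)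
    (hf : Measurable fun p : ℝ × R3 × R3 => f p.1 p.2.1 p.2.2) (X : ℝ → R3) {s : ℝ}
    (hs : s ∈ Ico 0 T) (g : ℝ → Z → ℝ≥0∞) :
    ∫⁻ q, g s q ∂(kap f X s) = ∫⁻ z in alive X s, lint a Φ X g s z ∂(m0 f) := by
  rcases hs.1.eq_or_lt with h | h
  · subst h
    rw [kap_zero f X le_rfl, alive_zero X le_rfl]
    simp
  · exact L.lintegral_kap hT hf X ⟨h, hs.2⟩ (g s)

lemma LFlow.measurable_lint (L : LFlow T a Φ Ψ) {b c : ℝ} (hb : 0 ≤ b) (hbc : b ≤ c)
    (hc : c < T) {X : ℝ → R3} (hX : ∀ s ∈ Icc 0 c, ∀ t ∈ Icc 0 c, ‖X s - X t‖ ≤ |s - t|)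
    (hv : ∀ τ w, (a τ w).1 = relVel w.2) {g : ℝ → Z → ℝ≥0∞}
    (hg : Mix.MeasOn (Icc b c ×ˢ (univ : Set Z)) (fun p : ℝ × Z => g p.1 p.2)) :
    Measurable ((coneW b c X).indicator fun p : ℝ × Z => lint a Φ X g p.1 p.2) := by
  refine Mix.MeasOn.indicator (L.measurableSet_coneW hb hbc hc hX) ?_
  obtain ⟨G, hG, hGe⟩ := hg
  have h0 : 0 ≤ c := hb.trans hbc
  have h1 : coneW b c X ⊆ Mix.coneSet c X (fun τ z => (Φ τ z).1) := by
    rw [L.coneW_eq hb]; exact inter_subset_right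
  have h2 : Mix.MeasOn (coneW b c X) (fun p : ℝ × Z => G (p.1, hit Φ p.1 (X p.1) p.2)) :=
    ((Mix.MeasOn.of_measurable measurable_fst).prodMk ((L.measOn_hit h0 hc hX).mono h1)).comp hG
  have h3 : Mix.MeasOn (coneW b c X) (fun p : ℝ × Z => ENNReal.ofReal
      (ep a (X p.1) (rtL Φ p.1 (X p.1) p.2) (hit Φ p.1 (X p.1) p.2))) :=
    ((L.measOn_ep h0 hc hX hv).mono h1).comp ENNReal.measurable_ofReal
  refine (h2.div h3).congr fun p hp => ?_
  simp only [lint]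
  rw [← hGe (x := (p.1, hit Φ p.1 (X p.1) p.2)) ⟨hp.1, mem_univ _⟩]

/-- **(K3)** Tonelli: the time integral over the cones in label form. -/
theorem LFlow.lintegral_kap_time (L : LFlow T a Φ Ψ) (hT : Transp T f Ψ)
    (hf : Measurable fun p : ℝ × R3 × R3 => f p.1 p.2.1 p.2.2) {b c : ℝ} (hb : 0 ≤ b)
    (hbc : b ≤ c) (hc : c < T) {X : ℝ → R3}
    (hX : ∀ s ∈ Icc 0 c, ∀ t ∈ Icc 0 c, ‖X s - X t‖ ≤ |s - t|)
    (hv : ∀ τ w, (a τ w).1 = relVel w.2) {g : ℝ → Z → ℝ≥0∞}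
    (hg : Mix.MeasOn (Icc b c ×ˢ (univ : Set Z)) (fun p : ℝ × Z => g p.1 p.2)) :
    ∫⁻ s in Icc b c, ∫⁻ q, g s q ∂(kap f X s)
      = ∫⁻ z, (∫⁻ s in Icc b c ∩ {s | z ∈ alive X s}, lint a Φ X g s z) ∂(m0 f) := by
  have hH := L.measurable_lint hb hbc hc hX hv hg
  have h1 : ∫⁻ s in Icc b c, ∫⁻ q, g s q ∂(kap f X s)
      = ∫⁻ s in Icc b c, ∫⁻ z, (coneW b c X).indicator
          (fun p : ℝ × Z => lint a Φ X g p.1 p.2) (s, z) ∂(m0 f) := by
    refine setLIntegral_congr_fun measurableSet_Icc fun s hs => ?_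
    rw [L.lintegral_kap' hT hf X ⟨hb.trans hs.1, hs.2.trans_lt hc⟩ g,
      ← lintegral_indicator (measurableSet_alive X s)]
    refine lintegral_congr fun z => ?_
    by_cases hz : z ∈ alive X s
    · rw [indicator_of_mem hz, indicator_of_mem (show (s, z) ∈ coneW b c X from ⟨hs, hz⟩)]
    · rw [indicator_of_notMem hz, indicator_of_notMem (fun h => hz h.2)]
  rw [h1, lintegral_lintegral_swap (μ := volume.restrict (Icc b c)) (ν := m0 f)
    (f := fun s z => (coneW b c X).indicator (fun p : ℝ × Z => lint a Φ X g p.1 p.2) (s, z))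
    hH.aemeasurable]
  refine lintegral_congr fun z => ?_
  have hms : MeasurableSet (Icc b c ∩ {s | z ∈ alive X s}) := by
    have := (L.measurableSet_coneW hb hbc hc hX).preimage
      (measurable_id.prodMk (measurable_const (a := z)) : Measurable fun s : ℝ => (s, z))
    exact this
  rw [← lintegral_indicator measurableSet_Icc, ← lintegral_indicator hms]
  refine lintegral_congr fun s => ?_
  by_cases hs : s ∈ Icc b c
  · rw [indicator_of_mem hs]
    by_cases hz : z ∈ alive X s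
    · rw [indicator_of_mem (show (s, z) ∈ coneW b c X from ⟨hs, hz⟩),
        indicator_of_mem (show s ∈ Icc b c ∩ {s | z ∈ alive X s} from ⟨hs, hz⟩)]
    · rw [indicator_of_notMem (fun h => hz h.2), indicator_of_notMem (fun h => hz h.2)]
  · rw [indicator_of_notMem hs, indicator_of_notMem (fun h => hs h.1)]

/-! ### translation of the quantities of `MomDefs` at the retarded state -/

lemma nn_eq (X : ℝ → R3) (s : ℝ) (y : R3) : nn X s y = nv (X s) y := rfl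

lemma mom_ep_eq (hv : ∀ τ w, (a τ w).1 = relVel w.2) (X : ℝ → R3) (s τ : ℝ) (w : Z) :
    Mom.ep X s w.1 w.2 = ep a (X s) τ w := by
  simp only [Mom.ep, ep, hv, nn_eq]

lemma LFlow.ret_hit (L : LFlow T a Φ Ψ) {X : ℝ → R3} {s : ℝ} (hs : s ∈ Ico 0 T) {z : Z}
    (hz : z ∈ alive X s) : Mom.ret X s (hit Φ s (X s) z).1 = rtL Φ s (X s) z := by
  have h := (L.lab_hit hs (x₀ := X s) (z := z) (le_of_lt hz)).2.2
  unfold Mom.ret
  linarith

lemma LFlow.Rr_hit (L : LFlow T a Φ Ψ) {X : ℝ → R3} {s : ℝ} (hs : s ∈ Ico 0 T) {z : Z}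
    (hz : z ∈ alive X s) : Rr X s (hit Φ s (X s) z).1 = s - rtL Φ s (X s) z := by
  have h := (L.lab_hit hs (x₀ := X s) (z := z) (le_of_lt hz)).2.2
  unfold Rr
  linarith

lemma LFlow.rtL_pos (L : LFlow T a Φ Ψ) {X : ℝ → R3} {s : ℝ} (hs : s ∈ Ico 0 T) {z : Z}
    (hz : z ∈ alive X s) : 0 < rtL Φ s (X s) z := by
  refine rt_pos (L.subL z) hs ?_
  simp only [L.zero]
  exact hz

lemma m0_ac (f : ℝ → R3 → R3 → ℝ) : m0 f ≪ (volume : Measure Z) :=
  withDensity_absolutelyContinuous _ _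

/-- at a fixed time `s` almost no label is at the vertex -/
lemma LFlow.ae_ne_vertex (L : LFlow T a Φ Ψ) (X : ℝ → R3) {s : ℝ} (hs : s ∈ Ioo 0 T) :
    ∀ᵐ z ∂(m0 f), z ∈ alive X s → (hit Φ s (X s) z).1 ≠ X s := by
  have h0 : ∀ᵐ z ∂(volume : Measure Z), (Φ s z).1 ≠ X s := by
    rw [ae_iff]; simpa using L.vol_vertex hs (X s)
  filter_upwards [(m0_ac f).ae_le h0] with z hz hal h
  exact hz (L.hit_vertex ⟨hs.1.le, hs.2⟩ (le_of_lt hal) h)

/-- `h` of `MomDefs` in label form -/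
theorem LFlow.hh_eq (L : LFlow T a Φ Ψ) (hT : Transp T f Ψ)
    (hf : Measurable fun p : ℝ × R3 × R3 => f p.1 p.2.1 p.2.2) (E B : ℝ → R3 → R3) (lam Qs : ℝ)
    (X p : ℝ → R3) {s : ℝ} (hs : s ∈ Ico 0 T) :
    Mom.hh f E B lam Qs X p s = 1 + ∫⁻ z in alive X s,
      lint a Φ X (fun s q => ENNReal.ofReal (Mom.hden E B lam Qs X p s q)) s z ∂(m0 f) := by
  unfold Mom.hh
  rw [← L.lintegral_kap' hT hf X hs (fun s q => ENNReal.ofReal (Mom.hden E B lam Qs X p s q))]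

/-- `b` of `MomDefs` in label form -/
theorem LFlow.bb_eq (L : LFlow T a Φ Ψ) (hT : Transp T f Ψ)
    (hf : Measurable fun p : ℝ × R3 × R3 => f p.1 p.2.1 p.2.2) (lam Qs : ℝ)
    (X p : ℝ → R3) {s : ℝ} (hs : s ∈ Ico 0 T) :
    Mom.bb f lam Qs X p s = ∫⁻ z in alive X s,
      lint a Φ X (fun s q => ENNReal.ofReal (Mom.bden lam Qs X p s q)) s z ∂(m0 f) := by
  unfold Mom.bb
  rw [← L.lintegral_kap' hT hf X hs (fun s q => ENNReal.ofReal (Mom.bden lam Qs X p s q))]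

end Crest.Agent.R106.CM
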