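import Mathlib
import Crest.Prelude.Def_VecCalc3

/-!
# Row 106, CM: the cone measure in label form

Fixed vertex `(s, x₀)`.  For a measure preserving flow `Φ τ` of `R3 × R3` (state at time `τ` of the
particle with label `z`), with inverse `Ψ τ`, the integral over the backward light cone
`∫_{|y-x₀|<s} ∫ g(y,p) f(s-|x₀-y|, y, p) dp dy` equals `∫ f₀(z) g(Φ(τ,z)) / ε dz` where `τ = τ(z)` is
the retarded time of the particle `z` and `ε = 1 - n·v`.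
-/

set_option autoImplicit false

open MeasureTheory Set Filter Topology
open scoped ENNReal NNReal InnerProductSpace

noncomputable section

namespace Crest.Agent.R106.CM

open Crest.AnalysisR.VecCalc3

/-! ### Retarded time of a subluminal worldline -/

/-- strictly subluminal on `[0,T)` -/
def SubL (T : ℝ) (Y : ℝ → R3) : Prop :=
  ∀ τ₁ ∈ Ico 0 T, ∀ τ₂ ∈ Ico 0 T, τ₁ < τ₂ → ‖Y τ₂ - Y τ₁‖ < τ₂ - τ₁

lemma SubL.abs {T : ℝ} {Y : ℝ → R3} (h : SubL T Y) {τ₁ τ₂ : ℝ} (h1 : τ₁ ∈ Ico 0 T)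
    (h2 : τ₂ ∈ Ico 0 T) : ‖Y τ₂ - Y τ₁‖ ≤ |τ₂ - τ₁| := by
  rcases lt_trichotomy τ₁ τ₂ with h3 | h3 | h3
  · exact (h _ h1 _ h2 h3).le.trans (le_abs_self _)
  · subst h3; simp
  · rw [norm_sub_rev, abs_sub_comm]
    exact (h _ h2 _ h1 h3).le.trans (le_abs_self _)

lemma SubL.continuousOn {T : ℝ} {Y : ℝ → R3} (h : SubL T Y) : ContinuousOn Y (Ico 0 T) := by
  have : LipschitzOnWith 1 Y (Ico 0 T) := by
    refine LipschitzOnWith.of_dist_le_mul fun a ha b hb => ?_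
    rw [dist_eq_norm, NNReal.coe_one, one_mul, Real.dist_eq]
    exact h.abs hb ha
  exact this.continuousOn

/-- A curve with velocity of norm `< 1` is strictly subluminal. -/
lemma subL_of_deriv {T : ℝ} {Y v : ℝ → R3} (hc : ContinuousOn Y (Ico 0 T))
    (hd : ∀ τ ∈ Ioo 0 T, HasDerivAt Y (v τ) τ) (hv : ∀ τ ∈ Ioo 0 T, ‖v τ‖ < 1) : SubL T Y := by
  intro a ha b hb hab
  by_cases h0 : Y b - Y a = 0
  · rw [h0, norm_zero]; linarith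
  have hn : 0 < ‖Y b - Y a‖ := norm_pos_iff.2 h0
  obtain ⟨c, hc1, hc2⟩ := exists_hasDerivAt_eq_slope (fun τ => ⟪Y b - Y a, Y τ⟫_ℝ)
    (fun τ => ⟪Y b - Y a, v τ⟫_ℝ) hab
    (ContinuousOn.inner continuousOn_const
      (hc.mono fun x hx => ⟨ha.1.trans hx.1, hx.2.trans_lt hb.2⟩))
    (fun τ hτ => by
      have := (hasDerivAt_const τ (Y b - Y a)).inner ℝ
        (hd τ ⟨ha.1.trans_lt hτ.1, hτ.2.trans hb.2⟩)
      simpa using this)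
  have hcI : c ∈ Ioo 0 T := ⟨ha.1.trans_lt hc1.1, hc1.2.trans hb.2⟩
  have h1 : ⟪Y b - Y a, v c⟫_ℝ < ‖Y b - Y a‖ := by
    calc ⟪Y b - Y a, v c⟫_ℝ ≤ ‖Y b - Y a‖ * ‖v c‖ := real_inner_le_norm _ _
      _ < ‖Y b - Y a‖ * 1 := by
        exact mul_lt_mul_of_pos_left (hv c hcI) hn
      _ = ‖Y b - Y a‖ := mul_one _
  rw [hc2] at h1
  have h2 : ⟪Y b - Y a, Y b⟫_ℝ - ⟪Y b - Y a, Y a⟫_ℝ = ‖Y b - Y a‖ ^ 2 := by
    rw [← inner_sub_right, real_inner_self_eq_norm_sq]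
  rw [h2, div_lt_iff₀ (by linarith)] at h1
  nlinarith

/-- retarded time -/
def rt (Y : ℝ → R3) (s : ℝ) (x : R3) : ℝ := sSup {τ | τ ∈ Icc 0 s ∧ τ + ‖x - Y τ‖ ≤ s}

lemma strictMono_aux {T : ℝ} {Y : ℝ → R3} (h : SubL T Y) (x : R3) {a b : ℝ} (ha : a ∈ Ico 0 T)
    (hb : b ∈ Ico 0 T) (hab : a < b) : a + ‖x - Y a‖ < b + ‖x - Y b‖ := by
  have h1 := h a ha b hb hab
  have h2 : ‖x - Y a‖ ≤ ‖x - Y b‖ + ‖Y b - Y a‖ := by
    have : x - Y a = (x - Y b) + (Y b - Y a) := by abel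
    rw [this]; exact norm_add_le _ _
  linarith

lemma null_unique {T : ℝ} {Y : ℝ → R3} (h : SubL T Y) {s : ℝ} {x : R3} {a b : ℝ}
    (ha : a ∈ Ico 0 T) (hb : b ∈ Ico 0 T) (h1 : a + ‖x - Y a‖ = s) (h2 : b + ‖x - Y b‖ = s) :
    a = b := by
  rcases lt_trichotomy a b with h3 | h3 | h3
  · have := strictMono_aux h x ha hb h3; linarith
  · exact h3
  · have := strictMono_aux h x hb ha h3; linarith

lemma exists_null {T : ℝ} {Y : ℝ → R3} (h : SubL T Y) {s : ℝ} (hs : s ∈ Ico 0 T) {x : R3}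
    (hx : ‖x - Y 0‖ ≤ s) : ∃ τ ∈ Icc 0 s, τ + ‖x - Y τ‖ = s := by
  have hc : ContinuousOn (fun τ => τ + ‖x - Y τ‖) (Icc 0 s) := by
    refine continuousOn_id.add ?_
    exact (continuousOn_const.sub (h.continuousOn.mono fun τ hτ =>
      ⟨hτ.1, hτ.2.trans_lt hs.2⟩)).norm
  have h1 := intermediate_value_Icc hs.1 hc
  have h2 : s ∈ Icc ((0 : ℝ) + ‖x - Y 0‖) (s + ‖x - Y s‖) :=
    ⟨by simpa using hx, by linarith [norm_nonneg (x - Y s)]⟩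
  obtain ⟨τ, hτ, hτ2⟩ := h1 h2
  exact ⟨τ, hτ, hτ2⟩

lemma rt_eq {T : ℝ} {Y : ℝ → R3} (h : SubL T Y) {s : ℝ} (hs : s ∈ Ico 0 T) {x : R3}
    {τ : ℝ} (hτ : τ ∈ Icc 0 s) (h1 : τ + ‖x - Y τ‖ = s) : rt Y s x = τ := by
  have hτT : τ ∈ Ico 0 T := ⟨hτ.1, hτ.2.trans_lt hs.2⟩
  have : IsGreatest {τ | τ ∈ Icc 0 s ∧ τ + ‖x - Y τ‖ ≤ s} τ := by
    refine ⟨⟨hτ, h1.le⟩, ?_⟩
    rintro σ ⟨hσ, hσ2⟩
    by_contra hlt
    push Not at hlt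
    have := strictMono_aux h x hτT ⟨hσ.1, hσ.2.trans_lt hs.2⟩ hlt
    linarith
  exact this.csSup_eq

lemma rt_spec {T : ℝ} {Y : ℝ → R3} (h : SubL T Y) {s : ℝ} (hs : s ∈ Ico 0 T) {x : R3}
    (hx : ‖x - Y 0‖ ≤ s) : rt Y s x ∈ Icc 0 s ∧ rt Y s x + ‖x - Y (rt Y s x)‖ = s := by
  obtain ⟨τ, hτ, hτ2⟩ := exists_null h hs hx
  rw [rt_eq h hs hτ hτ2]
  exact ⟨hτ, hτ2⟩

lemma rt_pos {T : ℝ} {Y : ℝ → R3} (h : SubL T Y) {s : ℝ} (hs : s ∈ Ico 0 T) {x : R3}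
    (hx : ‖x - Y 0‖ < s) : 0 < rt Y s x := by
  obtain ⟨h1, h2⟩ := rt_spec h hs hx.le
  rcases h1.1.lt_or_eq with h3 | h3
  · exact h3
  · rw [← h3] at h2
    linarith

/-! ### The flow in label form -/

/-- phase space -/
abbrev Z := R3 × R3

/-- Label flow: `Φ τ z` = state at time `τ` of the particle with label `z` (the state at time `0`),
`Ψ τ` its inverse, `a` the phase velocity, volume preserving. -/
structure LFlow (T : ℝ) (a : ℝ → Z → Z) (Φ Ψ : ℝ → Z → Z) : Prop where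
  zero : ∀ z, Φ 0 z = z
  left_inv : ∀ τ ∈ Ico 0 T, ∀ z, Ψ τ (Φ τ z) = z
  right_inv : ∀ τ ∈ Ico 0 T, ∀ w, Φ τ (Ψ τ w) = w
  cont : ∀ z, ContinuousOn (fun τ => Φ τ z) (Ico 0 T)
  deriv : ∀ τ ∈ Ioo 0 T, ∀ z, HasDerivAt (fun τ => Φ τ z) (a τ (Φ τ z)) τ
  speed : ∀ τ w, ‖(a τ w).1‖ < 1
  diff : ∀ τ ∈ Ioo 0 T, ∀ w, DifferentiableAt ℝ (fun q : ℝ × Z => Ψ q.1 q.2) (τ, w)
  det : ∀ τ ∈ Ioo 0 T, ∀ w, |(fderiv ℝ (Ψ τ) w).det| = 1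

variable {T : ℝ} {a : ℝ → Z → Z} {Φ Ψ : ℝ → Z → Z}

lemma LFlow.subL (L : LFlow T a Φ Ψ) (z : Z) : SubL T (fun τ => (Φ τ z).1) := by
  refine subL_of_deriv (v := fun τ => (a τ (Φ τ z)).1)
    (continuous_fst.comp_continuousOn (L.cont z)) (fun τ hτ => ?_) (fun τ _ => L.speed _ _)
  exact (ContinuousLinearMap.fst ℝ R3 R3).hasFDerivAt.comp_hasDerivAt τ (L.deriv τ hτ z)

/-- spatial part of the derivative of `Ψ` -/
lemma LFlow.fderiv_inr (L : LFlow T a Φ Ψ) {τ : ℝ} (hτ : τ ∈ Ioo 0 T) (w : Z) (dw : Z) :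
    fderiv ℝ (fun q : ℝ × Z => Ψ q.1 q.2) (τ, w) (0, dw) = fderiv ℝ (Ψ τ) w dw := by
  have h1 := (L.diff τ hτ w).hasFDerivAt
  have h2 : HasFDerivAt (fun w : Z => ((τ, w) : ℝ × Z)) (ContinuousLinearMap.inr ℝ ℝ Z) w :=
    hasFDerivAt_prodMk_right τ w
  have h3 := HasFDerivAt.comp w (f := fun w : Z => ((τ, w) : ℝ × Z))
    (g := fun q : ℝ × Z => Ψ q.1 q.2) h1 h2
  have h4 : HasFDerivAt (Ψ τ) ((fderiv ℝ (fun q : ℝ × Z => Ψ q.1 q.2) (τ, w)).comp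
    (ContinuousLinearMap.inr ℝ ℝ Z)) w := h3
  rw [h4.fderiv]
  simp

/-- transport identity `∂_τ Ψ = - DΨ a` -/
lemma LFlow.fderiv_one (L : LFlow T a Φ Ψ) {τ : ℝ} (hτ : τ ∈ Ioo 0 T) (w : Z) :
    fderiv ℝ (fun q : ℝ × Z => Ψ q.1 q.2) (τ, w) (1, 0) = - fderiv ℝ (Ψ τ) w (a τ w) := by
  have hτ' : τ ∈ Ico 0 T := ⟨hτ.1.le, hτ.2⟩
  set z := Ψ τ w with hz
  have hw : Φ τ z = w := L.right_inv τ hτ' w
  have h1 : HasDerivAt (fun σ => ((σ, Φ σ z) : ℝ × Z)) (1, a τ w) τ := by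
    have := (hasDerivAt_id τ).prodMk (L.deriv τ hτ z)
    rwa [hw] at this
  have h2 : HasFDerivAt (fun q : ℝ × Z => Ψ q.1 q.2)
      (fderiv ℝ (fun q : ℝ × Z => Ψ q.1 q.2) (τ, w)) (τ, Φ τ z) := by
    rw [hw]; exact (L.diff τ hτ w).hasFDerivAt
  have h3 := h2.comp_hasDerivAt τ h1
  have h4 : HasDerivAt (fun _ : ℝ => z) (fderiv ℝ (fun q : ℝ × Z => Ψ q.1 q.2) (τ, w)
      (1, a τ w)) τ := by
    refine h3.congr_of_eventuallyEq ?_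
    filter_upwards [Ioo_mem_nhds hτ.1 hτ.2] with σ hσ
    exact (L.left_inv σ ⟨hσ.1.le, hσ.2⟩ z).symm
  have h5 := h4.unique (hasDerivAt_const τ z)
  have h6 : ((1, a τ w) : ℝ × Z) = (1, 0) + (0, a τ w) := by simp
  rw [h6, map_add, L.fderiv_inr hτ] at h5
  exact eq_neg_of_add_eq_zero_left h5

/-- unit vector from the source point to the vertex -/
def nv (x₀ : R3) (y : R3) : R3 := ‖x₀ - y‖⁻¹ • (x₀ - y)

/-- `ε = 1 - n·v` -/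
def ep (a : ℝ → Z → Z) (x₀ : R3) (τ : ℝ) (w : Z) : ℝ := 1 - ⟪nv x₀ w.1, (a τ w).1⟫_ℝ

lemma norm_nv {x₀ y : R3} (h : x₀ - y ≠ 0) : ‖nv x₀ y‖ = 1 := by
  rw [nv, norm_smul, norm_inv, norm_norm, inv_mul_cancel₀ (norm_ne_zero_iff.2 h)]

lemma norm_nv_le (x₀ y : R3) : ‖nv x₀ y‖ ≤ 1 := by
  by_cases h : x₀ - y = 0
  · simp [nv, h]
  · exact (norm_nv h).le

lemma LFlow.ep_pos (L : LFlow T a Φ Ψ) (x₀ : R3) (τ : ℝ) (w : Z) : 0 < ep a x₀ τ w := by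
  have h1 : ⟪nv x₀ w.1, (a τ w).1⟫_ℝ ≤ ‖nv x₀ w.1‖ * ‖(a τ w).1‖ := real_inner_le_norm _ _
  have h2 := norm_nv_le x₀ w.1
  have h3 := L.speed τ w
  have h4 : ‖nv x₀ w.1‖ * ‖(a τ w).1‖ ≤ 1 * ‖(a τ w).1‖ :=
    mul_le_mul_of_nonneg_right h2 (norm_nonneg _)
  rw [ep]; linarith

/-- the label of the particle in the state `w` on the cone -/
def lab (Ψ : ℝ → Z → Z) (s : ℝ) (x₀ : R3) (w : Z) : Z := Ψ (s - ‖x₀ - w.1‖) w

/-- retarded time of the label `z` -/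
def rtL (Φ : ℝ → Z → Z) (s : ℝ) (x₀ : R3) (z : Z) : ℝ := rt (fun τ => (Φ τ z).1) s x₀

/-- retarded state of the label `z` -/
def hit (Φ : ℝ → Z → Z) (s : ℝ) (x₀ : R3) (z : Z) : Z := Φ (rtL Φ s x₀ z) z

lemma LFlow.rtL_lab (L : LFlow T a Φ Ψ) {s : ℝ} (hs : s ∈ Ico 0 T) {x₀ : R3} {w : Z}
    (hw : ‖x₀ - w.1‖ ≤ s) : rtL Φ s x₀ (lab Ψ s x₀ w) = s - ‖x₀ - w.1‖ := by
  have h0 : s - ‖x₀ - w.1‖ ∈ Icc 0 s := ⟨by linarith, by linarith [norm_nonneg (x₀ - w.1)]⟩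
  refine rt_eq (L.subL _) hs h0 ?_
  rw [lab, L.right_inv _ ⟨h0.1, h0.2.trans_lt hs.2⟩]
  ring

lemma LFlow.hit_lab (L : LFlow T a Φ Ψ) {s : ℝ} (hs : s ∈ Ico 0 T) {x₀ : R3} {w : Z}
    (hw : ‖x₀ - w.1‖ ≤ s) : hit Φ s x₀ (lab Ψ s x₀ w) = w := by
  have h0 : s - ‖x₀ - w.1‖ ∈ Icc 0 s := ⟨by linarith, by linarith [norm_nonneg (x₀ - w.1)]⟩
  rw [hit, L.rtL_lab hs hw, lab, L.right_inv _ ⟨h0.1, h0.2.trans_lt hs.2⟩]

lemma LFlow.lab_hit (L : LFlow T a Φ Ψ) {s : ℝ} (hs : s ∈ Ico 0 T) {x₀ : R3} {z : Z}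
    (hz : ‖x₀ - z.1‖ ≤ s) : lab Ψ s x₀ (hit Φ s x₀ z) = z ∧
      rtL Φ s x₀ z ∈ Icc 0 s ∧ rtL Φ s x₀ z + ‖x₀ - (hit Φ s x₀ z).1‖ = s := by
  have hz' : ‖x₀ - (Φ 0 z).1‖ ≤ s := by rwa [L.zero]
  obtain ⟨h1, h2⟩ := rt_spec (L.subL z) hs (x := x₀) hz'
  refine ⟨?_, h1, h2⟩
  have h3 : s - ‖x₀ - (hit Φ s x₀ z).1‖ = rtL Φ s x₀ z := by
    have : rtL Φ s x₀ z + ‖x₀ - (hit Φ s x₀ z).1‖ = s := h2
    linarith
  have h4 : rtL Φ s x₀ z ∈ Ico 0 T := ⟨h1.1, h1.2.trans_lt hs.2⟩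
  rw [lab, h3, hit, L.left_inv _ h4]

/-- the open backward cone (as a set of states), without the vertex -/
def cone (s : ℝ) (x₀ : R3) : Set Z := {w | 0 < ‖x₀ - w.1‖ ∧ ‖x₀ - w.1‖ < s}

lemma isOpen_cone (s : ℝ) (x₀ : R3) : IsOpen (cone s x₀) := by
  have : Continuous fun w : Z => ‖x₀ - w.1‖ := by fun_prop
  exact (isOpen_lt continuous_const this).inter (isOpen_lt this continuous_const)

lemma LFlow.injOn_lab (L : LFlow T a Φ Ψ) {s : ℝ} (hs : s ∈ Ico 0 T) (x₀ : R3) :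
    InjOn (lab Ψ s x₀) (cone s x₀) := by
  intro w hw w' hw' h
  rw [← L.hit_lab hs hw.2.le, ← L.hit_lab hs hw'.2.le, h]

/-- the derivative of `lab` -/
lemma LFlow.hasFDerivAt_lab (L : LFlow T a Φ Ψ) {s : ℝ} (hs : s ∈ Ico 0 T) {x₀ : R3} {w : Z}
    (hw : w ∈ cone s x₀) :
    HasFDerivAt (lab Ψ s x₀) ((fderiv ℝ (Ψ (s - ‖x₀ - w.1‖)) w).comp
      (ContinuousLinearMap.id ℝ Z - ((innerSL ℝ (nv x₀ w.1)).comp
        (ContinuousLinearMap.fst ℝ R3 R3)).smulRight (a (s - ‖x₀ - w.1‖) w))) w := by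
  set τ := s - ‖x₀ - w.1‖ with hτdef
  have hτ : τ ∈ Ioo 0 T := ⟨by linarith [hw.2], by linarith [hw.1, hs.2]⟩
  have hne : x₀ - w.1 ≠ 0 := norm_pos_iff.1 hw.1
  -- derivative of the retarded time in `w`
  have h1 : HasFDerivAt (fun w : Z => s - ‖x₀ - w.1‖)
      ((innerSL ℝ (nv x₀ w.1)).comp (ContinuousLinearMap.fst ℝ R3 R3)) w := by
    have e1 : HasFDerivAt (fun w : Z => x₀ - w.1) (-(ContinuousLinearMap.fst ℝ R3 R3)) w := by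
      simpa using (ContinuousLinearMap.fst ℝ R3 R3).hasFDerivAt.const_sub x₀
    have e2 : HasFDerivAt (fun w : Z => ‖x₀ - w.1‖)
        ((‖x₀ - w.1‖⁻¹ • innerSL ℝ (x₀ - w.1)).comp (-(ContinuousLinearMap.fst ℝ R3 R3))) w := by
      have e3 : HasFDerivAt (fun y : R3 => ‖y‖) (‖x₀ - w.1‖⁻¹ • innerSL ℝ (x₀ - w.1))
          (x₀ - w.1) := by
        have e4 := (hasStrictFDerivAt_norm_sq (x₀ - w.1)).hasFDerivAt.sqrt
          (by positivity)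
        have e5 : (fun y : R3 => √(‖y‖ ^ 2)) = fun y => ‖y‖ := by
          funext y; exact Real.sqrt_sq (norm_nonneg y)
        rw [e5, Real.sqrt_sq (norm_nonneg _)] at e4
        refine e4.congr_fderiv ?_
        have hn : ‖x₀ - w.1‖ ≠ 0 := hw.1.ne'
        refine ContinuousLinearMap.ext fun y => ?_
        simp only [smul_apply, smul_eq_mul, nsmul_eq_mul, Nat.cast_ofNat]
        field_simp
      exact e3.comp w e1
    have e6 := e2.const_sub s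
    refine e6.congr_fderiv ?_
    refine ContinuousLinearMap.ext fun dw => ?_
    simp [nv]
  have h2 : HasFDerivAt (fun w : Z => ((s - ‖x₀ - w.1‖, w) : ℝ × Z))
      (((innerSL ℝ (nv x₀ w.1)).comp (ContinuousLinearMap.fst ℝ R3 R3)).prod
        (ContinuousLinearMap.id ℝ Z)) w := h1.prodMk (hasFDerivAt_id w)
  have h3 := HasFDerivAt.comp w (g := fun q : ℝ × Z => Ψ q.1 q.2)
    (f := fun w : Z => ((s - ‖x₀ - w.1‖, w) : ℝ × Z)) (L.diff τ hτ w).hasFDerivAt h2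
  have h4 : HasFDerivAt (lab Ψ s x₀) ((fderiv ℝ (fun q : ℝ × Z => Ψ q.1 q.2) (τ, w)).comp
    (((innerSL ℝ (nv x₀ w.1)).comp (ContinuousLinearMap.fst ℝ R3 R3)).prod
        (ContinuousLinearMap.id ℝ Z))) w := h3
  refine h4.congr_fderiv ?_
  refine ContinuousLinearMap.ext fun dw => ?_
  simp only [ContinuousLinearMap.comp_apply, ContinuousLinearMap.prod_apply]
  have e1 : ((innerSL ℝ (nv x₀ w.1)) ((ContinuousLinearMap.fst ℝ R3 R3) dw),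
      (ContinuousLinearMap.id ℝ Z) dw) = (⟪nv x₀ w.1, dw.1⟫_ℝ • ((1, 0) : ℝ × Z)) + (0, dw) := by
    simp
  rw [e1, map_add, map_smul, L.fderiv_one hτ, L.fderiv_inr hτ]
  simp [sub_eq_neg_add]

lemma det_aux (A : Z →L[ℝ] Z) (l : Z →L[ℝ] ℝ) (v : Z) :
    (A.comp (ContinuousLinearMap.id ℝ Z - l.smulRight v)).det = A.det * (1 - l v) := by
  have h1 : ((ContinuousLinearMap.id ℝ Z - l.smulRight v : Z →L[ℝ] Z) : Z →ₗ[ℝ] Z)
      = LinearMap.transvection (-(l : Z →ₗ[ℝ] ℝ)) v := by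
    refine LinearMap.ext fun x => ?_
    simp [LinearMap.transvection, sub_eq_add_neg]
  have h2 : ((A.comp (ContinuousLinearMap.id ℝ Z - l.smulRight v) : Z →L[ℝ] Z) : Z →ₗ[ℝ] Z)
      = (A : Z →ₗ[ℝ] Z) ∘ₗ LinearMap.transvection (-(l : Z →ₗ[ℝ] ℝ)) v := by
    rw [← h1]; rfl
  rw [ContinuousLinearMap.det, ContinuousLinearMap.det, h2,
    LinearMap.det_comp, LinearMap.transvection.det]
  simp [sub_eq_add_neg]

/-- the Jacobian of `lab` is `ε` -/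
lemma LFlow.abs_det_lab (L : LFlow T a Φ Ψ) {s : ℝ} (hs : s ∈ Ico 0 T) {x₀ : R3} {w : Z}
    (hw : w ∈ cone s x₀) :
    |((fderiv ℝ (Ψ (s - ‖x₀ - w.1‖)) w).comp
      (ContinuousLinearMap.id ℝ Z - ((innerSL ℝ (nv x₀ w.1)).comp
        (ContinuousLinearMap.fst ℝ R3 R3)).smulRight (a (s - ‖x₀ - w.1‖) w))).det|
      = ep a x₀ (s - ‖x₀ - w.1‖) w := by
  have hτ : s - ‖x₀ - w.1‖ ∈ Ioo 0 T := ⟨by linarith [hw.2], by linarith [hw.1, hs.2]⟩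
  rw [det_aux, abs_mul, L.det _ hτ w, one_mul]
  exact abs_of_pos (L.ep_pos x₀ _ w)

/-- labels whose particle crosses the open cone (vertex excluded) -/
lemma LFlow.image_lab (L : LFlow T a Φ Ψ) {s : ℝ} (hs : s ∈ Ico 0 T) (x₀ : R3) :
    lab Ψ s x₀ '' cone s x₀ = {z | ‖x₀ - z.1‖ < s ∧ (hit Φ s x₀ z).1 ≠ x₀} := by
  ext z
  constructor
  · rintro ⟨w, hw, rfl⟩
    have h0 : s - ‖x₀ - w.1‖ ∈ Icc 0 s := ⟨by linarith [hw.2], by linarith [norm_nonneg (x₀ - w.1)]⟩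
    have hne : w.1 ≠ x₀ := fun h => by
      have := hw.1
      rw [h] at this
      simp at this
    refine ⟨?_, by rwa [L.hit_lab hs hw.2.le]⟩
    have h1 : SubL T _ := L.subL (lab Ψ s x₀ w)
    have h2 : (0 : ℝ) < s - ‖x₀ - w.1‖ := by linarith [hw.2]
    have h3 := strictMono_aux h1 x₀ (a := 0) (b := s - ‖x₀ - w.1‖)
      ⟨le_rfl, hs.1.trans_lt hs.2⟩ ⟨h0.1, h0.2.trans_lt hs.2⟩ h2
    rw [L.zero, lab, L.right_inv _ ⟨h0.1, h0.2.trans_lt hs.2⟩] at h3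
    simpa [lab] using h3
  · rintro ⟨hz, hne⟩
    obtain ⟨h1, h2, h3⟩ := L.lab_hit hs hz.le
    refine ⟨hit Φ s x₀ z, ⟨?_, ?_⟩, h1⟩
    · rw [norm_pos_iff, sub_ne_zero]; exact hne.symm
    · have h4 : 0 < rtL Φ s x₀ z := rt_pos (L.subL z) hs (by rwa [L.zero])
      linarith

/-- volume of phase space -/
local notation "vol" => (volume : Measure Z)

instance instHaarZ : (volume : Measure Z).IsAddHaarMeasure :=
  inferInstanceAs ((volume : Measure R3).prod (volume : Measure R3)).IsAddHaarMeasure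

lemma vol_fst_eq (x₀ : R3) : vol {w : Z | w.1 = x₀} = 0 := by
  have : {w : Z | w.1 = x₀} = ({x₀} : Set R3) ×ˢ (univ : Set R3) := by
    ext w; simp
  rw [this, Measure.volume_eq_prod, Measure.prod_prod]
  simp

/-- labels hitting exactly the vertex form a null set -/
lemma LFlow.vol_vertex (L : LFlow T a Φ Ψ) {s : ℝ} (hs : s ∈ Ioo 0 T) (x₀ : R3) :
    vol {z | (Φ s z).1 = x₀} = 0 := by
  have h1 : {z | (Φ s z).1 = x₀} ⊆ Ψ s '' {w : Z | w.1 = x₀} := by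
    intro z hz
    exact ⟨Φ s z, hz, L.left_inv s ⟨hs.1.le, hs.2⟩ z⟩
  refine measure_mono_null h1 ?_
  refine addHaar_image_eq_zero_of_differentiableOn_of_addHaar_eq_zero vol (fun w _ => ?_)
    (vol_fst_eq x₀)
  have := (L.diff s hs w).comp w (f := fun w : Z => ((s, w) : ℝ × Z)) (by fun_prop)
  exact this.differentiableWithinAt

lemma LFlow.hit_vertex (L : LFlow T a Φ Ψ) {s : ℝ} (hs : s ∈ Ico 0 T) {x₀ : R3} {z : Z}
    (hz : ‖x₀ - z.1‖ ≤ s) (h : (hit Φ s x₀ z).1 = x₀) : (Φ s z).1 = x₀ := by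
  obtain ⟨h1, h2, h3⟩ := L.lab_hit hs hz
  rw [h, sub_self, norm_zero, add_zero] at h3
  rwa [hit, h3] at h

lemma LFlow.ae_image (L : LFlow T a Φ Ψ) {s : ℝ} (hs : s ∈ Ioo 0 T) (x₀ : R3) :
    (lab Ψ s x₀ '' cone s x₀ : Set Z) =ᵐ[vol] {z | ‖x₀ - z.1‖ < s} := by
  have hs' : s ∈ Ico 0 T := ⟨hs.1.le, hs.2⟩
  rw [L.image_lab hs']
  have h0 : ∀ᵐ z ∂vol, (Φ s z).1 ≠ x₀ := by
    rw [ae_iff]; simpa using L.vol_vertex hs x₀
  filter_upwards [h0] with z hz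
  refine propext ⟨fun h => h.1, fun h => ⟨h, fun h' => hz ?_⟩⟩
  exact L.hit_vertex hs' (le_of_lt h) h'

lemma ae_cone {s : ℝ} (x₀ : R3) : (cone s x₀ : Set Z) =ᵐ[vol] {w | ‖x₀ - w.1‖ < s} := by
  have h0 : ∀ᵐ w ∂vol, w.1 ≠ x₀ := by
    rw [ae_iff]; simpa using vol_fst_eq x₀
  filter_upwards [h0] with w hw
  refine propext ⟨fun h => h.2, fun h => ⟨?_, h⟩⟩
  rw [norm_pos_iff, sub_ne_zero]
  exact Ne.symm hw

/-- **Cone measure, lintegral form.**  `g` arbitrary (no measurability needed). -/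
theorem LFlow.lintegral_cone (L : LFlow T a Φ Ψ) {s : ℝ} (hs : s ∈ Ioo 0 T) (x₀ : R3)
    (g : Z → ℝ≥0∞) (f0 : Z → ℝ≥0∞) :
    ∫⁻ w in {w : Z | ‖x₀ - w.1‖ < s}, g w * f0 (Ψ (s - ‖x₀ - w.1‖) w)
      = ∫⁻ z in {z : Z | ‖x₀ - z.1‖ < s}, f0 z * (g (hit Φ s x₀ z) /
          ENNReal.ofReal (ep a x₀ (rtL Φ s x₀ z) (hit Φ s x₀ z))) := by
  have hs' : s ∈ Ico 0 T := ⟨hs.1.le, hs.2⟩
  rw [← setLIntegral_congr (ae_cone x₀), ← setLIntegral_congr (L.ae_image hs x₀)]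
  rw [lintegral_image_eq_lintegral_abs_det_fderiv_mul vol (isOpen_cone s x₀).measurableSet
    (fun w hw => (L.hasFDerivAt_lab hs' hw).hasFDerivWithinAt) (L.injOn_lab hs' x₀)]
  refine setLIntegral_congr_fun (isOpen_cone s x₀).measurableSet fun w hw => ?_
  rw [L.abs_det_lab hs' hw, L.hit_lab hs' hw.2.le, L.rtL_lab hs' hw.2.le]
  have h1 : ENNReal.ofReal (ep a x₀ (s - ‖x₀ - w.1‖) w) ≠ 0 := by
    rw [Ne, ENNReal.ofReal_eq_zero, not_le]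
    exact L.ep_pos x₀ _ w
  have h2 : ENNReal.ofReal (ep a x₀ (s - ‖x₀ - w.1‖) w) ≠ ∞ := ENNReal.ofReal_ne_top
  rw [mul_left_comm, ENNReal.mul_div_cancel h1 h2, mul_comm]
  rfl

/-- **Cone measure, Bochner form.** -/
theorem LFlow.integral_cone (L : LFlow T a Φ Ψ) {V : Type*} [NormedAddCommGroup V]
    [NormedSpace ℝ V] {s : ℝ} (hs : s ∈ Ioo 0 T) (x₀ : R3)
    (g : Z → V) (f0 : Z → ℝ) :
    ∫ w in {w : Z | ‖x₀ - w.1‖ < s}, f0 (Ψ (s - ‖x₀ - w.1‖) w) • g w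
      = ∫ z in {z : Z | ‖x₀ - z.1‖ < s}, f0 z •
          ((ep a x₀ (rtL Φ s x₀ z) (hit Φ s x₀ z))⁻¹ • g (hit Φ s x₀ z)) := by
  have hs' : s ∈ Ico 0 T := ⟨hs.1.le, hs.2⟩
  rw [← setIntegral_congr_set (ae_cone x₀), ← setIntegral_congr_set (L.ae_image hs x₀)]
  rw [integral_image_eq_integral_abs_det_fderiv_smul vol (isOpen_cone s x₀).measurableSet
    (fun w hw => (L.hasFDerivAt_lab hs' hw).hasFDerivWithinAt) (L.injOn_lab hs' x₀)]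
  refine setIntegral_congr_fun (isOpen_cone s x₀).measurableSet fun w hw => ?_
  rw [L.abs_det_lab hs' hw, L.hit_lab hs' hw.2.le, L.rtL_lab hs' hw.2.le]
  have h1 : ep a x₀ (s - ‖x₀ - w.1‖) w ≠ 0 := (L.ep_pos x₀ _ w).ne'
  rw [smul_comm (ep a x₀ (s - ‖x₀ - w.1‖) w), smul_inv_smul₀ h1]
  rfl

/-- integrability on the cone in label form -/
theorem LFlow.integrableOn_cone_iff (L : LFlow T a Φ Ψ) {V : Type*} [NormedAddCommGroup V]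
    [NormedSpace ℝ V] {s : ℝ} (hs : s ∈ Ioo 0 T) (x₀ : R3)
    (g : Z → V) (f0 : Z → ℝ) :
    IntegrableOn (fun w => f0 (Ψ (s - ‖x₀ - w.1‖) w) • g w) {w : Z | ‖x₀ - w.1‖ < s}
      ↔ IntegrableOn (fun z => f0 z •
          ((ep a x₀ (rtL Φ s x₀ z) (hit Φ s x₀ z))⁻¹ • g (hit Φ s x₀ z)))
          {z : Z | ‖x₀ - z.1‖ < s} := by
  have hs' : s ∈ Ico 0 T := ⟨hs.1.le, hs.2⟩
  rw [← integrableOn_congr_set_ae (ae_cone x₀), ← integrableOn_congr_set_ae (L.ae_image hs x₀)]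
  rw [integrableOn_image_iff_integrableOn_abs_det_fderiv_smul vol
    (isOpen_cone s x₀).measurableSet
    (fun w hw => (L.hasFDerivAt_lab hs' hw).hasFDerivWithinAt) (L.injOn_lab hs' x₀)]
  refine integrableOn_congr_fun (fun w hw => ?_) (isOpen_cone s x₀).measurableSet
  rw [L.abs_det_lab hs' hw, L.hit_lab hs' hw.2.le, L.rtL_lab hs' hw.2.le]
  have h1 : ep a x₀ (s - ‖x₀ - w.1‖) w ≠ 0 := (L.ep_pos x₀ _ w).ne'
  rw [smul_comm (ep a x₀ (s - ‖x₀ - w.1‖) w), smul_inv_smul₀ h1]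
  rfl

end Crest.Agent.R106.CM
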