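import Mathlib
import Crest.Prelude.Def_VecCalc3

/-!
Row 106, module COST (change of variables `(s,y) ↦ (τ,y)`, `dτ = δ ds`), helper904.
-/

set_option autoImplicit false
open MeasureTheory Set
open scoped ENNReal
open Crest.AnalysisR.VecCalc3

namespace Crest.Agent.R106.Cost

variable {X V : ℝ → R3} {J : Set ℝ}

/-- derivative of the retarded time `θ(s) = s - |X(s) - y|` for fixed `y`. -/
theorem hasDerivWithinAt_ret {s : ℝ} {y : R3} {S : Set ℝ}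
    (hX : HasDerivWithinAt X (V s) S s) (hne : X s ≠ y) :
    HasDerivWithinAt (fun s => s - ‖X s - y‖)
      (1 - inner ℝ (‖X s - y‖⁻¹ • (X s - y)) (V s)) S s := by
  have h1 : HasDerivWithinAt (fun s => X s - y) (V s) S s := hX.sub_const y
  have h2 := h1.norm_sq
  have hpos : 0 < ‖X s - y‖ := norm_pos_iff.2 (sub_ne_zero.2 hne)
  have h3 := h2.sqrt (by positivity)
  have h4 : (fun s => Real.sqrt (‖X s - y‖ ^ 2)) = fun s => ‖X s - y‖ := by
    funext s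
    exact Real.sqrt_sq (norm_nonneg _)
  rw [h4] at h3
  have h5 := (hasDerivWithinAt_id s S).sub h3
  refine h5.congr_deriv ?_
  rw [Real.sqrt_sq (norm_nonneg _), real_inner_smul_left]
  field_simp

/-- `θ` is strictly increasing when `X` is strictly 1-Lipschitz on `J`. -/
theorem ret_strictMono {y : R3}
    (hlip : ∀ s ∈ J, ∀ t ∈ J, s < t → ‖X t - X s‖ < t - s) {s t : ℝ} (hs : s ∈ J) (ht : t ∈ J)
    (hst : s < t) : s - ‖X s - y‖ < t - ‖X t - y‖ := by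
  have h1 := hlip s hs t ht hst
  have h2 : ‖X t - y‖ ≤ ‖X t - X s‖ + ‖X s - y‖ := by
    calc ‖X t - y‖ = ‖(X t - X s) + (X s - y)‖ := by congr 1; abel
      _ ≤ _ := norm_add_le _ _
  linarith

/-- one-dimensional change of variables `s ↦ τ = s - |X(s)-y|` for fixed `y`: `ds ≤ dτ/d₁` where `δ ≥ d₁`. -/
theorem cv_one {y : R3}
    (hX : ∀ s ∈ J, HasDerivWithinAt X (V s) J s)
    (hlip : ∀ s ∈ J, ∀ t ∈ J, s < t → ‖X t - X s‖ < t - s)
    (S : Set ℝ) (hS : MeasurableSet S) (hSJ : S ⊆ J) (d₁ : ℝ) (hd₁ : 0 < d₁)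
    (hne : ∀ s ∈ S, X s ≠ y)
    (hd : ∀ s ∈ S, d₁ ≤ 1 - inner ℝ (‖X s - y‖⁻¹ • (X s - y)) (V s))
    (T : Set ℝ) (hT : ∀ s ∈ S, s - ‖X s - y‖ ∈ T) (g : ℝ → ℝ≥0∞) :
    ∫⁻ s in S, g (s - ‖X s - y‖) ≤ ENNReal.ofReal (1 / d₁) * ∫⁻ τ in T, g τ := by
  have hinj : InjOn (fun s => s - ‖X s - y‖) S := by
    intro a ha b hb hab
    simp only at hab
    rcases lt_trichotomy a b with h | h | h
    · exact absurd hab (ret_strictMono hlip (hSJ ha) (hSJ hb) h).ne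
    · exact h
    · exact absurd hab (ret_strictMono hlip (hSJ hb) (hSJ ha) h).ne'
  have hder : ∀ s ∈ S, HasDerivWithinAt (fun s => s - ‖X s - y‖)
      (1 - inner ℝ (‖X s - y‖⁻¹ • (X s - y)) (V s)) S s := fun s hs =>
    (hasDerivWithinAt_ret (hX s (hSJ hs)) (hne s hs)).mono hSJ
  have h1 := lintegral_image_eq_lintegral_abs_deriv_mul hS hder hinj g
  have h2 : ∫⁻ s in S, g (s - ‖X s - y‖) ≤ ENNReal.ofReal (1 / d₁) *
      ∫⁻ s in S, ENNReal.ofReal |1 - inner ℝ (‖X s - y‖⁻¹ • (X s - y)) (V s)| *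
        g (s - ‖X s - y‖) := by
    rw [← lintegral_const_mul' _ _ ENNReal.ofReal_ne_top]
    refine setLIntegral_mono' hS (fun s hs => ?_)
    rw [← mul_assoc, ← ENNReal.ofReal_mul (by positivity)]
    have h3 : 1 ≤ 1 / d₁ * |1 - inner ℝ (‖X s - y‖⁻¹ • (X s - y)) (V s)| := by
      have h4 := hd s hs
      rw [one_div, ← div_eq_inv_mul, le_div_iff₀ hd₁, one_mul]
      exact h4.trans (le_abs_self _)
    calc g (s - ‖X s - y‖) = 1 * g (s - ‖X s - y‖) := (one_mul _).symm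
      _ ≤ _ := by
        gcongr
        rw [← ENNReal.ofReal_one]
        exact ENNReal.ofReal_le_ofReal h3
  refine h2.trans ?_
  rw [← h1]
  gcongr
  rintro τ ⟨s, hs, rfl⟩
  exact hT s hs

/-- space-time change of variables `(s,y) ↦ (τ,y)`, integrated over `y`. -/
theorem cv_two
    (hXm : Measurable X)
    (hX : ∀ s ∈ J, HasDerivWithinAt X (V s) J s)
    (hlip : ∀ s ∈ J, ∀ t ∈ J, s < t → ‖X t - X s‖ < t - s)
    (S : Set (ℝ × R3)) (hS : MeasurableSet S) (hSJ : ∀ z ∈ S, z.1 ∈ J) (d₁ : ℝ) (hd₁ : 0 < d₁)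
    (hne : ∀ z ∈ S, X z.1 ≠ z.2)
    (hd : ∀ z ∈ S, d₁ ≤ 1 - inner ℝ (‖X z.1 - z.2‖⁻¹ • (X z.1 - z.2)) (V z.1))
    (T : Set ℝ) (hT : ∀ z ∈ S, z.1 - ‖X z.1 - z.2‖ ∈ T)
    (g : ℝ × R3 → ℝ≥0∞) (hg : Measurable g) :
    ∫⁻ z in S, g (z.1 - ‖X z.1 - z.2‖, z.2) ≤
      ENNReal.ofReal (1 / d₁) * ∫⁻ τ in T, ∫⁻ y, g (τ, y) := by
  have hmeas : Measurable (fun z : ℝ × R3 => g (z.1 - ‖X z.1 - z.2‖, z.2)) := by
    apply hg.comp
    apply Measurable.prodMk _ measurable_snd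
    exact measurable_fst.sub (((hXm.comp measurable_fst).sub measurable_snd).norm)
  rw [← lintegral_indicator hS]
  have h1 : ∫⁻ z : ℝ × R3, S.indicator (fun z => g (z.1 - ‖X z.1 - z.2‖, z.2)) z =
      ∫⁻ y : R3, ∫⁻ s : ℝ, S.indicator (fun z => g (z.1 - ‖X z.1 - z.2‖, z.2)) (s, y) := by
    rw [Measure.volume_eq_prod]
    exact lintegral_prod_symm _ (hmeas.indicator hS).aemeasurable
  rw [h1]
  have h2 : ∀ y : R3, ∫⁻ s : ℝ, S.indicator (fun z => g (z.1 - ‖X z.1 - z.2‖, z.2)) (s, y) ≤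
      ENNReal.ofReal (1 / d₁) * ∫⁻ τ in T, g (τ, y) := by
    intro y
    have hpm : Measurable (fun s : ℝ => (s, y)) := measurable_id.prodMk measurable_const
    have hSy : MeasurableSet {s : ℝ | (s, y) ∈ S} := hpm hS
    have h3 : (fun s : ℝ => S.indicator (fun z => g (z.1 - ‖X z.1 - z.2‖, z.2)) (s, y)) =
        {s : ℝ | (s, y) ∈ S}.indicator (fun s => g (s - ‖X s - y‖, y)) := by
      funext s
      by_cases hs : (s, y) ∈ S
      · rw [indicator_of_mem hs, indicator_of_mem (by exact hs)]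
      · rw [indicator_of_notMem hs, indicator_of_notMem (by exact hs)]
    rw [h3, lintegral_indicator hSy]
    have e1 : {s : ℝ | (s, y) ∈ S} ⊆ J := fun s hs => hSJ (s, y) hs
    have e2 : ∀ s ∈ {s : ℝ | (s, y) ∈ S}, X s ≠ y := fun s hs => hne (s, y) hs
    have e3 : ∀ s ∈ {s : ℝ | (s, y) ∈ S},
        d₁ ≤ 1 - inner ℝ (‖X s - y‖⁻¹ • (X s - y)) (V s) := fun s hs => hd (s, y) hs
    have e4 : ∀ s ∈ {s : ℝ | (s, y) ∈ S}, s - ‖X s - y‖ ∈ T := fun s hs => hT (s, y) hs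
    exact cv_one hX hlip {s : ℝ | (s, y) ∈ S} hSy e1 d₁ hd₁ e2 e3 T e4 (fun τ => g (τ, y))
  calc ∫⁻ y : R3, ∫⁻ s : ℝ, S.indicator (fun z => g (z.1 - ‖X z.1 - z.2‖, z.2)) (s, y)
      ≤ ∫⁻ y : R3, ENNReal.ofReal (1 / d₁) * ∫⁻ τ in T, g (τ, y) := lintegral_mono h2
    _ = ENNReal.ofReal (1 / d₁) * ∫⁻ y : R3, ∫⁻ τ in T, g (τ, y) :=
        lintegral_const_mul' _ _ ENNReal.ofReal_ne_top
    _ = ENNReal.ofReal (1 / d₁) * ∫⁻ τ in T, ∫⁻ y, g (τ, y) := by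
        have hsw := lintegral_lintegral_swap (μ := (volume : Measure R3))
          (ν := (volume : Measure ℝ).restrict T) (f := fun (y : R3) (τ : ℝ) => g (τ, y))
          (hg.comp (measurable_snd.prodMk measurable_fst)).aemeasurable
        rw [hsw]

end Crest.Agent.R106.Cost
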