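import Mathlib
import Crest.Prelude.Def_VecCalc3
import Crest.Prelude.Def_VlasovMaxwell

/-!
Row 106, module COST (analytic core), helper904.
-/

set_option autoImplicit false
open MeasureTheory Set
open scoped ENNReal
open Crest.AnalysisR.VecCalc3 Crest.AnalysisR.PDE.RVM

namespace Crest.Agent.R106.Cost

/-! ### volumes of cylinders and caps -/

/-- volume of a (solid) cylinder with unit axis `e`. -/
theorem vol_cyl (e : R3) (he : ‖e‖ = 1) (ρ r : ℝ) (hρ : 0 ≤ ρ) (hr : 0 ≤ r) :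
    volume {x : R3 | |inner ℝ e x| ≤ ρ ∧ ‖x - (inner ℝ e x) • e‖ ≤ r} ≤
      ENNReal.ofReal (8 * ρ * r ^ 2) := by
  classical
  obtain ⟨b, hb⟩ := Orthonormal.exists_orthonormalBasis_extension_of_card_eq (𝕜 := ℝ) (E := R3)
    (ι := Fin 3) (by simp) (v := fun _ => e) (s := {0}) (by
      constructor
      · intro i
        simpa using he
      · intro i j hij
        exact absurd (Subsingleton.elim i j) hij)
  have hb0 : b 0 = e := hb 0 (by simp)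
  have hmp := b.measurePreserving_repr
  have hmp2 := EuclideanSpace.volume_preserving_symm_measurableEquiv_toLp (Fin 3)
  set w : Fin 3 → ℝ := ![ρ, r, r] with hw
  have hsub : {x : R3 | |inner ℝ e x| ≤ ρ ∧ ‖x - (inner ℝ e x) • e‖ ≤ r} ⊆
      b.repr ⁻¹' ((MeasurableEquiv.toLp 2 (Fin 3 → ℝ)).symm ⁻¹'
        (Set.pi univ (fun i => Icc (-(w i)) (w i)))) := by
    intro x hx
    simp only [mem_ofPred_eq] at hx
    simp only [mem_preimage, Set.mem_pi, mem_univ, true_implies, mem_Icc]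
    have hcoord : ∀ i, (MeasurableEquiv.toLp 2 (Fin 3 → ℝ)).symm (b.repr x) i = inner ℝ (b i) x := by
      intro i
      rw [← b.repr_apply_apply]
      rfl
    have horth : ∀ i, i ≠ 0 → |inner ℝ (b i) x| ≤ r := by
      intro i hi
      have h1 : inner ℝ (b i) x = inner ℝ (b i) (x - (inner ℝ e x) • e) := by
        rw [inner_sub_right, inner_smul_right, ← hb0, b.orthonormal.2 hi]
        simp
      rw [h1]
      calc |inner ℝ (b i) (x - (inner ℝ e x) • e)| ≤ ‖b i‖ * ‖x - (inner ℝ e x) • e‖ :=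
            abs_real_inner_le_norm _ _
        _ = ‖x - (inner ℝ e x) • e‖ := by rw [b.orthonormal.1 i, one_mul]
        _ ≤ r := hx.2
    intro i
    rw [hcoord i]
    fin_cases i
    · simp only [hw, Fin.zero_eta, Matrix.cons_val_zero]
      rw [hb0]
      exact abs_le.1 hx.1
    · exact abs_le.1 (horth 1 (by decide))
    · exact abs_le.1 (horth 2 (by decide))
  have hmeas : MeasurableSet (Set.pi univ (fun i : Fin 3 => Icc (-(w i)) (w i))) :=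
    MeasurableSet.univ_pi (fun i => measurableSet_Icc)
  calc volume {x : R3 | |inner ℝ e x| ≤ ρ ∧ ‖x - (inner ℝ e x) • e‖ ≤ r}
      ≤ volume (b.repr ⁻¹' ((MeasurableEquiv.toLp 2 (Fin 3 → ℝ)).symm ⁻¹'
        (Set.pi univ (fun i => Icc (-(w i)) (w i))))) := measure_mono hsub
    _ = volume ((MeasurableEquiv.toLp 2 (Fin 3 → ℝ)).symm ⁻¹'
        (Set.pi univ (fun i => Icc (-(w i)) (w i)))) := by
        apply hmp.measure_preimage
        exact ((MeasurableEquiv.measurable _) hmeas).nullMeasurableSet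
    _ = volume (Set.pi univ (fun i => Icc (-(w i)) (w i))) := by
        apply hmp2.measure_preimage
        exact hmeas.nullMeasurableSet
    _ = ∏ i, volume (Icc (-(w i)) (w i)) := volume_pi_pi _
    _ = ENNReal.ofReal (8 * ρ * r ^ 2) := by
        simp only [Real.volume_Icc, Fin.prod_univ_three]
        simp only [hw, Matrix.cons_val_zero, Matrix.cons_val_one, Matrix.cons_val]
        rw [← ENNReal.ofReal_mul (by linarith), ← ENNReal.ofReal_mul (by nlinarith)]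
        congr 1
        ring
    _ ≤ _ := le_rfl

/-- A set contained in `{‖x‖ ≤ ρ, |x_perp|² ≤ 2a|x|²}` (with respect to the axis `e`). -/
theorem vol_of_perp (e : R3) (he : ‖e‖ = 1) (ρ a : ℝ) (hρ : 0 ≤ ρ) (ha : 0 ≤ a) :
    volume {x : R3 | ‖x‖ ≤ ρ ∧ ‖x‖ ^ 2 - (inner ℝ e x) ^ 2 ≤ 2 * a * ‖x‖ ^ 2} ≤
      ENNReal.ofReal (16 * a * ρ ^ 3) := by
  refine (measure_mono ?_).trans ((vol_cyl e he ρ (ρ * Real.sqrt (2 * a)) hρ
    (mul_nonneg hρ (Real.sqrt_nonneg _))).trans (le_of_eq ?_))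
  · intro x hx
    simp only [mem_ofPred_eq] at hx ⊢
    obtain ⟨h1, h2⟩ := hx
    constructor
    · calc |inner ℝ e x| ≤ ‖e‖ * ‖x‖ := abs_real_inner_le_norm _ _
        _ ≤ ρ := by rw [he, one_mul]; exact h1
    · have h3 : ‖x - (inner ℝ e x) • e‖ ^ 2 = ‖x‖ ^ 2 - (inner ℝ e x) ^ 2 := by
        rw [@norm_sub_sq_real, inner_smul_right, norm_smul, he, real_inner_comm e x,
          Real.norm_eq_abs, mul_one, sq_abs]
        ring
      have h4 : ‖x - (inner ℝ e x) • e‖ ^ 2 ≤ (ρ * Real.sqrt (2 * a)) ^ 2 := by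
        rw [h3, mul_pow, Real.sq_sqrt (by linarith)]
        calc ‖x‖ ^ 2 - (inner ℝ e x) ^ 2 ≤ 2 * a * ‖x‖ ^ 2 := h2
          _ ≤ 2 * a * ρ ^ 2 := by
            apply mul_le_mul_of_nonneg_left _ (by linarith)
            exact pow_le_pow_left₀ (norm_nonneg _) h1 2
          _ = ρ ^ 2 * (2 * a) := by ring
      exact le_of_sq_le_sq h4 (mul_nonneg hρ (Real.sqrt_nonneg _))
  · congr 1
    rw [mul_pow, Real.sq_sqrt (by linarith)]
    ring

/-- elementary: `|e| ≤ 1`, `w = c x`, `c|x| ≤ 1`, `1 - e·w ≤ a` forces `|x_perp|² ≤ 2a|x|²`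
for the unit axis `e/|e|` (any unit axis if `e = 0`). -/
theorem perp_of_cap (e x : R3) (he : ‖e‖ ≤ 1) (he0 : e ≠ 0) (c a : ℝ) (hc : 0 ≤ c)
    (hcx : c * ‖x‖ ≤ 1) (ha : 1 - inner ℝ e (c • x) ≤ a) :
    ‖x‖ ^ 2 - (inner ℝ (‖e‖⁻¹ • e) x) ^ 2 ≤ 2 * a * ‖x‖ ^ 2 := by
  have hen : 0 < ‖e‖ := norm_pos_iff.2 he0
  rw [inner_smul_left, inner_smul_right] at *
  simp only [conj_trivial] at *
  set t : ℝ := inner ℝ e x with ht
  have htx : |t| ≤ ‖e‖ * ‖x‖ := abs_real_inner_le_norm _ _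
  have hx0 : 0 ≤ ‖x‖ := norm_nonneg _
  by_cases ha2 : 1 / 2 ≤ a
  · nlinarith [sq_nonneg (‖e‖⁻¹ * t), sq_nonneg ‖x‖]
  · push Not at ha2
    have h1 : 1 - a ≤ c * t := by linarith
    have h2 : 0 < c * t := by linarith
    have ht0 : 0 < t := by
      by_contra hcon
      push Not at hcon
      have := mul_nonpos_of_nonneg_of_nonpos hc hcon
      linarith
    -- |x| (1-a) ≤ |x| c t ≤ t
    have h3 : ‖x‖ * (1 - a) ≤ t := by
      calc ‖x‖ * (1 - a) ≤ ‖x‖ * (c * t) := mul_le_mul_of_nonneg_left h1 hx0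
        _ = (c * ‖x‖) * t := by ring
        _ ≤ 1 * t := mul_le_mul_of_nonneg_right hcx ht0.le
        _ = t := one_mul t
    have h4 : t ≤ ‖e‖⁻¹ * t := by
      have : 1 ≤ ‖e‖⁻¹ := (one_le_inv₀ hen).2 he
      nlinarith
    have h5 : 0 ≤ ‖x‖ * (1 - a) := mul_nonneg hx0 (by linarith)
    have h6 : (‖x‖ * (1 - a)) ^ 2 ≤ (‖e‖⁻¹ * t) ^ 2 := pow_le_pow_left₀ h5 (h3.trans h4) 2
    nlinarith [sq_nonneg (a * ‖x‖), h6]

/-- cap volume in position space: `y` at distance `≤ ρ` from `X`, `1 - n·V ≤ a`,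
`n = (X-y)/|X-y|`. -/
theorem vol_cone (X V : R3) (hV : ‖V‖ ≤ 1) (ρ a : ℝ) (hρ : 0 ≤ ρ) (ha : 0 ≤ a) :
    volume {y : R3 | ‖X - y‖ ≤ ρ ∧ 1 - inner ℝ (‖X - y‖⁻¹ • (X - y)) V ≤ a} ≤
      ENNReal.ofReal (16 * a * ρ ^ 3) := by
  obtain ⟨e0, he0⟩ : ∃ e0 : R3, ‖e0‖ = 1 := ⟨EuclideanSpace.single 0 1, by simp⟩
  have key : ∃ e : R3, ‖e‖ = 1 ∧ ∀ x : R3, 1 - inner ℝ (‖x‖⁻¹ • x) V ≤ a →
      ‖x‖ ^ 2 - (inner ℝ e x) ^ 2 ≤ 2 * a * ‖x‖ ^ 2 := by
    by_cases hV0 : V = 0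
    · refine ⟨e0, he0, fun x hx => ?_⟩
      rw [hV0, inner_zero_right, sub_zero] at hx
      nlinarith [sq_nonneg (inner ℝ e0 x), sq_nonneg ‖x‖]
    · refine ⟨‖V‖⁻¹ • V, ?_, fun x hx => ?_⟩
      · rw [norm_smul, norm_inv, norm_norm, inv_mul_cancel₀ (norm_ne_zero_iff.2 hV0)]
      · apply perp_of_cap V x hV hV0 ‖x‖⁻¹ a (inv_nonneg.2 (norm_nonneg _))
        · by_cases hx0 : ‖x‖ = 0
          · simp [hx0]
          · rw [inv_mul_cancel₀ hx0]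
        · rw [real_inner_comm]; exact hx
  obtain ⟨e, he, hkey⟩ := key
  have himg : {y : R3 | ‖X - y‖ ≤ ρ ∧ 1 - inner ℝ (‖X - y‖⁻¹ • (X - y)) V ≤ a} ⊆
      (fun y => X - y) ⁻¹' {x : R3 | ‖x‖ ≤ ρ ∧ ‖x‖ ^ 2 - (inner ℝ e x) ^ 2 ≤ 2 * a * ‖x‖ ^ 2} := by
    intro y hy
    exact ⟨hy.1, hkey _ hy.2⟩
  refine (measure_mono himg).trans ?_
  have hmp : MeasurePreserving (fun y : R3 => X - y) volume volume :=
    Measure.measurePreserving_sub_left volume X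
  have hms : MeasurableSet {x : R3 | ‖x‖ ≤ ρ ∧ ‖x‖ ^ 2 - (inner ℝ e x) ^ 2 ≤ 2 * a * ‖x‖ ^ 2} := by
    have h1 : MeasurableSet {x : R3 | ‖x‖ ≤ ρ} := measurableSet_le measurable_norm measurable_const
    have h2 : MeasurableSet {x : R3 | ‖x‖ ^ 2 - (inner ℝ e x) ^ 2 ≤ 2 * a * ‖x‖ ^ 2} := by
      apply measurableSet_le
      · exact ((measurable_norm.pow_const 2).sub ((measurable_const.inner measurable_id).pow_const 2))
      · exact (measurable_norm.pow_const 2).const_mul _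
    exact h1.inter h2
  rw [hmp.measure_preimage hms.nullMeasurableSet]
  exact vol_of_perp e he ρ a hρ ha

/-- cap volume in momentum space: `|p| ≤ ρ`, `1 - e·u(p) ≤ a` where `u(p) = p/√(1+|p|²)` and `|e| ≤ 1`
(`e` may be the unit vector `n` or the velocity `V` of the test). -/
theorem vol_momcap (e : R3) (he : ‖e‖ ≤ 1) (ρ a : ℝ) (hρ : 0 ≤ ρ) (ha : 0 ≤ a) :
    volume {p : R3 | ‖p‖ ≤ ρ ∧ 1 - inner ℝ e (relVel p) ≤ a} ≤ ENNReal.ofReal (16 * a * ρ ^ 3) := by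
  obtain ⟨e0, he0⟩ : ∃ e0 : R3, ‖e0‖ = 1 := ⟨EuclideanSpace.single 0 1, by simp⟩
  have key : ∃ e' : R3, ‖e'‖ = 1 ∧ ∀ x : R3, 1 - inner ℝ e (relVel x) ≤ a →
      ‖x‖ ^ 2 - (inner ℝ e' x) ^ 2 ≤ 2 * a * ‖x‖ ^ 2 := by
    by_cases hV0 : e = 0
    · refine ⟨e0, he0, fun x hx => ?_⟩
      rw [hV0, inner_zero_left, sub_zero] at hx
      nlinarith [sq_nonneg (inner ℝ e0 x), sq_nonneg ‖x‖]
    · refine ⟨‖e‖⁻¹ • e, ?_, fun x hx => ?_⟩
      · rw [norm_smul, norm_inv, norm_norm, inv_mul_cancel₀ (norm_ne_zero_iff.2 hV0)]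
      · apply perp_of_cap e x he hV0 (Real.sqrt (1 + ‖x‖ ^ 2))⁻¹ a
          (inv_nonneg.2 (Real.sqrt_nonneg _))
        · rw [inv_mul_le_iff₀ (Real.sqrt_pos.2 (by positivity)), mul_one]
          exact Real.le_sqrt_of_sq_le (by linarith)
        · exact hx
  obtain ⟨e', he', hkey⟩ := key
  refine (measure_mono ?_).trans (vol_of_perp e' he' ρ a hρ ha)
  intro p hp
  exact ⟨hp.1, hkey _ hp.2⟩

/-- fibre bound: `∫ f 1_Ω dp ≤ F₀ · 16 a ρ³`. -/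
theorem fibre_bound (φ : R3 → ℝ≥0∞) (F₀ : ℝ≥0∞) (hφ : ∀ p, φ p ≤ F₀)
    (e : R3) (he : ‖e‖ ≤ 1) (ρ a : ℝ) (hρ : 0 ≤ ρ) (ha : 0 ≤ a) (S : Set R3)
    (hS : S ⊆ {p : R3 | ‖p‖ ≤ ρ ∧ 1 - inner ℝ e (relVel p) ≤ a}) :
    ∫⁻ p in S, φ p ≤ F₀ * ENNReal.ofReal (16 * a * ρ ^ 3) := by
  calc ∫⁻ p in S, φ p ≤ ∫⁻ p in S, F₀ := lintegral_mono hφ
    _ = F₀ * volume S := by rw [lintegral_const, Measure.restrict_apply_univ]
    _ ≤ F₀ * ENNReal.ofReal (16 * a * ρ ^ 3) := by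
      gcongr
      exact (measure_mono hS).trans (vol_momcap e he ρ a hρ ha)

end Crest.Agent.R106.Cost
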