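import Crest.Agent.R106.CostMom
import Crest.Agent.R106.MomIface

/-!
Row 106, module COST, part 4 (helper904): `OccA, OccB, OccC, CoreA, CoreB` of `MomIface` with
explicit constants, from the energy identity and the cone flux (`EnHyp`).
-/

set_option autoImplicit false
open MeasureTheory Set
open scoped ENNReal InnerProductSpace
open Crest.AnalysisR.VecCalc3 Crest.AnalysisR.PDE.RVM
open Crest.Agent.R106.GSR (gam lor)

noncomputable section

namespace Crest.Agent.R106.Cost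

open Crest.Agent.R106.Mom (IsChar kap Kg ep)

/-- what is needed from the energy identity, the cone flux and the sup bound of `f`. -/
structure EnHyp (T : ℝ) (f : ℝ → R3 → R3 → ℝ) (E B : ℝ → R3 → R3) (F₀ C₀ : ℝ) : Prop where
  F0 : 0 ≤ F₀
  C0 : 0 ≤ C₀
  fle : ∀ τ ∈ Ioo 0 T, ∀ y w, f τ y w ≤ F₀
  en : ∀ τ ∈ Ioo 0 T, ∫⁻ y, ∫⁻ w, ENNReal.ofReal (gam w * f τ y w) ≤ ENNReal.ofReal C₀
  enB : ∀ τ ∈ Ioo 0 T, ∫⁻ y, ENNReal.ofReal (‖B τ y‖ ^ 2) ≤ ENNReal.ofReal C₀
  flux : ∀ X : ℝ → R3, ∀ s ∈ Ioo 0 T,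
    (∫⁻ y in Metric.ball (X s) s, ENNReal.ofReal (Kg E B X s y ^ 2 / 2)) +
      (∫⁻ q, ENNReal.ofReal (ep X s q.1 q.2 * gam q.2) ∂(kap f X s)) ≤ ENNReal.ofReal C₀

theorem gam_pos (w : R3) : 0 < gam w := by
  unfold gam
  exact Real.sqrt_pos.2 (by positivity)

section char
variable {T : ℝ} {f : ℝ → R3 → R3 → ℝ} {E B : ℝ → R3 → R3} {X p : ℝ → R3}

theorem exV_eq {s : ℝ} (hs : s ∈ Ioo 0 T) : exV T p s = relVel (p s) := by
  unfold exV
  rw [ex_eq hs]

theorem ex_hasDerivWithinAt (hc : IsChar T f E B X p) {J : Set ℝ} (hJ : J ⊆ Ioo 0 T) :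
    ∀ s ∈ J, HasDerivWithinAt (ex T X) (exV T p s) J s := by
  intro s hs
  have h1 := hc.dX s (hJ hs)
  rw [exV_eq (hJ hs)]
  have h2 : (ex T X) =ᶠ[nhds s] X := by
    filter_upwards [isOpen_Ioo.mem_nhds (hJ hs)] with t ht
    exact ex_eq ht
  exact (h1.congr_of_eventuallyEq h2).hasDerivWithinAt

theorem relVel_continuous : Continuous relVel := by
  unfold relVel
  have h1 : Continuous (fun v : R3 => Real.sqrt (1 + ‖v‖ ^ 2)) :=
    Real.continuous_sqrt.comp (continuous_const.add (continuous_norm.pow 2))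
  exact (h1.inv₀ (fun v => (Real.sqrt_pos.2 (by positivity)).ne')).smul continuous_id

theorem char_strictLip (hc : IsChar T f E B X p) {J : Set ℝ} (hJ : J ⊆ Ioo 0 T) :
    ∀ s ∈ J, ∀ t ∈ J, s < t → ‖ex T X t - ex T X s‖ < t - s := by
  intro s hs t ht hst
  rw [ex_eq (hJ hs), ex_eq (hJ ht)]
  have hsub : Icc s t ⊆ Ioo 0 T := fun r hr => ⟨(hJ hs).1.trans_le hr.1, hr.2.trans_lt (hJ ht).2⟩
  have hcont : ContinuousOn (fun r => ‖relVel (p r)‖) (Icc s t) :=
    (relVel_continuous.comp_continuousOn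
      (hc.cp.mono (hsub.trans Ioo_subset_Ico_self))).norm
  obtain ⟨r, hr, hmax⟩ := isCompact_Icc.exists_isMaxOn (nonempty_Icc.2 hst.le) hcont
  refine strictLip_of_speed (X := X) (V := fun r => relVel (p r)) (c := ‖relVel (p r)‖)
    (norm_relVel_lt _) (fun q hq => (hc.dX q (hsub hq)).hasDerivWithinAt)
    (fun q hq => hmax hq) s ⟨le_rfl, hst.le⟩ t ⟨hst.le, le_rfl⟩ hst

end char

section main
variable {T : ℝ} {f : ℝ → R3 → R3 → ℝ} {E B : ℝ → R3 → R3} {F₀ C₀ : ℝ}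

/-- (a), explicit constant. -/
theorem occA' (hf : ContinuousOn (fun q : ℝ × R3 × R3 => f q.1 q.2.1 q.2.2) (Iio T ×ˢ univ))
    (h : EnHyp T f E B F₀ C₀) {X p : ℝ → R3} (hc : IsChar T f E B X p)
    {R1 d1 e1 D1 Q1 : ℝ} (hR : 0 < R1) (hd : 0 < d1) (he : 0 < e1) (hD : 0 < D1) (hQ : 0 < Q1)
    {s : ℝ} (hs : s ∈ Ioo 0 T) :
    kap f X s (Mom.shell X p R1 d1 e1 D1 Q1 s) ≤
      ENNReal.ofReal ((2 ^ 16 * F₀) * (R1 ^ 3 * d1 * Q1 ^ 3 * min e1 D1)) := by
  rw [kap_shell hf hc.cX hc.cp hs]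
  refine (mus_le_a (ENNReal.ofReal F₀) (gd_le h.fle) exV_le hR.le hd.le he.le hD.le hQ.le s).trans
    (le_of_eq ?_)
  rw [← ENNReal.ofReal_mul h.F0]
  congr 1
  ring

/-- (b), explicit constant. -/
theorem occB' (h : EnHyp T f E B F₀ C₀) {X p : ℝ → R3} (hc : IsChar T f E B X p)
    {R1 d1 e1 D1 Q1 : ℝ} (he : 0 < e1) (hQ : 0 < Q1)
    {s : ℝ} (hs : s ∈ Ioo 0 T) :
    kap f X s (Mom.shell X p R1 d1 e1 D1 Q1 s) ≤ ENNReal.ofReal (C₀ * (1 / (Q1 * e1))) := by
  have hA := momShell_measurableSet hc.cX hc.cp hs R1 d1 e1 D1 Q1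
  have h1 : kap f X s (Mom.shell X p R1 d1 e1 D1 Q1 s) =
      ∫⁻ q in Mom.shell X p R1 d1 e1 D1 Q1 s, 1 ∂(kap f X s) := by
    rw [lintegral_const, Measure.restrict_apply_univ, one_mul]
  rw [h1]
  have h2 : ∫⁻ q in Mom.shell X p R1 d1 e1 D1 Q1 s, 1 ∂(kap f X s) ≤
      ∫⁻ q in Mom.shell X p R1 d1 e1 D1 Q1 s, ENNReal.ofReal (1 / (Q1 * e1)) *
        ENNReal.ofReal (ep X s q.1 q.2 * gam q.2) ∂(kap f X s) := by
    refine setLIntegral_mono' hA (fun q hq => ?_)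
    rw [← ENNReal.ofReal_mul (by positivity), ← ENNReal.ofReal_one]
    refine ENNReal.ofReal_le_ofReal ?_
    rw [one_div, ← div_eq_inv_mul, le_div_iff₀ (by positivity), one_mul, mul_comm Q1 e1]
    exact mul_le_mul hq.2.2.1.1 hq.2.2.2.2.1 hQ.le (he.le.trans hq.2.2.1.1)
  refine h2.trans ?_
  rw [lintegral_const_mul' _ _ ENNReal.ofReal_ne_top]
  calc ENNReal.ofReal (1 / (Q1 * e1)) * ∫⁻ q in Mom.shell X p R1 d1 e1 D1 Q1 s,
        ENNReal.ofReal (ep X s q.1 q.2 * gam q.2) ∂(kap f X s)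
      ≤ ENNReal.ofReal (1 / (Q1 * e1)) *
        ∫⁻ q, ENNReal.ofReal (ep X s q.1 q.2 * gam q.2) ∂(kap f X s) := by
        gcongr
        exact Measure.restrict_le_self
    _ ≤ ENNReal.ofReal (1 / (Q1 * e1)) * ENNReal.ofReal C₀ := by
        gcongr
        exact le_trans le_add_self (h.flux X s hs)
    _ = ENNReal.ofReal (C₀ * (1 / (Q1 * e1))) := by
        rw [← ENNReal.ofReal_mul (by positivity), mul_comm]

theorem setLIntegral_Icc_Ioo (a b : ℝ) (φ : ℝ → ℝ≥0∞) :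
    ∫⁻ s in Icc a b, φ s = ∫⁻ s in Ioo a b, φ s :=
  setLIntegral_congr Ioo_ae_eq_Icc.symm

/-- (c), explicit constant. -/
theorem occC' (hf : ContinuousOn (fun q : ℝ × R3 × R3 => f q.1 q.2.1 q.2.2) (Iio T ×ˢ univ))
    (h : EnHyp T f E B F₀ C₀) {X p : ℝ → R3} (hc : IsChar T f E B X p)
    {R1 d1 e1 D1 Q1 : ℝ} (hR : 0 < R1) (hd : 0 < d1) (hQ : 0 < Q1)
    {a b : ℝ} (ha : 0 ≤ a) (hab : a ≤ b) (hb : b < T) :
    ∫⁻ s in Icc a b, kap f X s (Mom.shell X p R1 d1 e1 D1 Q1 s) ≤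
      ENNReal.ofReal ((2 * C₀) * ((b - a + R1) / (Q1 * d1))) := by
  have hJ : Ioo a b ⊆ Ioo 0 T := Ioo_subset_Ioo ha hb.le
  rw [setLIntegral_Icc_Ioo]
  have h1 : ∫⁻ s in Ioo a b, kap f X s (Mom.shell X p R1 d1 e1 D1 Q1 s) =
      mu (ex T X) (gd T f) (Ioo a b) (shell (ex T X) (exV T p) R1 d1 e1 D1 Q1) := by
    unfold mu
    refine setLIntegral_congr_fun measurableSet_Ioo (fun s hs => ?_)
    exact kap_shell hf hc.cX hc.cp (hJ hs) R1 d1 e1 D1 Q1
  rw [h1]
  have hE : ∀ τ, ∫⁻ y, ∫⁻ w, ENNReal.ofReal (gam w) * gd T f τ y w ≤ ENNReal.ofReal C₀ := by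
    intro τ
    by_cases hτ : τ ∈ Ioo 0 T
    · refine le_trans (le_of_eq ?_) (h.en τ hτ)
      refine lintegral_congr (fun y => lintegral_congr (fun w => ?_))
      unfold gd
      rw [indicator_of_mem hτ, ← ENNReal.ofReal_mul (gam_pos w).le]
    · have h0 : ∀ y w, ENNReal.ofReal (gam w) * gd T f τ y w = 0 := by
        intro y w
        unfold gd
        rw [indicator_of_notMem hτ, mul_zero]
      simp only [h0, lintegral_zero, zero_le]
  refine (mu_le_c (ex_measurable hc.cX) (exV_measurable hc.cp) measurableSet_Ioo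
    Ioo_subset_Icc_self (ex_hasDerivWithinAt hc hJ) (char_strictLip hc hJ) (gd_measurable hf)
    hR hd hQ (ENNReal.ofReal C₀) hE).trans ?_
  rw [← ENNReal.ofReal_mul (by
    have : 0 ≤ b - a := sub_nonneg.2 hab
    positivity)]
  refine ENNReal.ofReal_le_ofReal ?_
  have h2 : 0 ≤ b - a := sub_nonneg.2 hab
  have h3 : (b - a + 2 * R1) / (Q1 * d1) ≤ 2 * ((b - a + R1) / (Q1 * d1)) := by
    rw [← mul_div_assoc]
    gcongr
    linarith
  nlinarith [h.C0]

/-- (A), explicit constant. -/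
theorem coreA' (hf : ContinuousOn (fun q : ℝ × R3 × R3 => f q.1 q.2.1 q.2.2) (Iio T ×ˢ univ))
    (hE : ContinuousOn (fun q : ℝ × R3 => E q.1 q.2) (Iio T ×ˢ univ))
    (hB : ContinuousOn (fun q : ℝ × R3 => B q.1 q.2) (Iio T ×ˢ univ))
    (h : EnHyp T f E B F₀ C₀) {X p : ℝ → R3} (hc : IsChar T f E B X p)
    {R1 d1 e1 D1 Q1 : ℝ} (he : 0 < e1) (hD : 0 < D1) (hQ : 0 < Q1)
    {s : ℝ} (hs : s ∈ Ioo 0 T) :
    (∫⁻ q in Mom.shell X p R1 d1 e1 D1 Q1 s, ENNReal.ofReal (Kg E B X s q.1) ∂(kap f X s)) ^ 2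
      ≤ ENNReal.ofReal ((512 * F₀ * C₀) * (Q1 ^ 3 * min e1 D1)) *
        kap f X s (Mom.shell X p R1 d1 e1 D1 Q1 s) := by
  -- measurability of `Kg` in `y`
  have _hpt : Measurable (fun y : R3 => ((s - ‖X s - y‖, y) : ℝ × R3)) :=
    (measurable_const.sub (measurable_const.sub measurable_id).norm).prodMk measurable_id
  have hptI : ∀ y : R3, ((s - ‖X s - y‖, y) : ℝ × R3) ∈ (Iio T ×ˢ univ : Set (ℝ × R3)) :=
    fun y => ⟨by
      have := norm_nonneg (X s - y)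
      have := hs.2
      simp only [mem_Iio]
      linarith, mem_univ _⟩
  have hptc : Continuous (fun y : R3 => ((s - ‖X s - y‖, y) : ℝ × R3)) :=
    (continuous_const.sub (continuous_const.sub continuous_id).norm).prodMk continuous_id
  have hEy : Measurable (fun y : R3 => E (s - ‖X s - y‖) y) := by
    have h0 : Continuous (fun y : R3 => E (s - ‖X s - y‖) y) :=
      hE.comp_continuous hptc hptI
    exact h0.measurable
  have hBy : Measurable (fun y : R3 => B (s - ‖X s - y‖) y) := by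
    have h0 : Continuous (fun y : R3 => B (s - ‖X s - y‖) y) :=
      hB.comp_continuous hptc hptI
    exact h0.measurable
  have hny : Measurable (fun y : R3 => Mom.nn X s y) := by
    unfold Mom.nn
    exact ((measurable_const.sub measurable_id).norm.inv).smul (measurable_const.sub measurable_id)
  have hcr : Measurable (fun y : R3 => cross3 (Mom.nn X s y) (E (s - ‖X s - y‖) y)) := by
    have hcc : Continuous (fun z : R3 × R3 => cross3 z.1 z.2) := by
      unfold cross3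
      refine (PiLp.continuous_toLp 2 _).comp ?_
      refine continuous_pi (fun i => ?_)
      fin_cases i <;> simp <;> fun_prop
    have h0 := hcc.measurable.comp (hny.prodMk hEy)
    exact h0
  have hKm : Measurable (fun y : R3 => ENNReal.ofReal (Kg E B X s y)) := by
    have m1 : Measurable (fun y : R3 => ⟪Mom.nn X s y, E (s - ‖X s - y‖) y⟫_ℝ ^ 2) :=
      (hny.inner hEy).pow_const 2
    have m0 : Measurable (fun y : R3 => ⟪Mom.nn X s y, B (s - ‖X s - y‖) y⟫_ℝ) := hny.inner hBy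
    have m2 : Measurable (fun y : R3 => ⟪Mom.nn X s y, B (s - ‖X s - y‖) y⟫_ℝ ^ 2) :=
      m0.pow_const 2
    have m3 : Measurable (fun y : R3 => ⟪Mom.nn X s y, B (s - ‖X s - y‖) y⟫_ℝ • Mom.nn X s y) :=
      m0.smul hny
    have m4 : Measurable (fun y : R3 => B (s - ‖X s - y‖) y -
        ⟪Mom.nn X s y, B (s - ‖X s - y‖) y⟫_ℝ • Mom.nn X s y -
          cross3 (Mom.nn X s y) (E (s - ‖X s - y‖) y)) := (hBy.sub m3).sub hcr
    have m5 : Measurable (fun y : R3 => ‖B (s - ‖X s - y‖) y -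
        ⟪Mom.nn X s y, B (s - ‖X s - y‖) y⟫_ℝ • Mom.nn X s y -
          cross3 (Mom.nn X s y) (E (s - ‖X s - y‖) y)‖ ^ 2) := m4.norm.pow_const 2
    have m6 : Measurable (fun y : R3 => Kg E B X s y) :=
      Real.continuous_sqrt.measurable.comp ((m1.add m2).add m5)
    exact m6.ennreal_ofReal
  set K : R3 → ℝ≥0∞ := (Metric.ball (X s) s).indicator
    (fun y => ENNReal.ofReal (Kg E B X s y)) with hKdef
  have hKm' : Measurable K := hKm.indicator Metric.isOpen_ball.measurableSet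
  have hrw1 : ∫⁻ q in Mom.shell X p R1 d1 e1 D1 Q1 s, ENNReal.ofReal (Kg E B X s q.1) ∂(kap f X s) =
      ∫⁻ y, K y * ∫⁻ w, sden (ex T X) (gd T f)
        (shell (ex T X) (exV T p) R1 d1 e1 D1 Q1) s y w := by
    rw [lintegral_shell hf hc.cX hc.cp hs R1 d1 e1 D1 Q1
      (fun y => ENNReal.ofReal (Kg E B X s y)) hKm]
    refine lintegral_congr (fun y => ?_)
    by_cases hy : y ∈ Metric.ball (X s) s
    · rw [hKdef, indicator_of_mem hy]
    · have h1 : s ≤ ‖X s - y‖ := by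
        by_contra hcon
        push Not at hcon
        apply hy
        rw [Metric.mem_ball, dist_comm, dist_eq_norm]
        exact hcon
      have h0 : ∀ w, sden (ex T X) (gd T f) (shell (ex T X) (exV T p) R1 d1 e1 D1 Q1) s y w = 0 := by
        intro w
        unfold sden
        by_cases hw : (s, y, w) ∈ shell (ex T X) (exV T p) R1 d1 e1 D1 Q1
        · rw [indicator_of_mem hw]
          unfold cden ret gd
          rw [indicator_of_notMem]
          intro h3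
          have h4 := h3.1
          simp only [ex_eq hs] at h4
          linarith
        · rw [indicator_of_notMem hw]
      simp only [h0, lintegral_zero, mul_zero]
  have hK2 : ∫⁻ y, K y ^ (2 : ℝ) ≤ ENNReal.ofReal (2 * C₀) := by
    have e2 : ∫⁻ y, K y ^ (2 : ℝ) =
        2 * ∫⁻ y in Metric.ball (X s) s, ENNReal.ofReal (Kg E B X s y ^ 2 / 2) := by
      rw [← lintegral_indicator Metric.isOpen_ball.measurableSet,
        ← lintegral_const_mul' _ _ (by norm_num)]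
      refine lintegral_congr (fun y => ?_)
      by_cases hy : y ∈ Metric.ball (X s) s
      · rw [hKdef, indicator_of_mem hy, indicator_of_mem hy]
        have h5 : (0 : ℝ) ≤ Kg E B X s y := by
          unfold Kg
          exact Real.sqrt_nonneg _
        rw [ENNReal.rpow_two, ← ENNReal.ofReal_pow h5]
        rw [show (2 : ℝ≥0∞) = ENNReal.ofReal 2 by norm_num, ← ENNReal.ofReal_mul (by norm_num)]
        congr 1
        ring
      · rw [hKdef, indicator_of_notMem hy, indicator_of_notMem hy, mul_zero]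
        exact ENNReal.zero_rpow_of_pos (by norm_num)
    rw [e2, ENNReal.ofReal_mul (by norm_num), show ENNReal.ofReal 2 = 2 by norm_num]
    gcongr
    exact le_trans le_self_add (h.flux X s hs)
  have hA := costA_pt (X := ex T X) (V := exV T p) (ex_measurable hc.cX) (exV_measurable hc.cp)
    (gd_measurable (T := T) hf) (ENNReal.ofReal F₀) (gd_le h.fle) exV_le
    (R1 := R1) (d1 := d1) (e1 := e1) (D1 := D1) (Q := Q1) he.le hD.le hQ.le s K hKm'
    (ENNReal.ofReal (2 * C₀)) hK2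
  rw [hrw1, ← ENNReal.rpow_two, kap_shell hf hc.cX hc.cp hs]
  refine hA.trans (le_of_eq ?_)
  rw [← mul_assoc, ← ENNReal.ofReal_mul h.F0, ← ENNReal.ofReal_mul (by linarith [h.C0])]
  congr 2
  ring

/-- (B), explicit constant. -/
theorem coreB' (hf : ContinuousOn (fun q : ℝ × R3 × R3 => f q.1 q.2.1 q.2.2) (Iio T ×ˢ univ))
    (hB : ContinuousOn (fun q : ℝ × R3 => B q.1 q.2) (Iio T ×ˢ univ))
    (h : EnHyp T f E B F₀ C₀) {X p : ℝ → R3} (hc : IsChar T f E B X p)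
    {R1 d1 e1 D1 Q1 : ℝ} (hR : 0 < R1) (hd : 0 < d1) (he : 0 < e1) (hD : 0 < D1) (hQ : 0 < Q1)
    {a b : ℝ} (ha : 0 ≤ a) (hab : a ≤ b) (hb : b < T) :
    (∫⁻ s in Icc a b, ∫⁻ q in Mom.shell X p R1 d1 e1 D1 Q1 s,
        ENNReal.ofReal ‖B (Mom.ret X s q.1) q.1‖ ∂(kap f X s)) ^ 2
      ≤ ENNReal.ofReal ((512 * F₀ * C₀) * ((b - a + R1) / d1 * (Q1 ^ 3 * min e1 D1))) *
        ∫⁻ s in Icc a b, kap f X s (Mom.shell X p R1 d1 e1 D1 Q1 s) := by
  have hJ : Ioo a b ⊆ Ioo 0 T := Ioo_subset_Ioo ha hb.le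
  rw [setLIntegral_Icc_Ioo, setLIntegral_Icc_Ioo]
  have h1 : ∫⁻ s in Ioo a b, kap f X s (Mom.shell X p R1 d1 e1 D1 Q1 s) =
      mu (ex T X) (gd T f) (Ioo a b) (shell (ex T X) (exV T p) R1 d1 e1 D1 Q1) := by
    unfold mu
    refine setLIntegral_congr_fun measurableSet_Ioo (fun s hs => ?_)
    exact kap_shell hf hc.cX hc.cp (hJ hs) R1 d1 e1 D1 Q1
  set Bf : ℝ × R3 → ℝ≥0∞ := {z : ℝ × R3 | z.1 ∈ Ioo 0 T}.indicator
    (fun z => ENNReal.ofReal ‖B z.1 z.2‖) with hBf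
  have hBfm : Measurable Bf := by
    refine measurable_indicator_of_continuousOn (measurable_fst measurableSet_Ioo) ?_
    have h0 : ContinuousOn (fun z : ℝ × R3 => B z.1 z.2) {z : ℝ × R3 | z.1 ∈ Ioo 0 T} :=
      hB.mono (fun z hz => ⟨hz.2, mem_univ _⟩)
    exact ENNReal.continuous_ofReal.comp_continuousOn h0.norm
  have hrw1 : ∫⁻ s in Ioo a b, ∫⁻ q in Mom.shell X p R1 d1 e1 D1 Q1 s,
      ENNReal.ofReal ‖B (Mom.ret X s q.1) q.1‖ ∂(kap f X s) =
      ∫⁻ s in Ioo a b, ∫⁻ y, Bf (ret (ex T X) s y, y) * ∫⁻ w, sden (ex T X) (gd T f)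
        (shell (ex T X) (exV T p) R1 d1 e1 D1 Q1) s y w := by
    refine setLIntegral_congr_fun measurableSet_Ioo (fun s hs => ?_)
    have hs' := hJ hs
    have hptc : Continuous (fun y : R3 => ((s - ‖X s - y‖, y) : ℝ × R3)) :=
      (continuous_const.sub (continuous_const.sub continuous_id).norm).prodMk continuous_id
    have hptI : ∀ y : R3, ((s - ‖X s - y‖, y) : ℝ × R3) ∈ (Iio T ×ˢ univ : Set (ℝ × R3)) :=
      fun y => ⟨by
        have := norm_nonneg (X s - y)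
        have := hs'.2
        simp only [mem_Iio]
        linarith, mem_univ _⟩
    have hKm : Measurable (fun y : R3 => ENNReal.ofReal ‖B (Mom.ret X s y) y‖) := by
      have h0 : Continuous (fun y : R3 => B (s - ‖X s - y‖) y) :=
        hB.comp_continuous hptc hptI
      exact (ENNReal.continuous_ofReal.comp h0.norm).measurable
    have h2 := lintegral_shell hf hc.cX hc.cp hs' R1 d1 e1 D1 Q1
      (fun y => ENNReal.ofReal ‖B (Mom.ret X s y) y‖) hKm
    refine h2.trans ?_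
    refine lintegral_congr (fun y => ?_)
    by_cases hy : s - ‖X s - y‖ ∈ Ioo 0 T
    · have h3 : ((ret (ex T X) s y, y) : ℝ × R3) ∈ {z : ℝ × R3 | z.1 ∈ Ioo 0 T} := by
        unfold ret
        rw [ex_eq hs']
        exact hy
      rw [hBf, indicator_of_mem h3]
      unfold ret Mom.ret
      simp only [ex_eq hs']
    · have h0 : ∀ w, sden (ex T X) (gd T f) (shell (ex T X) (exV T p) R1 d1 e1 D1 Q1) s y w = 0 := by
        intro w
        unfold sden
        by_cases hw : (s, y, w) ∈ shell (ex T X) (exV T p) R1 d1 e1 D1 Q1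
        · rw [indicator_of_mem hw]
          unfold cden ret gd
          simp only [ex_eq hs']
          exact indicator_of_notMem hy _
        · rw [indicator_of_notMem hw]
      simp only [h0, lintegral_zero, mul_zero]
  have hE : ∀ τ, ∫⁻ y, Bf (τ, y) ^ (2 : ℝ) ≤ ENNReal.ofReal C₀ := by
    intro τ
    by_cases hτ : τ ∈ Ioo 0 T
    · refine le_trans (le_of_eq ?_) (h.enB τ hτ)
      refine lintegral_congr (fun y => ?_)
      have h3 : ((τ, y) : ℝ × R3) ∈ {z : ℝ × R3 | z.1 ∈ Ioo 0 T} := hτ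
      rw [hBf, indicator_of_mem h3, ENNReal.rpow_two, ← ENNReal.ofReal_pow (norm_nonneg _)]
    · have h0 : ∀ y, Bf (τ, y) ^ (2 : ℝ) = 0 := by
        intro y
        have h3 : ((τ, y) : ℝ × R3) ∉ {z : ℝ × R3 | z.1 ∈ Ioo 0 T} := hτ
        rw [hBf, indicator_of_notMem h3]
        exact ENNReal.zero_rpow_of_pos (by norm_num)
      simp only [h0, lintegral_zero, zero_le]
  have hmain := costB_int (X := ex T X) (V := exV T p) (ex_measurable hc.cX)
    (exV_measurable hc.cp) measurableSet_Ioo Ioo_subset_Icc_self (ex_hasDerivWithinAt hc hJ)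
    (char_strictLip hc hJ) (gd_measurable (T := T) hf) (ENNReal.ofReal F₀) (gd_le h.fle) exV_le
    (R1 := R1) (d1 := d1) (e1 := e1) (D1 := D1) (Q := Q1) hR hd he.le hD.le hQ.le Bf hBfm
    (ENNReal.ofReal C₀) hE
  rw [hrw1, h1]
  have hba : 0 ≤ b - a := sub_nonneg.2 hab
  have hmin : 0 < min e1 D1 := lt_min he hD
  calc (∫⁻ s in Ioo a b, ∫⁻ y, Bf (ret (ex T X) s y, y) * ∫⁻ w, sden (ex T X) (gd T f)
        (shell (ex T X) (exV T p) R1 d1 e1 D1 Q1) s y w) ^ 2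
      ≤ ((ENNReal.ofReal ((b - a + 2 * R1) / d1) * ENNReal.ofReal C₀) ^ (1 / (2 : ℝ)) *
        (ENNReal.ofReal F₀ * ENNReal.ofReal (256 * Q1 ^ 3 * min e1 D1) *
          mu (ex T X) (gd T f) (Ioo a b)
            (shell (ex T X) (exV T p) R1 d1 e1 D1 Q1)) ^ (1 / (2 : ℝ))) ^ 2 := by
        gcongr
    _ = (ENNReal.ofReal ((b - a + 2 * R1) / d1) * ENNReal.ofReal C₀) *
        (ENNReal.ofReal F₀ * ENNReal.ofReal (256 * Q1 ^ 3 * min e1 D1) *
          mu (ex T X) (gd T f) (Ioo a b)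
            (shell (ex T X) (exV T p) R1 d1 e1 D1 Q1)) := by
        rw [← ENNReal.rpow_two, ENNReal.mul_rpow_of_nonneg _ _ (by norm_num : (0 : ℝ) ≤ 2),
          rpow_half_two, rpow_half_two]
    _ = ENNReal.ofReal ((b - a + 2 * R1) / d1 * C₀ * (F₀ * (256 * Q1 ^ 3 * min e1 D1))) *
          mu (ex T X) (gd T f) (Ioo a b) (shell (ex T X) (exV T p) R1 d1 e1 D1 Q1) := by
        rw [← ENNReal.ofReal_mul (by positivity), ← ENNReal.ofReal_mul h.F0, ← mul_assoc,
          ← ENNReal.ofReal_mul (mul_nonneg (by positivity) h.C0)]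
    _ ≤ ENNReal.ofReal ((512 * F₀ * C₀) * ((b - a + R1) / d1 * (Q1 ^ 3 * min e1 D1))) *
          mu (ex T X) (gd T f) (Ioo a b) (shell (ex T X) (exV T p) R1 d1 e1 D1 Q1) := by
        refine mul_le_mul' (ENNReal.ofReal_le_ofReal ?_) le_rfl
        have h3 : (b - a + 2 * R1) / d1 ≤ 2 * ((b - a + R1) / d1) := by
          rw [← mul_div_assoc]
          gcongr
          linarith
        have h4 : 0 ≤ C₀ * (F₀ * (256 * Q1 ^ 3 * min e1 D1)) :=
          mul_nonneg h.C0 (mul_nonneg h.F0 (by positivity))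
        calc (b - a + 2 * R1) / d1 * C₀ * (F₀ * (256 * Q1 ^ 3 * min e1 D1))
            = (b - a + 2 * R1) / d1 * (C₀ * (F₀ * (256 * Q1 ^ 3 * min e1 D1))) := by ring
          _ ≤ 2 * ((b - a + R1) / d1) * (C₀ * (F₀ * (256 * Q1 ^ 3 * min e1 D1))) :=
              mul_le_mul_of_nonneg_right h3 h4
          _ = (512 * F₀ * C₀) * ((b - a + R1) / d1 * (Q1 ^ 3 * min e1 D1)) := by ring

/-- the five Props of `MomIface`. -/
theorem cost_all (hf : ContinuousOn (fun q : ℝ × R3 × R3 => f q.1 q.2.1 q.2.2) (Iio T ×ˢ univ))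
    (hE : ContinuousOn (fun q : ℝ × R3 => E q.1 q.2) (Iio T ×ˢ univ))
    (hB : ContinuousOn (fun q : ℝ × R3 => B q.1 q.2) (Iio T ×ˢ univ))
    (h : EnHyp T f E B F₀ C₀) :
    Mom.OccA T f E B ∧ Mom.OccB T f E B ∧ Mom.OccC T f E B ∧ Mom.CoreA T f E B ∧
      Mom.CoreB T f E B := by
  refine ⟨⟨2 ^ 16 * F₀, mul_nonneg (by norm_num) h.F0, ?_⟩, ⟨C₀, h.C0, ?_⟩,
    ⟨2 * C₀, mul_nonneg (by norm_num) h.C0, ?_⟩,
    ⟨512 * F₀ * C₀, mul_nonneg (mul_nonneg (by norm_num) h.F0) h.C0, ?_⟩,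
    ⟨512 * F₀ * C₀, mul_nonneg (mul_nonneg (by norm_num) h.F0) h.C0, ?_⟩⟩
  · intro X p hc R1 d1 e1 D1 Q1 hR hd he hD hQ s hs
    exact occA' hf h hc hR hd he hD hQ hs
  · intro X p hc R1 d1 e1 D1 Q1 hR hd he hD hQ s hs
    exact occB' h hc he hQ hs
  · intro X p hc R1 d1 e1 D1 Q1 hR hd he hD hQ a b ha hab hb
    exact occC' hf h hc hR hd hQ ha hab hb
  · intro X p hc R1 d1 e1 D1 Q1 hR hd he hD hQ s hs
    exact coreA' hf hE hB h hc he hD hQ hs
  · intro X p hc R1 d1 e1 D1 Q1 hR hd he hD hQ a b ha hab hb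
    exact coreB' hf hB h hc hR hd he hD hQ ha hab hb

/-- the five Props of `MomIface` for a solution of the class `Mom.SmoothSol`. -/
theorem cost_sol {f₀ : R3 → R3 → ℝ} {E₀ B₀ : R3 → R3} (hs : Mom.SmoothSol T f₀ E₀ B₀ f E B)
    (h : EnHyp T f E B F₀ C₀) :
    Mom.OccA T f E B ∧ Mom.OccB T f E B ∧ Mom.OccC T f E B ∧ Mom.CoreA T f E B ∧
      Mom.CoreB T f E B :=
  cost_all hs.smf.continuousOn hs.smE.continuousOn hs.smB.continuousOn h

end main

end Crest.Agent.R106.Cost
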