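import Crest.Agent.R106.EnMain

/-!
Row 106, module COST, part 5 (helper904): `OccA, OccB, OccC, CoreA, CoreB` for every solution of the
class whose values are values of the datum (transport along characteristics).
-/

set_option autoImplicit false
open MeasureTheory Set
open Crest.AnalysisR.VecCalc3 Crest.AnalysisR.PDE.RVM

namespace Crest.Agent.R106.Cost

/-- all values of `f` are values of the datum. -/
theorem costs_of_values {T : ℝ} {f₀ : R3 → R3 → ℝ} {E₀ B₀ : R3 → R3}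
    {f : ℝ → R3 → R3 → ℝ} {E B : ℝ → R3 → R3} (hs : Mom.SmoothSol T f₀ E₀ B₀ f E B)
    (hv : ∀ τ ∈ Ico 0 T, ∀ x v : R3, ∃ x' v' : R3, f τ x v = f₀ x' v') :
    Mom.OccA T f E B ∧ Mom.OccB T f E B ∧ Mom.OccC T f E B ∧ Mom.CoreA T f E B ∧
      Mom.CoreB T f E B := by
  obtain ⟨h0, hsm, hcs, -⟩ := hs.adm
  have hcont : Continuous (Function.uncurry f₀) := hsm.continuous
  obtain ⟨F₀, hF₀⟩ := hcont.bounded_above_of_compact_support hcs
  have hF : ∀ x v, f₀ x v ≤ max F₀ 0 := fun x v =>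
    ((le_abs_self _).trans (hF₀ (x, v))).trans (le_max_left _ _)
  have hpos : ∀ t ∈ Ico 0 T, ∀ x v, 0 ≤ f t x v := by
    intro t ht x v
    obtain ⟨x', v', e⟩ := hv t ht x v
    rw [e]
    exact h0 _ _
  have hle : ∀ t ∈ Ioo 0 T, ∀ x v, f t x v ≤ max F₀ 0 := by
    intro t ht x v
    obtain ⟨x', v', e⟩ := hv t (Ioo_subset_Ico_self ht) x v
    rw [e]
    exact hF _ _
  obtain ⟨C₀, hC⟩ := En.enHyp_of hs.sol hpos (le_max_right _ _) hle
  exact cost_sol hs hC

end Crest.Agent.R106.Cost
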