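import Crest.Agent.R106.CostShell2
import Crest.Agent.R106.MomDefs

/-!
Row 106, module COST, part 3 (helper904): transfer of the shell bounds to the measure `kap` of
`MomDefs` (explicit constants).
-/

set_option autoImplicit false
open MeasureTheory Set
open scoped ENNReal InnerProductSpace
open Crest.AnalysisR.VecCalc3 Crest.AnalysisR.PDE.RVM
open Crest.Agent.R106.GSR (gam lor)

noncomputable section

namespace Crest.Agent.R106.Cost

open Crest.Agent.R106.Mom (IsChar kap Kg dl ep Dd Rr)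

/-- the density, cut off to `0 < τ < T`. -/
def gd (T : ℝ) (f : ℝ → R3 → R3 → ℝ) (τ : ℝ) (y w : R3) : ℝ≥0∞ :=
  (Ioo 0 T).indicator (fun τ => ENNReal.ofReal (f τ y w)) τ

/-- extension by zero of a curve outside `[0,T)`. -/
def ex (T : ℝ) (X : ℝ → R3) : ℝ → R3 := (Ico 0 T).indicator X

theorem ex_eq {T : ℝ} {X : ℝ → R3} {s : ℝ} (hs : s ∈ Ioo 0 T) : ex T X s = X s :=
  indicator_of_mem (Ioo_subset_Ico_self hs) X

theorem ex_measurable {T : ℝ} {X : ℝ → R3} (hX : ContinuousOn X (Ico 0 T)) :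
    Measurable (ex T X) := by
  classical
  have h := hX.measurable_piecewise (continuousOn_const (c := (0 : R3)) (s := (Ico 0 T)ᶜ))
    measurableSet_Ico
  have e : (Ico 0 T).piecewise X (fun _ => (0 : R3)) = ex T X := by
    funext s
    by_cases hs : s ∈ Ico 0 T
    · simp [ex, hs]
    · simp [ex, hs]
  rw [← e]
  exact h

theorem norm_relVel_lt (w : R3) : ‖relVel w‖ < 1 := by
  unfold relVel
  rw [norm_smul, norm_inv, Real.norm_eq_abs, abs_of_nonneg (Real.sqrt_nonneg _),
    inv_mul_lt_iff₀ (Real.sqrt_pos.2 (by positivity)), mul_one]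
  exact Real.lt_sqrt_of_sq_lt (by linarith)

/-- a function that is continuous on a measurable set is measurable after cutting off. -/
theorem measurable_indicator_of_continuousOn {α β : Type*} [TopologicalSpace α] [MeasurableSpace α]
    [OpensMeasurableSpace α] [TopologicalSpace β] [MeasurableSpace β] [BorelSpace β] [Zero β]
    {F : α → β} {A : Set α} (hA : MeasurableSet A) (hF : ContinuousOn F A) :
    Measurable (A.indicator F) := by
  classical
  have h := hF.measurable_piecewise (continuousOn_const (c := (0 : β)) (s := Aᶜ)) hA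
  have e : A.piecewise F (fun _ => (0 : β)) = A.indicator F := by
    funext s
    by_cases hs : s ∈ A
    · simp [hs]
    · simp [hs]
  rw [← e]
  exact h

theorem gd_measurable {T : ℝ} {f : ℝ → R3 → R3 → ℝ}
    (hf : ContinuousOn (fun q : ℝ × R3 × R3 => f q.1 q.2.1 q.2.2) (Iio T ×ˢ univ)) :
    Measurable (fun w : ℝ × R3 × R3 => gd T f w.1 w.2.1 w.2.2) := by
  have e : (fun w : ℝ × R3 × R3 => gd T f w.1 w.2.1 w.2.2) = fun w =>
      ENNReal.ofReal ({w : ℝ × R3 × R3 | w.1 ∈ Ioo 0 T}.indicator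
        (fun w => f w.1 w.2.1 w.2.2) w) := by
    funext w
    unfold gd
    by_cases hw : w.1 ∈ Ioo 0 T
    · rw [indicator_of_mem hw, indicator_of_mem (by exact hw)]
    · rw [indicator_of_notMem hw, indicator_of_notMem (by exact hw), ENNReal.ofReal_zero]
  rw [e]
  have hA : MeasurableSet {w : ℝ × R3 × R3 | w.1 ∈ Ioo 0 T} := measurable_fst measurableSet_Ioo
  have hc : ContinuousOn (fun w : ℝ × R3 × R3 => f w.1 w.2.1 w.2.2)
      {w : ℝ × R3 × R3 | w.1 ∈ Ioo 0 T} := hf.mono (fun w hw => ⟨hw.2, mem_univ _⟩)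
  exact (measurable_indicator_of_continuousOn hA hc).ennreal_ofReal

theorem gd_le {T : ℝ} {f : ℝ → R3 → R3 → ℝ} {F₀ : ℝ}
    (hF : ∀ τ ∈ Ioo 0 T, ∀ y w, f τ y w ≤ F₀) (τ : ℝ) (y w : R3) :
    gd T f τ y w ≤ ENNReal.ofReal F₀ := by
  unfold gd
  by_cases hτ : τ ∈ Ioo 0 T
  · rw [indicator_of_mem hτ]
    exact ENNReal.ofReal_le_ofReal (hF τ hτ y w)
  · rw [indicator_of_notMem hτ]
    exact zero_le

/-- integrals with respect to `kap` in phase-space form. -/
theorem lintegral_kap {T : ℝ} {f : ℝ → R3 → R3 → ℝ}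
    (hf : ContinuousOn (fun q : ℝ × R3 × R3 => f q.1 q.2.1 q.2.2) (Iio T ×ˢ univ)) (X : ℝ → R3) {s : ℝ}
    (hs : s ∈ Ioo 0 T) (A : Set (R3 × R3)) (hA : MeasurableSet A) (φ : R3 × R3 → ℝ≥0∞)
    (hφ : Measurable φ) :
    ∫⁻ q in A, φ q ∂(kap f X s) =
      ∫⁻ y, ∫⁻ w, A.indicator (fun q => gd T f (s - ‖X s - q.1‖) q.1 q.2 * φ q) (y, w) := by
  set Bs : Set (R3 × R3) := Metric.ball (X s) s ×ˢ (univ : Set R3) with hBs
  have hBm : MeasurableSet Bs := Metric.isOpen_ball.measurableSet.prod MeasurableSet.univ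
  have hmap : Measurable (fun q : R3 × R3 => ((s - ‖X s - q.1‖, q.1, q.2) : ℝ × R3 × R3)) := by
    refine Measurable.prodMk ?_ ?_
    · exact measurable_const.sub ((measurable_const.sub measurable_fst).norm)
    · exact measurable_fst.prodMk measurable_snd
  have hh' : Measurable (fun q : R3 × R3 => gd T f (s - ‖X s - q.1‖) q.1 q.2) := by
    have h0 := (gd_measurable (T := T) hf).comp hmap
    exact h0
  have hae : (fun q : R3 × R3 => ENNReal.ofReal (f (Mom.ret X s q.1) q.1 q.2))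
      =ᵐ[volume.restrict Bs] (fun q : R3 × R3 => gd T f (s - ‖X s - q.1‖) q.1 q.2) := by
    rw [Filter.EventuallyEq, ae_restrict_iff' hBm]
    refine Filter.Eventually.of_forall (fun q hq => ?_)
    have h1 : ‖X s - q.1‖ < s := by
      have h2 : q.1 ∈ Metric.ball (X s) s := hq.1
      rw [Metric.mem_ball, dist_comm, dist_eq_norm] at h2
      exact h2
    have h3 : s - ‖X s - q.1‖ ∈ Ioo 0 T :=
      ⟨by linarith, by linarith [norm_nonneg (X s - q.1), hs.2]⟩
    unfold gd Mom.ret
    rw [indicator_of_mem h3]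
  have hk : kap f X s = (volume.restrict Bs).withDensity
      (fun q : R3 × R3 => gd T f (s - ‖X s - q.1‖) q.1 q.2) := by
    unfold kap
    exact withDensity_congr_ae hae
  rw [hk, setLIntegral_withDensity_eq_setLIntegral_mul _ hh' hφ hA, ← lintegral_indicator hA,
    ← lintegral_indicator hBm]
  have e : (fun a => Bs.indicator (fun a => A.indicator
      ((fun q : R3 × R3 => gd T f (s - ‖X s - q.1‖) q.1 q.2) * φ) a) a) =
      (fun q => A.indicator (fun q => gd T f (s - ‖X s - q.1‖) q.1 q.2 * φ q) q) := by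
    funext q
    by_cases hq : q ∈ Bs
    · rw [indicator_of_mem hq]
      rfl
    · rw [indicator_of_notMem hq]
      have h1 : s ≤ ‖X s - q.1‖ := by
        by_contra hcon
        push Not at hcon
        apply hq
        refine ⟨?_, mem_univ _⟩
        rw [Metric.mem_ball, dist_comm, dist_eq_norm]
        exact hcon
      have h2 : gd T f (s - ‖X s - q.1‖) q.1 q.2 = 0 := by
        unfold gd
        rw [indicator_of_notMem]
        intro h3
        have := h3.1
        linarith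
      by_cases hqA : q ∈ A
      · rw [indicator_of_mem hqA, h2, zero_mul]
      · rw [indicator_of_notMem hqA]
  have e2 : ∫⁻ a, Bs.indicator (fun a => A.indicator
      ((fun q : R3 × R3 => gd T f (s - ‖X s - q.1‖) q.1 q.2) * φ) a) a =
      ∫⁻ q : R3 × R3, A.indicator (fun q => gd T f (s - ‖X s - q.1‖) q.1 q.2 * φ q) q := by
    rw [e]
  refine e2.trans ?_
  rw [Measure.volume_eq_prod]
  exact lintegral_prod _ ((hh'.mul hφ).indicator hA).aemeasurable

section shells
variable {T : ℝ} {f : ℝ → R3 → R3 → ℝ} {X p : ℝ → R3}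

/-- velocity of the extended curve. -/
def exV (T : ℝ) (p : ℝ → R3) : ℝ → R3 := fun s => relVel (ex T p s)

theorem exV_measurable (hp : ContinuousOn p (Ico 0 T)) : Measurable (exV T p) :=
  relVel_measurable.comp (ex_measurable hp)

theorem exV_le (s : ℝ) : ‖exV T p s‖ ≤ 1 := (norm_relVel_lt _).le

/-- the section of my shell is the shell of `MomDefs`. -/
theorem shell_iff {s : ℝ} (hs : s ∈ Ioo 0 T) (R1 d1 e1 D1 Q1 : ℝ) (q : R3 × R3) :
    (s, q.1, q.2) ∈ shell (ex T X) (exV T p) R1 d1 e1 D1 Q1 ↔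
      q ∈ Mom.shell X p R1 d1 e1 D1 Q1 s := by
  unfold shell shellY Mom.shell dlt ept Dt nn exV Mom.dl Mom.ep Mom.Dd Mom.Rr Mom.nn
  simp only [mem_ofPred_eq, ex_eq hs]
  tauto

theorem momShell_measurableSet (hX : ContinuousOn X (Ico 0 T)) (hp : ContinuousOn p (Ico 0 T))
    {s : ℝ} (hs : s ∈ Ioo 0 T) (R1 d1 e1 D1 Q1 : ℝ) :
    MeasurableSet (Mom.shell X p R1 d1 e1 D1 Q1 s) := by
  have h := shell_measurableSet (ex_measurable hX) (exV_measurable hp) R1 d1 e1 D1 Q1
  have hm : Measurable (fun q : R3 × R3 => ((s, q.1, q.2) : ℝ × R3 × R3)) :=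
    measurable_const.prodMk (measurable_fst.prodMk measurable_snd)
  have e : Mom.shell X p R1 d1 e1 D1 Q1 s =
      (fun q : R3 × R3 => ((s, q.1, q.2) : ℝ × R3 × R3)) ⁻¹'
        shell (ex T X) (exV T p) R1 d1 e1 D1 Q1 := by
    ext q
    exact (shell_iff hs R1 d1 e1 D1 Q1 q).symm
  rw [e]
  exact hm h

/-- integral of a function of `y` over a shell. -/
theorem lintegral_shell (hf : ContinuousOn (fun q : ℝ × R3 × R3 => f q.1 q.2.1 q.2.2) (Iio T ×ˢ univ))
    (hX : ContinuousOn X (Ico 0 T)) (hp : ContinuousOn p (Ico 0 T))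
    {s : ℝ} (hs : s ∈ Ioo 0 T) (R1 d1 e1 D1 Q1 : ℝ) (K : R3 → ℝ≥0∞) (hK : Measurable K) :
    ∫⁻ q in Mom.shell X p R1 d1 e1 D1 Q1 s, K q.1 ∂(kap f X s) =
      ∫⁻ y, K y * ∫⁻ w, sden (ex T X) (gd T f) (shell (ex T X) (exV T p) R1 d1 e1 D1 Q1) s y w := by
  rw [lintegral_kap hf X hs _ (momShell_measurableSet hX hp hs R1 d1 e1 D1 Q1) (fun q => K q.1)
    (hK.comp measurable_fst)]
  have hden := sden_measurable (ex_measurable hX) (gd_measurable (T := T) hf)
    (shell_measurableSet (ex_measurable hX) (exV_measurable hp) R1 d1 e1 D1 Q1)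
  refine lintegral_congr (fun y => ?_)
  have hdy : Measurable (fun w => sden (ex T X) (gd T f)
      (shell (ex T X) (exV T p) R1 d1 e1 D1 Q1) s y w) := by
    have hm : Measurable (fun w : R3 => ((s, y, w) : ℝ × R3 × R3)) :=
      measurable_const.prodMk (measurable_const.prodMk measurable_id)
    have h0 := hden.comp hm
    exact h0
  rw [← lintegral_const_mul _ hdy]
  refine lintegral_congr (fun w => ?_)
  by_cases hq : (y, w) ∈ Mom.shell X p R1 d1 e1 D1 Q1 s
  · have hq2 := (shell_iff hs R1 d1 e1 D1 Q1 (y, w)).2 hq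
    rw [indicator_of_mem hq]
    unfold sden
    rw [indicator_of_mem (by exact hq2)]
    unfold cden ret
    simp only [ex_eq hs]
    rw [mul_comm]
  · have hq2 : (s, y, w) ∉ shell (ex T X) (exV T p) R1 d1 e1 D1 Q1 := fun hh =>
      hq ((shell_iff hs R1 d1 e1 D1 Q1 (y, w)).1 hh)
    rw [indicator_of_notMem hq]
    unfold sden
    rw [indicator_of_notMem hq2, mul_zero]

theorem kap_shell (hf : ContinuousOn (fun q : ℝ × R3 × R3 => f q.1 q.2.1 q.2.2) (Iio T ×ˢ univ))
    (hX : ContinuousOn X (Ico 0 T)) (hp : ContinuousOn p (Ico 0 T))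
    {s : ℝ} (hs : s ∈ Ioo 0 T) (R1 d1 e1 D1 Q1 : ℝ) :
    kap f X s (Mom.shell X p R1 d1 e1 D1 Q1 s) =
      mus (ex T X) (gd T f) (shell (ex T X) (exV T p) R1 d1 e1 D1 Q1) s := by
  have h := lintegral_shell hf hX hp hs R1 d1 e1 D1 Q1 (fun _ => 1) measurable_const
  simp only [one_mul, lintegral_const, Measure.restrict_apply_univ] at h
  exact h

end shells

end Crest.Agent.R106.Cost
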