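import Crest.Agent.R106.GSRDefs
import Crest.Agent.R106.CostCore
import Crest.Agent.R106.CostCV
import Crest.Agent.R106.CostCS

/-!
Row 106, module COST: the analytic core for one dyadic shell (phase-space form), helper904.

`g τ y p` is the density of the sources (`ENNReal.ofReal (f τ y p)` for `0 < τ`, and `0` for `τ ≤ 0`),
`X` the test curve with velocity `V`, the retarded time is `τ = s - |X(s) - y|`.
-/

set_option autoImplicit false
open MeasureTheory Set
open scoped ENNReal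
open Crest.AnalysisR.VecCalc3 Crest.AnalysisR.PDE.RVM
open Crest.Agent.R106.GSR (gam)

noncomputable section

namespace Crest.Agent.R106.Cost

/-- unit vector from the source point `y` to the test point `X(s)`. -/
def nn (X : ℝ → R3) (s : ℝ) (y : R3) : R3 := ‖X s - y‖⁻¹ • (X s - y)

/-- retarded time. -/
def ret (X : ℝ → R3) (s : ℝ) (y : R3) : ℝ := s - ‖X s - y‖

/-- `δ = 1 - n·V`. -/
def dlt (X V : ℝ → R3) (s : ℝ) (y : R3) : ℝ := 1 - inner ℝ (nn X s y) (V s)

/-- `ε = 1 - n·v`. -/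
def ept (X : ℝ → R3) (s : ℝ) (y p : R3) : ℝ := 1 - inner ℝ (nn X s y) (relVel p)

/-- `D = 1 - V·v`. -/
def Dt (V : ℝ → R3) (s : ℝ) (p : R3) : ℝ := 1 - inner ℝ (V s) (relVel p)

/-- the `(s,y)`-part of a shell. -/
def shellY (X V : ℝ → R3) (R1 d1 : ℝ) : Set (ℝ × R3) :=
  {z | (R1 ≤ ‖X z.1 - z.2‖ ∧ ‖X z.1 - z.2‖ < 2 * R1) ∧
    (d1 ≤ dlt X V z.1 z.2 ∧ dlt X V z.1 z.2 < 2 * d1)}

/-- a shell in `(s,y,p)`-space. -/
def shell (X V : ℝ → R3) (R1 d1 e1 D1 Q : ℝ) : Set (ℝ × R3 × R3) :=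
  {w | (w.1, w.2.1) ∈ shellY X V R1 d1 ∧
    (e1 ≤ ept X w.1 w.2.1 w.2.2 ∧ ept X w.1 w.2.1 w.2.2 < 2 * e1) ∧
    (D1 ≤ Dt V w.1 w.2.2 ∧ Dt V w.1 w.2.2 < 2 * D1) ∧
    (Q ≤ gam w.2.2 ∧ gam w.2.2 < 2 * Q)}

theorem norm_nn_le (X : ℝ → R3) (s : ℝ) (y : R3) : ‖nn X s y‖ ≤ 1 := by
  unfold nn
  rw [norm_smul, norm_inv, norm_norm]
  by_cases h : ‖X s - y‖ = 0
  · simp [h]
  · rw [inv_mul_cancel₀ h]

theorem relVel_measurable : Measurable relVel := by
  unfold relVel
  exact ((Real.continuous_sqrt.measurable.comp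
    (measurable_const.add (measurable_norm.pow_const 2))).inv).smul measurable_id

theorem gam_measurable : Measurable gam := by
  unfold gam
  exact Real.continuous_sqrt.measurable.comp (measurable_const.add (measurable_norm.pow_const 2))

section meas
variable {X V : ℝ → R3} (hX : Measurable X) (hV : Measurable V)
include hX

theorem nn_measurable : Measurable (fun z : ℝ × R3 => nn X z.1 z.2) := by
  unfold nn
  have h1 : Measurable (fun z : ℝ × R3 => X z.1 - z.2) :=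
    (hX.comp measurable_fst).sub measurable_snd
  exact (h1.norm.inv).smul h1

theorem ret_measurable : Measurable (fun z : ℝ × R3 => ret X z.1 z.2) := by
  unfold ret
  exact measurable_fst.sub (((hX.comp measurable_fst).sub measurable_snd).norm)

theorem rr_measurable : Measurable (fun z : ℝ × R3 => ‖X z.1 - z.2‖) :=
  ((hX.comp measurable_fst).sub measurable_snd).norm

theorem ept_measurable : Measurable (fun w : ℝ × R3 × R3 => ept X w.1 w.2.1 w.2.2) := by
  unfold ept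
  have hp : Measurable (fun w : ℝ × R3 × R3 => ((w.1, w.2.1) : ℝ × R3)) :=
    measurable_fst.prodMk (measurable_fst.comp measurable_snd)
  have h1 : Measurable (fun w : ℝ × R3 × R3 => nn X w.1 w.2.1) := by
    have h0 := (nn_measurable hX).comp hp
    exact h0
  have hq : Measurable (fun w : ℝ × R3 × R3 => w.2.2) := measurable_snd.comp measurable_snd
  have h2 : Measurable (fun w : ℝ × R3 × R3 => relVel w.2.2) := relVel_measurable.comp hq
  have h3 : Measurable (fun w : ℝ × R3 × R3 => inner ℝ (nn X w.1 w.2.1) (relVel w.2.2)) := by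
    exact Measurable.inner h1 h2
  exact Measurable.sub measurable_const h3

include hV

theorem dlt_measurable : Measurable (fun z : ℝ × R3 => dlt X V z.1 z.2) := by
  unfold dlt
  exact measurable_const.sub ((nn_measurable hX).inner (hV.comp measurable_fst))

omit hX in
theorem Dt_measurable : Measurable (fun w : ℝ × R3 × R3 => Dt V w.1 w.2.2) := by
  unfold Dt
  exact measurable_const.sub ((hV.comp measurable_fst).inner (relVel_measurable.comp
    (measurable_snd.comp measurable_snd)))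

theorem shellY_measurableSet (R1 d1 : ℝ) : MeasurableSet (shellY X V R1 d1) := by
  have h1 := rr_measurable hX
  have h2 := dlt_measurable hX hV
  have e : shellY X V R1 d1 = ({z : ℝ × R3 | R1 ≤ ‖X z.1 - z.2‖} ∩
      {z : ℝ × R3 | ‖X z.1 - z.2‖ < 2 * R1}) ∩ ({z : ℝ × R3 | d1 ≤ dlt X V z.1 z.2} ∩
      {z : ℝ × R3 | dlt X V z.1 z.2 < 2 * d1}) := rfl
  rw [e]
  exact ((measurableSet_le measurable_const h1).inter (measurableSet_lt h1 measurable_const)).inter
    ((measurableSet_le measurable_const h2).inter (measurableSet_lt h2 measurable_const))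

theorem shell_measurableSet (R1 d1 e1 D1 Q : ℝ) : MeasurableSet (shell X V R1 d1 e1 D1 Q) := by
  have h1 := shellY_measurableSet hX hV R1 d1
  have hp : Measurable (fun w : ℝ × R3 × R3 => (w.1, w.2.1)) :=
    measurable_fst.prodMk (measurable_fst.comp measurable_snd)
  have h2 := ept_measurable hX
  have h3 := Dt_measurable hV
  have h4 : Measurable (fun w : ℝ × R3 × R3 => gam w.2.2) :=
    gam_measurable.comp (measurable_snd.comp measurable_snd)
  have e : shell X V R1 d1 e1 D1 Q = ((fun w : ℝ × R3 × R3 => (w.1, w.2.1)) ⁻¹' shellY X V R1 d1) ∩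
      (({w : ℝ × R3 × R3 | e1 ≤ ept X w.1 w.2.1 w.2.2} ∩
        {w : ℝ × R3 × R3 | ept X w.1 w.2.1 w.2.2 < 2 * e1}) ∩
      (({w : ℝ × R3 × R3 | D1 ≤ Dt V w.1 w.2.2} ∩ {w : ℝ × R3 × R3 | Dt V w.1 w.2.2 < 2 * D1}) ∩
      ({w : ℝ × R3 × R3 | Q ≤ gam w.2.2} ∩ {w : ℝ × R3 × R3 | gam w.2.2 < 2 * Q}))) := rfl
  rw [e]
  exact (hp h1).inter (((measurableSet_le measurable_const h2).inter
    (measurableSet_lt h2 measurable_const)).inter
    (((measurableSet_le measurable_const h3).inter (measurableSet_lt h3 measurable_const)).inter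
    ((measurableSet_le measurable_const h4).inter (measurableSet_lt h4 measurable_const))))

end meas

/-- the density on the backward cones: `G(s,y,p) = g(s - |X(s)-y|, y, p)`. -/
def cden (X : ℝ → R3) (g : ℝ → R3 → R3 → ℝ≥0∞) (w : ℝ × R3 × R3) : ℝ≥0∞ :=
  g (ret X w.1 w.2.1) w.2.1 w.2.2

/-- density times indicator of a set of pairs. -/
def sden (X : ℝ → R3) (g : ℝ → R3 → R3 → ℝ≥0∞) (Om : Set (ℝ × R3 × R3)) (s : ℝ) (y p : R3) : ℝ≥0∞ :=
  Om.indicator (cden X g) (s, y, p)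

/-- `μ_s(Ω)`. -/
def mus (X : ℝ → R3) (g : ℝ → R3 → R3 → ℝ≥0∞) (Om : Set (ℝ × R3 × R3)) (s : ℝ) : ℝ≥0∞ :=
  ∫⁻ y, ∫⁻ p, sden X g Om s y p

/-- `μ(Ω) = ∫_J μ_s(Ω) ds`. -/
def mu (X : ℝ → R3) (g : ℝ → R3 → R3 → ℝ≥0∞) (J : Set ℝ) (Om : Set (ℝ × R3 × R3)) : ℝ≥0∞ :=
  ∫⁻ s in J, mus X g Om s

variable {X V : ℝ → R3} {g : ℝ → R3 → R3 → ℝ≥0∞}

theorem cden_measurable (hX : Measurable X)
    (hg : Measurable (fun w : ℝ × R3 × R3 => g w.1 w.2.1 w.2.2)) :
    Measurable (cden X g) := by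
  have h1 : Measurable (fun w : ℝ × R3 × R3 => ((ret X w.1 w.2.1, w.2.1, w.2.2) : ℝ × R3 × R3)) := by
    refine Measurable.prodMk ?_ ?_
    · exact (ret_measurable hX).comp (measurable_fst.prodMk (measurable_fst.comp measurable_snd))
    · exact (measurable_fst.comp measurable_snd).prodMk (measurable_snd.comp measurable_snd)
  exact hg.comp h1

theorem sden_measurable (hX : Measurable X)
    (hg : Measurable (fun w : ℝ × R3 × R3 => g w.1 w.2.1 w.2.2)) {Om : Set (ℝ × R3 × R3)}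
    (hOm : MeasurableSet Om) :
    Measurable (fun w : ℝ × R3 × R3 => sden X g Om w.1 w.2.1 w.2.2) :=
  (cden_measurable hX hg).indicator hOm

/-- fibre bound `∫ f 1_Ω dp ≤ 256 F₀ Q³ min(ε,D)`. -/
theorem fibre_shell (F₀ : ℝ≥0∞) (hg0 : ∀ τ y p, g τ y p ≤ F₀) (hV1 : ∀ s, ‖V s‖ ≤ 1)
    {R1 d1 e1 D1 Q : ℝ} (he1 : 0 ≤ e1) (hD1 : 0 ≤ D1) (hQ : 0 ≤ Q) (s : ℝ) (y : R3) :
    ∫⁻ p, sden X g (shell X V R1 d1 e1 D1 Q) s y p ≤
      F₀ * ENNReal.ofReal (256 * Q ^ 3 * min e1 D1) := by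
  -- each of the two caps
  have key : ∀ (e : R3) (a : ℝ), ‖e‖ ≤ 1 → 0 ≤ a →
      (∀ p, (s, y, p) ∈ shell X V R1 d1 e1 D1 Q → 1 - inner ℝ e (relVel p) ≤ 2 * a) →
      ∫⁻ p, sden X g (shell X V R1 d1 e1 D1 Q) s y p ≤
        F₀ * ENNReal.ofReal (256 * Q ^ 3 * a) := by
    intro e a he ha hsub
    have h1 : ∀ p, sden X g (shell X V R1 d1 e1 D1 Q) s y p ≤
        {p : R3 | ‖p‖ ≤ 2 * Q ∧ 1 - inner ℝ e (relVel p) ≤ 2 * a}.indicator (fun _ => F₀) p := by
      intro p
      by_cases hp : (s, y, p) ∈ shell X V R1 d1 e1 D1 Q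
      · have hp2 : p ∈ {p : R3 | ‖p‖ ≤ 2 * Q ∧ 1 - inner ℝ e (relVel p) ≤ 2 * a} := by
          refine ⟨?_, hsub p hp⟩
          have h3 : gam p < 2 * Q := hp.2.2.2.2
          have h4 : ‖p‖ ≤ gam p := by
            unfold gam
            exact Real.le_sqrt_of_sq_le (by linarith)
          linarith
        rw [indicator_of_mem hp2]
        unfold sden
        rw [indicator_of_mem hp]
        exact hg0 _ _ _
      · unfold sden
        rw [indicator_of_notMem hp]
        exact zero_le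
    have hms : MeasurableSet {p : R3 | ‖p‖ ≤ 2 * Q ∧ 1 - inner ℝ e (relVel p) ≤ 2 * a} := by
      have h5 : MeasurableSet {p : R3 | ‖p‖ ≤ 2 * Q} := measurableSet_le measurable_norm measurable_const
      have h6 : MeasurableSet {p : R3 | 1 - inner ℝ e (relVel p) ≤ 2 * a} :=
        measurableSet_le (measurable_const.sub (measurable_const.inner relVel_measurable))
          measurable_const
      exact h5.inter h6
    calc ∫⁻ p, sden X g (shell X V R1 d1 e1 D1 Q) s y p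
        ≤ ∫⁻ p, {p : R3 | ‖p‖ ≤ 2 * Q ∧ 1 - inner ℝ e (relVel p) ≤ 2 * a}.indicator
            (fun _ => F₀) p := lintegral_mono h1
      _ = ∫⁻ p in {p : R3 | ‖p‖ ≤ 2 * Q ∧ 1 - inner ℝ e (relVel p) ≤ 2 * a}, F₀ :=
          lintegral_indicator hms _
      _ ≤ F₀ * ENNReal.ofReal (16 * (2 * a) * (2 * Q) ^ 3) :=
          fibre_bound (fun _ => F₀) F₀ (fun _ => le_rfl) e he (2 * Q) (2 * a) (by linarith)
            (by linarith) _ (fun p hp => hp)
      _ = F₀ * ENNReal.ofReal (256 * Q ^ 3 * a) := by congr 2; ring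
  rcases le_total e1 D1 with h | h
  · rw [min_eq_left h]
    exact key (nn X s y) e1 (norm_nn_le X s y) he1 (fun p hp => hp.2.1.2.le)
  · rw [min_eq_right h]
    exact key (V s) D1 (hV1 s) hD1 (fun p hp => hp.2.2.1.2.le)

/-- (a) : `μ_s(Ω) ≤ 2¹⁶ F₀ R³ δ Q³ min(ε,D)`. -/
theorem mus_le_a (F₀ : ℝ≥0∞) (hg0 : ∀ τ y p, g τ y p ≤ F₀) (hV1 : ∀ s, ‖V s‖ ≤ 1)
    {R1 d1 e1 D1 Q : ℝ} (hR1 : 0 ≤ R1) (hd1 : 0 ≤ d1) (he1 : 0 ≤ e1) (hD1 : 0 ≤ D1) (hQ : 0 ≤ Q)
    (s : ℝ) :
    mus X g (shell X V R1 d1 e1 D1 Q) s ≤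
      F₀ * ENNReal.ofReal (2 ^ 16 * R1 ^ 3 * d1 * Q ^ 3 * min e1 D1) := by
  set A : Set R3 := {y : R3 | ‖X s - y‖ ≤ 2 * R1 ∧
    1 - inner ℝ (‖X s - y‖⁻¹ • (X s - y)) (V s) ≤ 2 * d1} with hA
  have hAm : MeasurableSet A := by
    have h5 : MeasurableSet {y : R3 | ‖X s - y‖ ≤ 2 * R1} :=
      measurableSet_le (measurable_const.sub measurable_id).norm measurable_const
    have h6 : MeasurableSet {y : R3 | 1 - inner ℝ (‖X s - y‖⁻¹ • (X s - y)) (V s) ≤ 2 * d1} := by
      refine measurableSet_le (measurable_const.sub (Measurable.inner ?_ measurable_const))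
        measurable_const
      exact ((measurable_const.sub measurable_id).norm.inv).smul (measurable_const.sub measurable_id)
    exact h5.inter h6
  have hvol := vol_cone (X s) (V s) (hV1 s) (2 * R1) (2 * d1) (by linarith) (by linarith)
  have h1 : ∀ y, ∫⁻ p, sden X g (shell X V R1 d1 e1 D1 Q) s y p ≤
      A.indicator (fun _ => F₀ * ENNReal.ofReal (256 * Q ^ 3 * min e1 D1)) y := by
    intro y
    by_cases hy : (s, y) ∈ shellY X V R1 d1
    · have hyA : y ∈ A := ⟨hy.1.2.le, hy.2.2.le⟩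
      rw [indicator_of_mem hyA]
      exact fibre_shell F₀ hg0 hV1 he1 hD1 hQ s y
    · have h2 : ∀ p, sden X g (shell X V R1 d1 e1 D1 Q) s y p = 0 := by
        intro p
        unfold sden
        rw [indicator_of_notMem]
        intro hp
        exact hy hp.1
      simp only [h2, lintegral_zero, zero_le]
  unfold mus
  calc ∫⁻ y, ∫⁻ p, sden X g (shell X V R1 d1 e1 D1 Q) s y p
      ≤ ∫⁻ y, A.indicator (fun _ => F₀ * ENNReal.ofReal (256 * Q ^ 3 * min e1 D1)) y :=
        lintegral_mono h1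
    _ = F₀ * ENNReal.ofReal (256 * Q ^ 3 * min e1 D1) * volume A := by
        rw [lintegral_indicator hAm, lintegral_const, Measure.restrict_apply_univ]
    _ ≤ F₀ * ENNReal.ofReal (256 * Q ^ 3 * min e1 D1) *
          ENNReal.ofReal (16 * (2 * d1) * (2 * R1) ^ 3) := by gcongr
    _ = F₀ * ENNReal.ofReal (2 ^ 16 * R1 ^ 3 * d1 * Q ^ 3 * min e1 D1) := by
        rw [mul_assoc, ← ENNReal.ofReal_mul
          (mul_nonneg (mul_nonneg (by norm_num) (pow_nonneg hQ 3)) (le_min he1 hD1))]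
        congr 2
        ring

/-- (b) : from the cone flux, `μ_s(Ω) ≤ E/(Q ε)`. -/
theorem mus_le_b (E : ℝ≥0∞)
    {R1 d1 e1 D1 Q : ℝ} (he1 : 0 < e1) (hQ : 0 < Q) (s : ℝ)
    (hflux : ∫⁻ y, ∫⁻ p, ENNReal.ofReal (ept X s y p * gam p) * cden X g (s, y, p) ≤ E) :
    mus X g (shell X V R1 d1 e1 D1 Q) s ≤ ENNReal.ofReal (1 / (Q * e1)) * E := by
  have h1 : ∀ y p, sden X g (shell X V R1 d1 e1 D1 Q) s y p ≤
      ENNReal.ofReal (1 / (Q * e1)) *
        (ENNReal.ofReal (ept X s y p * gam p) * cden X g (s, y, p)) := by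
    intro y p
    by_cases hp : (s, y, p) ∈ shell X V R1 d1 e1 D1 Q
    · unfold sden
      rw [indicator_of_mem hp, ← mul_assoc, ← ENNReal.ofReal_mul (by positivity)]
      have h2 : 1 ≤ 1 / (Q * e1) * (ept X s y p * gam p) := by
        rw [one_div, ← div_eq_inv_mul, le_div_iff₀ (by positivity), one_mul, mul_comm Q e1]
        exact mul_le_mul hp.2.1.1 hp.2.2.2.1 hQ.le (he1.le.trans hp.2.1.1)
      calc cden X g (s, y, p) = 1 * cden X g (s, y, p) := (one_mul _).symm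
        _ ≤ _ := by
          gcongr
          rw [← ENNReal.ofReal_one]
          exact ENNReal.ofReal_le_ofReal h2
    · unfold sden
      rw [indicator_of_notMem hp]
      exact zero_le
  unfold mus
  calc ∫⁻ y, ∫⁻ p, sden X g (shell X V R1 d1 e1 D1 Q) s y p
      ≤ ∫⁻ y, ∫⁻ p, ENNReal.ofReal (1 / (Q * e1)) *
        (ENNReal.ofReal (ept X s y p * gam p) * cden X g (s, y, p)) :=
        lintegral_mono (fun y => lintegral_mono (fun p => h1 y p))
    _ = ENNReal.ofReal (1 / (Q * e1)) *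
        ∫⁻ y, ∫⁻ p, ENNReal.ofReal (ept X s y p * gam p) * cden X g (s, y, p) := by
        simp_rw [lintegral_const_mul' _ _ ENNReal.ofReal_ne_top]
    _ ≤ _ := by gcongr

end Crest.Agent.R106.Cost
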