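import Crest.Agent.R106.CostShell

/-!
Row 106, module COST, part 2: bound (c), the Cauchy–Schwarz costs (A) and (B) for one shell.
-/

set_option autoImplicit false
open MeasureTheory Set
open scoped ENNReal
open Crest.AnalysisR.VecCalc3 Crest.AnalysisR.PDE.RVM
open Crest.Agent.R106.GSR (gam)

noncomputable section

namespace Crest.Agent.R106.Cost

variable {X V : ℝ → R3} {g : ℝ → R3 → R3 → ℝ≥0∞}

/-- strict Lipschitz bound from a uniform speed bound. -/
theorem strictLip_of_speed {a b : ℝ} {c : ℝ} (hc : c < 1)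
    (hX : ∀ s ∈ Icc a b, HasDerivWithinAt X (V s) (Icc a b) s) (hV : ∀ s ∈ Icc a b, ‖V s‖ ≤ c) :
    ∀ s ∈ Icc a b, ∀ t ∈ Icc a b, s < t → ‖X t - X s‖ < t - s := by
  intro s hs t ht hst
  have h := (convex_Icc a b).norm_image_sub_le_of_norm_hasDerivWithin_le hX hV hs ht
  have h2 : ‖t - s‖ = t - s := by rw [Real.norm_eq_abs, abs_of_pos (sub_pos.2 hst)]
  rw [h2] at h
  have h3 : 0 < t - s := sub_pos.2 hst
  nlinarith [norm_nonneg (X t - X s)]

/-- integral over the `(s,y)`-part of a shell of a function of `(τ,y)`. -/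
theorem shellY_lintegral_le (hXm : Measurable X) (hVm : Measurable V) {a b : ℝ}
    {J : Set ℝ} (hJm : MeasurableSet J) (hJ : J ⊆ Icc a b)
    (hX : ∀ s ∈ J, HasDerivWithinAt X (V s) J s)
    (hlip : ∀ s ∈ J, ∀ t ∈ J, s < t → ‖X t - X s‖ < t - s)
    {R1 d1 : ℝ} (hR1 : 0 < R1) (hd1 : 0 < d1)
    (h : ℝ × R3 → ℝ≥0∞) (hh : Measurable h) (E : ℝ≥0∞) (hE : ∀ τ, ∫⁻ y, h (τ, y) ≤ E) :
    ∫⁻ s in J, ∫⁻ y, (shellY X V R1 d1).indicator (fun z => h (ret X z.1 z.2, z.2)) (s, y) ≤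
      ENNReal.ofReal ((b - a + 2 * R1) / d1) * E := by
  set S : Set (ℝ × R3) := shellY X V R1 d1 ∩ {z | z.1 ∈ J} with hS
  have hSm : MeasurableSet S :=
    (shellY_measurableSet hXm hVm R1 d1).inter (measurable_fst hJm)
  have hhm : Measurable (fun z : ℝ × R3 => h (ret X z.1 z.2, z.2)) :=
    hh.comp ((ret_measurable hXm).prodMk measurable_snd)
  have e1 : ∫⁻ s in J, ∫⁻ y, (shellY X V R1 d1).indicator
      (fun z => h (ret X z.1 z.2, z.2)) (s, y) = ∫⁻ z in S, h (ret X z.1 z.2, z.2) := by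
    rw [← lintegral_indicator hSm, ← lintegral_indicator hJm,
      Measure.volume_eq_prod, lintegral_prod _ (hhm.indicator hSm).aemeasurable]
    refine lintegral_congr (fun s => ?_)
    by_cases hs : s ∈ J
    · rw [indicator_of_mem hs]
      refine lintegral_congr (fun y => ?_)
      by_cases hy : (s, y) ∈ shellY X V R1 d1
      · have hy2 : (s, y) ∈ S := ⟨hy, hs⟩
        rw [indicator_of_mem hy, indicator_of_mem hy2]
      · have hy2 : (s, y) ∉ S := fun hh => hy hh.1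
        rw [indicator_of_notMem hy, indicator_of_notMem hy2]
    · rw [indicator_of_notMem hs]
      have h0 : ∀ y, S.indicator (fun z => h (ret X z.1 z.2, z.2)) (s, y) = 0 := by
        intro y
        have hy2 : (s, y) ∉ S := fun hh => hs hh.2
        exact indicator_of_notMem hy2 _
      simp only [h0, lintegral_zero]
  rw [e1]
  have hcv := cv_two (X := X) (V := V) (J := J) hXm hX hlip S hSm (fun z hz => hz.2) d1 hd1
    (fun z hz => by
      intro hz0
      have h1 : R1 ≤ ‖X z.1 - z.2‖ := hz.1.1.1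
      rw [hz0, sub_self, norm_zero] at h1
      linarith)
    (fun z hz => hz.1.2.1) (Icc (a - 2 * R1) b)
    (fun z hz => by
      have h1 : R1 ≤ ‖X z.1 - z.2‖ := hz.1.1.1
      have h2 : ‖X z.1 - z.2‖ < 2 * R1 := hz.1.1.2
      have h3 : z.1 ∈ Icc a b := hJ hz.2
      exact ⟨by linarith [h3.1], by linarith [h3.2]⟩) h hh
  refine hcv.trans ?_
  calc ENNReal.ofReal (1 / d1) * ∫⁻ τ in Icc (a - 2 * R1) b, ∫⁻ y, h (τ, y)
      ≤ ENNReal.ofReal (1 / d1) * ∫⁻ τ in Icc (a - 2 * R1) b, E := by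
        gcongr with τ
        exact hE τ
    _ = ENNReal.ofReal (1 / d1) * (E * ENNReal.ofReal (b - (a - 2 * R1))) := by
        rw [lintegral_const, Measure.restrict_apply_univ, Real.volume_Icc]
    _ = ENNReal.ofReal ((b - a + 2 * R1) / d1) * E := by
        rw [mul_comm E, ← mul_assoc, ← ENNReal.ofReal_mul (by positivity)]
        congr 2
        ring

theorem sden_eq_zero {R1 d1 e1 D1 Q : ℝ} {s : ℝ} {y : R3} (hy : (s, y) ∉ shellY X V R1 d1) (p : R3) :
    sden X g (shell X V R1 d1 e1 D1 Q) s y p = 0 := by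
  unfold sden
  rw [indicator_of_notMem]
  intro hp
  exact hy hp.1

/-- (c) : `μ(Ω) ≤ E (l + 2R)/(Q δ)`. -/
theorem mu_le_c (hXm : Measurable X) (hVm : Measurable V) {a b : ℝ}
    {J : Set ℝ} (hJm : MeasurableSet J) (hJ : J ⊆ Icc a b)
    (hX : ∀ s ∈ J, HasDerivWithinAt X (V s) J s)
    (hlip : ∀ s ∈ J, ∀ t ∈ J, s < t → ‖X t - X s‖ < t - s)
    (hg : Measurable (fun w : ℝ × R3 × R3 => g w.1 w.2.1 w.2.2))
    {R1 d1 e1 D1 Q : ℝ} (hR1 : 0 < R1) (hd1 : 0 < d1) (hQ : 0 < Q)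
    (E : ℝ≥0∞) (hE : ∀ τ, ∫⁻ y, ∫⁻ p, ENNReal.ofReal (gam p) * g τ y p ≤ E) :
    mu X g J (shell X V R1 d1 e1 D1 Q) ≤
      ENNReal.ofReal ((b - a + 2 * R1) / (Q * d1)) * E := by
  set h : ℝ × R3 → ℝ≥0∞ := fun z => ∫⁻ p, ENNReal.ofReal (gam p) * g z.1 z.2 p with hh
  have hhm : Measurable h := by
    have h1 : Measurable (fun w : (ℝ × R3) × R3 => ENNReal.ofReal (gam w.2) * g w.1.1 w.1.2 w.2) := by
      refine Measurable.mul ?_ ?_
      · exact (gam_measurable.comp measurable_snd).ennreal_ofReal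
      · have h2 : Measurable (fun w : (ℝ × R3) × R3 => ((w.1.1, w.1.2, w.2) : ℝ × R3 × R3)) :=
          (measurable_fst.comp measurable_fst).prodMk
            ((measurable_snd.comp measurable_fst).prodMk measurable_snd)
        exact hg.comp h2
    exact h1.lintegral_prod_right'
  have h1 : ∀ s y, ∫⁻ p, sden X g (shell X V R1 d1 e1 D1 Q) s y p ≤
      ENNReal.ofReal (1 / Q) *
        (shellY X V R1 d1).indicator (fun z => h (ret X z.1 z.2, z.2)) (s, y) := by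
    intro s y
    by_cases hy : (s, y) ∈ shellY X V R1 d1
    · rw [indicator_of_mem hy]
      simp only [hh]
      rw [← lintegral_const_mul' _ _ ENNReal.ofReal_ne_top]
      refine lintegral_mono (fun p => ?_)
      by_cases hp : (s, y, p) ∈ shell X V R1 d1 e1 D1 Q
      · unfold sden
        rw [indicator_of_mem hp, ← mul_assoc, ← ENNReal.ofReal_mul (by positivity)]
        have h2 : 1 ≤ 1 / Q * gam p := by
          rw [one_div, ← div_eq_inv_mul, le_div_iff₀ hQ, one_mul]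
          exact hp.2.2.2.1
        calc cden X g (s, y, p) = 1 * cden X g (s, y, p) := (one_mul _).symm
          _ ≤ _ := by
            gcongr
            · rw [← ENNReal.ofReal_one]
              exact ENNReal.ofReal_le_ofReal h2
            · exact le_rfl
      · unfold sden
        rw [indicator_of_notMem hp]
        exact zero_le
    · simp only [sden_eq_zero hy, lintegral_zero, zero_le]
  have h2 := shellY_lintegral_le hXm hVm hJm hJ hX hlip hR1 hd1 h hhm E hE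
  unfold mu mus
  calc ∫⁻ s in J, ∫⁻ y, ∫⁻ p, sden X g (shell X V R1 d1 e1 D1 Q) s y p
      ≤ ∫⁻ s in J, ∫⁻ y, ENNReal.ofReal (1 / Q) *
        (shellY X V R1 d1).indicator (fun z => h (ret X z.1 z.2, z.2)) (s, y) :=
        lintegral_mono (fun s => lintegral_mono (fun y => h1 s y))
    _ = ENNReal.ofReal (1 / Q) * ∫⁻ s in J, ∫⁻ y,
        (shellY X V R1 d1).indicator (fun z => h (ret X z.1 z.2, z.2)) (s, y) := by
        simp_rw [lintegral_const_mul' _ _ ENNReal.ofReal_ne_top]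
    _ ≤ ENNReal.ofReal (1 / Q) * (ENNReal.ofReal ((b - a + 2 * R1) / d1) * E) := by gcongr
    _ = ENNReal.ofReal ((b - a + 2 * R1) / (Q * d1)) * E := by
        rw [← mul_assoc, ← ENNReal.ofReal_mul (by positivity)]
        congr 2
        field_simp

/-- (A), pointwise in `s`: good part of the fields. `∫_{C(s)} K² ≤ E` -/
theorem costA_pt (hXm : Measurable X) (hVm : Measurable V)
    (hg : Measurable (fun w : ℝ × R3 × R3 => g w.1 w.2.1 w.2.2))
    (F₀ : ℝ≥0∞) (hg0 : ∀ τ y p, g τ y p ≤ F₀) (hV1 : ∀ s, ‖V s‖ ≤ 1)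
    {R1 d1 e1 D1 Q : ℝ} (he1 : 0 ≤ e1) (hD1 : 0 ≤ D1) (hQ : 0 ≤ Q) (s : ℝ)
    (K : R3 → ℝ≥0∞) (hK : Measurable K) (E : ℝ≥0∞) (hE : ∫⁻ y, K y ^ (2 : ℝ) ≤ E) :
    (∫⁻ y, K y * ∫⁻ p, sden X g (shell X V R1 d1 e1 D1 Q) s y p) ^ (2 : ℝ) ≤
      E * (F₀ * ENNReal.ofReal (256 * Q ^ 3 * min e1 D1) *
        mus X g (shell X V R1 d1 e1 D1 Q) s) := by
  have hm := sden_measurable hXm hg (shell_measurableSet hXm hVm R1 d1 e1 D1 Q)
  have hm2 : Measurable (Function.uncurry (sden X g (shell X V R1 d1 e1 D1 Q) s)) := by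
    have h1 : Measurable (fun z : R3 × R3 => ((s, z.1, z.2) : ℝ × R3 × R3)) :=
      measurable_const.prodMk (measurable_fst.prodMk measurable_snd)
    have h2 := hm.comp h1
    exact h2
  have h3 := cs1_pt (volume : Measure R3) (volume : Measure R3)
    (g := sden X g (shell X V R1 d1 e1 D1 Q) s) (K := K) (E := E)
    (M := F₀ * ENNReal.ofReal (256 * Q ^ 3 * min e1 D1)) hm2 hK hE
    (fun y => fibre_shell F₀ hg0 hV1 he1 hD1 hQ s y)
  exact h3

/-- (A), integrated over `J`. -/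
theorem costA_int (hXm : Measurable X) (hVm : Measurable V)
    (hg : Measurable (fun w : ℝ × R3 × R3 => g w.1 w.2.1 w.2.2))
    (F₀ : ℝ≥0∞) (hg0 : ∀ τ y p, g τ y p ≤ F₀) (hV1 : ∀ s, ‖V s‖ ≤ 1)
    {R1 d1 e1 D1 Q : ℝ} (he1 : 0 ≤ e1) (hD1 : 0 ≤ D1) (hQ : 0 ≤ Q) (J : Set ℝ)
    (K : ℝ → R3 → ℝ≥0∞) (hK : Measurable (Function.uncurry K)) (E : ℝ≥0∞)
    (hE : ∀ s, ∫⁻ y, K s y ^ (2 : ℝ) ≤ E) :
    ∫⁻ s in J, ∫⁻ y, K s y * ∫⁻ p, sden X g (shell X V R1 d1 e1 D1 Q) s y p ≤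
      (volume J) ^ (1 / (2 : ℝ)) * (E * (F₀ * ENNReal.ofReal (256 * Q ^ 3 * min e1 D1) *
        mu X g J (shell X V R1 d1 e1 D1 Q))) ^ (1 / (2 : ℝ)) := by
  have hm := sden_measurable hXm hg (shell_measurableSet hXm hVm R1 d1 e1 D1 Q)
  have h := cs1 (volume.restrict J) (volume : Measure R3) (volume : Measure R3)
    (g := sden X g (shell X V R1 d1 e1 D1 Q)) (K := K) (E := E)
    (M := F₀ * ENNReal.ofReal (256 * Q ^ 3 * min e1 D1)) hm hK hE
    (fun s y => fibre_shell F₀ hg0 hV1 he1 hD1 hQ s y)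
  rw [Measure.restrict_apply_univ] at h
  exact h

/-- (B), integrated over `J ⊆ [a,b]`: the part `√ε |B|`. `∫ Bf(τ,·)² ≤ E` at each time. -/
theorem costB_int (hXm : Measurable X) (hVm : Measurable V) {a b : ℝ}
    {J : Set ℝ} (hJm : MeasurableSet J) (hJ : J ⊆ Icc a b)
    (hX : ∀ s ∈ J, HasDerivWithinAt X (V s) J s)
    (hlip : ∀ s ∈ J, ∀ t ∈ J, s < t → ‖X t - X s‖ < t - s)
    (hg : Measurable (fun w : ℝ × R3 × R3 => g w.1 w.2.1 w.2.2))
    (F₀ : ℝ≥0∞) (hg0 : ∀ τ y p, g τ y p ≤ F₀) (hV1 : ∀ s, ‖V s‖ ≤ 1)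
    {R1 d1 e1 D1 Q : ℝ} (hR1 : 0 < R1) (hd1 : 0 < d1) (he1 : 0 ≤ e1) (hD1 : 0 ≤ D1)
    (hQ : 0 ≤ Q)
    (Bf : ℝ × R3 → ℝ≥0∞) (hBm : Measurable Bf) (E : ℝ≥0∞)
    (hE : ∀ τ, ∫⁻ y, Bf (τ, y) ^ (2 : ℝ) ≤ E) :
    ∫⁻ s in J, ∫⁻ y, Bf (ret X s y, y) *
        ∫⁻ p, sden X g (shell X V R1 d1 e1 D1 Q) s y p ≤
      (ENNReal.ofReal ((b - a + 2 * R1) / d1) * E) ^ (1 / (2 : ℝ)) *
        (F₀ * ENNReal.ofReal (256 * Q ^ 3 * min e1 D1) *
          mu X g J (shell X V R1 d1 e1 D1 Q)) ^ (1 / (2 : ℝ)) := by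
  have hm := sden_measurable hXm hg (shell_measurableSet hXm hVm R1 d1 e1 D1 Q)
  set K : ℝ → R3 → ℝ≥0∞ := fun s y =>
    (shellY X V R1 d1).indicator (fun z => Bf (ret X z.1 z.2, z.2)) (s, y) with hKdef
  have hKm : Measurable (Function.uncurry K) := by
    have h1 : Measurable (fun z : ℝ × R3 => Bf (ret X z.1 z.2, z.2)) :=
      hBm.comp ((ret_measurable hXm).prodMk measurable_snd)
    exact h1.indicator (shellY_measurableSet hXm hVm R1 d1)
  have hK2 : ∫⁻ s in J, ∫⁻ y, K s y ^ (2 : ℝ) ≤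
      ENNReal.ofReal ((b - a + 2 * R1) / d1) * E := by
    have h2 := shellY_lintegral_le hXm hVm hJm hJ hX hlip hR1 hd1 (fun z => Bf z ^ (2 : ℝ))
      (hBm.pow_const _) E hE
    refine le_trans (le_of_eq ?_) h2
    refine lintegral_congr (fun s => lintegral_congr (fun y => ?_))
    simp only [hKdef]
    by_cases hy : (s, y) ∈ shellY X V R1 d1
    · rw [indicator_of_mem hy, indicator_of_mem hy]
    · rw [indicator_of_notMem hy, indicator_of_notMem hy]
      exact ENNReal.zero_rpow_of_pos (by norm_num)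
  have h := cs2 (volume.restrict J) (volume : Measure R3) (volume : Measure R3)
    (g := sden X g (shell X V R1 d1 e1 D1 Q)) (K := K)
    (E := ENNReal.ofReal ((b - a + 2 * R1) / d1) * E)
    (M := F₀ * ENNReal.ofReal (256 * Q ^ 3 * min e1 D1)) hm hKm hK2
    (fun s y => fibre_shell F₀ hg0 hV1 he1 hD1 hQ s y)
  refine le_trans (le_of_eq ?_) h
  refine lintegral_congr (fun s => lintegral_congr (fun y => ?_))
  simp only [hKdef]
  by_cases hy : (s, y) ∈ shellY X V R1 d1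
  · rw [indicator_of_mem hy]
  · simp only [sden_eq_zero hy, lintegral_zero, mul_zero]

end Crest.Agent.R106.Cost
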