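/-
R106, node EN (helper338): the (truncated) backward cone flux identity, abstractly from a local
conservation law.  No surface integrals: `Φ_v(y) = ∫_0^{m(y)} g(τ,y) dτ`, `m(y) = min t1 (R-|y-x0|)_+`,
is Lipschitz with compact support, so the integral of its line derivative vanishes.
-/
import Mathlib
import Crest.Prelude.Def_VecCalc3

set_option autoImplicit false
set_option linter.unusedSectionVars false

open MeasureTheory Set Filter Topology Metric
open scoped InnerProductSpace NNReal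

noncomputable section

namespace Crest.Agent.R106.EnAbs

section scalar

variable {V : Type} [NormedAddCommGroup V] [InnerProductSpace ℝ V] [FiniteDimensional ℝ V]
  [MeasurableSpace V] [BorelSpace V]

/-- `m(y) = min t1 (R - |y - x0|)_+` -/
def rho (t R : ℝ) (x0 y : V) : ℝ := min t (max (R - ‖y - x0‖) 0)

/-- the potential -/
def Phi (t R : ℝ) (x0 : V) (g : ℝ → V → ℝ) (y : V) : ℝ := ∫ τ in (0:ℝ)..rho t R x0 y, g τ y

theorem rho_nonneg {t : ℝ} (ht : 0 < t) (R : ℝ) (x0 y : V) : 0 ≤ rho t R x0 y :=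
  le_min ht.le (le_max_right _ _)

theorem rho_le (t R : ℝ) (x0 y : V) : rho t R x0 y ≤ t := min_le_left _ _

theorem abs_rho_sub (t R : ℝ) (x0 y z : V) : |rho t R x0 y - rho t R x0 z| ≤ ‖y - z‖ := by
  have h1 : |rho t R x0 y - rho t R x0 z| ≤
      |max (R - ‖y - x0‖) 0 - max (R - ‖z - x0‖) 0| := by
    have := abs_min_sub_min_le_max t (max (R - ‖y - x0‖) 0) t (max (R - ‖z - x0‖) 0)
    simpa [rho] using this
  refine h1.trans ((abs_max_sub_max_le_abs _ _ _).trans ?_)
  have : R - ‖y - x0‖ - (R - ‖z - x0‖) = ‖z - x0‖ - ‖y - x0‖ := by ring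
  rw [this]
  refine (abs_norm_sub_norm_le _ _).trans ?_
  rw [sub_sub_sub_cancel_right, norm_sub_rev]

theorem mem_ball_of_rho_pos {t R : ℝ} {x0 y : V} (h : 0 < rho t R x0 y) : y ∈ ball x0 R := by
  rw [mem_ball, dist_eq_norm]
  by_contra hc
  push Not at hc
  have h1 : max (R - ‖y - x0‖) 0 = 0 := max_eq_right (by linarith)
  have h2 : rho t R x0 y ≤ 0 := by unfold rho; rw [h1]; exact min_le_right _ _
  linarith

theorem rho_eq_zero {t R : ℝ} (ht : 0 < t) {x0 y : V} (h : y ∉ ball x0 R) : rho t R x0 y = 0 := by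
  rw [mem_ball, dist_eq_norm, not_lt] at h
  unfold rho
  rw [max_eq_right (by linarith), min_eq_right ht.le]

variable {t R : ℝ} {x0 : V} {g : ℝ → V → ℝ} {g' : ℝ → V → (V →L[ℝ] ℝ)}

/-- continuity in `τ` at fixed `y` gives interval integrability. -/
theorem ii_of_cont {F : Type} [NormedAddCommGroup F] {g : ℝ → V → F}
    (hg : ContinuousOn (fun p : ℝ × V => g p.1 p.2) (Icc 0 t ×ˢ univ))
    {a b : ℝ} (ha : a ∈ Icc 0 t) (hb : b ∈ Icc 0 t) (y : V) :
    IntervalIntegrable (fun τ => g τ y) volume a b := by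
  apply ContinuousOn.intervalIntegrable
  have h1 : uIcc a b ⊆ Icc 0 t := uIcc_subset_Icc ha hb
  exact hg.comp (by fun_prop : ContinuousOn (fun τ : ℝ => (τ, y)) (uIcc a b))
    (fun τ hτ => ⟨h1 hτ, mem_univ _⟩)

theorem Phi_lipschitz (ht : 0 < t)
    (hg : ContinuousOn (fun p : ℝ × V => g p.1 p.2) (Icc 0 t ×ˢ univ))
    (hd : ∀ τ ∈ Icc 0 t, ∀ y, HasFDerivAt (g τ) (g' τ y) y)
    (hg' : ContinuousOn (fun p : ℝ × V => g' p.1 p.2) (Icc 0 t ×ˢ univ)) :
    ∃ C : ℝ≥0, LipschitzWith C (Phi t R x0 g) := by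
  have hK : IsCompact (Icc 0 t ×ˢ closedBall x0 R) := isCompact_Icc.prod (isCompact_closedBall x0 R)
  have hsub : Icc 0 t ×ˢ closedBall x0 R ⊆ Icc 0 t ×ˢ (univ : Set V) :=
    prod_mono le_rfl (subset_univ _)
  obtain ⟨M1, hM1⟩ := hK.exists_bound_of_continuousOn (hg.mono hsub)
  obtain ⟨M2, hM2⟩ := hK.exists_bound_of_continuousOn (hg'.mono hsub)
  set M := max (max M1 M2) 0 with hM
  have hM0 : 0 ≤ M := le_max_right _ _
  have hb1 : ∀ τ ∈ Icc 0 t, ∀ y ∈ closedBall x0 R, ‖g τ y‖ ≤ M := fun τ hτ y hy =>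
    (hM1 (τ, y) ⟨hτ, hy⟩).trans ((le_max_left _ _).trans (le_max_left _ _))
  have hb2 : ∀ τ ∈ Icc 0 t, ∀ y ∈ closedBall x0 R, ‖g' τ y‖ ≤ M := fun τ hτ y hy =>
    (hM2 (τ, y) ⟨hτ, hy⟩).trans ((le_max_right _ _).trans (le_max_left _ _))
  have hmv : ∀ τ ∈ Icc 0 t, ∀ y ∈ closedBall x0 R, ∀ z ∈ closedBall x0 R,
      ‖g τ y - g τ z‖ ≤ M * ‖y - z‖ := fun τ hτ y hy z hz =>
    (convex_closedBall x0 R).norm_image_sub_le_of_norm_hasFDerivWithin_le
      (fun w _ => (hd τ hτ w).hasFDerivWithinAt) (fun w hw => hb2 τ hτ w hw) hz hy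
  -- main estimate
  have key : ∀ y z : V, rho t R x0 z ≤ rho t R x0 y →
      |Phi t R x0 g y - Phi t R x0 g z| ≤ (M * t + M) * ‖y - z‖ := by
    intro y z hle
    have hy0 : rho t R x0 y ∈ Icc 0 t := ⟨rho_nonneg ht _ _ _, rho_le _ _ _ _⟩
    have hz0 : rho t R x0 z ∈ Icc 0 t := ⟨rho_nonneg ht _ _ _, rho_le _ _ _ _⟩
    have h00 : (0:ℝ) ∈ Icc 0 t := ⟨le_rfl, ht.le⟩
    have hsplit : Phi t R x0 g y - Phi t R x0 g z =
        (∫ τ in (0:ℝ)..rho t R x0 z, (g τ y - g τ z)) +
          ∫ τ in rho t R x0 z..rho t R x0 y, g τ y := by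
      rw [intervalIntegral.integral_sub (ii_of_cont hg h00 hz0 y) (ii_of_cont hg h00 hz0 z)]
      unfold Phi
      rw [← intervalIntegral.integral_add_adjacent_intervals (ii_of_cont hg h00 hz0 y)
        (ii_of_cont hg hz0 hy0 y)]
      ring
    rw [hsplit]
    have e1 : |∫ τ in (0:ℝ)..rho t R x0 z, (g τ y - g τ z)| ≤ M * ‖y - z‖ * t := by
      have := intervalIntegral.norm_integral_le_of_norm_le_const (a := 0) (b := rho t R x0 z)
        (f := fun τ => g τ y - g τ z) (C := M * ‖y - z‖) (by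
          intro τ hτ
          rw [uIoc_of_le hz0.1] at hτ
          have hz : z ∈ ball x0 R := mem_ball_of_rho_pos (hτ.1.trans_le hτ.2)
          have hy : y ∈ ball x0 R := mem_ball_of_rho_pos ((hτ.1.trans_le hτ.2).trans_le hle)
          exact hmv τ ⟨hτ.1.le, hτ.2.trans hz0.2⟩ y (ball_subset_closedBall hy) z
            (ball_subset_closedBall hz))
      rw [Real.norm_eq_abs, sub_zero, abs_of_nonneg hz0.1] at this
      refine this.trans ?_
      gcongr
      exact hz0.2
    have e2 : |∫ τ in rho t R x0 z..rho t R x0 y, g τ y| ≤ M * ‖y - z‖ := by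
      have := intervalIntegral.norm_integral_le_of_norm_le_const (a := rho t R x0 z)
        (b := rho t R x0 y) (f := fun τ => g τ y) (C := M) (by
          intro τ hτ
          rw [uIoc_of_le hle] at hτ
          have hy : y ∈ ball x0 R := mem_ball_of_rho_pos ((hz0.1.trans_lt hτ.1).trans_le hτ.2)
          exact hb1 τ ⟨(hz0.1.trans_lt hτ.1).le, hτ.2.trans hy0.2⟩ y (ball_subset_closedBall hy))
      rw [Real.norm_eq_abs] at this
      refine this.trans ?_
      gcongr
      exact abs_rho_sub t R x0 y z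
    calc |_ + _| ≤ _ := abs_add_le _ _
      _ ≤ M * ‖y - z‖ * t + M * ‖y - z‖ := add_le_add e1 e2
      _ = (M * t + M) * ‖y - z‖ := by ring
  refine ⟨⟨M * t + M, by positivity⟩, LipschitzWith.of_dist_le_mul ?_⟩
  intro y z
  rw [Real.dist_eq, dist_eq_norm]
  change |Phi t R x0 g y - Phi t R x0 g z| ≤ (M * t + M) * ‖y - z‖
  rcases le_total (rho t R x0 z) (rho t R x0 y) with h | h
  · exact key y z h
  · rw [abs_sub_comm, norm_sub_rev]; exact key z y h

theorem Phi_support (ht : 0 < t) : HasCompactSupport (Phi t R x0 g) := by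
  apply HasCompactSupport.intro (isCompact_closedBall x0 R)
  intro y hy
  have : y ∉ ball x0 R := fun h => hy (ball_subset_closedBall h)
  simp [Phi, rho_eq_zero ht this]

theorem integral_lineDeriv_Phi (ht : 0 < t)
    (hg : ContinuousOn (fun p : ℝ × V => g p.1 p.2) (Icc 0 t ×ˢ univ))
    (hd : ∀ τ ∈ Icc 0 t, ∀ y, HasFDerivAt (g τ) (g' τ y) y)
    (hg' : ContinuousOn (fun p : ℝ × V => g' p.1 p.2) (Icc 0 t ×ˢ univ)) (v : V) :
    Integrable (fun y => lineDeriv ℝ (Phi t R x0 g) y v) ∧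
    ∫ y, lineDeriv ℝ (Phi t R x0 g) y v = 0 := by
  obtain ⟨C, hC⟩ := Phi_lipschitz (R := R) (x0 := x0) ht hg hd hg'
  constructor
  · have hm : Measurable (fun y => lineDeriv ℝ (Phi t R x0 g) y v) :=
      measurable_lineDeriv hC.continuous
    have hb : ∀ y, ‖lineDeriv ℝ (Phi t R x0 g) y v‖ ≤ C * ‖v‖ := fun y =>
      norm_lineDeriv_le_of_lipschitz ℝ hC
    have hs : ∀ y, y ∉ closedBall x0 R → lineDeriv ℝ (Phi t R x0 g) y v = 0 := by
      intro y hy
      have hev : Phi t R x0 g =ᶠ[𝓝 y] fun _ => 0 := by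
        filter_upwards [isClosed_closedBall.isOpen_compl.mem_nhds hy] with z hz
        have : z ∉ ball x0 R := fun h => hz (ball_subset_closedBall h)
        simp [Phi, rho_eq_zero ht this]
      rw [hev.lineDeriv_eq]
      simp [lineDeriv]
    have hi : IntegrableOn (fun y => lineDeriv ℝ (Phi t R x0 g) y v) (closedBall x0 R) :=
      Measure.integrableOn_of_bounded (measure_closedBall_lt_top.ne) hm.aestronglyMeasurable
        (Eventually.of_forall hb)
    exact (integrableOn_iff_integrable_of_support_subset (by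
      intro y hy
      by_contra hc
      exact hy (hs y hc))).mp hi
  · have h := LipschitzWith.integral_lineDeriv_mul_eq (μ := (volume : Measure V))
      (f := fun _ : V => (1:ℝ)) (g := Phi t R x0 g) (C := 0) (D := C) (LipschitzWith.const 1) hC
      (Phi_support ht) (-v)
    have h1 : ∀ x : V, lineDeriv ℝ (fun _ : V => (1:ℝ)) x (-v) = 0 := fun x => by
      simp [lineDeriv]
    simp only [h1, zero_mul, integral_zero, neg_neg, mul_one] at h
    exact h.symm

/-- derivative of the norm along a line. -/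
theorem hasDerivAt_norm_line {x0 y : V} (hy : y ≠ x0) (v : V) :
    HasDerivAt (fun h : ℝ => ‖y + h • v - x0‖) (⟪y - x0, v⟫_ℝ / ‖y - x0‖) 0 := by
  have hne : ‖y - x0‖ ≠ 0 := by simpa [sub_eq_zero] using hy
  have h1 : HasDerivAt (fun h : ℝ => y + h • v - x0) v 0 := by
    have := ((hasDerivAt_id (0:ℝ)).smul_const v).const_add y |>.sub_const x0
    simpa using this
  have h2 := h1.norm_sq.sqrt (by simpa using hne)
  have h3 : (fun h : ℝ => √(‖y + h • v - x0‖ ^ 2)) = fun h : ℝ => ‖y + h • v - x0‖ := by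
    funext h; exact Real.sqrt_sq (norm_nonneg _)
  rw [h3] at h2
  convert h2 using 1
  simp only [zero_smul, add_zero]
  rw [Real.sqrt_sq (norm_nonneg _)]
  field_simp

/-- derivative in `y` with a fixed upper limit. -/
theorem hasDerivAt_fixed (ht : 0 < t)
    (hg : ContinuousOn (fun p : ℝ × V => g p.1 p.2) (Icc 0 t ×ˢ univ))
    (hd : ∀ τ ∈ Icc 0 t, ∀ y, HasFDerivAt (g τ) (g' τ y) y)
    (hg' : ContinuousOn (fun p : ℝ × V => g' p.1 p.2) (Icc 0 t ×ˢ univ))
    (y v : V) {r0 : ℝ} (hr0m : r0 ∈ Icc 0 t) :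
    HasDerivAt (fun h : ℝ => ∫ τ in (0:ℝ)..r0, g τ (y + h • v))
      (∫ τ in (0:ℝ)..r0, g' τ y v) 0 := by
  have h00 : (0:ℝ) ∈ Icc 0 t := ⟨le_rfl, ht.le⟩
  -- uniform bound on a compact neighbourhood
  have hK : IsCompact (Icc 0 t ×ˢ closedBall y ‖v‖) :=
    isCompact_Icc.prod (isCompact_closedBall y ‖v‖)
  obtain ⟨M, hM⟩ := hK.exists_bound_of_continuousOn
    (hg'.mono (prod_mono le_rfl (subset_univ _)))
  have hcv : ContinuousOn (fun p : ℝ × V => g' p.1 p.2 v) (Icc 0 t ×ˢ univ) :=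
    hg'.clm_apply continuousOn_const
  have hmeas : ∀ (q : ℝ → ℝ), IntervalIntegrable q volume 0 r0 →
      AEStronglyMeasurable q (volume.restrict (uIoc 0 r0)) := fun q hq =>
    (intervalIntegrable_iff.mp hq).aestronglyMeasurable
  have key := intervalIntegral.hasDerivAt_integral_of_dominated_loc_of_deriv_le
    (μ := volume) (a := 0) (b := r0) (F := fun h τ => g τ (y + h • v))
    (F' := fun h τ => g' τ (y + h • v) v) (x₀ := (0:ℝ)) (s := Ioo (-1) 1)
    (bound := fun _ => M * ‖v‖) (Ioo_mem_nhds (by norm_num) (by norm_num))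
    (Eventually.of_forall fun h => hmeas _ (ii_of_cont hg h00 hr0m (y + h • v)))
    (by simpa using ii_of_cont hg h00 hr0m y)
    (hmeas _ (ii_of_cont (g := fun τ z => g' τ z v) hcv h00 hr0m (y + (0:ℝ) • v)))
    (by
      refine Eventually.of_forall fun τ hτ h hh => ?_
      rw [uIoc_of_le hr0m.1] at hτ
      refine (ContinuousLinearMap.le_opNorm _ _).trans ?_
      gcongr
      refine hM (τ, y + h • v) ⟨⟨hτ.1.le, hτ.2.trans hr0m.2⟩, ?_⟩
      rw [mem_closedBall, dist_eq_norm, add_sub_cancel_left, norm_smul]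
      have : ‖h‖ ≤ 1 := by
        rw [Real.norm_eq_abs, abs_le]; exact ⟨hh.1.le, hh.2.le⟩
      calc ‖h‖ * ‖v‖ ≤ 1 * ‖v‖ := by gcongr
        _ = ‖v‖ := one_mul _)
    (by simp)
    (by
      refine Eventually.of_forall fun τ hτ h _ => ?_
      rw [uIoc_of_le hr0m.1] at hτ
      have hl : HasDerivAt (fun h : ℝ => y + h • v) v h := by
        have := ((hasDerivAt_id h).smul_const v).const_add y
        simpa using this
      exact (hd τ ⟨hτ.1.le, hτ.2.trans hr0m.2⟩ (y + h • v)).comp_hasDerivAt h hl)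
  have := key.2
  simpa using this

/-- inner zone `|y - x0| < R - t`. -/
theorem hasLineDerivAt_Phi_in (ht : 0 < t)
    (hg : ContinuousOn (fun p : ℝ × V => g p.1 p.2) (Icc 0 t ×ˢ univ))
    (hd : ∀ τ ∈ Icc 0 t, ∀ y, HasFDerivAt (g τ) (g' τ y) y)
    (hg' : ContinuousOn (fun p : ℝ × V => g' p.1 p.2) (Icc 0 t ×ˢ univ))
    {y : V} (hy : y ∈ ball x0 (R - t)) (v : V) :
    HasLineDerivAt ℝ (Phi t R x0 g) (∫ τ in (0:ℝ)..t, g' τ y v) y v := by
  unfold HasLineDerivAt
  have hcont : ContinuousAt (fun h : ℝ => y + h • v) 0 := by fun_prop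
  have hpos : ∀ᶠ h in 𝓝 (0:ℝ), y + h • v ∈ ball x0 (R - t) :=
    hcont.eventually_mem (isOpen_ball.mem_nhds (by simpa using hy))
  have hsplit : (fun h : ℝ => Phi t R x0 g (y + h • v)) =ᶠ[𝓝 0] fun h : ℝ =>
      (∫ τ in (0:ℝ)..t, g τ (y + h • v)) := by
    filter_upwards [hpos] with h hh
    rw [mem_ball, dist_eq_norm] at hh
    have : rho t R x0 (y + h • v) = t := by
      unfold rho
      rw [max_eq_left (by linarith), min_eq_left (by linarith)]
    unfold Phi
    rw [this]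
  exact (hasDerivAt_fixed ht hg hd hg' y v ⟨ht.le, le_rfl⟩).congr_of_eventuallyEq hsplit

/-- outer zone `R - t < |y - x0| < R`. -/
theorem hasLineDerivAt_Phi (ht : 0 < t)
    (hg : ContinuousOn (fun p : ℝ × V => g p.1 p.2) (Icc 0 t ×ˢ univ))
    (hd : ∀ τ ∈ Icc 0 t, ∀ y, HasFDerivAt (g τ) (g' τ y) y)
    (hg' : ContinuousOn (fun p : ℝ × V => g' p.1 p.2) (Icc 0 t ×ˢ univ))
    {y : V} (hne : y ≠ x0) (hr0pos : 0 < R - ‖y - x0‖) (hr0lt : R - ‖y - x0‖ < t) (v : V) :
    HasLineDerivAt ℝ (Phi t R x0 g)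
      ((∫ τ in (0:ℝ)..(R - ‖y - x0‖), g' τ y v) -
        g (R - ‖y - x0‖) y * (⟪y - x0, v⟫_ℝ / ‖y - x0‖)) y v := by
  unfold HasLineDerivAt
  set r0 : ℝ := R - ‖y - x0‖ with hr0
  have hnl := hasDerivAt_norm_line hne v
  set D1 : ℝ := ⟪y - x0, v⟫_ℝ / ‖y - x0‖ with hD1
  -- near `0` the positive part is inactive
  have hcont : ContinuousAt (fun h : ℝ => R - ‖y + h • v - x0‖) 0 := by fun_prop
  have h0 : R - ‖y + (0:ℝ) • v - x0‖ = r0 := by simp [hr0]
  have hpos : ∀ᶠ h in 𝓝 (0:ℝ), R - ‖y + h • v - x0‖ ∈ Ioo 0 t :=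
    hcont.eventually_mem (by rw [h0]; exact Ioo_mem_nhds hr0pos hr0lt)
  have hrho : ∀ᶠ h in 𝓝 (0:ℝ), rho t R x0 (y + h • v) = R - ‖y + h • v - x0‖ := by
    filter_upwards [hpos] with h hh
    unfold rho
    rw [max_eq_left hh.1.le, min_eq_right hh.2.le]
  -- splitting
  have h00 : (0:ℝ) ∈ Icc 0 t := ⟨le_rfl, ht.le⟩
  have hr0m : r0 ∈ Icc 0 t := ⟨hr0pos.le, hr0lt.le⟩
  have hsplit : (fun h : ℝ => Phi t R x0 g (y + h • v)) =ᶠ[𝓝 0] fun h : ℝ =>
      (∫ τ in (0:ℝ)..r0, g τ (y + h • v)) +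
        ∫ τ in r0..(R - ‖y + h • v - x0‖), g τ (y + h • v) := by
    filter_upwards [hpos, hrho] with h hh hr
    unfold Phi
    rw [hr, intervalIntegral.integral_add_adjacent_intervals (ii_of_cont hg h00 hr0m _)
      (ii_of_cont hg hr0m ⟨hh.1.le, hh.2.le⟩ _)]
  refine HasDerivAt.congr_of_eventuallyEq ?_ hsplit
  have hA := hasDerivAt_fixed ht hg hd hg' y v hr0m
  have hB : HasDerivAt (fun h : ℝ => ∫ τ in r0..(R - ‖y + h • v - x0‖), g τ (y + h • v))
      (-(g r0 y * D1)) 0 := by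
    -- continuity of `g` at the interior point `(r0, y)`
    have hgc : ContinuousAt (fun p : ℝ × V => g p.1 p.2) (r0, y) :=
      hg.continuousAt (prod_mem_nhds (Icc_mem_nhds hr0pos hr0lt) univ_mem)
    have hrd : HasDerivAt (fun h : ℝ => g r0 y * ((R - ‖y + h • v - x0‖) - r0))
        (-(g r0 y * D1)) 0 := by
      have := ((hnl.const_sub R).sub_const r0).const_mul (g r0 y)
      rwa [mul_neg] at this
    have hdiff : HasDerivAt (fun h : ℝ => (∫ τ in r0..(R - ‖y + h • v - x0‖), g τ (y + h • v)) -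
        g r0 y * ((R - ‖y + h • v - x0‖) - r0)) 0 0 := by
      rw [hasDerivAt_iff_isLittleO_nhds_zero]
      simp only [zero_add, zero_smul, add_zero, smul_zero, sub_zero]
      rw [show R - ‖y - x0‖ = r0 from rfl, sub_self, mul_zero, intervalIntegral.integral_same,
        sub_zero]
      simp only [sub_zero]
      rw [Asymptotics.isLittleO_iff]
      intro c hc
      by_cases hv : v = 0
      · refine Eventually.of_forall fun h => ?_
        simp only [hv, smul_zero, add_zero]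
        rw [show R - ‖y - x0‖ = r0 from rfl]
        simp only [sub_self, mul_zero, intervalIntegral.integral_same, norm_zero]
        positivity
      have hvn : 0 < ‖v‖ := norm_pos_iff.mpr hv
      have hc' : 0 < c / ‖v‖ := by positivity
      obtain ⟨η, hη, hball⟩ := Metric.continuousAt_iff.mp hgc (c / ‖v‖) hc'
      have e1 : ∀ᶠ h in 𝓝 (0:ℝ), |h| * ‖v‖ < η := by
        have : ContinuousAt (fun h : ℝ => |h| * ‖v‖) 0 := by fun_prop
        exact this.eventually_lt_const (by simpa using hη)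
      filter_upwards [e1, hpos] with h hh hp
      have hlen : |(R - ‖y + h • v - x0‖) - r0| ≤ |h| * ‖v‖ := by
        have : (R - ‖y + h • v - x0‖) - r0 = ‖y - x0‖ - ‖y + h • v - x0‖ := by rw [hr0]; ring
        rw [this]
        refine (abs_norm_sub_norm_le _ _).trans ?_
        rw [show y - x0 - (y + h • v - x0) = -(h • v) by abel, norm_neg, norm_smul,
          Real.norm_eq_abs]
      have hint : (∫ τ in r0..(R - ‖y + h • v - x0‖), g τ (y + h • v)) -
          g r0 y * ((R - ‖y + h • v - x0‖) - r0) =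
          ∫ τ in r0..(R - ‖y + h • v - x0‖), (g τ (y + h • v) - g r0 y) := by
        rw [intervalIntegral.integral_sub (ii_of_cont hg hr0m ⟨hp.1.le, hp.2.le⟩ _) (by simp)]
        rw [intervalIntegral.integral_const, smul_eq_mul, mul_comm]
      rw [hint]
      have hbd := intervalIntegral.norm_integral_le_of_norm_le_const (a := r0)
        (b := R - ‖y + h • v - x0‖) (f := fun τ => g τ (y + h • v) - g r0 y) (C := c / ‖v‖) (by
          intro τ hτ
          have h1 : |τ - r0| ≤ |h| * ‖v‖ := by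
            have : τ ∈ uIcc r0 (R - ‖y + h • v - x0‖) := uIoc_subset_uIcc hτ
            exact (abs_sub_left_of_mem_uIcc this).trans hlen
          have h2 : dist (τ, y + h • v) (r0, y) < η := by
            rw [Prod.dist_eq, max_lt_iff]
            constructor
            · rw [Real.dist_eq]; exact h1.trans_lt hh
            · change dist (y + h • v) y < η
              rw [dist_eq_norm, add_sub_cancel_left, norm_smul, Real.norm_eq_abs]
              exact hh
          exact (hball h2).le)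
      refine hbd.trans ?_
      calc c / ‖v‖ * |R - ‖y + h • v - x0‖ - r0| ≤ c / ‖v‖ * (|h| * ‖v‖) := by gcongr
        _ = c * ‖h‖ := by rw [Real.norm_eq_abs]; field_simp
    have hsum := hdiff.add hrd
    rw [zero_add] at hsum
    refine hsum.congr_of_eventuallyEq (Eventually.of_forall fun h => ?_)
    simp
  have := hA.add hB
  rw [← sub_eq_add_neg] at this
  exact this

end scalar

section vector

open Crest.AnalysisR.VecCalc3

/-- **Truncated backward cone identity** for a local conservation law `∂_τ e + div S = 0` on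
`[0,t] × R3` (`S' τ y` = derivative of `S τ` at `y`). -/
theorem trunc_cone {t R : ℝ} (ht : 0 < t) (x0 : R3) {e : ℝ → R3 → ℝ}
    {S : ℝ → R3 → R3} {S' : ℝ → R3 → (R3 →L[ℝ] R3)}
    (hSc : ContinuousOn (fun p : ℝ × R3 => S p.1 p.2) (Icc 0 t ×ˢ univ))
    (hS : ∀ τ ∈ Icc 0 t, ∀ y, HasFDerivAt (S τ) (S' τ y) y)
    (hS'c : ContinuousOn (fun p : ℝ × R3 => S' p.1 p.2) (Icc 0 t ×ˢ univ))
    (hec : ContinuousOn (fun p : ℝ × R3 => e p.1 p.2) (Icc 0 t ×ˢ univ))
    (he : ∀ τ ∈ Ioo 0 t, ∀ y, HasDerivAt (fun r => e r y)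
      (-(∑ i, S' τ y (EuclideanSpace.single i 1) i)) τ) :
    IntegrableOn (fun y => e (R - ‖x0 - y‖) y -
      ⟪‖x0 - y‖⁻¹ • (x0 - y), S (R - ‖x0 - y‖) y⟫_ℝ) (ball x0 R \ ball x0 (R - t)) ∧
    (∫ y in ball x0 (R - t), e t y) + (∫ y in ball x0 R \ ball x0 (R - t),
      (e (R - ‖x0 - y‖) y - ⟪‖x0 - y‖⁻¹ • (x0 - y), S (R - ‖x0 - y‖) y⟫_ℝ)) =
      ∫ y in ball x0 R, e 0 y := by
  classical
  set A : Set R3 := ball x0 R \ ball x0 (R - t) with hA
  set G : R3 → ℝ := fun y => e (R - ‖x0 - y‖) y -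
      ⟪‖x0 - y‖⁻¹ • (x0 - y), S (R - ‖x0 - y‖) y⟫_ℝ with hG
  have hAm : MeasurableSet A := measurableSet_ball.diff measurableSet_ball
  have hmem : ∀ y ∈ A, R - ‖x0 - y‖ ∈ Icc 0 t := by
    intro y hy
    have h1 := hy.1
    have h2 := hy.2
    rw [mem_ball, dist_comm, dist_eq_norm] at h1 h2
    exact ⟨by linarith, by linarith⟩
  have h0t : (0:ℝ) ∈ Icc 0 t := ⟨le_rfl, ht.le⟩
  have htt : t ∈ Icc 0 t := ⟨ht.le, le_rfl⟩
  -- integrability
  have hint0 : IntegrableOn (fun y => e 0 y) (ball x0 R) := by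
    have hc : Continuous (fun y => e 0 y) := by
      rw [← continuousOn_univ]
      exact hec.comp (by fun_prop : ContinuousOn (fun y : R3 => ((0:ℝ), y)) univ)
        (fun y _ => ⟨h0t, mem_univ _⟩)
    exact (hc.continuousOn.integrableOn_compact (isCompact_closedBall x0 R)).mono_set
      ball_subset_closedBall
  have hintt : IntegrableOn (fun y => e t y) (ball x0 (R - t)) := by
    have hc : Continuous (fun y => e t y) := by
      rw [← continuousOn_univ]
      exact hec.comp (by fun_prop : ContinuousOn (fun y : R3 => (t, y)) univ)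
        (fun y _ => ⟨htt, mem_univ _⟩)
    exact (hc.continuousOn.integrableOn_compact (isCompact_closedBall x0 (R - t))).mono_set
      ball_subset_closedBall
  have hintG : IntegrableOn G A := by
    have hK : IsCompact (Icc 0 t ×ˢ closedBall x0 R) :=
      isCompact_Icc.prod (isCompact_closedBall x0 R)
    have hsub : Icc 0 t ×ˢ closedBall x0 R ⊆ Icc 0 t ×ˢ (univ : Set R3) :=
      prod_mono le_rfl (subset_univ _)
    obtain ⟨M1, hM1⟩ := hK.exists_bound_of_continuousOn (hec.mono hsub)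
    obtain ⟨M2, hM2⟩ := hK.exists_bound_of_continuousOn (hSc.mono hsub)
    have hcont : ContinuousOn G (A \ {x0}) := by
      have hmap : MapsTo (fun y : R3 => (R - ‖x0 - y‖, y)) (A \ {x0}) (Icc 0 t ×ˢ univ) :=
        fun y hy => ⟨hmem y hy.1, mem_univ _⟩
      have hpc : ContinuousOn (fun y : R3 => (R - ‖x0 - y‖, y)) (A \ {x0}) := by fun_prop
      have c1 := hec.comp hpc hmap
      have c2 := hSc.comp hpc hmap
      refine c1.sub (ContinuousOn.inner ?_ c2)
      have c3 : ContinuousOn (fun y : R3 => x0 - y) (A \ {x0}) := by fun_prop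
      have c4 : ContinuousOn (fun y : R3 => ‖x0 - y‖⁻¹) (A \ {x0}) := by
        refine ContinuousOn.inv₀ c3.norm ?_
        intro y hy
        rw [norm_ne_zero_iff, sub_ne_zero]
        exact fun h => hy.2 h.symm
      exact c4.smul c3
    have hAm' : MeasurableSet (A \ {x0}) := hAm.diff (measurableSet_singleton _)
    have hfin : volume (A \ {x0}) ≠ ⊤ :=
      ((measure_mono (sdiff_subset.trans sdiff_subset)).trans_lt
        (measure_ball_lt_top (x := x0) (r := R))).ne
    have h1 : IntegrableOn G (A \ {x0}) := by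
      refine IntegrableOn.of_bound (hfin.lt_top) (hcont.aestronglyMeasurable hAm') (M1 + M2) ?_
      filter_upwards [ae_restrict_mem hAm'] with y hy
      have hy2 : y ∈ closedBall x0 R := ball_subset_closedBall hy.1.1
      have b1 := hM1 (R - ‖x0 - y‖, y) ⟨hmem y hy.1, hy2⟩
      have b2 := hM2 (R - ‖x0 - y‖, y) ⟨hmem y hy.1, hy2⟩
      have hne : ‖x0 - y‖ ≠ 0 := by
        rw [norm_ne_zero_iff, sub_ne_zero]; exact fun h => hy.2 h.symm
      have b3 : |⟪‖x0 - y‖⁻¹ • (x0 - y), S (R - ‖x0 - y‖) y⟫_ℝ| ≤ M2 := by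
        refine (abs_real_inner_le_norm _ _).trans ?_
        rw [norm_smul, norm_inv, norm_norm, inv_mul_cancel₀ hne, one_mul]
        exact b2
      calc ‖G y‖ ≤ ‖e (R - ‖x0 - y‖) y‖ + |⟪‖x0 - y‖⁻¹ • (x0 - y), S (R - ‖x0 - y‖) y⟫_ℝ| :=
            norm_sub_le _ _
        _ ≤ M1 + M2 := add_le_add b1 b3
    have hae : (A \ {x0} : Set R3) =ᵐ[volume] A := by
      have : volume ({x0} : Set R3) = 0 := measure_singleton _
      exact sdiff_null_ae_eq_self this
    exact h1.congr_set_ae hae.symm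
  refine ⟨hintG, ?_⟩
  -- the potentials
  let g : Fin 3 → ℝ → R3 → ℝ := fun i τ y => S τ y i
  let g' : Fin 3 → ℝ → R3 → (R3 →L[ℝ] ℝ) := fun i τ y =>
    (EuclideanSpace.proj i : R3 →L[ℝ] ℝ).comp (S' τ y)
  have hg : ∀ i, ContinuousOn (fun p : ℝ × R3 => g i p.1 p.2) (Icc 0 t ×ˢ univ) := fun i =>
    (EuclideanSpace.proj i : R3 →L[ℝ] ℝ).continuous.comp_continuousOn hSc
  have hd : ∀ i, ∀ τ ∈ Icc 0 t, ∀ y, HasFDerivAt (g i τ) (g' i τ y) y := fun i τ hτ y =>
    (EuclideanSpace.proj i : R3 →L[ℝ] ℝ).hasFDerivAt.comp y (hS τ hτ y)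
  have hg' : ∀ i, ContinuousOn (fun p : ℝ × R3 => g' i p.1 p.2) (Icc 0 t ×ˢ univ) := fun i =>
    continuousOn_const.clm_comp hS'c
  have hzero : ∫ y, ∑ i, lineDeriv ℝ (Phi t R x0 (g i)) y (EuclideanSpace.single i 1) = 0 := by
    rw [integral_finsetSum _ (fun i _ =>
      (integral_lineDeriv_Phi ht (hg i) (hd i) (hg' i) (EuclideanSpace.single i 1)).1)]
    exact Finset.sum_eq_zero fun i _ =>
      (integral_lineDeriv_Phi ht (hg i) (hd i) (hg' i) (EuclideanSpace.single i 1)).2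
  -- FTC in time
  have hftc : ∀ r ∈ Icc 0 t, ∀ y, ∑ i, ∫ τ in (0:ℝ)..r, g' i τ y (EuclideanSpace.single i 1) =
      e 0 y - e r y := by
    intro r hr y
    have hi : ∀ i, IntervalIntegrable (fun τ => g' i τ y (EuclideanSpace.single i 1))
        volume 0 r := fun i =>
      ii_of_cont (g := fun τ z => g' i τ z (EuclideanSpace.single i 1))
        ((hg' i).clm_apply continuousOn_const) h0t hr y
    rw [← intervalIntegral.integral_finsetSum (fun i _ => hi i)]
    have hcr : ContinuousOn (fun τ => e τ y) (Icc 0 r) :=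
      hec.comp (by fun_prop : ContinuousOn (fun τ : ℝ => (τ, y)) (Icc 0 r))
        (fun τ hτ => ⟨⟨hτ.1, hτ.2.trans hr.2⟩, mem_univ _⟩)
    have hsum : IntervalIntegrable (fun τ => ∑ i, g' i τ y (EuclideanSpace.single i 1))
        volume 0 r := by
      have := IntervalIntegrable.sum (Finset.univ : Finset (Fin 3)) (fun i _ => hi i)
      refine this.congr (fun τ _ => ?_)
      simp
    have h := intervalIntegral.integral_eq_sub_of_hasDerivAt_of_le hr.1 hcr
      (f' := fun τ => -(∑ i, g' i τ y (EuclideanSpace.single i 1)))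
      (fun τ hτ => he τ ⟨hτ.1, hτ.2.trans_le hr.2⟩ y) hsum.neg
    rw [intervalIntegral.integral_neg] at h
    linarith
  -- the pointwise identity
  have hae : (fun y => ∑ i, lineDeriv ℝ (Phi t R x0 (g i)) y (EuclideanSpace.single i 1))
      =ᵐ[volume] fun y => (ball x0 R).indicator (fun y => e 0 y) y -
        (ball x0 (R - t)).indicator (fun y => e t y) y - A.indicator G y := by
    have n1 : volume (sphere x0 (R - t) ∪ sphere x0 R ∪ {x0}) = 0 := by
      rw [measure_union_null_iff, measure_union_null_iff]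
      exact ⟨⟨Measure.addHaar_sphere _ _ _, Measure.addHaar_sphere _ _ _⟩, measure_singleton _⟩
    filter_upwards [measure_eq_zero_iff_ae_notMem.mp n1] with y hy
    simp only [mem_union, mem_sphere, mem_singleton_iff, not_or, dist_eq_norm] at hy
    obtain ⟨⟨hy1, hy2⟩, hy3⟩ := hy
    rcases lt_or_gt_of_ne hy1 with h1 | h1
    · -- inner zone
      have m1 : y ∈ ball x0 (R - t) := by rw [mem_ball, dist_eq_norm]; exact h1
      have m2 : y ∈ ball x0 R := ball_subset_ball (by linarith) m1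
      have m3 : y ∉ A := fun h => h.2 m1
      rw [indicator_of_mem m2, indicator_of_mem m1, indicator_of_notMem m3, sub_zero,
        ← hftc t htt y]
      exact Finset.sum_congr rfl fun i _ =>
        (hasLineDerivAt_Phi_in ht (hg i) (hd i) (hg' i) m1 _).lineDeriv
    · have m1 : y ∉ ball x0 (R - t) := by rw [mem_ball, dist_eq_norm]; linarith
      rcases lt_or_gt_of_ne hy2 with h2 | h2
      · -- mantle
        have m2 : y ∈ ball x0 R := by rw [mem_ball, dist_eq_norm]; exact h2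
        have m3 : y ∈ A := ⟨m2, m1⟩
        rw [indicator_of_mem m2, indicator_of_notMem m1, indicator_of_mem m3, sub_zero]
        have hl : ∀ i : Fin 3, lineDeriv ℝ (Phi t R x0 (g i)) y (EuclideanSpace.single i 1) =
            (∫ τ in (0:ℝ)..(R - ‖y - x0‖), g' i τ y (EuclideanSpace.single i 1)) -
              g i (R - ‖y - x0‖) y * (⟪y - x0, EuclideanSpace.single i 1⟫_ℝ / ‖y - x0‖) := fun i =>
          (hasLineDerivAt_Phi ht (hg i) (hd i) (hg' i) hy3 (by linarith) (by linarith) _).lineDeriv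
        simp only [hl, Finset.sum_sub_distrib]
        rw [hftc (R - ‖y - x0‖) ⟨by linarith, by linarith⟩ y]
        have hin : ∑ i : Fin 3, g i (R - ‖y - x0‖) y *
            (⟪y - x0, EuclideanSpace.single i 1⟫_ℝ / ‖y - x0‖) =
            -⟪‖x0 - y‖⁻¹ • (x0 - y), S (R - ‖x0 - y‖) y⟫_ℝ := by
          have hs1 : ∀ i : Fin 3, ⟪y - x0, EuclideanSpace.single i (1:ℝ)⟫_ℝ = y i - x0 i := by
            intro i
            rw [EuclideanSpace.inner_single_right]
            simp
          simp only [hs1]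
          rw [norm_sub_rev x0 y, inner_smul_left]
          simp only [g, PiLp.inner_apply, RCLike.inner_apply,
            conj_trivial, PiLp.sub_apply, Fin.sum_univ_three]
          ring
        rw [hin]
        simp only [hG]
        rw [norm_sub_rev x0 y]
        ring
      · have m2 : y ∉ ball x0 R := by rw [mem_ball, dist_eq_norm]; linarith
        have m3 : y ∉ A := fun h => m2 h.1
        rw [indicator_of_notMem m2, indicator_of_notMem m1, indicator_of_notMem m3]
        simp only [sub_zero]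
        refine Finset.sum_eq_zero fun i _ => ?_
        have hev : Phi t R x0 (g i) =ᶠ[𝓝 y] fun _ => 0 := by
          have hm : y ∈ (closedBall x0 R)ᶜ := by
            simp only [mem_compl_iff, mem_closedBall, dist_eq_norm]; linarith
          filter_upwards [isClosed_closedBall.isOpen_compl.mem_nhds hm] with z hz
          have : z ∉ ball x0 R := fun h => hz (ball_subset_closedBall h)
          simp [Phi, rho_eq_zero ht this]
        rw [hev.lineDeriv_eq]
        simp [lineDeriv]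
  rw [integral_congr_ae hae, integral_sub, integral_sub, integral_indicator measurableSet_ball,
    integral_indicator measurableSet_ball, integral_indicator hAm] at hzero
  · linarith
  · exact (integrable_indicator_iff measurableSet_ball).mpr hint0
  · exact (integrable_indicator_iff measurableSet_ball).mpr hintt
  · exact ((integrable_indicator_iff measurableSet_ball).mpr hint0).sub
      ((integrable_indicator_iff measurableSet_ball).mpr hintt)
  · exact (integrable_indicator_iff hAm).mpr hintG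

/-- **Backward cone flux identity** (`R = t`). -/
theorem cone_flux {t : ℝ} (ht : 0 < t) (x0 : R3) {e : ℝ → R3 → ℝ}
    {S : ℝ → R3 → R3} {S' : ℝ → R3 → (R3 →L[ℝ] R3)}
    (hSc : ContinuousOn (fun p : ℝ × R3 => S p.1 p.2) (Icc 0 t ×ˢ univ))
    (hS : ∀ τ ∈ Icc 0 t, ∀ y, HasFDerivAt (S τ) (S' τ y) y)
    (hS'c : ContinuousOn (fun p : ℝ × R3 => S' p.1 p.2) (Icc 0 t ×ˢ univ))
    (hec : ContinuousOn (fun p : ℝ × R3 => e p.1 p.2) (Icc 0 t ×ˢ univ))
    (he : ∀ τ ∈ Ioo 0 t, ∀ y, HasDerivAt (fun r => e r y)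
      (-(∑ i, S' τ y (EuclideanSpace.single i 1) i)) τ) :
    IntegrableOn (fun y => e (t - ‖x0 - y‖) y -
      ⟪‖x0 - y‖⁻¹ • (x0 - y), S (t - ‖x0 - y‖) y⟫_ℝ) (ball x0 t) ∧
    (∫ y in ball x0 t,
      (e (t - ‖x0 - y‖) y - ⟪‖x0 - y‖⁻¹ • (x0 - y), S (t - ‖x0 - y‖) y⟫_ℝ)) =
      ∫ y in ball x0 t, e 0 y := by
  have h := trunc_cone (R := t) ht x0 hSc hS hS'c hec he
  simpa using h

/-- Ball monotonicity of the energy: if `|S| ≤ e` then the energy in `ball x0 (R-t)` at time `t` is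
at most the energy in `ball x0 R` at time `0`. -/
theorem ball_energy {t R : ℝ} (ht : 0 < t) (x0 : R3) {e : ℝ → R3 → ℝ}
    {S : ℝ → R3 → R3} {S' : ℝ → R3 → (R3 →L[ℝ] R3)}
    (hSc : ContinuousOn (fun p : ℝ × R3 => S p.1 p.2) (Icc 0 t ×ˢ univ))
    (hS : ∀ τ ∈ Icc 0 t, ∀ y, HasFDerivAt (S τ) (S' τ y) y)
    (hS'c : ContinuousOn (fun p : ℝ × R3 => S' p.1 p.2) (Icc 0 t ×ˢ univ))
    (hec : ContinuousOn (fun p : ℝ × R3 => e p.1 p.2) (Icc 0 t ×ˢ univ))
    (he : ∀ τ ∈ Ioo 0 t, ∀ y, HasDerivAt (fun r => e r y)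
      (-(∑ i, S' τ y (EuclideanSpace.single i 1) i)) τ)
    (hle : ∀ τ ∈ Icc 0 t, ∀ y, ‖S τ y‖ ≤ e τ y) :
    (∫ y in ball x0 (R - t), e t y) ≤ ∫ y in ball x0 R, e 0 y := by
  have h := (trunc_cone (R := R) ht x0 hSc hS hS'c hec he).2
  have hm : MeasurableSet (ball x0 R \ ball x0 (R - t)) :=
    measurableSet_ball.diff measurableSet_ball
  have h0 : 0 ≤ ∫ y in ball x0 R \ ball x0 (R - t),
      (e (R - ‖x0 - y‖) y - ⟪‖x0 - y‖⁻¹ • (x0 - y), S (R - ‖x0 - y‖) y⟫_ℝ) := by
    refine setIntegral_nonneg hm fun y hy => ?_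
    have h1 := hy.1
    have h2 := hy.2
    rw [mem_ball, dist_comm, dist_eq_norm] at h1 h2
    have hmem : R - ‖x0 - y‖ ∈ Icc 0 t := ⟨by linarith, by linarith⟩
    have hn : ‖‖x0 - y‖⁻¹ • (x0 - y)‖ ≤ 1 := by
      rw [norm_smul, norm_inv, norm_norm]
      exact inv_mul_le_one
    have := real_inner_le_norm (‖x0 - y‖⁻¹ • (x0 - y)) (S (R - ‖x0 - y‖) y)
    have h3 : ‖‖x0 - y‖⁻¹ • (x0 - y)‖ * ‖S (R - ‖x0 - y‖) y‖ ≤ e (R - ‖x0 - y‖) y :=
      (mul_le_of_le_one_left (norm_nonneg _) hn).trans (hle _ hmem y)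
    linarith
  linarith

end vector

end Crest.Agent.R106.EnAbs
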