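import Crest.Agent.R106.EnFlux

/-!
Row 106, module EN (helper412), part 6: the cone flux inequality.
-/

set_option autoImplicit false

open MeasureTheory Filter Set Topology
open Crest.AnalysisR.VecCalc3 Crest.AnalysisR.PDE.RVM
open scoped ENNReal

namespace Crest.Agent.R106.En

variable {T : ℝ} {f : ℝ → R3 → R3 → ℝ} {E B : ℝ → R3 → R3} {φ : ℝ → R3 → ℝ}

/-- mass one of the layer kernel in time. -/
lemma layer_mass {m s : ℝ} (hm : 0 < m) :
    ∫⁻ t in Ioo (s - m⁻¹) s, ENNReal.ofReal (m * deriv Real.smoothTransition (m * (s - t))) = 1 := by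
  have hd : ∀ x, HasDerivAt Real.smoothTransition (deriv Real.smoothTransition x) x := fun x =>
    (((Real.smoothTransition.contDiff (n := 1)).differentiable one_ne_zero) x).hasDerivAt
  have hc : Continuous (deriv Real.smoothTransition) :=
    (Real.smoothTransition.contDiff (n := 1)).continuous_deriv le_rfl
  have hd2 : ∀ t, HasDerivAt (fun t => - Real.smoothTransition (m * (s - t)))
      (m * deriv Real.smoothTransition (m * (s - t))) t := by
    intro t
    have h1 : HasDerivAt (fun t => m * (s - t)) (m * (0 - 1)) t :=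
      ((hasDerivAt_const t s).sub (hasDerivAt_id t)).const_mul m
    have h2 := ((hd (m * (s - t))).comp t h1).neg
    refine h2.congr_deriv ?_
    ring
  have hc2 : Continuous (fun t => m * deriv Real.smoothTransition (m * (s - t))) := by fun_prop
  have hle : s - m⁻¹ ≤ s := by
    have := inv_pos.2 hm
    linarith
  have hint := intervalIntegral.integral_eq_sub_of_hasDerivAt (a := s - m⁻¹) (b := s)
    (fun t _ => hd2 t) (hc2.intervalIntegrable _ _)
  have hnn : ∀ t, 0 ≤ m * deriv Real.smoothTransition (m * (s - t)) := fun t =>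
    mul_nonneg hm.le Real.smoothTransition.monotone.deriv_nonneg
  rw [← ofReal_integral_eq_lintegral_ofReal, ← integral_Ioc_eq_integral_Ioo,
    ← intervalIntegral.integral_of_le hle, hint]
  · have : m * (s - (s - m⁻¹)) = 1 := by
      field_simp
      ring
    rw [this]
    simp
  · exact (hc2.integrableOn_Icc (a := s - m⁻¹) (b := s)).mono_set Ioo_subset_Icc_self
  · exact Eventually.of_forall hnn

/-- Approximate identity in time. -/
lemma approx_id {t0 L : ℝ} {g : ℕ → ℝ → ℝ} {s m : ℕ → ℝ} (hm : ∀ n, 0 < m n)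
    (hwin : ∀ᶠ n in atTop, 0 ≤ s n - (m n)⁻¹ ∧ s n ≤ t0)
    (hg : ∀ ε > 0, ∀ᶠ n in atTop, ∀ t ∈ Ioo (s n - (m n)⁻¹) (s n), L - ε ≤ g n t) :
    ENNReal.ofReal L ≤ liminf (fun n => ∫⁻ t in Ioo 0 t0,
      ENNReal.ofReal (m n * deriv Real.smoothTransition (m n * (s n - t)) * g n t)) atTop := by
  have key : ∀ ε > 0, ENNReal.ofReal (L - ε) ≤ liminf (fun n => ∫⁻ t in Ioo 0 t0,
      ENNReal.ofReal (m n * deriv Real.smoothTransition (m n * (s n - t)) * g n t)) atTop := by
    intro ε hε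
    refine le_liminf_of_le (by isBoundedDefault) ?_
    filter_upwards [hwin, hg ε hε] with n hn1 hn2
    have hsub : Ioo (s n - (m n)⁻¹) (s n) ⊆ Ioo 0 t0 := Ioo_subset_Ioo hn1.1 hn1.2
    calc ENNReal.ofReal (L - ε)
        = ENNReal.ofReal (L - ε) * ∫⁻ t in Ioo (s n - (m n)⁻¹) (s n),
          ENNReal.ofReal (m n * deriv Real.smoothTransition (m n * (s n - t))) := by
          rw [layer_mass (hm n), mul_one]
      _ = ∫⁻ t in Ioo (s n - (m n)⁻¹) (s n), ENNReal.ofReal (L - ε) *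
          ENNReal.ofReal (m n * deriv Real.smoothTransition (m n * (s n - t))) := by
          rw [lintegral_const_mul' _ _ ENNReal.ofReal_ne_top]
      _ ≤ ∫⁻ t in Ioo (s n - (m n)⁻¹) (s n),
          ENNReal.ofReal (m n * deriv Real.smoothTransition (m n * (s n - t)) * g n t) := by
          refine setLIntegral_mono' measurableSet_Ioo fun t ht => ?_
          have hnn : 0 ≤ m n * deriv Real.smoothTransition (m n * (s n - t)) :=
            mul_nonneg (hm n).le Real.smoothTransition.monotone.deriv_nonneg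
          rw [mul_comm, ← ENNReal.ofReal_mul hnn]
          exact ENNReal.ofReal_le_ofReal (mul_le_mul_of_nonneg_left (hn2 t ht) hnn)
      _ ≤ _ := lintegral_mono_set hsub
  have hlim : Tendsto (fun k : ℕ => ENNReal.ofReal (L - 1 / ((k : ℝ) + 1))) atTop
      (𝓝 (ENNReal.ofReal L)) := by
    refine (ENNReal.continuous_ofReal.tendsto L).comp ?_
    have := (tendsto_one_div_add_atTop_nhds_zero_nat (𝕜 := ℝ)).const_sub L
    simpa using this
  exact le_of_tendsto' hlim fun k => key _ (by positivity)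

/-- the unit vector `(x - x0)/|x - x0|` (0 at the vertex). -/
noncomputable def om0 (x0 x : R3) : R3 := ‖x - x0‖⁻¹ • (x - x0)

lemma norm_om0_le (x0 x : R3) : ‖om0 x0 x‖ ≤ 1 := by
  unfold om0
  rw [norm_smul, norm_inv, norm_norm]
  exact inv_mul_le_one

/-- The regularisation parameters. -/
noncomputable def dn (n : ℕ) : ℝ := 1 / ((n : ℝ) + 1)
noncomputable def mn (n : ℕ) : ℝ := (n : ℝ) + 1

lemma dn_pos (n : ℕ) : 0 < dn n := by unfold dn; positivity
lemma mn_pos (n : ℕ) : 0 < mn n := by unfold mn; positivity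
lemma mn_inv (n : ℕ) : (mn n)⁻¹ = dn n := by unfold mn dn; rw [one_div]
lemma tendsto_dn : Tendsto dn atTop (𝓝 0) := tendsto_one_div_add_atTop_nhds_zero_nat

lemma tendsto_rr (x0 x : R3) : Tendsto (fun n => rr (dn n) x0 x) atTop (𝓝 ‖x - x0‖) := by
  have h1 : Tendsto (fun n => Real.sqrt (dn n ^ 2 + ‖x - x0‖ ^ 2)) atTop
      (𝓝 (Real.sqrt (0 ^ 2 + ‖x - x0‖ ^ 2))) :=
    (Real.continuous_sqrt.tendsto _).comp ((tendsto_dn.pow 2).add_const _)
  have h2 : Real.sqrt (0 ^ 2 + ‖x - x0‖ ^ 2) = ‖x - x0‖ := by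
    rw [zero_pow two_ne_zero, zero_add, Real.sqrt_sq (norm_nonneg _)]
  rw [h2] at h1
  exact h1

lemma tendsto_om (x0 x : R3) : Tendsto (fun n => om (dn n) x0 x) atTop (𝓝 (om0 x0 x)) := by
  by_cases hx : x = x0
  · subst hx
    simp [om, om0]
  · have h0 : ‖x - x0‖ ≠ 0 := norm_ne_zero_iff.2 (sub_ne_zero.2 hx)
    exact ((tendsto_rr x0 x).inv₀ h0).smul_const (x - x0)

/-- abstract limit: a continuous function of `(ω,t)` along the layers. -/
lemma limit_bound {t0 : ℝ} (ht0 : t0 < T) (x0 x : R3) (hx : ‖x - x0‖ < t0) (G : R3 → ℝ → ℝ)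
    (hG : ContinuousOn (fun p : R3 × ℝ => G p.1 p.2) (univ ×ˢ Ico 0 T)) :
    ENNReal.ofReal (G (om0 x0 x) (t0 - ‖x - x0‖)) ≤ liminf (fun n => ∫⁻ t in Ioo 0 t0,
      ENNReal.ofReal (lay t0 (-1) (mn n) (dn n) x0 t x * G (om (dn n) x0 x) t)) atTop := by
  have hlay : ∀ n t, lay t0 (-1) (mn n) (dn n) x0 t x
      = mn n * deriv Real.smoothTransition (mn n * ((t0 - rr (dn n) x0 x) - t)) := by
    intro n t
    unfold lay
    congr 3
    ring
  simp only [hlay]
  have hs : Tendsto (fun n => t0 - rr (dn n) x0 x) atTop (𝓝 (t0 - ‖x - x0‖)) :=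
    (tendsto_rr x0 x).const_sub t0
  have hτ : 0 < t0 - ‖x - x0‖ := by linarith
  have hτT : t0 - ‖x - x0‖ < T := by linarith [norm_nonneg (x - x0)]
  have hs' : Tendsto (fun n => t0 - rr (dn n) x0 x - dn n) atTop (𝓝 (t0 - ‖x - x0‖)) := by
    simpa using hs.sub tendsto_dn
  refine approx_id (m := mn) (s := fun n => t0 - rr (dn n) x0 x) (t0 := t0) mn_pos ?_ ?_
  · simp only [mn_inv]
    filter_upwards [hs'.eventually (lt_mem_nhds hτ)] with n hn
    exact ⟨hn.le, by linarith [rr_pos (dn_pos n) x0 x]⟩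
  · intro ε hε
    simp only [mn_inv]
    have hcw := hG (om0 x0 x, t0 - ‖x - x0‖) ⟨mem_univ _, hτ.le, hτT⟩
    have hev : ∀ᶠ p in 𝓝[univ ×ˢ Ico 0 T] (om0 x0 x, t0 - ‖x - x0‖),
        G (om0 x0 x) (t0 - ‖x - x0‖) - ε < G p.1 p.2 :=
      hcw.eventually (lt_mem_nhds (by linarith))
    rw [eventually_nhdsWithin_iff, Metric.eventually_nhds_iff] at hev
    obtain ⟨η, hη, hball⟩ := hev
    have h1 := (tendsto_om x0 x).eventually (Metric.ball_mem_nhds _ hη)
    have h2 := hs.eventually (Ioo_mem_nhds (show t0 - ‖x - x0‖ - η < t0 - ‖x - x0‖ by linarith)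
      (show t0 - ‖x - x0‖ < t0 - ‖x - x0‖ + η by linarith))
    have h3 := hs'.eventually (Ioo_mem_nhds (show t0 - ‖x - x0‖ - η < t0 - ‖x - x0‖ by linarith)
      (show t0 - ‖x - x0‖ < t0 - ‖x - x0‖ + η by linarith))
    have h4 := hs'.eventually (lt_mem_nhds hτ)
    filter_upwards [h1, h2, h3, h4] with n hn1 hn2 hn3 hn4 t ht
    refine (hball (y := (om (dn n) x0 x, t)) ?_ ⟨mem_univ _, ?_, ?_⟩).le
    · rw [Prod.dist_eq]
      refine max_lt hn1 ?_
      simp only
      rw [Real.dist_eq, abs_lt]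
      constructor
      · linarith [ht.1, hn3.1]
      · linarith [ht.2, hn2.2]
    · exact (lt_trans hn4 ht.1).le
    · have := rr_pos (dn_pos n) x0 x
      linarith [ht.2]

lemma continuousOn_lay {t0 m δ : ℝ} (hδ : 0 < δ) (x0 : R3) :
    Continuous (fun p : ℝ × R3 => lay t0 (-1) m δ x0 p.1 p.2) := by
  have hc : Continuous (deriv Real.smoothTransition) :=
    (Real.smoothTransition.contDiff (n := 1)).continuous_deriv le_rfl
  have h1 : Continuous (fun p : ℝ × R3 => rr δ x0 p.2) :=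
    (contDiff_rr hδ x0).continuous.comp continuous_snd
  unfold lay
  fun_prop

lemma continuous_om {δ : ℝ} (hδ : 0 < δ) (x0 : R3) : Continuous (om δ x0) := by
  unfold om
  exact ((contDiff_rr hδ x0).continuous.inv₀ fun x => (rr_pos hδ x0 x).ne').smul (by fun_prop)

lemma continuousOn_qE (h : Reg T f E B) {Y : Type*} [TopologicalSpace Y] {S : Set Y} {ω : Y → R3}
    {τ : Y → ℝ} {ξ : Y → R3} (hω : ContinuousOn ω S) (hτ : ContinuousOn τ S) (hξ : ContinuousOn ξ S)
    (hS : ∀ y ∈ S, τ y ∈ Ico 0 T) : ContinuousOn (fun y => qE (ω y) E B (τ y) (ξ y)) S := by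
  have hp : ContinuousOn (fun y => ((τ y, ξ y) : ℝ × R3)) S := hτ.prodMk hξ
  have hmaps : MapsTo (fun y => ((τ y, ξ y) : ℝ × R3)) S (Ico 0 T ×ˢ univ) :=
    fun y hy => ⟨hS y hy, mem_univ _⟩
  have hc := fun i => (contDiffOn_cross h i).continuousOn.comp hp hmaps
  have he := (contDiffOn_emE h).continuousOn.comp hp hmaps
  have hωi : ∀ i : Fin 3, ContinuousOn (fun y => ω y i) S := fun i =>
    (contDiff_coord i).continuous.comp_continuousOn hω
  unfold qE
  simp only [inner_coord]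
  exact he.add ((((hωi 0).mul (hc 0)).add ((hωi 1).mul (hc 1))).add ((hωi 2).mul (hc 2)))

lemma continuousOn_qP (h : Reg T f E B) {Y : Type*} [TopologicalSpace Y] {S : Set Y} {ω : Y → R3}
    {τ : Y → ℝ} {ξ : Y → R3 × R3} (hω : ContinuousOn ω S) (hτ : ContinuousOn τ S)
    (hξ : ContinuousOn ξ S) (hS : ∀ y ∈ S, τ y ∈ Ico 0 T) :
    ContinuousOn (fun y => qP (ω y) f (τ y) (ξ y)) S := by
  have hp : ContinuousOn (fun y => ((τ y, ξ y) : ℝ × R3 × R3)) S := hτ.prodMk hξ
  have hmaps : MapsTo (fun y => ((τ y, ξ y) : ℝ × R3 × R3)) S (Ico 0 T ×ˢ univ) :=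
    fun y hy => ⟨hS y hy, mem_univ _⟩
  have hf := h.hf.continuousOn.comp hp hmaps
  have h2 : ContinuousOn (fun y => (ξ y).2) S := continuous_snd.comp_continuousOn hξ
  unfold qP
  exact ((continuous_gam.comp_continuousOn h2).add (hω.inner h2)).mul hf

lemma aemeasurable_joint {Z : Type*} [TopologicalSpace Z] [SecondCountableTopology Z]
    [MeasurableSpace Z] [BorelSpace Z] (μ : Measure Z) [SFinite μ] {t0 : ℝ} (ht0 : t0 < T)
    {g : ℝ × Z → ℝ} (hg : ContinuousOn g (Ico 0 T ×ˢ univ)) :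
    AEMeasurable (fun p => ENNReal.ofReal (g p))
      (((volume : Measure ℝ).restrict (Ioo 0 t0)).prod μ) := by
  have h1 : ((volume : Measure ℝ).restrict (Ioo 0 t0)).prod μ
      = ((volume : Measure ℝ).prod μ).restrict (Ioo 0 t0 ×ˢ univ) := by
    rw [← Measure.prod_restrict, Measure.restrict_univ]
  rw [h1]
  have hsub : Ioo 0 t0 ×ˢ (univ : Set Z) ⊆ Ico 0 T ×ˢ univ :=
    prod_mono (fun t ht => ⟨ht.1.le, lt_trans ht.2 ht0⟩) subset_rfl
  exact ((hg.mono hsub).aemeasurable (measurableSet_Ioo.prod MeasurableSet.univ)).ennreal_ofReal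

lemma liminf_add_le_of_le {u v : ℕ → ℝ≥0∞} {C : ℝ≥0∞} (h : ∀ n, u n + v n ≤ C) :
    liminf u atTop + liminf v atTop ≤ C := by
  rw [liminf_eq_iSup_iInf_of_nat, liminf_eq_iSup_iInf_of_nat, ENNReal.iSup_add_iSup_of_monotone]
  · exact iSup_le fun n => (add_le_add (iInf₂_le n le_rfl) (iInf₂_le n le_rfl)).trans (h n)
  · intro n k hnk
    exact biInf_mono fun i hi => le_trans hnk hi
  · intro n k hnk
    exact biInf_mono fun i hi => le_trans hnk hi

/-- regularised cone flux. -/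
lemma flux_reg (h : Reg T f E B) (hf : ∀ t ∈ Ico 0 T, ∀ x v, 0 ≤ f t x v) {t0 : ℝ}
    (ht0 : t0 ∈ Ico 0 T) (x0 : R3) {m δ : ℝ} (hm : 0 < m) (hδ : 0 < δ) :
    (∫⁻ x, ∫⁻ t in Ioo 0 t0, ENNReal.ofReal (lay t0 (-1) m δ x0 t x * qE (om δ x0 x) E B t x))
      + (∫⁻ z : R3 × R3, ∫⁻ t in Ioo 0 t0,
          ENNReal.ofReal (lay t0 (-1) m δ x0 t z.1 * qP (om δ x0 z.1) f t z))
      ≤ en f E B 0 := by
  have hT : (0 : ℝ) < T := lt_of_le_of_lt ht0.1 ht0.2
  have hz : (0 : ℝ) ∈ Ico 0 T := ⟨le_rfl, hT⟩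
  have htest := cut_test (a := t0) (b := -1) hm hδ x0
  set D : ℝ → ℝ := fun t => (∫ x, lay t0 (-1) m δ x0 t x * qE (om δ x0 x) E B t x)
        + ∫ z : R3 × R3, lay t0 (-1) m δ x0 t z.1 * qP (om δ x0 z.1) f t z with hD
  have hsubT : ∀ t ∈ Ioo 0 t0, t ∈ Ioo 0 T := fun t ht => ⟨ht.1, lt_trans ht.2 ht0.2⟩
  have hder : ∀ t ∈ Ioo 0 t0,
      Integrable (fun x => lay t0 (-1) m δ x0 t x * qE (om δ x0 x) E B t x) ∧
      Integrable (fun z : R3 × R3 => lay t0 (-1) m δ x0 t z.1 * qP (om δ x0 z.1) f t z) ∧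
      HasDerivAt (fun t => - W (cut t0 (-1) m δ x0) f E B t) (D t) t := by
    intro t ht
    obtain ⟨i1, i2, h3⟩ := W_cut_deriv h (a := t0) (b := -1) (by norm_num) hm hδ x0 (hsubT t ht)
    simp only [neg_neg, one_smul] at i1 i2 h3
    refine ⟨i1, i2, ?_⟩
    have := h3.neg
    rw [neg_one_mul, neg_neg] at this
    exact this
  have n1 : ∀ t x, 0 ≤ lay t0 (-1) m δ x0 t x * qE (om δ x0 x) E B t x := fun t x =>
    mul_nonneg (lay_nonneg hm.le x0 t x) (qE_nonneg (norm_om_le hδ x0 x) E B t x)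
  have n2 : ∀ t ∈ Ioo 0 t0, ∀ z : R3 × R3,
      0 ≤ lay t0 (-1) m δ x0 t z.1 * qP (om δ x0 z.1) f t z := fun t ht z =>
    mul_nonneg (lay_nonneg hm.le x0 t z.1) (qP_nonneg (norm_om_le hδ x0 z.1)
      (hf t (Ioo_subset_Ico_self (hsubT t ht)) z.1 z.2))
  have hpos : ∀ t ∈ Ioo 0 t0, 0 ≤ D t := fun t ht =>
    add_nonneg (integral_nonneg (n1 t)) (integral_nonneg (n2 t ht))
  have hcont : ContinuousOn (fun t => - W (cut t0 (-1) m δ x0) f E B t) (Icc 0 t0) :=
    ((W_continuousOn h htest).mono fun t ht => ⟨ht.1, lt_of_le_of_lt ht.2 ht0.2⟩).neg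
  have hint : IntegrableOn D (Ioc 0 t0) :=
    intervalIntegral.integrableOn_deriv_of_nonneg hcont (fun t ht => (hder t ht).2.2) hpos
  have hftc := intervalIntegral.integral_eq_sub_of_hasDerivAt_of_le ht0.1 hcont
    (fun t ht => (hder t ht).2.2) ((intervalIntegrable_iff_integrableOn_Ioc_of_le ht0.1).2 hint)
  have hWt0 : 0 ≤ W (cut t0 (-1) m δ x0) f E B t0 := by
    unfold W
    refine add_nonneg (integral_nonneg fun x => mul_nonneg (cut_nonneg _ _ _ _ _ _ _)
      (emE_nonneg E B t0 x)) (integral_nonneg fun z => ?_)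
    exact mul_nonneg (mul_nonneg (cut_nonneg _ _ _ _ _ _ _) (gam_pos z.2).le) (hf t0 ht0 z.1 z.2)
  have hle : ∫ t in Ioo 0 t0, D t ≤ W (cut t0 (-1) m δ x0) f E B 0 := by
    rw [← integral_Ioc_eq_integral_Ioo, ← intervalIntegral.integral_of_le ht0.1, hftc]
    linarith
  have hintO : IntegrableOn D (Ioo 0 t0) := hint.mono_set Ioo_subset_Ioc_self
  have hlin : ∫⁻ t in Ioo 0 t0, ENNReal.ofReal (D t) ≤ en f E B 0 := by
    rw [← ofReal_integral_eq_lintegral_ofReal hintO
      ((ae_restrict_iff' measurableSet_Ioo).2 (Eventually.of_forall hpos))]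
    exact (ENNReal.ofReal_le_ofReal hle).trans
      (ofReal_W_le h hf htest (cut_nonneg _ _ _ _ _) (cut_le_one _ _ _ _ _) hz)
  have hsplit : ∫⁻ t in Ioo 0 t0, ENNReal.ofReal (D t)
      = ∫⁻ t in Ioo 0 t0, ((∫⁻ x, ENNReal.ofReal (lay t0 (-1) m δ x0 t x * qE (om δ x0 x) E B t x))
        + ∫⁻ z : R3 × R3, ENNReal.ofReal (lay t0 (-1) m δ x0 t z.1 * qP (om δ x0 z.1) f t z)) := by
    refine setLIntegral_congr_fun measurableSet_Ioo fun t ht => ?_
    obtain ⟨i1, i2, -⟩ := hder t ht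
    simp only [hD]
    rw [ENNReal.ofReal_add (integral_nonneg (n1 t)) (integral_nonneg (n2 t ht)),
      ofReal_integral_eq_lintegral_ofReal i1 (Eventually.of_forall (n1 t)),
      ofReal_integral_eq_lintegral_ofReal i2 (Eventually.of_forall (n2 t ht))]
  have hj1 : ContinuousOn (fun p : ℝ × R3 => lay t0 (-1) m δ x0 p.1 p.2
      * qE (om δ x0 p.2) E B p.1 p.2) (Ico 0 T ×ˢ univ) :=
    (continuousOn_lay hδ x0).continuousOn.mul (continuousOn_qE h
      ((continuous_om hδ x0).comp continuous_snd).continuousOn continuous_fst.continuousOn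
      continuous_snd.continuousOn fun y hy => hy.1)
  have hj2 : ContinuousOn (fun p : ℝ × R3 × R3 => lay t0 (-1) m δ x0 p.1 p.2.1
      * qP (om δ x0 p.2.1) f p.1 p.2) (Ico 0 T ×ˢ univ) := by
    refine ContinuousOn.mul ?_ (continuousOn_qP h
      (((continuous_om hδ x0).comp continuous_fst).comp continuous_snd).continuousOn
      continuous_fst.continuousOn continuous_snd.continuousOn fun y hy => hy.1)
    exact ((continuousOn_lay hδ x0).comp
      (by fun_prop : Continuous fun p : ℝ × R3 × R3 => (p.1, p.2.1))).continuousOn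
  have s1 := lintegral_lintegral_swap (μ := (volume : Measure ℝ).restrict (Ioo 0 t0))
    (ν := (volume : Measure R3))
    (f := fun t x => ENNReal.ofReal (lay t0 (-1) m δ x0 t x * qE (om δ x0 x) E B t x))
    (aemeasurable_joint volume ht0.2 hj1)
  have s2 := lintegral_lintegral_swap (μ := (volume : Measure ℝ).restrict (Ioo 0 t0))
    (ν := (volume : Measure (R3 × R3)))
    (f := fun t z => ENNReal.ofReal (lay t0 (-1) m δ x0 t z.1 * qP (om δ x0 z.1) f t z))
    (aemeasurable_joint volume ht0.2 hj2)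
  rw [← s1, ← s2]
  refine (le_lintegral_add _ _).trans ?_
  rw [← hsplit]
  exact hlin

/-- **Cone flux inequality.** For every backward light cone with vertex `(t0, x0)`, `0 ≤ t0 < T`,
the flux of energy through the cone is bounded by the initial energy:
`qE (om0 x0 x)` at the cone point is `(|E|²+|B|²)/2 + ω·(E×B)` and `qP (om0 x0 x)` is
`(γ + ω·v) f`, with `ω = (x-x0)/|x-x0| = -n`. -/
theorem sol_cone_flux (h : Reg T f E B) (hf : ∀ t ∈ Ico 0 T, ∀ x v, 0 ≤ f t x v) {t0 : ℝ}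
    (ht0 : t0 ∈ Ico 0 T) (x0 : R3) :
    (∫⁻ x in Metric.ball x0 t0, ENNReal.ofReal (qE (om0 x0 x) E B (t0 - ‖x - x0‖) x))
      + (∫⁻ z in Metric.ball x0 t0 ×ˢ (univ : Set R3),
          ENNReal.ofReal (qP (om0 x0 z.1) f (t0 - ‖z.1 - x0‖) z))
      ≤ en f E B 0 := by
  -- measurability of the inner integrals
  have hm1 : ∀ n, AEMeasurable (fun x => ∫⁻ t in Ioo 0 t0,
      ENNReal.ofReal (lay t0 (-1) (mn n) (dn n) x0 t x * qE (om (dn n) x0 x) E B t x))
      (volume : Measure R3) := by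
    intro n
    have hj1 : ContinuousOn (fun p : ℝ × R3 => lay t0 (-1) (mn n) (dn n) x0 p.1 p.2
      * qE (om (dn n) x0 p.2) E B p.1 p.2) (Ico 0 T ×ˢ univ) :=
      (continuousOn_lay (dn_pos n) x0).continuousOn.mul (continuousOn_qE h
      ((continuous_om (dn_pos n) x0).comp continuous_snd).continuousOn continuous_fst.continuousOn
      continuous_snd.continuousOn fun y hy => hy.1)
    exact (aemeasurable_joint volume ht0.2 hj1).lintegral_prod_left'
  have hm2 : ∀ n, AEMeasurable (fun z : R3 × R3 => ∫⁻ t in Ioo 0 t0,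
      ENNReal.ofReal (lay t0 (-1) (mn n) (dn n) x0 t z.1 * qP (om (dn n) x0 z.1) f t z))
      (volume : Measure (R3 × R3)) := by
    intro n
    have hj2 : ContinuousOn (fun p : ℝ × R3 × R3 => lay t0 (-1) (mn n) (dn n) x0 p.1 p.2.1
      * qP (om (dn n) x0 p.2.1) f p.1 p.2) (Ico 0 T ×ˢ univ) := by
      refine ContinuousOn.mul ?_ (continuousOn_qP h
        (((continuous_om (dn_pos n) x0).comp continuous_fst).comp continuous_snd).continuousOn
        continuous_fst.continuousOn continuous_snd.continuousOn fun y hy => hy.1)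
      exact ((continuousOn_lay (dn_pos n) x0).comp
        (by fun_prop : Continuous fun p : ℝ × R3 × R3 => (p.1, p.2.1))).continuousOn
    exact (aemeasurable_joint volume ht0.2 hj2).lintegral_prod_left'
  -- pointwise lower bounds
  have hp1 : ∀ x ∈ Metric.ball x0 t0, ENNReal.ofReal (qE (om0 x0 x) E B (t0 - ‖x - x0‖) x)
      ≤ liminf (fun n => ∫⁻ t in Ioo 0 t0,
        ENNReal.ofReal (lay t0 (-1) (mn n) (dn n) x0 t x * qE (om (dn n) x0 x) E B t x)) atTop := by
    intro x hx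
    rw [Metric.mem_ball, dist_eq_norm] at hx
    refine limit_bound ht0.2 x0 x hx (fun ω t => qE ω E B t x) ?_
    exact continuousOn_qE h continuous_fst.continuousOn continuous_snd.continuousOn
      continuousOn_const fun y hy => hy.2
  have hp2 : ∀ z ∈ Metric.ball x0 t0 ×ˢ (univ : Set R3),
      ENNReal.ofReal (qP (om0 x0 z.1) f (t0 - ‖z.1 - x0‖) z)
      ≤ liminf (fun n => ∫⁻ t in Ioo 0 t0,
        ENNReal.ofReal (lay t0 (-1) (mn n) (dn n) x0 t z.1 * qP (om (dn n) x0 z.1) f t z)) atTop := by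
    intro z hz
    have hx := hz.1
    rw [Metric.mem_ball, dist_eq_norm] at hx
    refine limit_bound ht0.2 x0 z.1 hx (fun ω t => qP ω f t z) ?_
    exact continuousOn_qP h continuous_fst.continuousOn continuous_snd.continuousOn
      continuousOn_const fun y hy => hy.2
  have hA : (∫⁻ x in Metric.ball x0 t0, ENNReal.ofReal (qE (om0 x0 x) E B (t0 - ‖x - x0‖) x))
      ≤ liminf (fun n => ∫⁻ x, ∫⁻ t in Ioo 0 t0,
        ENNReal.ofReal (lay t0 (-1) (mn n) (dn n) x0 t x * qE (om (dn n) x0 x) E B t x)) atTop := by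
    refine (setLIntegral_mono' Metric.isOpen_ball.measurableSet hp1).trans ?_
    refine (setLIntegral_le_lintegral _ _).trans ?_
    exact lintegral_liminf_le' hm1
  have hB : (∫⁻ z in Metric.ball x0 t0 ×ˢ (univ : Set R3),
          ENNReal.ofReal (qP (om0 x0 z.1) f (t0 - ‖z.1 - x0‖) z))
      ≤ liminf (fun n => ∫⁻ z : R3 × R3, ∫⁻ t in Ioo 0 t0,
        ENNReal.ofReal (lay t0 (-1) (mn n) (dn n) x0 t z.1 * qP (om (dn n) x0 z.1) f t z)) atTop := by
    refine (setLIntegral_mono' (Metric.isOpen_ball.measurableSet.prod MeasurableSet.univ) hp2).trans ?_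
    refine (setLIntegral_le_lintegral _ _).trans ?_
    exact lintegral_liminf_le' hm2
  refine (add_le_add hA hB).trans ?_
  exact liminf_add_le_of_le fun n => flux_reg h hf ht0 x0 (mn_pos n) (dn_pos n)

end Crest.Agent.R106.En
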