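import Crest.Agent.R106.EnInt

/-!
Row 106, module EN (helper412), part 4: cut-offs along cones, monotonicity of the weighted energy.
-/

set_option autoImplicit false

open MeasureTheory Filter Set Topology
open Crest.AnalysisR.VecCalc3 Crest.AnalysisR.PDE.RVM

namespace Crest.Agent.R106.En

/-! ### algebra -/

lemma norm_cross_sq (a b : R3) : ‖cross3 a b‖ ^ 2 = ‖a‖ ^ 2 * ‖b‖ ^ 2 - inner ℝ a b ^ 2 := by
  simp only [norm_sq_coord, inner_coord, cross3_0, cross3_1, cross3_2]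
  ring

lemma norm_cross_le (a b : R3) : ‖cross3 a b‖ ≤ ‖a‖ * ‖b‖ := by
  refine le_of_sq_le_sq ?_ (by positivity)
  rw [norm_cross_sq, mul_pow]
  nlinarith [sq_nonneg (inner ℝ a b)]

/-- electromagnetic flux density in direction `ω`. -/
noncomputable def qE (ω : R3) (E B : ℝ → R3 → R3) (t : ℝ) (x : R3) : ℝ :=
  emE E B t x + inner ℝ ω (cross3 (E t x) (B t x))

/-- particle flux density in direction `ω`. -/
noncomputable def qP (ω : R3) (f : ℝ → R3 → R3 → ℝ) (t : ℝ) (z : R3 × R3) : ℝ :=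
  (gam z.2 + inner ℝ ω z.2) * f t z.1 z.2

lemma qE_nonneg {ω : R3} (hω : ‖ω‖ ≤ 1) (E B : ℝ → R3 → R3) (t : ℝ) (x : R3) :
    0 ≤ qE ω E B t x := by
  unfold qE
  rw [emE_eq]
  have h1 := abs_real_inner_le_norm ω (cross3 (E t x) (B t x))
  have h2 := norm_cross_le (E t x) (B t x)
  have h3 : ‖ω‖ * ‖cross3 (E t x) (B t x)‖ ≤ 1 * (‖E t x‖ * ‖B t x‖) := by gcongr
  have h4 := (abs_le.1 h1).1
  nlinarith [sq_nonneg (‖E t x‖ - ‖B t x‖)]

lemma gam_inner_nonneg {ω : R3} (hω : ‖ω‖ ≤ 1) (v : R3) : 0 ≤ gam v + inner ℝ ω v := by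
  have h1 := abs_real_inner_le_norm ω v
  have h2 : ‖ω‖ * ‖v‖ ≤ 1 * gam v := by
    have := norm_le_gam v
    gcongr
  linarith [(abs_le.1 h1).1]

lemma qP_nonneg {ω : R3} (hω : ‖ω‖ ≤ 1) {f : ℝ → R3 → R3 → ℝ} {t : ℝ} {z : R3 × R3}
    (hf : 0 ≤ f t z.1 z.2) : 0 ≤ qP ω f t z :=
  mul_nonneg (gam_inner_nonneg hω z.2) hf

/-! ### regularised distance -/

noncomputable def rr (δ : ℝ) (x0 x : R3) : ℝ := Real.sqrt (δ ^ 2 + ‖x - x0‖ ^ 2)

noncomputable def om (δ : ℝ) (x0 x : R3) : R3 := (rr δ x0 x)⁻¹ • (x - x0)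

lemma rr_pos {δ : ℝ} (hδ : 0 < δ) (x0 x : R3) : 0 < rr δ x0 x := Real.sqrt_pos.2 (by positivity)

lemma norm_le_rr (δ : ℝ) (x0 x : R3) : ‖x - x0‖ ≤ rr δ x0 x :=
  Real.le_sqrt_of_sq_le (by nlinarith [sq_nonneg δ])

lemma rr_le {δ : ℝ} (hδ : 0 ≤ δ) (x0 x : R3) : rr δ x0 x ≤ δ + ‖x - x0‖ := by
  unfold rr
  rw [Real.sqrt_le_left (by positivity)]
  nlinarith [mul_nonneg hδ (norm_nonneg (x - x0))]

lemma norm_om_le {δ : ℝ} (hδ : 0 < δ) (x0 x : R3) : ‖om δ x0 x‖ ≤ 1 := by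
  unfold om
  rw [norm_smul, norm_inv, Real.norm_of_nonneg (rr_pos hδ x0 x).le, inv_mul_le_one₀ (rr_pos hδ x0 x)]
  exact norm_le_rr δ x0 x

lemma contDiff_rr {δ : ℝ} (hδ : 0 < δ) (x0 : R3) : ContDiff ℝ 1 (rr δ x0) := by
  unfold rr
  refine ContDiff.sqrt (contDiff_const.add ((contDiff_norm_sq ℝ).comp (by fun_prop))) fun x => ?_
  positivity

lemma hasFDerivAt_rr {δ : ℝ} (hδ : 0 < δ) (x0 x : R3) :
    HasFDerivAt (rr δ x0) (innerSL ℝ (om δ x0 x)) x := by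
  have h0 : HasFDerivAt (fun y : R3 => y - x0) (ContinuousLinearMap.id ℝ R3) x :=
    (hasFDerivAt_id x).sub_const x0
  have h1 : HasFDerivAt (fun y : R3 => δ ^ 2 + ‖y - x0‖ ^ 2) (2 • (innerSL ℝ (x - x0))) x := by
    have := ((hasStrictFDerivAt_norm_sq (x - x0)).hasFDerivAt.comp x h0).const_add (δ ^ 2)
    exact this
  have h2 := h1.sqrt (by positivity)
  refine h2.congr_fderiv ?_
  ext w
  have := rr_pos hδ x0 x
  unfold rr at this
  simp only [_root_.smul_apply, innerSL_apply_apply, om, inner_smul_left, rr]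
  simp
  field_simp

/-! ### cut-off functions -/

/-- cut-off `st (m (a + b t - rr))`. -/
noncomputable def cut (a b m δ : ℝ) (x0 : R3) (t : ℝ) (x : R3) : ℝ :=
  Real.smoothTransition (m * (a + b * t - rr δ x0 x))

/-- the (nonnegative) density of the cut-off layer. -/
noncomputable def lay (a b m δ : ℝ) (x0 : R3) (t : ℝ) (x : R3) : ℝ :=
  m * deriv Real.smoothTransition (m * (a + b * t - rr δ x0 x))

lemma cut_nonneg (a b m δ : ℝ) (x0 : R3) (t : ℝ) (x : R3) : 0 ≤ cut a b m δ x0 t x :=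
  Real.smoothTransition.nonneg _

lemma cut_le_one (a b m δ : ℝ) (x0 : R3) (t : ℝ) (x : R3) : cut a b m δ x0 t x ≤ 1 :=
  Real.smoothTransition.le_one _

lemma lay_nonneg {a b m δ : ℝ} (hm : 0 ≤ m) (x0 : R3) (t : ℝ) (x : R3) : 0 ≤ lay a b m δ x0 t x :=
  mul_nonneg hm (Real.smoothTransition.monotone.deriv_nonneg)

lemma cut_test {a b m δ : ℝ} (hm : 0 < m) (hδ : 0 < δ) (x0 : R3) : Test (cut a b m δ x0) := by
  refine ⟨?_, fun T' h0 => ⟨|a| + |b| * T' + ‖x0‖, fun t ht x hx => ?_⟩⟩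
  · unfold cut
    refine (Real.smoothTransition.contDiff (n := 1)).comp ?_
    have h1 : ContDiff ℝ 1 (fun p : ℝ × R3 => rr δ x0 p.2) := (contDiff_rr hδ x0).comp contDiff_snd
    fun_prop
  · unfold cut
    refine Real.smoothTransition.zero_of_nonpos ?_
    refine mul_nonpos_of_nonneg_of_nonpos hm.le ?_
    have h1 := norm_le_rr δ x0 x
    have h2 : ‖x‖ - ‖x0‖ ≤ ‖x - x0‖ := norm_sub_norm_le x x0
    have h3 : b * t ≤ |b| * T' := by
      calc b * t ≤ |b| * t := mul_le_mul_of_nonneg_right (le_abs_self b) ht.1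
        _ ≤ |b| * T' := mul_le_mul_of_nonneg_left ht.2 (abs_nonneg b)
    linarith [le_abs_self a]

lemma hasFDerivAt_cut {a b m δ : ℝ} (hδ : 0 < δ) (x0 : R3) (t : ℝ) (x : R3) :
    HasFDerivAt (fun p : ℝ × R3 => cut a b m δ x0 p.1 p.2)
      (lay a b m δ x0 t x • (b • ContinuousLinearMap.fst ℝ ℝ R3
        - (innerSL ℝ (om δ x0 x)).comp (ContinuousLinearMap.snd ℝ ℝ R3))) (t, x) := by
  have h1 : HasFDerivAt (fun p : ℝ × R3 => rr δ x0 p.2)
      ((innerSL ℝ (om δ x0 x)).comp (ContinuousLinearMap.snd ℝ ℝ R3)) (t, x) :=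
    HasFDerivAt.comp (g := rr δ x0) (t, x) (hasFDerivAt_rr hδ x0 x)
      (ContinuousLinearMap.snd ℝ ℝ R3).hasFDerivAt
  have h2 : HasFDerivAt (fun p : ℝ × R3 => a + b * p.1) (b • ContinuousLinearMap.fst ℝ ℝ R3) (t, x) :=
    ((ContinuousLinearMap.fst ℝ ℝ R3).hasFDerivAt.const_mul b).const_add a
  have h3 := (h2.sub h1).const_mul m
  have h4 : HasDerivAt Real.smoothTransition
      (deriv Real.smoothTransition (m * (a + b * t - rr δ x0 x))) (m * (a + b * t - rr δ x0 x)) :=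
    (((Real.smoothTransition.contDiff (n := 1)).differentiable one_ne_zero) _).hasDerivAt
  have h5 := h4.comp_hasFDerivAt (t, x) h3
  refine h5.congr_fderiv ?_
  unfold lay
  rw [smul_smul, mul_comm (deriv _ _)]

lemma dt_cut {a b m δ : ℝ} (hδ : 0 < δ) (x0 : R3) (t : ℝ) (x : R3) :
    dt (cut a b m δ x0) t x = b * lay a b m δ x0 t x := by
  unfold dt
  rw [(hasFDerivAt_cut hδ x0 t x).fderiv]
  simp [mul_comm]

lemma dx_cut {a b m δ : ℝ} (hδ : 0 < δ) (x0 : R3) (i : Fin 3) (t : ℝ) (x : R3) :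
    dx (cut a b m δ x0) i t x = - (lay a b m δ x0 t x * om δ x0 x i) := by
  unfold dx
  rw [(hasFDerivAt_cut hδ x0 t x).fderiv]
  have hin : inner ℝ (om δ x0 x) (ee i) = om δ x0 x i := by
    rw [EuclideanSpace.inner_single_right]; simp
  simp [hin]

lemma dEM_cut {a b m δ : ℝ} (hb : b ^ 2 = 1) (hδ : 0 < δ) (x0 : R3) (E B : ℝ → R3 → R3) (t : ℝ) (x : R3) :
    dEM (cut a b m δ x0) E B t x = b * (lay a b m δ x0 t x * qE (-b • om δ x0 x) E B t x) := by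
  unfold dEM qE
  rw [dt_cut hδ, inner_smul_left, inner_coord, Fin.sum_univ_three]
  simp only [dx_cut hδ, conj_trivial]
  linear_combination (-(lay a b m δ x0 t x) * (om δ x0 x 0 * cross3 (E t x) (B t x) 0
    + om δ x0 x 1 * cross3 (E t x) (B t x) 1 + om δ x0 x 2 * cross3 (E t x) (B t x) 2)) * (- hb)

lemma dPT_cut {a b m δ : ℝ} (hb : b ^ 2 = 1) (hδ : 0 < δ) (x0 : R3) (f : ℝ → R3 → R3 → ℝ) (t : ℝ)
    (z : R3 × R3) :
    dPT (cut a b m δ x0) f t z = b * (lay a b m δ x0 t z.1 * qP (-b • om δ x0 z.1) f t z) := by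
  unfold dPT qP
  rw [dt_cut hδ, inner_smul_left, inner_coord, Fin.sum_univ_three]
  simp only [dx_cut hδ, conj_trivial]
  linear_combination (-(lay a b m δ x0 t z.1) * (om δ x0 z.1 0 * z.2 0
    + om δ x0 z.1 1 * z.2 1 + om δ x0 z.1 2 * z.2 2) * f t z.1 z.2) * (- hb)

end Crest.Agent.R106.En
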