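import Crest.Agent.R106.EnCut

/-!
Row 106, module EN (helper412), part 5: conservation of energy and the cone flux inequality.
-/

set_option autoImplicit false

open MeasureTheory Filter Set Topology
open Crest.AnalysisR.VecCalc3 Crest.AnalysisR.PDE.RVM
open scoped ENNReal

namespace Crest.Agent.R106.En

variable {T : ℝ} {f : ℝ → R3 → R3 → ℝ} {E B : ℝ → R3 → R3} {φ : ℝ → R3 → ℝ}

instance : (volume : Measure (R3 × R3)).IsAddHaarMeasure := by
  rw [Measure.volume_eq_prod]; infer_instance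

/-- total energy, with values in [0,∞]. -/
noncomputable def en (f : ℝ → R3 → R3 → ℝ) (E B : ℝ → R3 → R3) (t : ℝ) : ℝ≥0∞ :=
  (∫⁻ x, ENNReal.ofReal (emE E B t x)) + ∫⁻ z : R3 × R3, ENNReal.ofReal (gam z.2 * f t z.1 z.2)

lemma emE_nonneg (E B : ℝ → R3 → R3) (t : ℝ) (x : R3) : 0 ≤ emE E B t x := by
  rw [emE_eq]; positivity

lemma cs_EM (h : Reg T f E B) (hφ : Test φ) : CS T (fun t x => φ t x * emE E B t x) :=
  hφ.cs (contDiffOn_emE h)

lemma cs_PT (h : Reg T f E B) (hφ : Test φ) :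
    CS T (fun t (z : R3 × R3) => φ t z.1 * gam z.2 * f t z.1 z.2) :=
  h.cs (g := fun t z => φ t z.1 * gam z.2) ((contDiffOn_phase hφ.smooth.contDiffOn).mul
    (contDiffOn_momentum (contDiff_gam (n := 1))))

lemma W_continuousOn (h : Reg T f E B) (hφ : Test φ) : ContinuousOn (W φ f E B) (Ico 0 T) :=
  ((cs_EM h hφ).continuousOn_integral volume).add ((cs_PT h hφ).continuousOn_integral volume)

lemma ofReal_W (h : Reg T f E B) (hf : ∀ t ∈ Ico 0 T, ∀ x v, 0 ≤ f t x v) (hφ : Test φ)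
    (hφ0 : ∀ t x, 0 ≤ φ t x) {t : ℝ} (ht : t ∈ Ico 0 T) :
    ENNReal.ofReal (W φ f E B t) = (∫⁻ x, ENNReal.ofReal (φ t x * emE E B t x))
      + ∫⁻ z : R3 × R3, ENNReal.ofReal (φ t z.1 * gam z.2 * f t z.1 z.2) := by
  have n1 : ∀ x, 0 ≤ φ t x * emE E B t x := fun x => mul_nonneg (hφ0 t x) (emE_nonneg E B t x)
  have n2 : ∀ z : R3 × R3, 0 ≤ φ t z.1 * gam z.2 * f t z.1 z.2 := fun z =>
    mul_nonneg (mul_nonneg (hφ0 t z.1) (gam_pos z.2).le) (hf t ht z.1 z.2)
  unfold W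
  rw [ENNReal.ofReal_add (integral_nonneg n1) (integral_nonneg n2),
    ofReal_integral_eq_lintegral_ofReal ((cs_EM h hφ).integrable volume ht) (Eventually.of_forall n1),
    ofReal_integral_eq_lintegral_ofReal ((cs_PT h hφ).integrable volume ht) (Eventually.of_forall n2)]

lemma ofReal_W_le (h : Reg T f E B) (hf : ∀ t ∈ Ico 0 T, ∀ x v, 0 ≤ f t x v) (hφ : Test φ)
    (hφ0 : ∀ t x, 0 ≤ φ t x) (hφ1 : ∀ t x, φ t x ≤ 1) {t : ℝ} (ht : t ∈ Ico 0 T) :
    ENNReal.ofReal (W φ f E B t) ≤ en f E B t := by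
  rw [ofReal_W h hf hφ hφ0 ht]
  unfold en
  gcongr with x z
  · exact mul_le_of_le_one_left (emE_nonneg E B t x) (hφ1 t x)
  · exact hf t ht z.1 z.2
  · exact mul_le_of_le_one_left (gam_pos z.2).le (hφ1 t z.1)

/-- sign of the derivative of the weighted energy for cone cut-offs. -/
lemma W_cut_deriv (h : Reg T f E B) {a b m δ : ℝ} (hb : b ^ 2 = 1) (hm : 0 < m) (hδ : 0 < δ)
    (x0 : R3) {t : ℝ} (ht : t ∈ Ioo 0 T) :
    Integrable (fun x => lay a b m δ x0 t x * qE (-b • om δ x0 x) E B t x) ∧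
    Integrable (fun z : R3 × R3 => lay a b m δ x0 t z.1 * qP (-b • om δ x0 z.1) f t z) ∧
    HasDerivAt (W (cut a b m δ x0) f E B)
      (b * ((∫ x, lay a b m δ x0 t x * qE (-b • om δ x0 x) E B t x)
        + ∫ z : R3 × R3, lay a b m δ x0 t z.1 * qP (-b • om δ x0 z.1) f t z)) t := by
  obtain ⟨i1, i2, h3⟩ := W_deriv h (cut_test (a := a) (b := b) hm hδ x0) ht
  have e1 : dEM (cut a b m δ x0) E B t
      = fun x => b * (lay a b m δ x0 t x * qE (-b • om δ x0 x) E B t x) :=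
    funext fun x => dEM_cut hb hδ x0 E B t x
  have e2 : dPT (cut a b m δ x0) f t
      = fun z => b * (lay a b m δ x0 t z.1 * qP (-b • om δ x0 z.1) f t z) :=
    funext fun z => dPT_cut hb hδ x0 f t z
  have hb0 : b ≠ 0 := by rintro rfl; norm_num at hb
  rw [e1] at i1 h3
  rw [e2] at i2 h3
  refine ⟨(integrable_const_mul_iff (isUnit_iff_ne_zero.2 hb0) _).1 i1,
    (integrable_const_mul_iff (isUnit_iff_ne_zero.2 hb0) _).1 i2, ?_⟩
  rw [integral_const_mul, integral_const_mul] at h3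
  rw [mul_add]
  exact h3

lemma lay_mul_qE_nonneg {a b m δ : ℝ} (hb : |b| ≤ 1) (hm : 0 < m) (hδ : 0 < δ) (x0 : R3)
    (t : ℝ) (x : R3) : 0 ≤ lay a b m δ x0 t x * qE (-b • om δ x0 x) E B t x := by
  refine mul_nonneg (lay_nonneg hm.le x0 t x) (qE_nonneg ?_ E B t x)
  rw [norm_smul, norm_neg]
  exact mul_le_one₀ hb (norm_nonneg _) (norm_om_le hδ x0 x)

lemma lay_mul_qP_nonneg {a b m δ : ℝ} (hb : |b| ≤ 1) (hm : 0 < m) (hδ : 0 < δ) (x0 : R3)
    {t : ℝ} {z : R3 × R3} (hf : 0 ≤ f t z.1 z.2) :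
    0 ≤ lay a b m δ x0 t z.1 * qP (-b • om δ x0 z.1) f t z := by
  refine mul_nonneg (lay_nonneg hm.le x0 t z.1) (qP_nonneg ?_ hf)
  rw [norm_smul, norm_neg]
  exact mul_le_one₀ hb (norm_nonneg _) (norm_om_le hδ x0 z.1)

lemma W_antitone (h : Reg T f E B) (hf : ∀ t ∈ Ico 0 T, ∀ x v, 0 ≤ f t x v) {a m δ : ℝ}
    (hm : 0 < m) (hδ : 0 < δ) (x0 : R3) : AntitoneOn (W (cut a (-1) m δ x0) f E B) (Ico 0 T) := by
  refine antitoneOn_of_deriv_nonpos (convex_Ico 0 T) (W_continuousOn h (cut_test hm hδ x0)) ?_ ?_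
  · rw [interior_Ico]
    intro t ht
    exact (W_cut_deriv h (by norm_num) hm hδ x0 ht).2.2.differentiableAt.differentiableWithinAt
  · rw [interior_Ico]
    intro t ht
    rw [(W_cut_deriv h (by norm_num) hm hδ x0 ht).2.2.deriv]
    have n1 : 0 ≤ ∫ x, lay a (-1) m δ x0 t x * qE (-(-1 : ℝ) • om δ x0 x) E B t x :=
      integral_nonneg fun x =>
      lay_mul_qE_nonneg (E := E) (B := B) (a := a) (b := -1) (by norm_num) hm hδ x0 t x
    have n2 : 0 ≤ ∫ z : R3 × R3, lay a (-1) m δ x0 t z.1 * qP (-(-1 : ℝ) • om δ x0 z.1) f t z :=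
      integral_nonneg fun z =>
      lay_mul_qP_nonneg (a := a) (b := -1) (by norm_num) hm hδ x0 (hf t (Ioo_subset_Ico_self ht) z.1 z.2)
    linarith

lemma W_monotone (h : Reg T f E B) (hf : ∀ t ∈ Ico 0 T, ∀ x v, 0 ≤ f t x v) {a m δ : ℝ}
    (hm : 0 < m) (hδ : 0 < δ) (x0 : R3) : MonotoneOn (W (cut a 1 m δ x0) f E B) (Ico 0 T) := by
  refine monotoneOn_of_deriv_nonneg (convex_Ico 0 T) (W_continuousOn h (cut_test hm hδ x0)) ?_ ?_
  · rw [interior_Ico]
    intro t ht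
    exact (W_cut_deriv h (by norm_num) hm hδ x0 ht).2.2.differentiableAt.differentiableWithinAt
  · rw [interior_Ico]
    intro t ht
    rw [(W_cut_deriv h (by norm_num) hm hδ x0 ht).2.2.deriv]
    have n1 : 0 ≤ ∫ x, lay a 1 m δ x0 t x * qE (-(1 : ℝ) • om δ x0 x) E B t x :=
      integral_nonneg fun x =>
      lay_mul_qE_nonneg (E := E) (B := B) (a := a) (b := 1) (by norm_num) hm hδ x0 t x
    have n2 : 0 ≤ ∫ z : R3 × R3, lay a 1 m δ x0 t z.1 * qP (-(1 : ℝ) • om δ x0 z.1) f t z :=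
      integral_nonneg fun z =>
      lay_mul_qP_nonneg (a := a) (b := 1) (by norm_num) hm hδ x0 (hf t (Ioo_subset_Ico_self ht) z.1 z.2)
    linarith

/-- the weighted energies with growing cut-offs converge to the energy. -/
lemma tendsto_W (h : Reg T f E B) (hf : ∀ t ∈ Ico 0 T, ∀ x v, 0 ≤ f t x v) (b : ℝ) {t : ℝ}
    (ht : t ∈ Ico 0 T) :
    Tendsto (fun n : ℕ => ENNReal.ofReal (W (cut n b 1 1 0) f E B t)) atTop (𝓝 (en f E B t)) := by
  have hmono : ∀ x, Monotone (fun n : ℕ => cut (n : ℝ) b 1 1 0 t x) := fun x n k hnk => by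
    refine Real.smoothTransition.monotone ?_
    have : (n : ℝ) ≤ k := by exact_mod_cast hnk
    linarith
  have htend : ∀ x, ∀ᶠ n : ℕ in atTop, cut (n : ℝ) b 1 1 0 t x = 1 := fun x => by
    obtain ⟨N, hN⟩ := exists_nat_ge (1 - b * t + rr 1 0 x)
    filter_upwards [eventually_ge_atTop N] with n hn
    refine Real.smoothTransition.one_of_one_le ?_
    have : (N : ℝ) ≤ n := by exact_mod_cast hn
    linarith
  have hcut : ∀ n : ℕ, Test (cut (n : ℝ) b 1 1 0) := fun n => cut_test one_pos one_pos 0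
  have e : ∀ n : ℕ, ENNReal.ofReal (W (cut n b 1 1 0) f E B t)
      = (∫⁻ x, ENNReal.ofReal (cut n b 1 1 0 t x * emE E B t x))
      + ∫⁻ z : R3 × R3, ENNReal.ofReal (cut n b 1 1 0 t z.1 * gam z.2 * f t z.1 z.2) := fun n =>
    ofReal_W h hf (hcut n) (cut_nonneg _ _ _ _ _) ht
  simp only [e]
  unfold en
  refine Tendsto.add ?_ ?_
  · refine lintegral_tendsto_of_tendsto_of_monotone (fun n => ?_) (Eventually.of_forall fun x n k hnk => ?_)
      (Eventually.of_forall fun x => ?_)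
    · exact (((cs_EM h (hcut n)).integrable volume ht).1.aemeasurable).ennreal_ofReal
    · exact ENNReal.ofReal_le_ofReal (mul_le_mul_of_nonneg_right (hmono x hnk) (emE_nonneg E B t x))
    · refine tendsto_const_nhds.congr' ?_
      filter_upwards [htend x] with n hn
      rw [hn, one_mul]
  · refine lintegral_tendsto_of_tendsto_of_monotone (fun n => ?_) (Eventually.of_forall fun z n k hnk => ?_)
      (Eventually.of_forall fun z => ?_)
    · exact (((cs_PT h (hcut n)).integrable volume ht).1.aemeasurable).ennreal_ofReal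
    · refine ENNReal.ofReal_le_ofReal ?_
      have := hmono z.1 hnk
      simp only at this
      have h1 := (gam_pos z.2).le
      have h2 := hf t ht z.1 z.2
      gcongr
    · refine tendsto_const_nhds.congr' ?_
      filter_upwards [htend z.1] with n hn
      rw [hn, one_mul]

/-- Conservation of energy. -/
theorem energy_eq (h : Reg T f E B) (hf : ∀ t ∈ Ico 0 T, ∀ x v, 0 ≤ f t x v) {s t : ℝ}
    (hs : s ∈ Ico 0 T) (ht : t ∈ Ico 0 T) : en f E B t = en f E B s := by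
  wlog hst : s ≤ t generalizing s t
  · exact (this ht hs (le_of_not_ge hst)).symm
  refine le_antisymm ?_ ?_
  · refine le_of_tendsto_of_tendsto' (tendsto_W h hf (-1) ht) (tendsto_W h hf (-1) hs) fun n => ?_
    exact ENNReal.ofReal_le_ofReal (W_antitone h hf one_pos one_pos 0 hs ht hst)
  · refine le_of_tendsto_of_tendsto' (tendsto_W h hf 1 hs) (tendsto_W h hf 1 ht) fun n => ?_
    exact ENNReal.ofReal_le_ofReal (W_monotone h hf one_pos one_pos 0 hs ht hst)

end Crest.Agent.R106.En
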