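import Crest.Agent.R106.EnLaw

/-!
Row 106, module EN (helper412), part 3: the weighted energy identity, integrated.
-/

set_option autoImplicit false

open MeasureTheory Filter Set Topology
open Crest.AnalysisR.VecCalc3 Crest.AnalysisR.PDE.RVM

namespace Crest.Agent.R106.En

variable {T : ℝ} {f : ℝ → R3 → R3 → ℝ} {E B : ℝ → R3 → R3} {φ : ℝ → R3 → ℝ}

lemma Reg.continuous_f (h : Reg T f E B) {t : ℝ} (ht : t ∈ Ico 0 T) :
    Continuous (fun z : R3 × R3 => f t z.1 z.2) :=
  continuous_slice (G := fun t (z : R3 × R3) => f t z.1 z.2) h.hf ht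

lemma Reg.continuous_E (h : Reg T f E B) {t : ℝ} (ht : t ∈ Ico 0 T) : Continuous (E t) := by
  have h1 : ContinuousOn (fun p : ℝ × R3 => E p.1 p.2) (Ico 0 T ×ˢ univ) := h.hE.continuousOn
  have h2 : Continuous (fun z : R3 => ((t, z) : ℝ × R3)) := by fun_prop
  exact h1.comp_continuous h2 (fun z => ⟨ht, mem_univ _⟩)

lemma Reg.continuous_B (h : Reg T f E B) {t : ℝ} (ht : t ∈ Ico 0 T) : Continuous (B t) := by
  have h1 : ContinuousOn (fun p : ℝ × R3 => B p.1 p.2) (Ico 0 T ×ˢ univ) := h.hB.continuousOn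
  have h2 : Continuous (fun z : R3 => ((t, z) : ℝ × R3)) := by fun_prop
  exact h1.comp_continuous h2 (fun z => ⟨ht, mem_univ _⟩)

lemma Reg.exists_R (h : Reg T f E B) {t : ℝ} (ht : t ∈ Ico 0 T) :
    ∃ R : ℝ, ∀ x v : R3, (R < ‖x‖ ∨ R < ‖v‖) → f t x v = 0 := by
  obtain ⟨R, hR⟩ := h.supp t ht.1 ht.2
  exact ⟨R, fun x v hxv => hR t ⟨ht.1, le_rfl⟩ x v hxv⟩

lemma Reg.continuous_fv (h : Reg T f E B) {t : ℝ} (ht : t ∈ Ico 0 T) (x : R3) :
    Continuous (fun v => f t x v) :=
  (h.continuous_f ht).comp (by fun_prop : Continuous fun v : R3 => (x, v))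

lemma Reg.hasCompactSupport_fv (h : Reg T f E B) {t : ℝ} (ht : t ∈ Ico 0 T) (x : R3) :
    HasCompactSupport (fun v => f t x v) := by
  obtain ⟨R, hR⟩ := h.exists_R ht
  refine HasCompactSupport.intro (isCompact_closedBall (0 : R3) R) fun v hv => ?_
  refine hR x v (Or.inr ?_)
  simpa [Metric.mem_closedBall, dist_zero_right] using hv

lemma Reg.integrable_fv_mul (h : Reg T f E B) {t : ℝ} (ht : t ∈ Ico 0 T) (x : R3) {g : R3 → ℝ}
    (hg : Continuous g) : Integrable (fun v => f t x v * g v) :=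
  ((h.continuous_fv ht x).mul hg).integrable_of_hasCompactSupport
    ((h.hasCompactSupport_fv ht x).mul_right)

lemma Reg.integrable_fv_smul (h : Reg T f E B) {t : ℝ} (ht : t ∈ Ico 0 T) (x : R3) :
    Integrable (fun v => f t x v • relVel v) :=
  ((h.continuous_fv ht x).smul continuous_relVel).integrable_of_hasCompactSupport
    ((h.hasCompactSupport_fv ht x).smul_right)

lemma Reg.current_apply (h : Reg T f E B) {t : ℝ} (ht : t ∈ Ico 0 T) (x : R3) (i : Fin 3) :
    currentDensity f t x i = ∫ v, f t x v * relVel v i := by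
  have := ContinuousLinearMap.integral_comp_comm (EuclideanSpace.proj (𝕜 := ℝ) i : R3 →L[ℝ] ℝ)
    (h.integrable_fv_smul ht x)
  unfold currentDensity
  have h2 : (∫ v, f t x v • relVel v) i
    = (EuclideanSpace.proj (𝕜 := ℝ) i : R3 →L[ℝ] ℝ) (∫ v, f t x v • relVel v) := rfl
  rw [h2, ← this]
  simp

lemma Test.continuous_x (hφ : Test φ) (t : ℝ) : Continuous (φ t) :=
  hφ.smooth.continuous.comp (by fun_prop : Continuous fun x : R3 => (t, x))

lemma Test.continuous_dt (hφ : Test φ) (t : ℝ) : Continuous (dt φ t) := by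
  have h1 := (hφ.smooth.continuous_fderiv one_ne_zero)
  exact (h1.comp (by fun_prop : Continuous fun x : R3 => (t, x))).clm_apply continuous_const

lemma Test.continuous_dx (hφ : Test φ) (i : Fin 3) (t : ℝ) : Continuous (dx φ i t) := by
  have h1 := (hφ.smooth.continuous_fderiv one_ne_zero)
  exact (h1.comp (by fun_prop : Continuous fun x : R3 => (t, x))).clm_apply continuous_const

/-- the weighted energy. -/
noncomputable def W (φ : ℝ → R3 → ℝ) (f : ℝ → R3 → R3 → ℝ) (E B : ℝ → R3 → R3) (t : ℝ) : ℝ :=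
  (∫ x, φ t x * emE E B t x) + ∫ z : R3 × R3, φ t z.1 * gam z.2 * f t z.1 z.2

/-- electromagnetic part of the derivative of the weighted energy (integrand). -/
noncomputable def dEM (φ : ℝ → R3 → ℝ) (E B : ℝ → R3 → R3) (t : ℝ) (x : R3) : ℝ :=
  dt φ t x * emE E B t x + ∑ i : Fin 3, dx φ i t x * cross3 (E t x) (B t x) i

/-- particle part of the derivative of the weighted energy (integrand). -/
noncomputable def dPT (φ : ℝ → R3 → ℝ) (f : ℝ → R3 → R3 → ℝ) (t : ℝ) (z : R3 × R3) : ℝ :=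
  (dt φ t z.1 * gam z.2 + ∑ i : Fin 3, dx φ i t z.1 * z.2 i) * f t z.1 z.2

lemma contDiffOn_phase {g : ℝ → R3 → ℝ}
    (hg : ContDiffOn ℝ 1 (fun p : ℝ × R3 => g p.1 p.2) (Ico 0 T ×ˢ univ)) :
    ContDiffOn ℝ 1 (fun p : ℝ × R3 × R3 => g p.1 p.2.1) (Ico 0 T ×ˢ univ) := by
  have h1 : ContDiffOn ℝ 1 (fun p : ℝ × R3 × R3 => (p.1, p.2.1)) (Ico 0 T ×ˢ univ) := by
    fun_prop
  exact hg.comp h1 (fun p hp => ⟨hp.1, mem_univ _⟩)

lemma contDiffOn_momentum {g : R3 → ℝ} (hg : ContDiff ℝ 1 g) {S : Set (ℝ × R3 × R3)} :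
    ContDiffOn ℝ 1 (fun p : ℝ × R3 × R3 => g p.2.2) S :=
  (hg.comp (by fun_prop : ContDiff ℝ 1 fun p : ℝ × R3 × R3 => p.2.2)).contDiffOn

lemma contDiff_coord (i : Fin 3) : ContDiff ℝ 1 (fun v : R3 => v i) :=
  (EuclideanSpace.proj (𝕜 := ℝ) i : R3 →L[ℝ] ℝ).contDiff

lemma contDiffOn_lorentz (h : Reg T f E B) (i : Fin 3) :
    ContDiffOn ℝ 1 (fun p : ℝ × R3 × R3 => gam p.2.2 * E p.1 p.2.1 i
      + cross3 p.2.2 (B p.1 p.2.1) i) (Ico 0 T ×ˢ univ) := by
  have hE := fun i => contDiffOn_phase (g := fun t x => E t x i) (contDiffOn_coord h.hE i)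
  have hB := fun i => contDiffOn_phase (g := fun t x => B t x i) (contDiffOn_coord h.hB i)
  have hv := fun i => contDiffOn_momentum (S := Ico 0 T ×ˢ univ) (contDiff_coord i)
  have hg := contDiffOn_momentum (S := Ico 0 T ×ˢ univ) (contDiff_gam (n := 1))
  refine (hg.mul (hE i)).add ?_
  fin_cases i
  · simpa using ((hv 1).mul (hB 2)).sub ((hv 2).mul (hB 1))
  · simpa using ((hv 2).mul (hB 0)).sub ((hv 0).mul (hB 2))
  · simpa using ((hv 0).mul (hB 1)).sub ((hv 1).mul (hB 0))

/-- Weighted energy identity. -/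
theorem W_deriv (h : Reg T f E B) (hφ : Test φ) {t : ℝ} (ht : t ∈ Ioo 0 T) :
    Integrable (dEM φ E B t) ∧ Integrable (dPT φ f t) ∧
    HasDerivAt (W φ f E B) ((∫ x, dEM φ E B t x) + ∫ z, dPT φ f t z) t := by
  have ht' := Ioo_subset_Ico_self ht
  have hφc : ContDiffOn ℝ 1 (fun p : ℝ × R3 => φ p.1 p.2) (Ico 0 T ×ˢ univ) := hφ.smooth.contDiffOn
  have hφp := contDiffOn_phase hφc
  have hv := fun i => contDiffOn_momentum (S := Ico 0 T ×ˢ univ) (contDiff_coord i)
  have hg := contDiffOn_momentum (S := Ico 0 T ×ˢ univ) (contDiff_gam (n := 1))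
  -- the CS functions
  have cG : CS T (fun t x => φ t x * emE E B t x) := hφ.cs (contDiffOn_emE h)
  have cH : ∀ i, CS T (fun t x => φ t x * cross3 (E t x) (B t x) i) := fun i =>
    hφ.cs (contDiffOn_cross h i)
  have cP : CS T (fun t (z : R3 × R3) => φ t z.1 * gam z.2 * f t z.1 z.2) :=
    h.cs (g := fun t z => φ t z.1 * gam z.2) (hφp.mul hg)
  have cK : ∀ i, CS T (fun t (z : R3 × R3) => φ t z.1 * z.2 i * f t z.1 z.2) := fun i =>
    h.cs (g := fun t z => φ t z.1 * z.2 i) (hφp.mul (hv i))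
  have cL : ∀ i, CS T (fun t (z : R3 × R3) =>
      φ t z.1 * (gam z.2 * E t z.1 i + cross3 z.2 (B t z.1) i) * f t z.1 z.2) := fun i =>
    h.cs (g := fun t z => φ t z.1 * (gam z.2 * E t z.1 i + cross3 z.2 (B t z.1) i))
      (hφp.mul (contDiffOn_lorentz h i))
  obtain ⟨iG, dG⟩ := cG.hasDerivAt_integral volume ht
  have : (volume : Measure (R3 × R3)).IsAddHaarMeasure := by
    rw [Measure.volume_eq_prod]; infer_instance
  obtain ⟨iP, dP⟩ := cP.hasDerivAt_integral volume ht
  have hH := fun i => (cH i).integral_space_deriv volume ht (ee i)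
  have hK := fun i => (cK i).integral_space_deriv volume ht (ee i, 0)
  have hL := fun i => (cL i).integral_space_deriv volume ht (0, ee i)
  -- the exchange term
  have hex : Integrable (fun z : R3 × R3 =>
      φ t z.1 * f t z.1 z.2 * ∑ i : Fin 3, relVel z.2 i * E t z.1 i) := by
    have hc : Continuous (fun z : R3 × R3 =>
        φ t z.1 * f t z.1 z.2 * ∑ i : Fin 3, relVel z.2 i * E t z.1 i) := by
      have h1 : Continuous (fun z : R3 × R3 => φ t z.1) := (hφ.continuous_x t).comp continuous_fst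
      have h2 := h.continuous_f ht'
      have h3 : ∀ i : Fin 3, Continuous (fun z : R3 × R3 => relVel z.2 i) := fun i =>
        (contDiff_coord i).continuous.comp (continuous_relVel.comp continuous_snd)
      have h4 : ∀ i : Fin 3, Continuous (fun z : R3 × R3 => E t z.1 i) := fun i =>
        (contDiff_coord i).continuous.comp ((h.continuous_E ht').comp continuous_fst)
      exact (h1.mul h2).mul (continuous_finsetSum _ fun i _ => (h3 i).mul (h4 i))
    refine hc.integrable_of_hasCompactSupport ?_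
    obtain ⟨R, hR⟩ := h.exists_R ht'
    refine HasCompactSupport.intro (isCompact_closedBall (0 : R3 × R3) R) fun z hz => ?_
    have hz' : R < ‖z‖ := by simpa [Metric.mem_closedBall, dist_zero_right] using hz
    rw [Prod.norm_def] at hz'
    rw [hR z.1 z.2 (lt_max_iff.1 hz')]
    simp
  have hexj : ∀ x, ∫ v, φ t x * f t x v * ∑ i : Fin 3, relVel v i * E t x i
      = φ t x * ∑ i : Fin 3, E t x i * currentDensity f t x i := by
    intro x
    have h1 : (fun v => φ t x * f t x v * ∑ i : Fin 3, relVel v i * E t x i)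
      = fun v => φ t x * ∑ i : Fin 3, E t x i * (f t x v * relVel v i) := by
      funext v
      simp only [Fin.sum_univ_three]
      ring
    rw [h1, integral_const_mul, integral_finsetSum]
    · simp only [integral_const_mul, h.current_apply ht' x]
    · intro i _
      exact (h.integrable_fv_mul ht' x ((contDiff_coord i).continuous.comp continuous_relVel)).const_mul _
  have hexI : Integrable (fun x => φ t x * ∑ i : Fin 3, E t x i * currentDensity f t x i) := by
    have := hex.integral_prod_left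
    simpa only [hexj] using this
  have hexE : ∫ z : R3 × R3, φ t z.1 * f t z.1 z.2 * ∑ i : Fin 3, relVel z.2 i * E t z.1 i
      = ∫ x, φ t x * ∑ i : Fin 3, E t x i * currentDensity f t x i := by
    rw [Measure.volume_eq_prod, integral_prod _ hex]
    simp only [hexj]
  -- electromagnetic part
  have e1 : ∀ x, dEM φ E B t x
      = (fderiv ℝ (fun p : ℝ × R3 => φ p.1 p.2 * emE E B p.1 p.2) (t, x) (1, 0)
      + ∑ i : Fin 3, fderiv ℝ (fun y : R3 => φ t y * cross3 (E t y) (B t y) i) x (ee i))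
      + φ t x * ∑ i : Fin 3, E t x i * currentDensity f t x i := by
    intro x
    rw [em_pointwise h hφ ht x]
    unfold dEM
    ring
  have iH : Integrable (fun x => ∑ i : Fin 3,
      fderiv ℝ (fun y : R3 => φ t y * cross3 (E t y) (B t y) i) x (ee i)) :=
    integrable_finsetSum _ fun i _ => (hH i).1
  have zH : ∫ x, ∑ i : Fin 3,
      fderiv ℝ (fun y : R3 => φ t y * cross3 (E t y) (B t y) i) x (ee i) = 0 := by
    rw [integral_finsetSum _ fun i _ => (hH i).1]
    exact Finset.sum_eq_zero fun i _ => (hH i).2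
  have iEM : Integrable (dEM φ E B t) := by
    have : dEM φ E B t = fun x => (fderiv ℝ (fun p : ℝ × R3 => φ p.1 p.2 * emE E B p.1 p.2) (t, x) (1, 0)
      + ∑ i : Fin 3, fderiv ℝ (fun y : R3 => φ t y * cross3 (E t y) (B t y) i) x (ee i))
      + φ t x * ∑ i : Fin 3, E t x i * currentDensity f t x i := funext e1
    rw [this]
    exact (iG.add iH).add hexI
  have sEM : ∫ x, dEM φ E B t x
      = (∫ x, fderiv ℝ (fun p : ℝ × R3 => φ p.1 p.2 * emE E B p.1 p.2) (t, x) (1, 0))
        + ∫ x, φ t x * ∑ i : Fin 3, E t x i * currentDensity f t x i := by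
    simp only [e1]
    have s1 := integral_add (iG.add iH) hexI
    have s2 := integral_add iG iH
    simp only [Pi.add_apply] at s1
    rw [s1, s2, zH, add_zero]
  -- particle part
  have e2 : ∀ z : R3 × R3, dPT φ f t z
      = (fderiv ℝ (fun p : ℝ × R3 × R3 => φ p.1 p.2.1 * gam p.2.2 * f p.1 p.2.1 p.2.2) (t, z) (1, 0)
      + ∑ i : Fin 3, fderiv ℝ (fun z : R3 × R3 => φ t z.1 * z.2 i * f t z.1 z.2) z (ee i, 0)
      + ∑ i : Fin 3, fderiv ℝ (fun z : R3 × R3 =>
          φ t z.1 * (gam z.2 * E t z.1 i + cross3 z.2 (B t z.1) i) * f t z.1 z.2) z (0, ee i))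
      - φ t z.1 * f t z.1 z.2 * ∑ i : Fin 3, relVel z.2 i * E t z.1 i := by
    rintro ⟨x, v⟩
    rw [pt_pointwise h hφ ht x v]
    unfold dPT
    ring
  have iK : Integrable (fun z => ∑ i : Fin 3,
      fderiv ℝ (fun z : R3 × R3 => φ t z.1 * z.2 i * f t z.1 z.2) z (ee i, 0)) :=
    integrable_finsetSum _ fun i _ => (hK i).1
  have zK : ∫ z, ∑ i : Fin 3,
      fderiv ℝ (fun z : R3 × R3 => φ t z.1 * z.2 i * f t z.1 z.2) z (ee i, 0) = 0 := by
    rw [integral_finsetSum _ fun i _ => (hK i).1]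
    exact Finset.sum_eq_zero fun i _ => (hK i).2
  have iL : Integrable (fun z => ∑ i : Fin 3,
      fderiv ℝ (fun z : R3 × R3 => φ t z.1 * (gam z.2 * E t z.1 i + cross3 z.2 (B t z.1) i)
        * f t z.1 z.2) z (0, ee i)) :=
    integrable_finsetSum _ fun i _ => (hL i).1
  have zL : ∫ z, ∑ i : Fin 3,
      fderiv ℝ (fun z : R3 × R3 => φ t z.1 * (gam z.2 * E t z.1 i + cross3 z.2 (B t z.1) i)
        * f t z.1 z.2) z (0, ee i) = 0 := by
    rw [integral_finsetSum _ fun i _ => (hL i).1]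
    exact Finset.sum_eq_zero fun i _ => (hL i).2
  have iPT : Integrable (dPT φ f t) := by
    have := funext e2
    rw [this]
    exact ((iP.add iK).add iL).sub hex
  have sPT : ∫ z, dPT φ f t z
      = (∫ z, fderiv ℝ (fun p : ℝ × R3 × R3 => φ p.1 p.2.1 * gam p.2.2 * f p.1 p.2.1 p.2.2) (t, z) (1, 0))
        - ∫ x, φ t x * ∑ i : Fin 3, E t x i * currentDensity f t x i := by
    simp only [e2]
    have s1 := integral_sub ((iP.add iK).add iL) hex
    have s2 := integral_add (iP.add iK) iL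
    have s3 := integral_add iP iK
    simp only [Pi.add_apply] at s1 s2
    rw [s1, s2, s3, zK, zL, hexE, add_zero, add_zero]
  refine ⟨iEM, iPT, ?_⟩
  have := dG.add dP
  rw [sEM, sPT]
  have hsum : ∀ a b c : ℝ, a + b + (c - b) = a + c := fun a b c => by ring
  rw [hsum]
  exact this

end Crest.Agent.R106.En
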