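import Mathlib

/-!
Row 106, module EN (helper412), part 1: parametric integrals of functions of (t,z) that are C^1 on
[0,T) x Z with compact z-support, and vanishing of integrals of space derivatives.
-/

set_option autoImplicit false

open MeasureTheory Filter Set Topology

namespace Crest.Agent.R106.En

section par

variable {Z : Type*} [NormedAddCommGroup Z] [NormedSpace ℝ Z]

/-- C^1 on [0,T) x Z, with z-support bounded uniformly on compact subintervals of [0,T). -/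
def CS (T : ℝ) (G : ℝ → Z → ℝ) : Prop :=
  ContDiffOn ℝ 1 (fun p : ℝ × Z => G p.1 p.2) (Ico 0 T ×ˢ univ) ∧
  ∀ T' : ℝ, 0 ≤ T' → T' < T → ∃ R : ℝ, ∀ t ∈ Icc 0 T', ∀ z, R < ‖z‖ → G t z = 0

lemma nhds_prod_mem {T t : ℝ} (ht : t ∈ Ioo 0 T) (z : Z) :
    (Ico 0 T ×ˢ (univ : Set Z)) ∈ 𝓝 ((t, z) : ℝ × Z) := by
  rw [nhds_prod_eq]
  exact prod_mem_prod (mem_of_superset (Ioo_mem_nhds ht.1 ht.2) Ioo_subset_Ico_self) univ_mem

lemma contDiffAt_of {T : ℝ} {G : ℝ → Z → ℝ}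
    (h : ContDiffOn ℝ 1 (fun p : ℝ × Z => G p.1 p.2) (Ico 0 T ×ˢ univ)) {t : ℝ}
    (ht : t ∈ Ioo 0 T) (z : Z) : ContDiffAt ℝ 1 (fun p : ℝ × Z => G p.1 p.2) (t, z) :=
  h.contDiffAt (nhds_prod_mem ht z)

lemma hasFDerivAt_of {T : ℝ} {G : ℝ → Z → ℝ}
    (h : ContDiffOn ℝ 1 (fun p : ℝ × Z => G p.1 p.2) (Ico 0 T ×ˢ univ)) {t : ℝ}
    (ht : t ∈ Ioo 0 T) (z : Z) :
    HasFDerivAt (fun p : ℝ × Z => G p.1 p.2) (fderiv ℝ (fun p : ℝ × Z => G p.1 p.2) (t, z)) (t, z) :=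
  ((contDiffAt_of h ht z).differentiableAt one_ne_zero).hasFDerivAt

lemma hasDerivAt_of {T : ℝ} {G : ℝ → Z → ℝ}
    (h : ContDiffOn ℝ 1 (fun p : ℝ × Z => G p.1 p.2) (Ico 0 T ×ˢ univ)) {t : ℝ}
    (ht : t ∈ Ioo 0 T) (z : Z) :
    HasDerivAt (fun s => G s z) (fderiv ℝ (fun p : ℝ × Z => G p.1 p.2) (t, z) (1, 0)) t := by
  have h1 := hasFDerivAt_of h ht z
  have h2 : HasDerivAt (fun s : ℝ => (s, z)) ((1 : ℝ), (0 : Z)) t :=
    (hasDerivAt_id t).prodMk (hasDerivAt_const t z)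
  exact h1.comp_hasDerivAt t h2

lemma hasFDerivAt_space {T : ℝ} {G : ℝ → Z → ℝ}
    (h : ContDiffOn ℝ 1 (fun p : ℝ × Z => G p.1 p.2) (Ico 0 T ×ˢ univ)) {t : ℝ}
    (ht : t ∈ Ioo 0 T) (z : Z) :
    HasFDerivAt (G t)
      ((fderiv ℝ (fun p : ℝ × Z => G p.1 p.2) (t, z)).comp (ContinuousLinearMap.inr ℝ ℝ Z)) z := by
  have h1 := hasFDerivAt_of h ht z
  have h2 : HasFDerivAt (fun y : Z => (t, y)) (ContinuousLinearMap.inr ℝ ℝ Z) z :=
    hasFDerivAt_prodMk_right t z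
  exact h1.comp z h2

lemma continuousOn_fderiv_of {T : ℝ} {G : ℝ → Z → ℝ}
    (h : ContDiffOn ℝ 1 (fun p : ℝ × Z => G p.1 p.2) (Ico 0 T ×ˢ univ)) :
    ContinuousOn (fderiv ℝ (fun p : ℝ × Z => G p.1 p.2)) (Ioo 0 T ×ˢ univ) := by
  have h' : ContDiffOn ℝ 1 (fun p : ℝ × Z => G p.1 p.2) (Ioo 0 T ×ˢ univ) :=
    h.mono (prod_mono Ioo_subset_Ico_self subset_rfl)
  exact h'.continuousOn_fderiv_of_isOpen (isOpen_Ioo.prod isOpen_univ) le_rfl

lemma CS.support_bound {T : ℝ} {G : ℝ → Z → ℝ} (h : CS T G) {t : ℝ} (ht : t ∈ Ico 0 T) :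
    ∃ ε > 0, t + ε < T ∧ ∃ R : ℝ, ∀ s ∈ Icc 0 (t + ε), ∀ z, R < ‖z‖ → G s z = 0 := by
  have hε : 0 < (T - t) / 2 := by linarith [ht.2]
  refine ⟨(T - t) / 2, hε, by linarith [ht.2], ?_⟩
  exact h.2 _ (by linarith [ht.1]) (by linarith [ht.2])

variable [FiniteDimensional ℝ Z] [MeasurableSpace Z] [BorelSpace Z] (μ : Measure Z)
  [μ.IsAddHaarMeasure]

lemma continuous_slice {T : ℝ} {G : ℝ → Z → ℝ}
    (h : ContDiffOn ℝ 1 (fun p : ℝ × Z => G p.1 p.2) (Ico 0 T ×ˢ univ)) {t : ℝ}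
    (ht : t ∈ Ico 0 T) : Continuous (G t) := by
  have h1 : ContinuousOn (fun p : ℝ × Z => G p.1 p.2) (Ico 0 T ×ˢ univ) := h.continuousOn
  have h2 : Continuous (fun z : Z => ((t, z) : ℝ × Z)) := by fun_prop
  exact h1.comp_continuous h2 (fun z => ⟨ht, mem_univ _⟩)

lemma CS.hasCompactSupport {T : ℝ} {G : ℝ → Z → ℝ} (h : CS T G) {t : ℝ} (ht : t ∈ Ico 0 T) :
    HasCompactSupport (G t) := by
  obtain ⟨ε, hε, _, R, hR⟩ := h.support_bound ht
  refine HasCompactSupport.intro (isCompact_closedBall (0 : Z) R) fun z hz => ?_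
  refine hR t ⟨ht.1, by linarith⟩ z ?_
  simpa [Metric.mem_closedBall, dist_zero_right] using hz

lemma CS.integrable {T : ℝ} {G : ℝ → Z → ℝ} (h : CS T G) {t : ℝ} (ht : t ∈ Ico 0 T) :
    Integrable (G t) μ :=
  (continuous_slice h.1 ht).integrable_of_hasCompactSupport (h.hasCompactSupport ht)

lemma CS.continuousOn_integral {T : ℝ} {G : ℝ → Z → ℝ} (h : CS T G) :
    ContinuousOn (fun t => ∫ z, G t z ∂μ) (Ico 0 T) := by
  intro t ht
  obtain ⟨ε, hε, hεT, R, hR⟩ := h.support_bound ht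
  have h1 : ContinuousOn (fun t => ∫ z, G t z ∂μ) (Icc 0 (t + ε)) := by
    refine continuousOn_integral_of_compact_support (isCompact_closedBall (0 : Z) R) ?_ ?_
    · refine ContinuousOn.mono (f := fun p : ℝ × Z => G p.1 p.2) h.1.continuousOn ?_
      refine prod_mono ?_ subset_rfl
      intro s hs
      exact ⟨hs.1, lt_of_le_of_lt hs.2 hεT⟩
    · intro s z hs hz
      refine hR s hs z ?_
      simpa [Metric.mem_closedBall, dist_zero_right] using hz
  have h2 := h1 t ⟨ht.1, by linarith⟩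
  refine h2.mono_of_mem_nhdsWithin ?_
  rw [mem_nhdsWithin]
  refine ⟨Iio (t + ε), isOpen_Iio, by simp [hε], ?_⟩
  rintro s ⟨hs1, hs2⟩
  exact ⟨hs2.1, le_of_lt hs1⟩

/-- the time derivative of a CS function vanishes outside the support radius. -/
lemma CS.fderiv_zero {T : ℝ} {G : ℝ → Z → ℝ} {t ε R : ℝ} (ht : t ∈ Ioo 0 T) (hε : 0 < ε)
    (hR : ∀ s ∈ Icc 0 (t + ε), ∀ z, R < ‖z‖ → G s z = 0) {s : ℝ} (hs : s ∈ Ioo 0 (t + ε)) {z : Z}
    (hz : R < ‖z‖) : fderiv ℝ (fun p : ℝ × Z => G p.1 p.2) (s, z) = 0 := by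
  have h1 : (fun p : ℝ × Z => G p.1 p.2) =ᶠ[𝓝 (s, z)] fun _ => 0 := by
    have hopen : IsOpen (Ioo 0 (t + ε) ×ˢ {y : Z | R < ‖y‖}) :=
      isOpen_Ioo.prod (isOpen_lt continuous_const continuous_norm)
    filter_upwards [hopen.mem_nhds ⟨hs, hz⟩] with p hp
    exact hR p.1 (Ioo_subset_Icc_self hp.1) p.2 hp.2
  rw [h1.fderiv_eq]
  simp

/-- Differentiation under the integral sign. -/
lemma CS.hasDerivAt_integral {T : ℝ} {G : ℝ → Z → ℝ} (h : CS T G) {t : ℝ} (ht : t ∈ Ioo 0 T) :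
    Integrable (fun z => fderiv ℝ (fun p : ℝ × Z => G p.1 p.2) (t, z) (1, 0)) μ ∧
    HasDerivAt (fun t => ∫ z, G t z ∂μ)
      (∫ z, fderiv ℝ (fun p : ℝ × Z => G p.1 p.2) (t, z) (1, 0) ∂μ) t := by
  obtain ⟨ε, hε, hεT, R, hR⟩ := h.support_bound (Ioo_subset_Ico_self ht)
  set δ : ℝ := min (t / 2) (ε / 2) with hδ
  have hδ0 : 0 < δ := lt_min (by linarith [ht.1]) (by linarith)
  have hδ1 : δ ≤ t / 2 := min_le_left _ _
  have hδ2 : δ ≤ ε / 2 := min_le_right _ _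
  have hsub : Icc (t - δ) (t + δ) ⊆ Ioo 0 T := fun s hs =>
    ⟨by linarith [hs.1, ht.1], by linarith [hs.2]⟩
  have hcont : ContinuousOn (fun p : ℝ × Z => fderiv ℝ (fun p : ℝ × Z => G p.1 p.2) p ((1 : ℝ), (0 : Z)))
      (Icc (t - δ) (t + δ) ×ˢ Metric.closedBall (0 : Z) (max R 0)) :=
    ((continuousOn_fderiv_of h.1).mono (prod_mono hsub (subset_univ _))).clm_apply
      continuousOn_const
  have hcomp : IsCompact (Icc (t - δ) (t + δ) ×ˢ Metric.closedBall (0 : Z) (max R 0)) :=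
    isCompact_Icc.prod (isCompact_closedBall _ _)
  obtain ⟨C, hC⟩ := hcomp.exists_bound_of_continuousOn hcont
  have hzero : ∀ s ∈ Ioo 0 (t + ε), ∀ z : Z, R < ‖z‖ →
      fderiv ℝ (fun p : ℝ × Z => G p.1 p.2) (s, z) ((1 : ℝ), (0 : Z)) = 0 := by
    intro s hs z hz
    rw [CS.fderiv_zero ht hε hR hs hz]
    simp
  have hslice : Continuous (fun z : Z => fderiv ℝ (fun p : ℝ × Z => G p.1 p.2) (t, z) ((1 : ℝ), (0 : Z))) := by
    have h1 : ContinuousOn (fun p : ℝ × Z => fderiv ℝ (fun p : ℝ × Z => G p.1 p.2) p ((1 : ℝ), (0 : Z)))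
      (Ioo 0 T ×ˢ univ) := (continuousOn_fderiv_of h.1).clm_apply continuousOn_const
    exact h1.comp_continuous (by fun_prop) (fun z => ⟨ht, mem_univ _⟩)
  refine hasDerivAt_integral_of_dominated_loc_of_deriv_le (μ := μ)
    (F := G) (F' := fun s z => fderiv ℝ (fun p : ℝ × Z => G p.1 p.2) (s, z) ((1 : ℝ), (0 : Z)))
    (s := Ioo (t - δ) (t + δ)) (bound := (Metric.closedBall (0 : Z) (max R 0)).indicator fun _ => C)
    (Ioo_mem_nhds (by linarith) (by linarith)) ?_ (h.integrable μ (Ioo_subset_Ico_self ht))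
    hslice.aestronglyMeasurable ?_ ?_ ?_
  · filter_upwards [Ioo_mem_nhds (show t - δ < t by linarith) (show t < t + δ by linarith)] with s hs
    have hs' := hsub (Ioo_subset_Icc_self hs)
    exact (continuous_slice h.1 (Ioo_subset_Ico_self hs')).aestronglyMeasurable
  · refine Eventually.of_forall fun z s hs => ?_
    by_cases hz : z ∈ Metric.closedBall (0 : Z) (max R 0)
    · rw [indicator_of_mem hz]
      exact hC (s, z) ⟨Ioo_subset_Icc_self hs, hz⟩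
    · rw [indicator_of_notMem hz]
      have hz' : R < ‖z‖ := by
        rw [Metric.mem_closedBall, dist_zero_right, not_le] at hz
        exact lt_of_le_of_lt (le_max_left _ _) hz
      have := hsub (Ioo_subset_Icc_self hs)
      rw [hzero s ⟨this.1, by linarith [hs.2]⟩ z hz']
      simp
  · refine (integrable_indicator_iff Metric.isClosed_closedBall.measurableSet).2 ?_
    exact integrableOn_const (isCompact_closedBall (0 : Z) (max R 0)).measure_ne_top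
  · refine Eventually.of_forall fun z s hs => ?_
    exact hasDerivAt_of h.1 (hsub (Ioo_subset_Icc_self hs)) z

/-- The integral of a space derivative vanishes. -/
lemma CS.integral_space_deriv {T : ℝ} {G : ℝ → Z → ℝ} (h : CS T G) {t : ℝ} (ht : t ∈ Ioo 0 T)
    (w : Z) :
    Integrable (fun z => fderiv ℝ (G t) z w) μ ∧ ∫ z, fderiv ℝ (G t) z w ∂μ = 0 := by
  have hdiff : ContDiff ℝ 1 (G t) := by
    rw [contDiff_iff_contDiffAt]
    intro z
    have h1 := contDiffAt_of h.1 ht z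
    have h2 : ContDiffAt ℝ 1 (fun y : Z => ((t, y) : ℝ × Z)) z := by fun_prop
    exact h1.comp z h2
  have hcs := h.hasCompactSupport (Ioo_subset_Ico_self ht)
  have hcont : Continuous (fun z => fderiv ℝ (G t) z w) :=
    (hdiff.continuous_fderiv one_ne_zero).clm_apply continuous_const
  have hcs' : HasCompactSupport (fun z => fderiv ℝ (G t) z w) := hcs.fderiv_apply ℝ w
  have hint : Integrable (fun z => fderiv ℝ (G t) z w) μ :=
    hcont.integrable_of_hasCompactSupport hcs'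
  refine ⟨hint, ?_⟩
  have key := integral_mul_fderiv_eq_neg_fderiv_mul_of_integrable (μ := μ) (f := fun _ : Z => (1 : ℝ))
    (g := G t) (v := w) (by simp) (by simpa using hint)
    (by simpa using h.integrable μ (Ioo_subset_Ico_self ht))
    (fun x _ => differentiableAt_const _) (fun x _ => (hdiff.differentiable one_ne_zero) x)
  simpa using key

end par

end Crest.Agent.R106.En
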