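import Crest.Prelude.Def_VlasovMaxwell
import Crest.Agent.R106.EnPar

/-!
Row 106, module EN (helper412), part 2: the weighted energy identity.
-/

set_option autoImplicit false

open MeasureTheory Filter Set Topology
open Crest.AnalysisR.VecCalc3 Crest.AnalysisR.PDE.RVM

namespace Crest.Agent.R106.En

/-- the particle energy (Lorentz factor) of a momentum. -/
noncomputable def gam (v : R3) : ℝ := Real.sqrt (1 + ‖v‖ ^ 2)

lemma gam_pos (v : R3) : 0 < gam v := Real.sqrt_pos.2 (by positivity)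

lemma one_le_gam (v : R3) : 1 ≤ gam v := by
  unfold gam
  rw [Real.one_le_sqrt]
  nlinarith [sq_nonneg ‖v‖]

lemma gam_sq (v : R3) : gam v ^ 2 = 1 + ‖v‖ ^ 2 := Real.sq_sqrt (by positivity)

lemma norm_le_gam (v : R3) : ‖v‖ ≤ gam v := by
  refine Real.le_sqrt_of_sq_le ?_
  linarith

lemma norm_lt_gam (v : R3) : ‖v‖ < gam v := by
  refine Real.lt_sqrt_of_sq_lt ?_
  linarith

lemma relVel_eq (v : R3) : relVel v = (gam v)⁻¹ • v := rfl

lemma relVel_apply (v : R3) (i : Fin 3) : relVel v i = (gam v)⁻¹ * v i := by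
  rw [relVel_eq]; simp

lemma gam_smul_relVel (v : R3) : gam v • relVel v = v := by
  rw [relVel_eq, smul_smul, mul_inv_cancel₀ (gam_pos v).ne', one_smul]

lemma gam_mul_relVel (v : R3) (i : Fin 3) : gam v * relVel v i = v i := by
  rw [relVel_apply, ← mul_assoc, mul_inv_cancel₀ (gam_pos v).ne', one_mul]

lemma norm_relVel_lt (v : R3) : ‖relVel v‖ < 1 := by
  rw [relVel_eq, norm_smul, norm_inv, Real.norm_of_nonneg (gam_pos v).le, inv_mul_lt_one₀ (gam_pos v)]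
  exact norm_lt_gam v

lemma norm_relVel_le (v : R3) : ‖relVel v‖ ≤ 1 := (norm_relVel_lt v).le

lemma norm_sq_coord (a : R3) : ‖a‖ ^ 2 = a 0 ^ 2 + a 1 ^ 2 + a 2 ^ 2 := by
  rw [EuclideanSpace.norm_sq_eq, Fin.sum_univ_three]
  simp

lemma inner_coord (a b : R3) : inner ℝ a b = a 0 * b 0 + a 1 * b 1 + a 2 * b 2 := by
  rw [PiLp.inner_apply, Fin.sum_univ_three]
  simp [mul_comm]

@[simp] lemma cross3_0 (a b : R3) : cross3 a b 0 = a 1 * b 2 - a 2 * b 1 := by simp [cross3]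
@[simp] lemma cross3_1 (a b : R3) : cross3 a b 1 = a 2 * b 0 - a 0 * b 2 := by simp [cross3]
@[simp] lemma cross3_2 (a b : R3) : cross3 a b 2 = a 0 * b 1 - a 1 * b 0 := by simp [cross3]
@[simp] lemma curl3_0 (F : R3 → R3) (x : R3) :
    curl3 F x 0 = pderiv (fun y => F y 2) 1 x - pderiv (fun y => F y 1) 2 x := by simp [curl3]
@[simp] lemma curl3_1 (F : R3 → R3) (x : R3) :
    curl3 F x 1 = pderiv (fun y => F y 0) 2 x - pderiv (fun y => F y 2) 0 x := by simp [curl3]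
@[simp] lemma curl3_2 (F : R3 → R3) (x : R3) :
    curl3 F x 2 = pderiv (fun y => F y 1) 0 x - pderiv (fun y => F y 0) 1 x := by simp [curl3]

lemma contDiff_gam {n : WithTop ℕ∞} : ContDiff ℝ n gam := by
  unfold gam
  refine ContDiff.sqrt (contDiff_const.add (contDiff_norm_sq ℝ)) fun x => ?_
  positivity

lemma continuous_gam : Continuous gam := (contDiff_gam (n := 1)).continuous

lemma hasFDerivAt_gam (v : R3) : HasFDerivAt gam (innerSL ℝ (relVel v)) v := by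
  have h1 : HasFDerivAt (fun v : R3 => 1 + ‖v‖ ^ 2) (2 • (innerSL ℝ v)) v :=
    (hasStrictFDerivAt_norm_sq v).hasFDerivAt.const_add 1
  have h2 := h1.sqrt (by positivity)
  refine h2.congr_fderiv ?_
  ext w
  have := gam_pos v
  simp only [smul_apply, innerSL_apply_apply, relVel_eq, inner_smul_left, gam]
  simp
  field_simp

lemma continuous_relVel : Continuous relVel := by
  have : relVel = fun v => (gam v)⁻¹ • v := rfl
  rw [this]
  exact (continuous_gam.inv₀ fun v => (gam_pos v).ne').smul continuous_id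

/-- the standard basis vector. -/
noncomputable abbrev ee (i : Fin 3) : R3 := EuclideanSpace.single i (1 : ℝ)


section weighted

variable {T : ℝ} {f : ℝ → R3 → R3 → ℝ} {E B : ℝ → R3 → R3} {φ : ℝ → R3 → ℝ}

/-- The regularity part of being a classical solution (no data). -/
structure Reg (T : ℝ) (f : ℝ → R3 → R3 → ℝ) (E B : ℝ → R3 → R3) : Prop where
  hf : ContDiffOn ℝ 1 (fun p : ℝ × R3 × R3 => f p.1 p.2.1 p.2.2) (Ico 0 T ×ˢ univ)
  hE : ContDiffOn ℝ 1 (fun p : ℝ × R3 => E p.1 p.2) (Ico 0 T ×ˢ univ)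
  hB : ContDiffOn ℝ 1 (fun p : ℝ × R3 => B p.1 p.2) (Ico 0 T ×ˢ univ)
  eq : ∀ t : ℝ, 0 < t → t < T → ∀ x : R3, EquationsHoldAt f E B t x
  supp : ∀ T' : ℝ, 0 ≤ T' → T' < T → ∃ R : ℝ, ∀ t ∈ Icc 0 T', ∀ x v : R3,
      (R < ‖x‖ ∨ R < ‖v‖) → f t x v = 0

lemma Reg.of_sol {f₀ : R3 → R3 → ℝ} {E₀ B₀ : R3 → R3}
    (h : IsClassicalSolutionOn T f₀ E₀ B₀ f E B) : Reg T f E B :=
  ⟨h.1, h.2.1, h.2.2.1, h.2.2.2.2.2.2.1, h.2.2.2.2.2.2.2.1⟩

/-- Test functions: C^1, with x-support bounded uniformly on compact time intervals. -/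
structure Test (φ : ℝ → R3 → ℝ) : Prop where
  smooth : ContDiff ℝ 1 (fun p : ℝ × R3 => φ p.1 p.2)
  supp : ∀ T' : ℝ, 0 ≤ T' → ∃ R : ℝ, ∀ t ∈ Icc 0 T', ∀ x, R < ‖x‖ → φ t x = 0

lemma contDiffOn_coord {F : ℝ → R3 → R3}
    (h : ContDiffOn ℝ 1 (fun p : ℝ × R3 => F p.1 p.2) (Ico 0 T ×ˢ univ)) (i : Fin 3) :
    ContDiffOn ℝ 1 (fun p : ℝ × R3 => F p.1 p.2 i) (Ico 0 T ×ˢ univ) :=
  (EuclideanSpace.proj (𝕜 := ℝ) i).contDiff.comp_contDiffOn h

/-- a CS function times a test function (space variable). -/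
lemma Test.cs (hφ : Test φ) {g : ℝ → R3 → ℝ}
    (hg : ContDiffOn ℝ 1 (fun p : ℝ × R3 => g p.1 p.2) (Ico 0 T ×ˢ univ)) :
    CS T (fun t x => φ t x * g t x) := by
  refine ⟨hφ.smooth.contDiffOn.mul hg, fun T' h0 _ => ?_⟩
  obtain ⟨R, hR⟩ := hφ.supp T' h0
  exact ⟨R, fun t ht z hz => by simp only [hR t ht z hz, zero_mul]⟩

/-- a CS function in phase space: anything C^1 times f. -/
lemma Reg.cs (h : Reg T f E B) {g : ℝ → R3 × R3 → ℝ}
    (hg : ContDiffOn ℝ 1 (fun p : ℝ × R3 × R3 => g p.1 p.2) (Ico 0 T ×ˢ univ)) :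
    CS T (fun t (z : R3 × R3) => g t z * f t z.1 z.2) := by
  refine ⟨hg.mul h.hf, fun T' h0 h1 => ?_⟩
  obtain ⟨R, hR⟩ := h.supp T' h0 h1
  refine ⟨R, fun t ht z hz => ?_⟩
  have : R < ‖z.1‖ ∨ R < ‖z.2‖ := by
    rw [Prod.norm_def] at hz
    exact lt_max_iff.1 hz
  simp only [hR t ht z.1 z.2 this, mul_zero]

/-- partial derivatives of test functions. -/
noncomputable def dt (φ : ℝ → R3 → ℝ) (t : ℝ) (x : R3) : ℝ :=
  fderiv ℝ (fun p : ℝ × R3 => φ p.1 p.2) (t, x) (1, 0)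

noncomputable def dx (φ : ℝ → R3 → ℝ) (i : Fin 3) (t : ℝ) (x : R3) : ℝ :=
  fderiv ℝ (fun p : ℝ × R3 => φ p.1 p.2) (t, x) (0, ee i)

/-- electromagnetic energy density. -/
noncomputable def emE (E B : ℝ → R3 → R3) (t : ℝ) (x : R3) : ℝ :=
  ((E t x 0 ^ 2 + E t x 1 ^ 2 + E t x 2 ^ 2) + (B t x 0 ^ 2 + B t x 1 ^ 2 + B t x 2 ^ 2)) * 2⁻¹

lemma emE_eq (E B : ℝ → R3 → R3) (t : ℝ) (x : R3) :
    emE E B t x = (‖E t x‖ ^ 2 + ‖B t x‖ ^ 2) / 2 := by
  rw [emE, norm_sq_coord, norm_sq_coord, div_eq_mul_inv]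

lemma contDiffOn_emE (h : Reg T f E B) :
    ContDiffOn ℝ 1 (fun p : ℝ × R3 => emE E B p.1 p.2) (Ico 0 T ×ˢ univ) := by
  have hE := fun i => contDiffOn_coord h.hE i
  have hB := fun i => contDiffOn_coord h.hB i
  unfold emE
  exact (((((hE 0).pow 2).add ((hE 1).pow 2)).add ((hE 2).pow 2)).add
    ((((hB 0).pow 2).add ((hB 1).pow 2)).add ((hB 2).pow 2))).mul contDiffOn_const

lemma contDiffOn_cross (h : Reg T f E B) (i : Fin 3) :
    ContDiffOn ℝ 1 (fun p : ℝ × R3 => cross3 (E p.1 p.2) (B p.1 p.2) i) (Ico 0 T ×ˢ univ) := by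
  have hE := fun i => contDiffOn_coord h.hE i
  have hB := fun i => contDiffOn_coord h.hB i
  fin_cases i
  · simpa using ((hE 1).mul (hB 2)).sub ((hE 2).mul (hB 1))
  · simpa using ((hE 2).mul (hB 0)).sub ((hE 0).mul (hB 2))
  · simpa using ((hE 0).mul (hB 1)).sub ((hE 1).mul (hB 0))

/-- The pointwise electromagnetic identity. -/
lemma em_pointwise (h : Reg T f E B) (hφ : Test φ) {t : ℝ} (ht : t ∈ Ioo 0 T) (x : R3) :
    fderiv ℝ (fun p : ℝ × R3 => φ p.1 p.2 * emE E B p.1 p.2) (t, x) (1, 0)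
      + ∑ i : Fin 3, fderiv ℝ (fun y : R3 => φ t y * cross3 (E t y) (B t y) i) x (ee i)
    = dt φ t x * emE E B t x + ∑ i : Fin 3, dx φ i t x * cross3 (E t x) (B t x) i
      - φ t x * ∑ i : Fin 3, E t x i * currentDensity f t x i := by
  have hEi := fun i => hasFDerivAt_of (G := fun t x => E t x i) (contDiffOn_coord h.hE i) ht x
  have hBi := fun i => hasFDerivAt_of (G := fun t x => B t x i) (contDiffOn_coord h.hB i) ht x
  have hφ' : HasFDerivAt (fun p : ℝ × R3 => φ p.1 p.2) (fderiv ℝ (fun p : ℝ × R3 => φ p.1 p.2) (t, x))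
    (t, x) := (hφ.smooth.differentiable one_ne_zero).differentiableAt.hasFDerivAt
  obtain ⟨-, hAmp, hFar, -, -⟩ := h.eq t ht.1 ht.2 x
  -- time derivatives of coordinates
  have hEt : ∀ i, deriv (fun s => E s x i) t
      = fderiv ℝ (fun p : ℝ × R3 => E p.1 p.2 i) (t, x) (1, 0) := fun i =>
    (hasDerivAt_of (G := fun t x => E t x i) (contDiffOn_coord h.hE i) ht x).deriv
  have hBt : ∀ i, deriv (fun s => B s x i) t
      = fderiv ℝ (fun p : ℝ × R3 => B p.1 p.2 i) (t, x) (1, 0) := fun i =>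
    (hasDerivAt_of (G := fun t x => B t x i) (contDiffOn_coord h.hB i) ht x).deriv
  have hEx : ∀ i k, pderiv (fun y => E t y i) k x
      = fderiv ℝ (fun p : ℝ × R3 => E p.1 p.2 i) (t, x) (0, ee k) := fun i k => by
    have := (hasFDerivAt_space (G := fun t x => E t x i) (contDiffOn_coord h.hE i) ht x).fderiv
    unfold pderiv
    rw [this]
    rfl
  have hBx : ∀ i k, pderiv (fun y => B t y i) k x
      = fderiv ℝ (fun p : ℝ × R3 => B p.1 p.2 i) (t, x) (0, ee k) := fun i k => by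
    have := (hasFDerivAt_space (G := fun t x => B t x i) (contDiffOn_coord h.hB i) ht x).fderiv
    unfold pderiv
    rw [this]
    rfl
  have hAmp0 := hAmp 0
  have hAmp1 := hAmp 1
  have hAmp2 := hAmp 2
  have hFar0 := hFar 0
  have hFar1 := hFar 1
  have hFar2 := hFar 2
  rw [curl3_0, hEt] at hAmp0
  rw [curl3_1, hEt] at hAmp1
  rw [curl3_2, hEt] at hAmp2
  rw [curl3_0, hBt] at hFar0
  rw [curl3_1, hBt] at hFar1
  rw [curl3_2, hBt] at hFar2
  simp only [hEx, hBx] at hAmp0 hAmp1 hAmp2 hFar0 hFar1 hFar2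
  -- total derivative of the energy
  have hem := ((((((hEi 0).pow 2).add ((hEi 1).pow 2)).add ((hEi 2).pow 2)).add
    ((((hBi 0).pow 2).add ((hBi 1).pow 2)).add ((hBi 2).pow 2))).mul_const (2 : ℝ)⁻¹)
  have h1 : fderiv ℝ (fun p : ℝ × R3 => φ p.1 p.2 * emE E B p.1 p.2) (t, x) = _ :=
    (hφ'.mul hem).fderiv
  have hc0 := ((hEi 1).mul (hBi 2)).sub ((hEi 2).mul (hBi 1))
  have hc1 := ((hEi 2).mul (hBi 0)).sub ((hEi 0).mul (hBi 2))
  have hc2 := ((hEi 0).mul (hBi 1)).sub ((hEi 1).mul (hBi 0))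
  have hk : ∀ (u : ℝ × R3 → ℝ) (u' : ℝ × R3 →L[ℝ] ℝ), HasFDerivAt u u' (t, x) →
      ∀ w, fderiv ℝ (fun y : R3 => u (t, y)) x w = u' (0, w) := by
    intro u u' hu w
    have := (hu.comp x (hasFDerivAt_prodMk_right t x)).fderiv
    have h2 : fderiv ℝ (fun y : R3 => u (t, y)) x = u'.comp (ContinuousLinearMap.inr ℝ ℝ R3) := this
    rw [h2]; rfl
  have e0 := hk _ _ (hφ'.mul hc0) (ee 0)
  have e1 := hk _ _ (hφ'.mul hc1) (ee 1)
  have e2 := hk _ _ (hφ'.mul hc2) (ee 2)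
  rw [Fin.sum_univ_three, Fin.sum_univ_three, Fin.sum_univ_three]
  simp only [Pi.mul_apply, Pi.sub_apply, Pi.add_apply] at e0 e1 e2 h1
  rw [h1]
  simp only [cross3_0, cross3_1, cross3_2, e0, e1, e2, dt, dx, emE, smul_eq_mul,
    _root_.add_apply, _root_.smul_apply, _root_.sub_apply, nsmul_eq_mul]
  norm_num
  linear_combination φ t x * (E t x 0 * hAmp0 + E t x 1 * hAmp1 + E t x 2 * hAmp2
    + B t x 0 * hFar0 + B t x 1 * hFar1 + B t x 2 * hFar2)

/-- The pointwise transport identity in phase space. -/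
lemma pt_pointwise (h : Reg T f E B) (hφ : Test φ) {t : ℝ} (ht : t ∈ Ioo 0 T) (x v : R3) :
    fderiv ℝ (fun p : ℝ × R3 × R3 => φ p.1 p.2.1 * gam p.2.2 * f p.1 p.2.1 p.2.2) (t, x, v) (1, 0)
      + ∑ i : Fin 3, fderiv ℝ (fun z : R3 × R3 => φ t z.1 * z.2 i * f t z.1 z.2) (x, v) (ee i, 0)
      + ∑ i : Fin 3, fderiv ℝ (fun z : R3 × R3 =>
          φ t z.1 * (gam z.2 * E t z.1 i + cross3 z.2 (B t z.1) i) * f t z.1 z.2) (x, v) (0, ee i)
    = (dt φ t x * gam v + ∑ i : Fin 3, dx φ i t x * v i) * f t x v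
      + φ t x * f t x v * ∑ i : Fin 3, relVel v i * E t x i := by
  set p0 : ℝ × R3 × R3 := (t, x, v) with hp0
  have hf := hasFDerivAt_of (G := fun t (z : R3 × R3) => f t z.1 z.2) h.hf ht (x, v)
  have hproj : HasFDerivAt (fun p : ℝ × R3 × R3 => (p.1, p.2.1))
      ((ContinuousLinearMap.fst ℝ ℝ (R3 × R3)).prod
        ((ContinuousLinearMap.fst ℝ R3 R3).comp (ContinuousLinearMap.snd ℝ ℝ (R3 × R3)))) p0 :=
    ((ContinuousLinearMap.fst ℝ ℝ (R3 × R3)).prod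
        ((ContinuousLinearMap.fst ℝ R3 R3).comp (ContinuousLinearMap.snd ℝ ℝ (R3 × R3)))).hasFDerivAt
  have hproj2 : HasFDerivAt (fun p : ℝ × R3 × R3 => p.2.2)
      ((ContinuousLinearMap.snd ℝ R3 R3).comp (ContinuousLinearMap.snd ℝ ℝ (R3 × R3))) p0 :=
    ((ContinuousLinearMap.snd ℝ R3 R3).comp (ContinuousLinearMap.snd ℝ ℝ (R3 × R3))).hasFDerivAt
  have hφ0 : HasFDerivAt (fun p : ℝ × R3 => φ p.1 p.2) (fderiv ℝ (fun p : ℝ × R3 => φ p.1 p.2) (t, x))
    (t, x) := (hφ.smooth.differentiable one_ne_zero).differentiableAt.hasFDerivAt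
  have hφ' := HasFDerivAt.comp (g := fun p : ℝ × R3 => φ p.1 p.2) p0 hφ0 hproj
  have hE := fun i => HasFDerivAt.comp (g := fun p : ℝ × R3 => E p.1 p.2 i) p0
    (hasFDerivAt_of (G := fun t x => E t x i) (contDiffOn_coord h.hE i) ht x) hproj
  have hB := fun i => HasFDerivAt.comp (g := fun p : ℝ × R3 => B p.1 p.2 i) p0
    (hasFDerivAt_of (G := fun t x => B t x i) (contDiffOn_coord h.hB i) ht x) hproj
  have hg := HasFDerivAt.comp (g := gam) p0 (hasFDerivAt_gam v) hproj2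
  have hv := fun i : Fin 3 => HasFDerivAt.comp (g := fun w : R3 => w i) p0
    ((EuclideanSpace.proj (𝕜 := ℝ) i : R3 →L[ℝ] ℝ).hasFDerivAt) hproj2
  obtain ⟨hV, -⟩ := h.eq t ht.1 ht.2 x
  have hV := hV v
  have hft : deriv (fun s => f s x v) t = fderiv ℝ (fun p : ℝ × R3 × R3 => f p.1 p.2.1 p.2.2) p0 (1, 0) :=
    (hasDerivAt_of (G := fun t (z : R3 × R3) => f t z.1 z.2) h.hf ht (x, v)).deriv
  have hfx : ∀ i, pderiv (fun y => f t y v) i x
      = fderiv ℝ (fun p : ℝ × R3 × R3 => f p.1 p.2.1 p.2.2) p0 (0, (ee i, 0)) := fun i => by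
    have h1 : HasFDerivAt (fun y : R3 => ((t, y, v) : ℝ × R3 × R3))
      ((ContinuousLinearMap.inr ℝ ℝ (R3 × R3)).comp (ContinuousLinearMap.inl ℝ R3 R3)) x :=
      (hasFDerivAt_prodMk_right t (x, v)).comp x (hasFDerivAt_prodMk_left x v)
    have h2 := (hf.comp x h1).fderiv
    unfold pderiv
    have h3 : fderiv ℝ (fun y => f t y v) x = _ := h2
    rw [h3]
    rfl
  have hfv : ∀ i, pderiv (fun w => f t x w) i v
      = fderiv ℝ (fun p : ℝ × R3 × R3 => f p.1 p.2.1 p.2.2) p0 (0, (0, ee i)) := fun i => by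
    have h1 : HasFDerivAt (fun y : R3 => ((t, x, y) : ℝ × R3 × R3))
      ((ContinuousLinearMap.inr ℝ ℝ (R3 × R3)).comp (ContinuousLinearMap.inr ℝ R3 R3)) v :=
      (hasFDerivAt_prodMk_right t (x, v)).comp v (hasFDerivAt_prodMk_right x v)
    have h2 := (hf.comp v h1).fderiv
    unfold pderiv
    have h3 : fderiv ℝ (fun w => f t x w) v = _ := h2
    rw [h3]
    rfl
  simp only [hft, hfx, hfv, Fin.sum_univ_three, cross3_0, cross3_1, cross3_2] at hV
  have h1 : fderiv ℝ (fun p : ℝ × R3 × R3 => φ p.1 p.2.1 * gam p.2.2 * f p.1 p.2.1 p.2.2) p0 = _ :=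
    ((hφ'.mul hg).mul hf).fderiv
  have hk : ∀ (u : ℝ × R3 × R3 → ℝ) (u' : ℝ × R3 × R3 →L[ℝ] ℝ), HasFDerivAt u u' p0 →
      ∀ w, fderiv ℝ (fun y : R3 × R3 => u (t, y)) (x, v) w = u' (0, w) := by
    intro u u' hu w
    have := (hu.comp (x, v) (hasFDerivAt_prodMk_right t (x, v))).fderiv
    have h2 : fderiv ℝ (fun y : R3 × R3 => u (t, y)) (x, v)
      = u'.comp (ContinuousLinearMap.inr ℝ ℝ (R3 × R3)) := this
    rw [h2]; rfl
  have a0 := hk _ _ ((hφ'.mul (hv 0)).mul hf) (ee 0, 0)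
  have a1 := hk _ _ ((hφ'.mul (hv 1)).mul hf) (ee 1, 0)
  have a2 := hk _ _ ((hφ'.mul (hv 2)).mul hf) (ee 2, 0)
  have b0 := hk _ _ ((hφ'.mul ((hg.mul (hE 0)).add (((hv 1).mul (hB 2)).sub ((hv 2).mul (hB 1))))).mul hf)
    (0, ee 0)
  have b1 := hk _ _ ((hφ'.mul ((hg.mul (hE 1)).add (((hv 2).mul (hB 0)).sub ((hv 0).mul (hB 2))))).mul hf)
    (0, ee 1)
  have b2 := hk _ _ ((hφ'.mul ((hg.mul (hE 2)).add (((hv 0).mul (hB 1)).sub ((hv 1).mul (hB 0))))).mul hf)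
    (0, ee 2)
  rw [h1]
  simp only [Pi.mul_apply, Pi.sub_apply, Pi.add_apply, Function.comp_apply] at a0 a1 a2 b0 b1 b2
  simp only [Fin.sum_univ_three, cross3_0, cross3_1, cross3_2, a0, a1, a2, b0, b1, b2]
  have hin : ∀ i, inner ℝ (relVel v) (ee i) = relVel v i := fun i => by
    rw [EuclideanSpace.inner_single_right]; simp
  have hpr : ∀ i j : Fin 3, (EuclideanSpace.proj (𝕜 := ℝ) i : R3 →L[ℝ] ℝ) (ee j)
      = if i = j then 1 else 0 := fun i j => by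
    simp
  have hr0 := gam_mul_relVel v 0
  have hr1 := gam_mul_relVel v 1
  have hr2 := gam_mul_relVel v 2
  simp only [dt, dx, smul_eq_mul, Pi.mul_apply, Function.comp_apply,
    _root_.add_apply, _root_.smul_apply, _root_.sub_apply,
    ContinuousLinearMap.comp_apply, ContinuousLinearMap.prod_apply, ContinuousLinearMap.coe_fst',
    ContinuousLinearMap.coe_snd', innerSL_apply_apply, hin, hp0, Prod.mk_zero_zero, map_zero, hpr]
  simp only [hp0] at hV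
  simp only [Fin.reduceEq, if_false, reduceIte]
  simp only [← hr0, ← hr1, ← hr2]
  linear_combination (φ t x * gam v) * hV

end weighted

end Crest.Agent.R106.En
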