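import Crest.Agent.R106.EnMain
import Crest.Agent.R106.EnSign

/-!
Row 106, module EN (helper412), part 9: `OccA, OccB, OccC, CoreA, CoreB` for every solution of the
class of the new part (through helper904's `Cost.cost_sol`).
-/

set_option autoImplicit false

open MeasureTheory Filter Set Topology
open Crest.AnalysisR.VecCalc3 Crest.AnalysisR.PDE.RVM
open scoped ENNReal InnerProductSpace

namespace Crest.Agent.R106.En

variable {T : ℝ} {f : ℝ → R3 → R3 → ℝ} {E B : ℝ → R3 → R3} {f₀ : R3 → R3 → ℝ} {E₀ B₀ : R3 → R3}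

/-- sign and sup bound for classical solutions with admissible datum. -/
theorem sol_bounds (hadm : IsAdmissibleDatum f₀ E₀ B₀) (hsol : IsClassicalSolutionOn T f₀ E₀ B₀ f E B) :
    (∀ t ∈ Ico 0 T, ∀ x v, 0 ≤ f t x v) ∧ ∃ F₀ : ℝ, 0 ≤ F₀ ∧ ∀ t ∈ Ico 0 T, ∀ x v, f t x v ≤ F₀ := by
  have h : Reg T f E B := Reg.of_sol hsol
  have hf0 : f 0 = f₀ := hsol.2.2.2.1
  refine ⟨f_nonneg h fun x v => by rw [hf0]; exact hadm.1 x v, ?_⟩
  obtain ⟨C, hC⟩ := hadm.2.1.continuous.bounded_above_of_compact_support hadm.2.2.1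
  have hC0 : 0 ≤ C := le_trans (norm_nonneg _) (hC (0, 0))
  refine ⟨C, hC0, f_le h hC0 fun x v => ?_⟩
  rw [hf0]
  exact (le_abs_self _).trans (hC (x, v))

/-- the energy hypotheses of helper904's costs. -/
theorem sol_enHyp (hadm : IsAdmissibleDatum f₀ E₀ B₀)
    (hsol : IsClassicalSolutionOn T f₀ E₀ B₀ f E B) : ∃ F₀ C₀, Cost.EnHyp T f E B F₀ C₀ := by
  obtain ⟨h1, F₀, h2, h3⟩ := sol_bounds hadm hsol
  obtain ⟨C₀, hC⟩ := enHyp_of hsol h1 h2 fun t ht => h3 t (Ioo_subset_Ico_self ht)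
  exact ⟨F₀, C₀, hC⟩

/-- all occupation bounds (a), (b), (c) and costs (A), (B). -/
theorem occ_core (hs : Mom.SmoothSol T f₀ E₀ B₀ f E B) :
    Mom.OccA T f E B ∧ Mom.OccB T f E B ∧ Mom.OccC T f E B ∧ Mom.CoreA T f E B ∧
      Mom.CoreB T f E B := by
  obtain ⟨F₀, C₀, h⟩ := sol_enHyp hs.adm hs.sol
  exact Cost.cost_sol hs h

end Crest.Agent.R106.En
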