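import Crest.Agent.R106.EnConeA
import Crest.Agent.R106.CostFin

/-!
Row 106, module EN (helper412), part 7: the structure `Cost.EnHyp` from the energy identity and the
cone flux.
-/

set_option autoImplicit false

open MeasureTheory Filter Set Topology
open Crest.AnalysisR.VecCalc3 Crest.AnalysisR.PDE.RVM
open scoped ENNReal InnerProductSpace

namespace Crest.Agent.R106.En

variable {T : ℝ} {f : ℝ → R3 → R3 → ℝ} {E B : ℝ → R3 → R3} {f₀ : R3 → R3 → ℝ} {E₀ B₀ : R3 → R3}

lemma gam_eq (v : R3) : GSR.gam v = gam v := rfl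

/-- finiteness of the energy. -/
lemma en_ne_top (h : Reg T f E B) {t : ℝ} (ht : t ∈ Ico 0 T) (hE : MemLp (E t) 2) (hB : MemLp (B t) 2) :
    en f E B t ≠ ⊤ := by
  have i1 : Integrable (fun x => emE E B t x) := by
    have h1 := hE.integrable_norm_pow (by norm_num : (2 : ℕ) ≠ 0)
    have h2 := hB.integrable_norm_pow (by norm_num : (2 : ℕ) ≠ 0)
    have h3 := (h1.add h2).div_const 2
    refine h3.congr (Eventually.of_forall fun x => ?_)
    simp only [Pi.add_apply]
    rw [emE_eq]
  have i2 : Integrable (fun z : R3 × R3 => gam z.2 * f t z.1 z.2) := by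
    have hc : Continuous (fun z : R3 × R3 => gam z.2 * f t z.1 z.2) :=
      (continuous_gam.comp continuous_snd).mul (h.continuous_f ht)
    refine hc.integrable_of_hasCompactSupport ?_
    obtain ⟨R, hR⟩ := h.exists_R ht
    refine HasCompactSupport.intro (isCompact_closedBall (0 : R3 × R3) R) fun z hz => ?_
    have hz' : R < ‖z‖ := by simpa [Metric.mem_closedBall, dist_zero_right] using hz
    rw [Prod.norm_def] at hz'
    rw [hR z.1 z.2 (lt_max_iff.1 hz')]
    simp
  unfold en
  rw [ENNReal.add_ne_top]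
  exact ⟨i1.lintegral_lt_top.ne, i2.lintegral_lt_top.ne⟩

lemma en_eq_iterated (h : Reg T f E B) {t : ℝ} (ht : t ∈ Ico 0 T) :
    ∫⁻ z : R3 × R3, ENNReal.ofReal (gam z.2 * f t z.1 z.2)
      = ∫⁻ y, ∫⁻ w, ENNReal.ofReal (gam w * f t y w) := by
  have hc : Continuous (fun z : R3 × R3 => gam z.2 * f t z.1 z.2) :=
    (continuous_gam.comp continuous_snd).mul (h.continuous_f ht)
  rw [Measure.volume_eq_prod, lintegral_prod _ hc.measurable.ennreal_ofReal.aemeasurable]

/-- `K_g² / 2 ≤ ` electromagnetic flux density (equality off the vertex). -/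
lemma Kg_le (X : ℝ → R3) (s : ℝ) (y : R3) :
    Mom.Kg E B X s y ^ 2 / 2 ≤ qE (om0 (X s) y) E B (s - ‖y - X s‖) y := by
  have hret : Mom.ret X s y = s - ‖y - X s‖ := by
    unfold Mom.ret; rw [norm_sub_rev]
  have hsq : Mom.Kg E B X s y ^ 2 = ⟪Mom.nn X s y, E (Mom.ret X s y) y⟫_ℝ ^ 2
      + ⟪Mom.nn X s y, B (Mom.ret X s y) y⟫_ℝ ^ 2
      + ‖B (Mom.ret X s y) y - ⟪Mom.nn X s y, B (Mom.ret X s y) y⟫_ℝ • Mom.nn X s y
        - cross3 (Mom.nn X s y) (E (Mom.ret X s y) y)‖ ^ 2 := by
    unfold Mom.Kg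
    exact Real.sq_sqrt (by positivity)
  have hom : om0 (X s) y = - Mom.nn X s y := by
    unfold om0 Mom.nn
    rw [norm_sub_rev, ← smul_neg, neg_sub]
  rw [hsq, hom, hret]
  set n := Mom.nn X s y with hn
  set e := E (s - ‖y - X s‖) y with he
  set b := B (s - ‖y - X s‖) y with hb
  unfold qE
  rw [emE_eq, ← he, ← hb, inner_neg_left]
  by_cases hy : X s = y
  · have hn0 : n = 0 := by rw [hn]; unfold Mom.nn; rw [hy]; simp
    have hc0 : cross3 0 e = 0 := by
      ext i; fin_cases i <;> simp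
    rw [hn0, hc0]
    simp only [inner_zero_left, zero_smul, sub_zero]
    nlinarith [sq_nonneg ‖e‖]
  · have hn1 : ‖n‖ = 1 := by
      rw [hn]; unfold Mom.nn
      rw [norm_smul, norm_inv, norm_norm]
      exact inv_mul_cancel₀ (norm_ne_zero_iff.2 (sub_ne_zero.2 hy))
    have hn2 : n 0 ^ 2 + n 1 ^ 2 + n 2 ^ 2 = 1 := by
      rw [← norm_sq_coord, hn1]; norm_num
    refine le_of_eq ?_
    simp only [norm_sq_coord, inner_coord, cross3_0, cross3_1, cross3_2, PiLp.sub_apply,
      PiLp.smul_apply, smul_eq_mul]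
    linear_combination (1 / 2) * ((n 0 * b 0 + n 1 * b 1 + n 2 * b 2) ^ 2
      + (e 0 ^ 2 + e 1 ^ 2 + e 2 ^ 2)) * hn2

lemma qP_eq (X : ℝ → R3) (s : ℝ) (q : R3 × R3) :
    qP (om0 (X s) q.1) f (s - ‖q.1 - X s‖) q
      = f (Mom.ret X s q.1) q.1 q.2 * (Mom.ep X s q.1 q.2 * GSR.gam q.2) := by
  have hret : Mom.ret X s q.1 = s - ‖q.1 - X s‖ := by
    unfold Mom.ret; rw [norm_sub_rev]
  have hom : om0 (X s) q.1 = - Mom.nn X s q.1 := by
    unfold om0 Mom.nn
    rw [norm_sub_rev, ← smul_neg, neg_sub]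
  unfold qP Mom.ep
  rw [hret, hom, gam_eq, inner_neg_left]
  have h1 : ⟪Mom.nn X s q.1, q.2⟫_ℝ = gam q.2 * ⟪Mom.nn X s q.1, relVel q.2⟫_ℝ := by
    rw [relVel_eq, inner_smul_right, ← mul_assoc, mul_inv_cancel₀ (gam_pos q.2).ne', one_mul]
  rw [h1]
  ring

/-- `Cost.EnHyp` from nonnegativity and the sup bound. -/
theorem enHyp_of (hsol : IsClassicalSolutionOn T f₀ E₀ B₀ f E B)
    (hf : ∀ t ∈ Ico 0 T, ∀ x v, 0 ≤ f t x v) {F₀ : ℝ} (hF0 : 0 ≤ F₀)
    (hfle : ∀ t ∈ Ioo 0 T, ∀ x v, f t x v ≤ F₀) : ∃ C₀, Cost.EnHyp T f E B F₀ C₀ := by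
  by_cases hT : 0 < T
  swap
  · exact ⟨0, hF0, le_rfl, hfle, fun τ hτ => absurd (hτ.1.trans hτ.2) hT,
      fun τ hτ => absurd (hτ.1.trans hτ.2) hT, fun X s hs => absurd (hs.1.trans hs.2) hT⟩
  have h : Reg T f E B := Reg.of_sol hsol
  have hz : (0 : ℝ) ∈ Ico 0 T := ⟨le_rfl, hT⟩
  have hL2 := hsol.2.2.2.2.2.2.2.2 0 hz
  have htop := en_ne_top h hz hL2.1 hL2.2.1
  have hC : ENNReal.ofReal (2 * (en f E B 0).toReal) = 2 * en f E B 0 := by
    rw [ENNReal.ofReal_mul (by norm_num), ENNReal.ofReal_toReal htop]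
    simp
  have hle : en f E B 0 ≤ ENNReal.ofReal (2 * (en f E B 0).toReal) := by
    rw [hC, two_mul]; exact le_self_add
  refine ⟨2 * (en f E B 0).toReal, hF0, by positivity, hfle, fun τ hτ => ?_, fun τ hτ => ?_,
    fun X s hs => ?_⟩
  · have hτ' := Ioo_subset_Ico_self hτ
    refine le_trans ?_ hle
    rw [← energy_eq h hf hz hτ']
    have h1 := en_eq_iterated h hτ'
    simp only [gam_eq]
    rw [← h1]
    unfold en
    exact le_add_self
  · have hτ' := Ioo_subset_Ico_self hτ
    rw [hC, ← energy_eq h hf hz hτ']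
    unfold en
    rw [mul_add]
    refine le_trans ?_ le_self_add
    rw [← lintegral_const_mul' _ _ (by norm_num)]
    refine lintegral_mono fun x => ?_
    have h3 : ‖B τ x‖ ^ 2 ≤ 2 * emE E B τ x := by
      rw [emE_eq]
      nlinarith [sq_nonneg ‖E τ x‖]
    refine (ENNReal.ofReal_le_ofReal h3).trans (le_of_eq ?_)
    rw [ENNReal.ofReal_mul (by norm_num)]
    simp
  · have hs' := Ioo_subset_Ico_self hs
    refine le_trans ?_ ((sol_cone_flux h hf hs' (X s)).trans hle)
    refine add_le_add ?_ (le_of_eq ?_)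
    · exact lintegral_mono fun y => ENNReal.ofReal_le_ofReal (Kg_le X s y)
    · unfold Mom.kap
      have hball : ∀ q ∈ Metric.ball (X s) s ×ˢ (univ : Set R3), Mom.ret X s q.1 ∈ Ico 0 T := by
        intro q hq
        have hx := hq.1
        rw [Metric.mem_ball, dist_eq_norm] at hx
        unfold Mom.ret
        rw [norm_sub_rev]
        exact ⟨by linarith, by linarith [norm_nonneg (q.1 - X s), hs.2]⟩
      have hd : AEMeasurable (fun q : R3 × R3 => ENNReal.ofReal (f (Mom.ret X s q.1) q.1 q.2))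
          (volume.restrict (Metric.ball (X s) s ×ˢ (univ : Set R3))) := by
        refine (ContinuousOn.aemeasurable ?_
          (Metric.isOpen_ball.measurableSet.prod MeasurableSet.univ)).ennreal_ofReal
        have hp : ContinuousOn (fun q : R3 × R3 => ((Mom.ret X s q.1, q) : ℝ × R3 × R3))
            (Metric.ball (X s) s ×ˢ (univ : Set R3)) := by
          unfold Mom.ret
          exact (by fun_prop : Continuous fun q : R3 × R3 =>
            ((s - ‖X s - q.1‖, q) : ℝ × R3 × R3)).continuousOn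
        exact h.hf.continuousOn.comp hp fun q hq => ⟨hball q hq, mem_univ _⟩
      have hnn : Measurable (fun q : R3 × R3 => Mom.nn X s q.1) := by
        unfold Mom.nn
        fun_prop
      have hg : AEMeasurable (fun q : R3 × R3 => ENNReal.ofReal (Mom.ep X s q.1 q.2 * GSR.gam q.2))
          (volume.restrict (Metric.ball (X s) s ×ˢ (univ : Set R3))) := by
        refine Measurable.aemeasurable ?_
        refine Measurable.ennreal_ofReal ?_
        unfold Mom.ep
        have h1 : Measurable (fun q : R3 × R3 => relVel q.2) :=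
          (continuous_relVel.comp continuous_snd).measurable
        have h2 : Measurable (fun q : R3 × R3 => GSR.gam q.2) :=
          (continuous_gam.comp continuous_snd).measurable
        exact (measurable_const.sub (hnn.inner h1)).mul h2
      rw [lintegral_withDensity_eq_lintegral_mul₀ hd hg]
      refine setLIntegral_congr_fun (Metric.isOpen_ball.measurableSet.prod MeasurableSet.univ)
        fun q hq => ?_
      simp only [Pi.mul_apply]
      rw [qP_eq X s q, ENNReal.ofReal_mul (hf _ (hball q hq) _ _)]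

end Crest.Agent.R106.En
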