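import Mathlib

/-!
Row 106, module EXT: `C^n` extension of functions on `[0,T) × X` to `(-T,T) × X` by finite
reflection (finite `n`).
-/

set_option autoImplicit false
set_option linter.unusedSectionVars false

open Set Filter Topology
open scoped ContDiff

noncomputable section

namespace Crest.Agent.R106.Ext

section Glue

variable {E F : Type*} [NormedAddCommGroup E] [NormedSpace ℝ E]
  [NormedAddCommGroup F] [NormedSpace ℝ F]

/-- Gluing of two Taylor series along sets which are closed relative to their union. -/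
theorem hasFTaylorSeriesUpToOn_union {n : WithTop ℕ∞} {f : E → F}
    {p : E → FormalMultilinearSeries ℝ E F} {s t : Set E}
    (hs : HasFTaylorSeriesUpToOn n f p s) (ht : HasFTaylorSeriesUpToOn n f p t)
    (hst : ∀ x ∈ s, x ∉ t → x ∉ closure t) (hts : ∀ x ∈ t, x ∉ s → x ∉ closure s) :
    HasFTaylorSeriesUpToOn n f p (s ∪ t) := by
  refine ⟨?_, ?_, ?_⟩
  · rintro x (hx | hx)
    · exact hs.zero_eq x hx
    · exact ht.zero_eq x hx
  · intro m hm x hx
    by_cases hxs : x ∈ s
    · by_cases hxt : x ∈ t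
      · exact (hs.fderivWithin m hm x hxs).union (ht.fderivWithin m hm x hxt)
      · exact (hs.fderivWithin m hm x hxs).union (HasFDerivWithinAt.of_notMem_closure (hst x hxs hxt))
    · have hxt : x ∈ t := hx.resolve_left hxs
      exact (HasFDerivWithinAt.of_notMem_closure (hts x hxt hxs)).union (ht.fderivWithin m hm x hxt)
  · intro m hm x hx
    by_cases hxs : x ∈ s
    · by_cases hxt : x ∈ t
      · exact (hs.cont m hm x hxs).union (ht.cont m hm x hxt)
      · exact (hs.cont m hm x hxs).union (continuousWithinAt_of_notMem_closure (hst x hxs hxt))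
    · have hxt : x ∈ t := hx.resolve_left hxs
      exact (continuousWithinAt_of_notMem_closure (hts x hxt hxs)).union (ht.cont m hm x hxt)

end Glue

section Coeff

/-- reflection factors `b_k = 1/(k+1)`. -/
def bb (k : ℕ) : ℝ := 1 / ((k : ℝ) + 1)

lemma bb_pos (k : ℕ) : 0 < bb k := by unfold bb; positivity

lemma bb_le_one (k : ℕ) : bb k ≤ 1 := by
  unfold bb
  rw [div_le_one (by positivity)]
  have : (0 : ℝ) ≤ k := Nat.cast_nonneg k
  linarith

lemma bb_injective : Function.Injective bb := by
  intro i j h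
  unfold bb at h
  have hi : (0 : ℝ) < (i : ℝ) + 1 := by positivity
  have hj : (0 : ℝ) < (j : ℝ) + 1 := by positivity
  rw [div_eq_div_iff hi.ne' hj.ne'] at h
  have : (i : ℝ) = j := by linarith
  exact_mod_cast this

/-- Vandermonde: coefficients with `∑ a_k (-b_k)^j = 1` for `j ≤ n`. -/
theorem exists_coeff (n : ℕ) : ∃ a : Fin (n + 1) → ℝ, ∀ j : ℕ, j ≤ n →
    ∑ k : Fin (n + 1), a k * (-bb k) ^ j = 1 := by
  set V : Matrix (Fin (n + 1)) (Fin (n + 1)) ℝ := Matrix.vandermonde (fun k => -bb k) with hV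
  have hdet : IsUnit V.det := by
    rw [isUnit_iff_ne_zero, hV, Matrix.det_vandermonde_ne_zero_iff]
    intro i j h
    have : bb i = bb j := by simpa using h
    exact Fin.ext (bb_injective this)
  refine ⟨Matrix.vecMul (fun _ => 1) V⁻¹, fun j hj => ?_⟩
  have h1 : Matrix.vecMul (Matrix.vecMul (fun _ => (1 : ℝ)) V⁻¹) V = fun _ => 1 := by
    rw [Matrix.vecMul_vecMul, Matrix.nonsing_inv_mul _ hdet, Matrix.vecMul_one]
  have h2 := congrFun h1 ⟨j, Nat.lt_succ_of_le hj⟩
  simpa [Matrix.vecMul, dotProduct, hV, Matrix.vandermonde] using h2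

/-- the chosen coefficients -/
def aa (n : ℕ) : Fin (n + 1) → ℝ := (exists_coeff n).choose

lemma aa_spec (n j : ℕ) (hj : j ≤ n) : ∑ k : Fin (n + 1), aa n k * (-bb k) ^ j = 1 :=
  (exists_coeff n).choose_spec j hj

end Coeff

section Main

variable {X F : Type*} [NormedAddCommGroup X] [NormedSpace ℝ X]
  [NormedAddCommGroup F] [NormedSpace ℝ F]

/-- The extension operator (order `n`). -/
def ext (n : ℕ) (g : ℝ → X → F) (t : ℝ) (x : X) : F :=
  if 0 ≤ t then g t x else ∑ k : Fin (n + 1), aa n k • g (-bb k * t) x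

lemma ext_of_nonneg {n : ℕ} {g : ℝ → X → F} {t : ℝ} (ht : 0 ≤ t) (x : X) :
    ext n g t x = g t x := by simp [ext, ht]

lemma ext_of_nonpos {n : ℕ} {g : ℝ → X → F} {t : ℝ} (ht : t ≤ 0) (x : X) :
    ext n g t x = ∑ k : Fin (n + 1), aa n k • g (-bb k * t) x := by
  rcases ht.lt_or_eq with h | h
  · simp [ext, not_le.2 h]
  · subst h
    simp only [ext, le_refl, if_true, mul_zero]
    rw [← Finset.sum_smul]
    have := aa_spec n 0 (Nat.zero_le n)
    simp only [pow_zero, mul_one] at this
    rw [this, one_smul]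

/-- the reflection map `(t,x) ↦ (c t, x)` -/
def scl (X : Type*) [NormedAddCommGroup X] [NormedSpace ℝ X] (c : ℝ) : ℝ × X →L[ℝ] ℝ × X :=
  (c • ContinuousLinearMap.fst ℝ ℝ X).prod (ContinuousLinearMap.snd ℝ ℝ X)

@[simp] lemma scl_apply (c : ℝ) (p : ℝ × X) : scl X c p = (c * p.1, p.2) := by
  simp [scl]

/-- algebraic identity: reflecting a multilinear form. -/
lemma sum_scl (n m : ℕ) (hm : m ≤ n) (q : ContinuousMultilinearMap ℝ (fun _ : Fin m => ℝ × X) F) :
    ∑ k : Fin (n + 1), aa n k • q.compContinuousLinearMap (fun _ => scl X (-bb k)) = q := by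
  ext v
  have happ : (∑ k : Fin (n + 1), aa n k • q.compContinuousLinearMap (fun _ => scl X (-bb k))) v =
      ∑ k : Fin (n + 1), aa n k • q (fun i => scl X (-bb k) (v i)) := by
    rw [sum_apply]
    rfl
  rw [happ]
  have key : ∀ c : ℝ, q (fun i => scl X c (v i)) =
      ∑ s : Finset (Fin m), c ^ s.card • q (s.piecewise (fun i => ((v i).1, (0 : X)))
        (fun i => ((0 : ℝ), (v i).2))) := by
    intro c
    have h1 : (fun i => scl X c (v i)) =
        (fun i => c • ((v i).1, (0 : X))) + (fun i => ((0 : ℝ), (v i).2)) := by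
      ext i <;> simp
    rw [h1]
    have h2 := q.toMultilinearMap.map_add_univ (fun i => c • ((v i).1, (0 : X)))
      (fun i => ((0 : ℝ), (v i).2))
    simp only [ContinuousMultilinearMap.coe_coe] at h2
    rw [h2]
    refine Finset.sum_congr rfl fun s _ => ?_
    have h3 := q.toMultilinearMap.map_piecewise_smul (fun _ => c)
      (s.piecewise (fun i => ((v i).1, (0 : X))) (fun i => ((0 : ℝ), (v i).2))) s
    simp only [ContinuousMultilinearMap.coe_coe, Finset.prod_const] at h3
    rw [← h3]
    congr 1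
    ext i <;> by_cases hi : i ∈ s <;> simp [Finset.piecewise, hi]
  simp_rw [key, Finset.smul_sum, smul_smul]
  rw [Finset.sum_comm]
  have h4 : ∀ s : Finset (Fin m), ∑ k : Fin (n + 1), (aa n k * (-bb k) ^ s.card) •
      q (s.piecewise (fun i => ((v i).1, (0 : X))) (fun i => ((0 : ℝ), (v i).2))) =
      q (s.piecewise (fun i => ((v i).1, (0 : X))) (fun i => ((0 : ℝ), (v i).2))) := by
    intro s
    rw [← Finset.sum_smul, aa_spec n s.card ((Finset.card_le_univ s).trans (by simpa using hm)),
      one_smul]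
  rw [Finset.sum_congr rfl fun s _ => h4 s]
  have h5 := key 1
  simp only [one_pow, one_smul] at h5
  rw [← h5]
  congr 1
  ext i <;> simp

/-- **EXT.** -/
theorem contDiffOn_ext (n : ℕ) {T : ℝ} {g : ℝ → X → F}
    (hg : ContDiffOn ℝ n (fun p : ℝ × X => g p.1 p.2) (Ico 0 T ×ˢ univ)) :
    ContDiffOn ℝ n (fun p : ℝ × X => ext n g p.1 p.2) (Ioo (-T) T ×ˢ univ) := by
  set G : ℝ × X → F := fun p => g p.1 p.2 with hG
  set S2 : Set (ℝ × X) := Ico 0 T ×ˢ univ with hS2
  set S1 : Set (ℝ × X) := Ioc (-T) 0 ×ˢ univ with hS1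
  have hud : UniqueDiffOn ℝ S2 := (uniqueDiffOn_Ico 0 T).prod uniqueDiffOn_univ
  set p2 := ftaylorSeriesWithin ℝ G S2 with hp2
  have hP2 : HasFTaylorSeriesUpToOn n G p2 S2 := hg.ftaylorSeriesWithin hud
  -- the Taylor series of the reflected part
  set p1 : ℝ × X → FormalMultilinearSeries ℝ (ℝ × X) F := fun z m =>
    ∑ k : Fin (n + 1), aa n k • (p2 (scl X (-bb k) z) m).compContinuousLinearMap
      (fun _ => scl X (-bb k)) with hp1
  have hmaps : ∀ k : ℕ, S1 ⊆ (scl X (-bb k)) ⁻¹' S2 := by
    rintro k ⟨t, x⟩ ⟨ht, -⟩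
    simp only [mem_preimage, scl_apply, hS2, mem_prod, mem_univ, and_true, mem_Ico]
    have h1 := bb_pos k
    have h2 := bb_le_one k
    constructor
    · nlinarith [ht.2]
    · nlinarith [ht.1, ht.2]
  have hP1 : HasFTaylorSeriesUpToOn n (fun z => ∑ k : Fin (n + 1), aa n k • G (scl X (-bb k) z))
      p1 S1 := by
    have hk : ∀ k : Fin (n + 1), HasFTaylorSeriesUpToOn n (fun z => aa n k • G (scl X (-bb k) z))
        (fun z m => aa n k • (p2 (scl X (-bb k) z) m).compContinuousLinearMap
          (fun _ => scl X (-bb k))) S1 := by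
      intro k
      have h1 := (hP2.compContinuousLinearMap (scl X (-bb k))).mono (hmaps k)
      have h2 := h1.continuousLinearMap_comp (aa n k • ContinuousLinearMap.id ℝ F)
      refine (h2.congr (fun z _ => by simp)).congr_series (fun m _ z _ => ?_)
      ext v
      simp
    have hsum : ∀ s : Finset (Fin (n + 1)), HasFTaylorSeriesUpToOn n
        (fun z => ∑ k ∈ s, aa n k • G (scl X (-bb k) z))
        (fun z m => ∑ k ∈ s, aa n k • (p2 (scl X (-bb k) z) m).compContinuousLinearMap
          (fun _ => scl X (-bb k))) S1 := by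
      classical
      intro s
      induction s using Finset.induction_on with
      | empty =>
        have h1 := (hP2.compContinuousLinearMap (scl X (-bb 0))).mono (hmaps 0)
        have h2 := h1.continuousLinearMap_comp (0 : F →L[ℝ] F)
        refine (h2.congr (fun z _ => by simp)).congr_series (fun m _ z _ => ?_)
        ext v
        simp
      | insert k s hks ih =>
        have := (hk k).add ih
        refine (this.congr (fun z _ => ?_)).congr_series (fun m _ z _ => ?_)
        · simp [Finset.sum_insert hks]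
        · beta_reduce
          rw [Finset.sum_insert hks]
          rfl
    exact hsum Finset.univ
  -- the glued series
  set p : ℝ × X → FormalMultilinearSeries ℝ (ℝ × X) F := fun z => if 0 ≤ z.1 then p2 z else p1 z
    with hp
  have hQ2 : HasFTaylorSeriesUpToOn n (fun q : ℝ × X => ext n g q.1 q.2) p S2 := by
    refine (hP2.congr (fun z hz => ?_)).congr_series (fun m _ z hz => ?_)
    · rw [ext_of_nonneg hz.1.1]
    · have : (0 : ℝ) ≤ z.1 := hz.1.1
      simp [hp, this]
  have hQ1 : HasFTaylorSeriesUpToOn n (fun q : ℝ × X => ext n g q.1 q.2) p S1 := by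
    refine (hP1.congr (fun z hz => ?_)).congr_series (fun m hm z hz => ?_)
    · rw [ext_of_nonpos hz.1.2]
      simp [hG]
    · have hz2 : z.1 ≤ 0 := hz.1.2
      rcases hz2.lt_or_eq with h | h
      · simp [hp, not_le.2 h]
      · have hz0 : z = (0, z.2) := Prod.ext h rfl
        have hs : ∀ k : ℕ, scl X (-bb k) z = z := by
          intro k
          rw [hz0]
          simp
        have hm' : m ≤ n := by exact_mod_cast hm
        have hpz : p z = p2 z := by simp [hp, h]
        change p1 z m = p z m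
        rw [hpz]
        simp only [hp1]
        have : ∀ k : Fin (n + 1), (aa n k • (p2 (scl X (-bb k) z) m).compContinuousLinearMap
            (fun _ => scl X (-bb k))) = aa n k • (p2 z m).compContinuousLinearMap
            (fun _ => scl X (-bb k)) := by
          intro k
          rw [hs k]
        rw [Finset.sum_congr rfl fun k _ => this k]
        exact sum_scl n m hm' (p2 z m)
  have hcl1 : ∀ x ∈ S1, x ∉ S2 → x ∉ closure S2 := by
    intro z hz hz2 hcl
    have h1 : closure S2 ⊆ {z : ℝ × X | 0 ≤ z.1} := by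
      refine closure_minimal (fun z hz => hz.1.1) (isClosed_le continuous_const continuous_fst)
    have h2 : (0 : ℝ) ≤ z.1 := h1 hcl
    have h3 : z.1 = 0 := le_antisymm hz.1.2 h2
    apply hz2
    refine ⟨⟨h2, ?_⟩, trivial⟩
    have := hz.1.1
    rw [h3] at this ⊢
    linarith
  have hcl2 : ∀ x ∈ S2, x ∉ S1 → x ∉ closure S1 := by
    intro z hz hz2 hcl
    have h1 : closure S1 ⊆ {z : ℝ × X | z.1 ≤ 0} := by
      refine closure_minimal (fun z hz => hz.1.2) (isClosed_le continuous_fst continuous_const)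
    have h2 : z.1 ≤ 0 := h1 hcl
    have h3 : z.1 = 0 := le_antisymm h2 hz.1.1
    apply hz2
    refine ⟨⟨?_, h2⟩, trivial⟩
    have := hz.1.2
    rw [h3] at this ⊢
    linarith
  have hunion := hasFTaylorSeriesUpToOn_union hQ1 hQ2 hcl1 hcl2
  have hset : Ioo (-T) T ×ˢ (univ : Set X) = S1 ∪ S2 := by
    ext ⟨t, x⟩
    simp only [hS1, hS2, mem_prod, mem_univ, and_true, mem_union, mem_Ioo, mem_Ioc, mem_Ico]
    constructor
    · rintro ⟨h1, h2⟩
      rcases le_total t 0 with h | h
      · exact Or.inl ⟨h1, h⟩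
      · exact Or.inr ⟨h, h2⟩
    · rintro (⟨h1, h2⟩ | ⟨h1, h2⟩)
      · exact ⟨h1, by linarith⟩
      · exact ⟨by linarith, h2⟩
  rw [hset]
  have := hunion.contDiffOn (n := (n : ℕ∞))
  exact_mod_cast this

end Main

end Crest.Agent.R106.Ext
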