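/- Row 106, node GS2 (helper375): abstract cone division and logarithmic gradient estimate.
   Definitions and frozen statements. -/
import Mathlib
import Crest.Prelude.Def_VecCalc3
import Crest.Prelude.Def_VlasovMaxwell

set_option autoImplicit false
open MeasureTheory Set
open scoped ContDiff
open Crest.AnalysisR.VecCalc3 Crest.AnalysisR.PDE.RVM

namespace Crest.Agent.R106.Gs2

/-- Phase space-time. -/
abbrev PS : Type := ℝ × R3 × R3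

/-- the i-th basis vector in momentum, as a phase space-time direction -/
noncomputable def ev (i : Fin 3) : PS := (0, 0, EuclideanSpace.single i 1)

/-- free transport derivative `T g = ∂_t g + u(v)·∇_x g` -/
noncomputable def Tr (g : PS → ℝ) (p : PS) : ℝ := fderiv ℝ g p (1, relVel p.2.2, 0)

/-- momentum divergence -/
noncomputable def divv (G : Fin 3 → PS → ℝ) (p : PS) : ℝ := ∑ i, fderiv ℝ (G i) p (ev i)

/-- space-time derivative in the direction `(a, b)` (no momentum component) -/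
noncomputable def dxt (a : ℝ) (b : R3) (g : PS → ℝ) (p : PS) : ℝ := fderiv ℝ g p (a, b, 0)

/-- momentum moment with weight `m` -/
noncomputable def mom (m : R3 → ℝ) (g : PS → ℝ) (s : ℝ) (y : R3) : ℝ := ∫ v, m v * g (s, y, v)

/-- retarded potential in volume form (= the Duhamel operator of the wave equation) -/
noncomputable def Wv (h : ℝ → R3 → ℝ) (t : ℝ) (x : R3) : ℝ :=
  ∫ z in Metric.ball (0 : R3) t, h (t - ‖z‖) (x + z) / (4 * Real.pi * ‖z‖)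

/-- (A1) sup estimate. `g, G` are `C^1` on `J × R3 × R3`, `J` open, `J ⊇ [0,t]`, vanish for `|v| > P`,
`T g = h + div_v G` on `[0,t]`. -/
def SupEst : Prop :=
  ∀ (P : ℝ) (m : R3 → ℝ), ContDiff ℝ ∞ m → ∀ (a : ℝ) (b : R3), ∃ C : ℝ, 0 ≤ C ∧
    ∀ (J : Set ℝ) (t δ : ℝ) (x : R3) (g h : PS → ℝ) (G : Fin 3 → PS → ℝ) (a0 : ℝ) (N NG Nh : ℝ → ℝ),
      IsOpen J → Icc 0 t ⊆ J → 0 < t → 0 < δ →
      ContDiffOn ℝ 1 g (J ×ˢ univ) → (∀ i, ContDiffOn ℝ 1 (G i) (J ×ˢ univ)) →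
      ContinuousOn h (J ×ˢ univ) →
      (∀ s ∈ J, ∀ y v : R3, P < ‖v‖ → g (s, y, v) = 0 ∧ (∀ i, G i (s, y, v) = 0) ∧ h (s, y, v) = 0) →
      (∀ s ∈ Icc 0 t, ∀ y v : R3, Tr g (s, y, v) = h (s, y, v) + divv G (s, y, v)) →
      (∀ s ∈ Icc 0 (min t δ), ∀ y v : R3, |g (s, y, v)| ≤ a0) →
      (∀ s ∈ Icc 0 t, ∀ y v : R3, |g (s, y, v)| ≤ N s) →
      (∀ s ∈ Icc 0 t, ∀ i, ∀ y v : R3, |G i (s, y, v)| ≤ NG s) →
      (∀ s ∈ Icc 0 t, ∀ y v : R3, |h (s, y, v)| ≤ Nh s) →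
      IntervalIntegrable N volume 0 t → IntervalIntegrable NG volume 0 t →
      IntervalIntegrable Nh volume 0 t →
      |Wv (mom m (dxt a b g)) t x| ≤
        C * (t * a0 + (∫ s in (0:ℝ)..t, N s) + (∫ s in (0:ℝ)..t, (t - s) * (NG s + Nh s)))

/-- (A2) logarithmic gradient estimate: `T g = div_v G` and `T G_i = H_i + div_v (K i)` on `[0,t]`,
`e` a spatial direction, `ε ∈ (0,t]` arbitrary. -/
def GradEst : Prop :=
  ∀ (P : ℝ) (m : R3 → ℝ), ContDiff ℝ ∞ m → ∀ (a : ℝ) (b e : R3), ∃ C : ℝ, 0 ≤ C ∧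
    ∀ (J : Set ℝ) (t δ ε : ℝ) (x : R3) (g : PS → ℝ) (G H : Fin 3 → PS → ℝ)
      (K : Fin 3 → Fin 3 → PS → ℝ) (a0 a1 b0 n0 n1 : ℝ) (NG NH : ℝ → ℝ),
      IsOpen J → Icc 0 t ⊆ J → 0 < t → 0 < δ → 0 < ε → ε ≤ t →
      ContDiffOn ℝ 2 g (J ×ˢ univ) → (∀ i, ContDiffOn ℝ 2 (G i) (J ×ˢ univ)) →
      (∀ i, ContinuousOn (H i) (J ×ˢ univ)) → (∀ i j, ContDiffOn ℝ 1 (K i j) (J ×ˢ univ)) →
      (∀ s ∈ J, ∀ y v : R3, P < ‖v‖ → g (s, y, v) = 0 ∧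
        ∀ i, G i (s, y, v) = 0 ∧ H i (s, y, v) = 0 ∧ ∀ j, K i j (s, y, v) = 0) →
      (∀ s ∈ J, ∀ y v : R3, Tr g (s, y, v) = divv G (s, y, v)) →
      (∀ s ∈ J, ∀ i, ∀ y v : R3,
        Tr (G i) (s, y, v) = H i (s, y, v) + divv (K i) (s, y, v)) →
      (∀ s ∈ Icc 0 (min t δ), ∀ y v : R3, |g (s, y, v)| ≤ a0 ∧ |dxt 0 e g (s, y, v)| ≤ a1 ∧
        ∀ i, |G i (s, y, v)| ≤ b0) →
      (∀ s ∈ Icc 0 t, ∀ y v : R3, |g (s, y, v)| ≤ n0 ∧ |dxt 0 e g (s, y, v)| ≤ n1) →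
      (∀ s ∈ Icc 0 t, ∀ i, ∀ y v : R3, |G i (s, y, v)| ≤ NG s) →
      (∀ s ∈ Icc 0 t, ∀ i, ∀ y v : R3, |H i (s, y, v)| ≤ NH s ∧ ∀ j, |K i j (s, y, v)| ≤ NH s) →
      IntervalIntegrable NG volume 0 t → IntervalIntegrable NH volume 0 t →
      |Wv (mom m (dxt a b (dxt 0 e g))) t x| ≤
        C * (t * a1 + a0 + t * b0 + n0 * (1 + Real.log (t / ε)) + ε * n1
          + (∫ s in (0:ℝ)..t, NG s) + (∫ s in (0:ℝ)..t, (t - s) * NH s))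

end Crest.Agent.R106.Gs2
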