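import Crest.Agent.R106.Main0
import Crest.Agent.R106.GSRDefs
import Crest.Agent.R106.Gs2Defs

/-!
# Row 106: FROZEN field statements (helper835, sub-captain FIELDS, 16:35 UTC)

* `GSRep`  (new part; owner helper801, second version helper846): Glassey-Strauss representation (R)
  with the kernels of `GSRDefs`, error bounded on `[0,T) × {‖x‖ ≤ X0}` (compactness is enough: all
  test points of the momentum proof satisfy `‖x‖ ≤ R0 + T`).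
* `GS1`, `GSLog` (standard part; owners helper835, helper330): a-priori bounds of the Maxwell field
  of a density with `T f = div_v G`, general source `G`.
-/

set_option autoImplicit false
open MeasureTheory Set
open scoped ContDiff InnerProductSpace
open Crest.AnalysisR.VecCalc3 Crest.AnalysisR.PDE.RVM

noncomputable section

namespace Crest.Agent.R106.Field

open Crest.Agent.R106.GSR (eT eS acc lor gam)
open Crest.Agent.R106.Gs2 (PS Tr divv dxt mom Wv)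

/-! ### The representation for the momentum proof -/

/-- unit vector from the source point `y` to the test point `x` -/
def nn (x y : R3) : R3 := ‖x - y‖⁻¹ • (x - y)

/-- the retarded electric kernel `e_T + e_S` at the source point `(t - ‖x - y‖, y, p)` -/
def eK (E B : ℝ → R3 → R3) (t : ℝ) (x y p : R3) : R3 :=
  eT (nn x y) p ‖x - y‖ + eS (nn x y) p (acc p (lor E B (t - ‖x - y‖) y p)) ‖x - y‖

/-- the measure `dy dp` on `{‖y - x‖ < t} × ℝ³` -/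
def coneM (x : R3) (t : ℝ) : Measure (R3 × R3) := (volume.restrict (Metric.ball x t)).prod volume

/-- **(R)**, Glassey-Strauss representation of a smooth solution; the data part is bounded. -/
def GSRep : Prop :=
  ∀ (T : ℝ), 0 < T → ∀ (f₀ : R3 → R3 → ℝ) (E₀ B₀ : R3 → R3), IsAdmissibleDatum f₀ E₀ B₀ →
    ∀ (f : ℝ → R3 → R3 → ℝ) (E B : ℝ → R3 → R3), SmoothSol T f₀ E₀ B₀ f E B →
    ∀ X0 : ℝ, ∃ C : ℝ, ∀ t ∈ Ico 0 T, ∀ x : R3, ‖x‖ ≤ X0 →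
      Integrable (fun q : R3 × R3 => f (t - ‖x - q.1‖) q.1 q.2 •
        eT (nn x q.1) q.2 ‖x - q.1‖) (coneM x t) ∧
      Integrable (fun q : R3 × R3 => f (t - ‖x - q.1‖) q.1 q.2 •
        eS (nn x q.1) q.2 (acc q.2 (lor E B (t - ‖x - q.1‖) q.1 q.2)) ‖x - q.1‖) (coneM x t) ∧
      ‖E t x - (4 * Real.pi)⁻¹ • ∫ q, f (t - ‖x - q.1‖) q.1 q.2 • eK E B t x q.1 q.2
          ∂(coneM x t)‖ ≤ C ∧
      ‖B t x - (4 * Real.pi)⁻¹ • ∫ q, f (t - ‖x - q.1‖) q.1 q.2 •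
          cross3 (nn x q.1) (eK E B t x q.1 q.2) ∂(coneM x t)‖ ≤ C

/-! ### Linear bounds for the standard part -/

/-- `f` solves `T f = div_v G` with momentum support in `‖v‖ ≤ P` on the open time set `J ⊇ [0,T]`,
`(E,B)` is the Maxwell field of the moments of `f` with data `(E₀, B₀)`. -/
structure LinSol (P T : ℝ) (f₀ : R3 → R3 → ℝ) (E₀ B₀ : R3 → R3) (J : Set ℝ)
    (f : ℝ → R3 → R3 → ℝ) (G : Fin 3 → PS → ℝ) (E B : ℝ → R3 → R3) : Prop where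
  adm : IsAdmissibleDatum f₀ E₀ B₀
  isOpen : IsOpen J
  subset : Icc 0 T ⊆ J
  smf : ContDiffOn ℝ ∞ (fun p : PS => f p.1 p.2.1 p.2.2) (J ×ˢ univ)
  smG : ∀ i, ContDiffOn ℝ ∞ (G i) (J ×ˢ univ)
  smE : ContDiffOn ℝ ∞ (fun p : ℝ × R3 => E p.1 p.2) (J ×ˢ univ)
  smB : ContDiffOn ℝ ∞ (fun p : ℝ × R3 => B p.1 p.2) (J ×ˢ univ)
  suppf : ∀ s ∈ J, ∀ y v : R3, P < ‖v‖ → f s y v = 0
  suppG : ∀ s ∈ J, ∀ y v : R3, P < ‖v‖ → ∀ i, G i (s, y, v) = 0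
  cpt : ∃ R : ℝ, ∀ s ∈ Icc 0 T, ∀ y v : R3, R < ‖y‖ → f s y v = 0 ∧ ∀ i, G i (s, y, v) = 0
  f0 : f 0 = f₀
  E0 : E 0 = E₀
  B0 : B 0 = B₀
  tr : ∀ s ∈ J, ∀ y v : R3, Tr (fun p : PS => f p.1 p.2.1 p.2.2) (s, y, v) = divv G (s, y, v)
  ampere : ∀ s ∈ J, ∀ x : R3, ∀ i : Fin 3,
    deriv (fun r => E r x i) s - curl3 (B s) x i = - currentDensity f s x i
  faraday : ∀ s ∈ J, ∀ x : R3, ∀ i : Fin 3,
    deriv (fun r => B r x i) s + curl3 (E s) x i = 0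
  gauss : ∀ s ∈ J, ∀ x : R3, div3 (E s) x = chargeDensity f s x
  gaussB : ∀ s ∈ J, ∀ x : R3, div3 (B s) x = 0

/-- **GS1**: no loss of derivatives, linear in `f` and `G`. -/
def GS1 : Prop :=
  ∀ (k : ℕ) (P T : ℝ), 0 < T → ∀ (f₀ : R3 → R3 → ℝ) (E₀ B₀ : R3 → R3),
    ∃ C : ℝ, 0 ≤ C ∧ ∀ (J : Set ℝ) (f : ℝ → R3 → R3 → ℝ) (G : Fin 3 → PS → ℝ)
      (E B : ℝ → R3 → R3), LinSol P T f₀ E₀ B₀ J f G E B →
      ∀ t ∈ Icc 0 T, ∀ N NG : ℝ → ℝ,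
        (∀ s ∈ Icc 0 t, ∀ y v : R3, ‖iteratedFDeriv ℝ k (fun z => f s z v) y‖ ≤ N s) →
        (∀ s ∈ Icc 0 t, ∀ i, ∀ y v : R3,
          ‖iteratedFDeriv ℝ k (fun z => G i (s, z, v)) y‖ ≤ NG s) →
        IntervalIntegrable N volume 0 t → IntervalIntegrable NG volume 0 t →
        ∀ x : R3, ‖iteratedFDeriv ℝ k (E t) x‖ ≤
            C * (1 + (∫ s in (0:ℝ)..t, N s) + ∫ s in (0:ℝ)..t, (t - s) * NG s) ∧
          ‖iteratedFDeriv ℝ k (B t) x‖ ≤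
            C * (1 + (∫ s in (0:ℝ)..t, N s) + ∫ s in (0:ℝ)..t, (t - s) * NG s)

/-- **GS1D**: the same for zero data (differences of iterates), without the constant term. -/
def GS1D : Prop :=
  ∀ (k : ℕ) (P T : ℝ), 0 < T →
    ∃ C : ℝ, 0 ≤ C ∧ ∀ (J : Set ℝ) (f : ℝ → R3 → R3 → ℝ) (G : Fin 3 → PS → ℝ)
      (E B : ℝ → R3 → R3), LinSol P T (fun _ _ => 0) (fun _ => 0) (fun _ => 0) J f G E B →
      ∀ t ∈ Icc 0 T, ∀ N NG : ℝ → ℝ,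
        (∀ s ∈ Icc 0 t, ∀ y v : R3, ‖iteratedFDeriv ℝ k (fun z => f s z v) y‖ ≤ N s) →
        (∀ s ∈ Icc 0 t, ∀ i, ∀ y v : R3,
          ‖iteratedFDeriv ℝ k (fun z => G i (s, z, v)) y‖ ≤ NG s) →
        IntervalIntegrable N volume 0 t → IntervalIntegrable NG volume 0 t →
        ∀ x : R3, ‖iteratedFDeriv ℝ k (E t) x‖ ≤
            C * ((∫ s in (0:ℝ)..t, N s) + ∫ s in (0:ℝ)..t, (t - s) * NG s) ∧
          ‖iteratedFDeriv ℝ k (B t) x‖ ≤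
            C * ((∫ s in (0:ℝ)..t, N s) + ∫ s in (0:ℝ)..t, (t - s) * NG s)

/-- **GSLog**: logarithmic bound of the first derivative; `T G_i = H_i + div_v (K i)`,
`b0` = bound of `G` at time `0`, `n0`, `n1` = bounds of `f`, `D_x f` on `[0,t]`. -/
def GSLog : Prop :=
  ∀ (P T : ℝ), 0 < T → ∀ (f₀ : R3 → R3 → ℝ) (E₀ B₀ : R3 → R3),
    ∃ C : ℝ, 0 ≤ C ∧ ∀ (J : Set ℝ) (f : ℝ → R3 → R3 → ℝ) (G H : Fin 3 → PS → ℝ)
      (K : Fin 3 → Fin 3 → PS → ℝ) (E B : ℝ → R3 → R3), LinSol P T f₀ E₀ B₀ J f G E B →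
      (∀ i, ContinuousOn (H i) (J ×ˢ univ)) → (∀ i j, ContDiffOn ℝ 1 (K i j) (J ×ˢ univ)) →
      (∀ s ∈ J, ∀ y v : R3, P < ‖v‖ → ∀ i, H i (s, y, v) = 0 ∧ ∀ j, K i j (s, y, v) = 0) →
      (∀ s ∈ J, ∀ i, ∀ y v : R3,
        Tr (G i) (s, y, v) = H i (s, y, v) + divv (K i) (s, y, v)) →
      ∀ t ∈ Icc 0 T, ∀ (b0 n0 n1 : ℝ) (NG NH : ℝ → ℝ),
        (∀ i, ∀ y v : R3, |G i (0, y, v)| ≤ b0) →
        (∀ s ∈ Icc 0 t, ∀ y v : R3, |f s y v| ≤ n0 ∧ ‖fderiv ℝ (fun z => f s z v) y‖ ≤ n1) →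
        (∀ s ∈ Icc 0 t, ∀ i, ∀ y v : R3, |G i (s, y, v)| ≤ NG s) →
        (∀ s ∈ Icc 0 t, ∀ i, ∀ y v : R3, |H i (s, y, v)| ≤ NH s ∧ ∀ j, |K i j (s, y, v)| ≤ NH s) →
        IntervalIntegrable NG volume 0 t → IntervalIntegrable NH volume 0 t →
        ∀ x : R3, ‖fderiv ℝ (E t) x‖ ≤
            C * (1 + b0 + n0 * Real.log (2 + n1) + (∫ s in (0:ℝ)..t, NG s) +
              ∫ s in (0:ℝ)..t, (t - s) * NH s) ∧
          ‖fderiv ℝ (B t) x‖ ≤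
            C * (1 + b0 + n0 * Real.log (2 + n1) + (∫ s in (0:ℝ)..t, NG s) +
              ∫ s in (0:ℝ)..t, (t - s) * NH s)

end Crest.Agent.R106.Field
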