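import Crest.Agent.R106.Rev
import Crest.Agent.R106.FieldIface

/-!
Row 106 (helper105): `Field.GS1 → Std.FB`, `Field.GS1D → Std.FBz`.
-/

set_option autoImplicit false

open MeasureTheory Set Filter Topology
open scoped ContDiff
open Crest.AnalysisR.VecCalc3 Crest.AnalysisR.PDE.RVM

namespace Crest.Agent.R106.Std.FbRev

open Crest.Agent.R106.Field (LinSol GS1 GS1D GSLog)
open Crest.Agent.R106.Gs2 (PS Tr divv ev)

/-- uncurried density -/
def unc (f : ℝ → R3 → R3 → ℝ) : PS → ℝ := fun p => f p.1 p.2.1 p.2.2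

lemma differentiableAt_unc {f : ℝ → R3 → R3 → ℝ}
    (hf : ContDiff ℝ ∞ (fun p : ℝ × R3 × R3 => f p.1 p.2.1 p.2.2)) (p : PS) :
    DifferentiableAt ℝ (unc f) p :=
  (hf.differentiable (by simp)) p

lemma fderiv_unc_t {f : ℝ → R3 → R3 → ℝ}
    (hf : ContDiff ℝ ∞ (fun p : ℝ × R3 × R3 => f p.1 p.2.1 p.2.2)) (t : ℝ) (x v : R3) :
    fderiv ℝ (unc f) (t, x, v) (1, 0, 0) = deriv (fun s => f s x v) t := by
  have hc : HasDerivAt (fun s : ℝ => ((s, x, v) : PS)) (1, 0, 0) t :=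
    (hasDerivAt_id t).prodMk ((hasDerivAt_const t x).prodMk (hasDerivAt_const t v))
  have := HasFDerivAt.comp_hasDerivAt (f := fun s : ℝ => ((s, x, v) : PS)) t
    (differentiableAt_unc hf (t, x, v)).hasFDerivAt hc
  exact this.deriv.symm

lemma fderiv_unc_x {f : ℝ → R3 → R3 → ℝ}
    (hf : ContDiff ℝ ∞ (fun p : ℝ × R3 × R3 => f p.1 p.2.1 p.2.2)) (t : ℝ) (x v e : R3) :
    fderiv ℝ (unc f) (t, x, v) (0, e, 0) = fderiv ℝ (fun y => f t y v) x e := by
  have hc : HasFDerivAt (fun y : R3 => ((t, y, v) : PS))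
      ((0 : R3 →L[ℝ] ℝ).prod ((ContinuousLinearMap.id ℝ R3).prod (0 : R3 →L[ℝ] R3))) x :=
    (hasFDerivAt_const t x).prodMk ((hasFDerivAt_id x).prodMk (hasFDerivAt_const v x))
  have := HasFDerivAt.comp x (f := fun y : R3 => ((t, y, v) : PS))
    (differentiableAt_unc hf (t, x, v)).hasFDerivAt hc
  have h2 : fderiv ℝ (fun y => f t y v) x = (fderiv ℝ (unc f) (t, x, v)).comp
    ((0 : R3 →L[ℝ] ℝ).prod ((ContinuousLinearMap.id ℝ R3).prod (0 : R3 →L[ℝ] R3))) := this.fderiv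
  rw [h2]
  simp

lemma fderiv_unc_v {f : ℝ → R3 → R3 → ℝ}
    (hf : ContDiff ℝ ∞ (fun p : ℝ × R3 × R3 => f p.1 p.2.1 p.2.2)) (t : ℝ) (x v e : R3) :
    fderiv ℝ (unc f) (t, x, v) (0, 0, e) = fderiv ℝ (fun w => f t x w) v e := by
  have hc : HasFDerivAt (fun w : R3 => ((t, x, w) : PS))
      ((0 : R3 →L[ℝ] ℝ).prod ((0 : R3 →L[ℝ] R3).prod (ContinuousLinearMap.id ℝ R3))) v :=
    (hasFDerivAt_const t v).prodMk ((hasFDerivAt_const x v).prodMk (hasFDerivAt_id v))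
  have := HasFDerivAt.comp v (f := fun w : R3 => ((t, x, w) : PS))
    (differentiableAt_unc hf (t, x, v)).hasFDerivAt hc
  have h2 : fderiv ℝ (fun w => f t x w) v = (fderiv ℝ (unc f) (t, x, v)).comp
    ((0 : R3 →L[ℝ] ℝ).prod ((0 : R3 →L[ℝ] R3).prod (ContinuousLinearMap.id ℝ R3))) := this.fderiv
  rw [h2]
  simp

lemma r3_sum (e : R3) : e = ∑ i : Fin 3, e i • EuclideanSpace.single i (1 : ℝ) := by
  ext j
  simp only [PiLp.smul_apply, WithLp.ofLp_sum, Finset.sum_apply]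
  fin_cases j <;> simp

/-- the transport operator of `Gs2Defs` and of `StdDefs` agree -/
lemma Tr_unc {f : ℝ → R3 → R3 → ℝ}
    (hf : ContDiff ℝ ∞ (fun p : ℝ × R3 × R3 => f p.1 p.2.1 p.2.2)) (t : ℝ) (x v : R3) :
    Tr (unc f) (t, x, v) = Tfree f t x v := by
  unfold Tr Tfree
  have h1 : ((1 : ℝ), relVel v, (0 : R3)) = (1, 0, 0) + (0, relVel v, 0) := by simp
  simp only
  rw [h1, map_add, fderiv_unc_t hf, fderiv_unc_x hf]
  congr 1
  conv_lhs => rw [r3_sum (relVel v)]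
  rw [map_sum]
  refine Finset.sum_congr rfl fun i _ => ?_
  rw [map_smul, smul_eq_mul]
  rfl

lemma divv_unc {g : Fin 3 → ℝ → R3 → R3 → ℝ}
    (hg : ∀ i, ContDiff ℝ ∞ (fun p : ℝ × R3 × R3 => g i p.1 p.2.1 p.2.2)) (t : ℝ) (x v : R3) :
    divv (fun i p => -g i p.1 p.2.1 p.2.2) (t, x, v) =
      -∑ i : Fin 3, pderiv (fun w => g i t x w) i v := by
  unfold divv ev
  rw [← Finset.sum_neg_distrib]
  refine Finset.sum_congr rfl fun i _ => ?_
  have h1 : ((fun (i : Fin 3) (p : PS) => -g i p.1 p.2.1 p.2.2) i) = -(unc (g i)) := rfl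
  rw [h1, fderiv_neg]
  change -(fderiv ℝ (unc (g i)) (t, x, v) (0, 0, EuclideanSpace.single i 1)) = _
  rw [fderiv_unc_v (hg i)]
  rfl

/-- zero datum is admissible -/
lemma adm_zero : IsAdmissibleDatum (fun _ _ => 0) (fun _ => 0) (fun _ => 0) := by
  refine ⟨fun _ _ => le_rfl, ?_, ?_, contDiff_const, contDiff_const, ?_, ?_, ?_, ?_, ?_⟩
  · exact contDiff_const
  · have : Function.uncurry (fun (_ _ : R3) => (0 : ℝ)) = 0 := by funext p; rfl
    rw [this]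
    exact HasCompactSupport.zero
  · intro n
    refine ⟨0, fun x => ?_⟩
    have : iteratedFDeriv ℝ n (fun _ : R3 => (0 : R3)) x = 0 := by
      rw [iteratedFDeriv_fun_zero]; rfl
    simp [this]
  · exact MemLp.zero'
  · exact MemLp.zero'
  · intro x
    simp [div3, pderiv]
  · intro x
    simp [div3, pderiv]

/-- The linear solution structure from the data of `FB`. -/
lemma linSol_of {f₀ : R3 → R3 → ℝ} {E₀ B₀ : R3 → R3} (had : IsAdmissibleDatum f₀ E₀ B₀)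
    {R T : ℝ} {h : ℝ → R3 → R3 → ℝ} {g : Fin 3 → ℝ → R3 → R3 → ℝ} {E B : ℝ → R3 → R3}
    (hh : PC h) (hg : ∀ i, PC (g i)) (hE : SF E) (hB : SF B)
    (hs : ∀ (t : ℝ) (x v : R3), R < ‖v‖ → h t x v = 0 ∧ ∀ i, g i t x v = 0)
    (hT : ∀ (t : ℝ) (x v : R3), Tfree h t x v = - ∑ i : Fin 3, pderiv (fun w => g i t x w) i v)
    (hM : ∀ (t : ℝ) (x : R3), MaxwellAt (chargeDensity h) (currentDensity h) E B t x)
    (h0 : h 0 = f₀) (hE0 : E 0 = E₀) (hB0 : B 0 = B₀) :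
    LinSol R T f₀ E₀ B₀ univ h (fun i p => -g i p.1 p.2.1 p.2.2) E B where
  adm := had
  isOpen := isOpen_univ
  subset := subset_univ _
  smf := hh.1.contDiffOn
  smG := fun i => (hg i).1.neg.contDiffOn
  smE := hE.1.contDiffOn
  smB := hB.1.contDiffOn
  suppf := fun s _ y v hv => (hs s y v hv).1
  suppG := fun s _ y v hv i => by simp [(hs s y v hv).2 i]
  cpt := by
    obtain ⟨R1, hR1⟩ := hh.2 T
    choose R2 hR2 using fun i => (hg i).2 T
    refine ⟨max R1 (max (R2 0) (max (R2 1) (R2 2))), fun s hs' y v hy => ⟨?_, fun i => ?_⟩⟩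
    · refine hR1 s ?_ y v (Or.inl ((le_max_left _ _).trans_lt hy))
      rw [abs_of_nonneg hs'.1]; exact hs'.2
    · have : R2 i ≤ max R1 (max (R2 0) (max (R2 1) (R2 2))) := by
        fin_cases i <;> simp
      have h3 := hR2 i s (by rw [abs_of_nonneg hs'.1]; exact hs'.2) y v
        (Or.inl (this.trans_lt hy))
      simp [h3]
  f0 := h0
  E0 := hE0
  B0 := hB0
  tr := fun s _ y v => by
    have h1 : Tr (fun p : PS => h p.1 p.2.1 p.2.2) (s, y, v) = Tfree h s y v := Tr_unc hh.1 s y v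
    rw [h1, hT s y v, divv_unc (fun i => (hg i).1)]
  ampere := fun s _ x i => (hM s x).1 i
  faraday := fun s _ x i => (hM s x).2.1 i
  gauss := fun s _ x => (hM s x).2.2.1
  gaussB := fun s _ x => (hM s x).2.2.2

lemma norm_iteratedFDeriv_neg_fun {k : ℕ} (g : R3 → ℝ) (x : R3) :
    ‖iteratedFDeriv ℝ k (fun y => -g y) x‖ = ‖iteratedFDeriv ℝ k g x‖ :=
  norm_iteratedFDeriv_neg' k g x

/-- `∫ (t-s) φ ≤ T ∫ φ`. -/
lemma weighted_le {φ : ℝ → ℝ} (hφ : Continuous φ) {t T : ℝ} (h0 : 0 ≤ t) (ht : t ≤ T)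
    (hnn : ∀ s ∈ Icc 0 t, 0 ≤ φ s) :
    ∫ s in (0:ℝ)..t, (t - s) * φ s ≤ T * |∫ s in (0:ℝ)..t, φ s| := by
  have h1 : ∫ s in (0:ℝ)..t, (t - s) * φ s ≤ ∫ s in (0:ℝ)..t, T * φ s := by
    refine intervalIntegral.integral_mono_on h0 ?_ ?_ (fun s hs => ?_)
    · exact ((continuous_const.sub continuous_id).mul hφ).intervalIntegrable _ _
    · exact (continuous_const.mul hφ).intervalIntegrable _ _
    · exact mul_le_mul_of_nonneg_right (by linarith [hs.1]) (hnn s hs)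
  rw [intervalIntegral.integral_const_mul] at h1
  exact h1.trans (mul_le_mul_of_nonneg_left (le_abs_self _) (h0.trans ht))

theorem fbpos (H : GS1) : FBpos := by
  intro f₀ E₀ B₀ had k R T
  obtain ⟨C, hC, HC⟩ := H k R (|T| + 1) (by positivity) f₀ E₀ B₀
  refine ⟨C * (1 + |T|), by positivity,
    fun h g E B φ hh hg hE hB hs hT hM h0 hE0 hB0 hφ hb t ht0 htT => ?_⟩
  have hL : LinSol R (|T| + 1) f₀ E₀ B₀ univ h (fun i p => -g i p.1 p.2.1 p.2.2) E B :=
    linSol_of had hh hg hE hB hs hT hM h0 hE0 hB0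
  have hab : ∀ s ∈ Icc 0 t, |s| ≤ T := fun s hs' => by
    rw [abs_of_nonneg hs'.1]; exact hs'.2.trans htT
  have hT0 : 0 ≤ T := ht0.trans htT
  have key := HC univ h (fun i p => -g i p.1 p.2.1 p.2.2) E B hL t
    ⟨ht0, by rw [abs_of_nonneg hT0]; linarith⟩ φ φ
    (fun s hs' y v => (hb s (hab s hs') y v).1)
    (fun s hs' i y v => by
      have := (hb s (hab s hs') y v).2 i
      rw [norm_iteratedFDeriv_neg_fun (fun z => g i s z v) y]
      exact this)
    (hφ.intervalIntegrable _ _) (hφ.intervalIntegrable _ _)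
  have hnn : ∀ s ∈ Icc 0 t, 0 ≤ φ s := fun s hs' =>
    (norm_nonneg _).trans (hb s (hab s hs') 0 0).1
  have hw := weighted_le hφ ht0 htT hnn
  have hle : C * (1 + (∫ s in (0:ℝ)..t, φ s) + ∫ s in (0:ℝ)..t, (t - s) * φ s) ≤
      C * (1 + |T|) * (1 + |∫ s in (0:ℝ)..t, φ s|) := by
    rw [mul_assoc]
    refine mul_le_mul_of_nonneg_left ?_ hC
    have h1 := le_abs_self (∫ s in (0:ℝ)..t, φ s)
    rw [abs_of_nonneg hT0]
    nlinarith [abs_nonneg (∫ s in (0:ℝ)..t, φ s)]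
  exact fun x => ⟨(key x).1.trans hle, (key x).2.trans hle⟩

/-- **FB** from GS1. -/
theorem fb (H : GS1) : FB := fb_of_pos (fbpos H)

theorem fbzpos (H : GS1D) : FBzpos := by
  intro k R T
  obtain ⟨C, hC, HC⟩ := H k R (|T| + 1) (by positivity)
  refine ⟨C * (1 + |T|), by positivity,
    fun h g E B φ hh hg hE hB hs hT hM h0 hE0 hB0 hφ hb t ht0 htT => ?_⟩
  have hL : LinSol R (|T| + 1) (fun _ _ => 0) (fun _ => 0) (fun _ => 0) univ h
      (fun i p => -g i p.1 p.2.1 p.2.2) E B :=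
    linSol_of adm_zero hh hg hE hB hs hT hM (by funext x v; exact h0 x v) (by funext x; exact hE0 x)
      (by funext x; exact hB0 x)
  have hab : ∀ s ∈ Icc 0 t, |s| ≤ T := fun s hs' => by
    rw [abs_of_nonneg hs'.1]; exact hs'.2.trans htT
  have hT0 : 0 ≤ T := ht0.trans htT
  have key := HC univ h (fun i p => -g i p.1 p.2.1 p.2.2) E B hL t
    ⟨ht0, by rw [abs_of_nonneg hT0]; linarith⟩ φ φ
    (fun s hs' y v => (hb s (hab s hs') y v).1)
    (fun s hs' i y v => by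
      have := (hb s (hab s hs') y v).2 i
      rw [norm_iteratedFDeriv_neg_fun (fun z => g i s z v) y]
      exact this)
    (hφ.intervalIntegrable _ _) (hφ.intervalIntegrable _ _)
  have hnn : ∀ s ∈ Icc 0 t, 0 ≤ φ s := fun s hs' =>
    (norm_nonneg _).trans (hb s (hab s hs') 0 0).1
  have hw := weighted_le hφ ht0 htT hnn
  have hle : C * ((∫ s in (0:ℝ)..t, φ s) + ∫ s in (0:ℝ)..t, (t - s) * φ s) ≤
      C * (1 + |T|) * |∫ s in (0:ℝ)..t, φ s| := by
    rw [mul_assoc]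
    refine mul_le_mul_of_nonneg_left ?_ hC
    have h1 := le_abs_self (∫ s in (0:ℝ)..t, φ s)
    rw [abs_of_nonneg hT0]
    nlinarith [abs_nonneg (∫ s in (0:ℝ)..t, φ s)]
  exact fun x => ⟨(key x).1.trans hle, (key x).2.trans hle⟩

/-- **FBz** from GS1D. -/
theorem fbz (H : GS1D) : FBz := fbz_of_pos (fbzpos H)

end Crest.Agent.R106.Std.FbRev
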