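import Crest.Agent.R106.KirCalc

/-!
# Row 106, KIR (helper280 for helper246): localisation in time

A function which is smooth on `I × X` (`I` open in `ℝ`) agrees near a compact `K ⊆ I` with a
globally smooth one, of the form `χ(t) • h(t,x)` with a smooth compactly supported cut-off `χ`.
-/

set_option autoImplicit false

open MeasureTheory Set Metric Filter Topology
open scoped ContDiff Manifold
open Crest.AnalysisR.VecCalc3

noncomputable section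

namespace Crest.Agent.R106.Kir

/-- A smooth cut-off in time. -/
theorem exists_cutoff {I K : Set ℝ} (hI : IsOpen I) (hK : IsCompact K) (hKI : K ⊆ I) :
    ∃ χ : ℝ → ℝ, ContDiff ℝ ∞ χ ∧ HasCompactSupport χ ∧ tsupport χ ⊆ I ∧
      (∀ t, χ t ∈ Icc (0 : ℝ) 1) ∧
      ∃ J : Set ℝ, IsOpen J ∧ K ⊆ J ∧ J ⊆ I ∧ ∀ t ∈ J, χ t = 1 := by
  obtain ⟨L, hL, hKL, hLI⟩ := exists_compact_between hK hI hKI
  obtain ⟨f, h1, h0, hf⟩ := exists_contMDiffMap_one_nhds_of_subset_interior (n := (⊤ : ℕ∞))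
    (𝓘(ℝ, ℝ)) hK.isClosed hKL
  have hts : tsupport (f : ℝ → ℝ) ⊆ L := by
    refine closure_minimal (fun t ht => ?_) hL.isClosed
    by_contra hc
    exact ht (h0 t hc)
  obtain ⟨J, hJ, hKJ, hJ1⟩ := mem_nhdsSet_iff_exists.1 h1
  refine ⟨f, f.contMDiff.contDiff, HasCompactSupport.of_support_subset_isCompact hL
    (subset_closure.trans hts), hts.trans hLI, hf, J ∩ I, hJ.inter hI, subset_inter hKJ hKI,
    inter_subset_right, fun t ht => hJ1 ht.1⟩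

/-- Cutting off in time makes a function smooth on `I × X` globally smooth. -/
theorem contDiff_cut {X V : Type*} [NormedAddCommGroup X] [NormedSpace ℝ X]
    [NormedAddCommGroup V] [NormedSpace ℝ V] {n : WithTop ℕ∞} {I : Set ℝ} (hI : IsOpen I)
    {χ : ℝ → ℝ} (hχ : ContDiff ℝ n χ) (hs : tsupport χ ⊆ I) {h : ℝ → X → V}
    (hh : ContDiffOn ℝ n (fun p : ℝ × X => h p.1 p.2) (I ×ˢ univ)) :
    ContDiff ℝ n (fun p : ℝ × X => χ p.1 • h p.1 p.2) := by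
  rw [contDiff_iff_contDiffAt]
  rintro ⟨t, x⟩
  by_cases ht : t ∈ tsupport χ
  · have h1 : ContDiffAt ℝ n (fun p : ℝ × X => h p.1 p.2) (t, x) :=
      (hh (t, x) ⟨hs ht, mem_univ _⟩).contDiffAt
        ((hI.prod isOpen_univ).mem_nhds ⟨hs ht, mem_univ _⟩)
    exact ContDiffAt.smul ((hχ.contDiffAt).comp (t, x) contDiffAt_fst) h1
  · have h1 : ∀ᶠ s in 𝓝 t, χ s = 0 := notMem_tsupport_iff_eventuallyEq.1 ht
    have h2 : (fun p : ℝ × X => χ p.1 • h p.1 p.2) =ᶠ[𝓝 (t, x)] fun _ => 0 := by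
      have h3 : Tendsto (Prod.fst : ℝ × X → ℝ) (𝓝 (t, x)) (𝓝 t) := continuousAt_fst
      filter_upwards [h3.eventually h1] with p hp
      rw [hp, zero_smul]
    exact contDiffAt_const.congr_of_eventuallyEq h2

/-- LOCALISATION, general space `X`. -/
theorem exists_loc {X V : Type*} [NormedAddCommGroup X] [NormedSpace ℝ X]
    [NormedAddCommGroup V] [NormedSpace ℝ V] {I K : Set ℝ} (hI : IsOpen I) (hK : IsCompact K)
    (hKI : K ⊆ I) {h : ℝ → X → V}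
    (hh : ContDiffOn ℝ ∞ (fun p : ℝ × X => h p.1 p.2) (I ×ˢ univ)) :
    ∃ χ : ℝ → ℝ, ContDiff ℝ ∞ χ ∧ HasCompactSupport χ ∧ tsupport χ ⊆ I ∧
      (∀ t, χ t ∈ Icc (0 : ℝ) 1) ∧
      ContDiff ℝ ∞ (fun p : ℝ × X => χ p.1 • h p.1 p.2) ∧
      ∃ J : Set ℝ, IsOpen J ∧ K ⊆ J ∧ J ⊆ I ∧ ∀ t ∈ J, χ t = 1 ∧ ∀ x, χ t • h t x = h t x := by
  obtain ⟨χ, h1, h2, h3, h4, J, hJ, hKJ, hJI, hJ1⟩ := exists_cutoff hI hK hKI
  exact ⟨χ, h1, h2, h3, h4, contDiff_cut hI h1 h3 hh, J, hJ, hKJ, hJI,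
    fun t ht => ⟨hJ1 t ht, fun x => by rw [hJ1 t ht, one_smul]⟩⟩

theorem uIcc_subset {I : Set ℝ} (hc : I.OrdConnected) {a b : ℝ} (ha : a ∈ I) (hb : b ∈ I) :
    uIcc a b ⊆ I := hc.uIcc_subset ha hb

section
variable {V : Type*} [NormedAddCommGroup V] [NormedSpace ℝ V]

/-- LOCALISATION for jointly smooth functions on `I × ℝ³`, near a compact set of times. -/
theorem JSOn.loc {I K : Set ℝ} (hI : IsOpen I) (hK : IsCompact K) (hKI : K ⊆ I)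
    {h : ℝ → R3 → V} (hh : JSOn I h) :
    ∃ χ : ℝ → ℝ, ContDiff ℝ ∞ χ ∧ HasCompactSupport χ ∧ tsupport χ ⊆ I ∧
      (∀ t, χ t ∈ Icc (0 : ℝ) 1) ∧ JSOn univ (fun t x => χ t • h t x) ∧
      ∃ J : Set ℝ, IsOpen J ∧ K ⊆ J ∧ J ⊆ I ∧ ∀ t ∈ J, χ t = 1 ∧ ∀ x, χ t • h t x = h t x := by
  obtain ⟨χ, h1, h2, h3, h4, h5, h6⟩ := exists_loc hI hK hKI hh
  exact ⟨χ, h1, h2, h3, h4, h5.contDiffOn, h6⟩

/-- LOCALISATION near the closed interval between `0` and `t₀`: a globally smooth `g` which equals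
`h` on an open set of times containing the interval. -/
theorem JSOn.exists_global {I : Set ℝ} (hI : IsOpen I) (hc : I.OrdConnected) (h0 : (0 : ℝ) ∈ I)
    {t₀ : ℝ} (ht₀ : t₀ ∈ I) {h : ℝ → R3 → V} (hh : JSOn I h) :
    ∃ g : ℝ → R3 → V, JSOn univ g ∧ ContDiff ℝ ∞ (fun p : ℝ × R3 => g p.1 p.2) ∧
      ∃ J : Set ℝ, IsOpen J ∧ uIcc 0 t₀ ⊆ J ∧ J ⊆ I ∧ ∀ t ∈ J, g t = h t := by
  obtain ⟨χ, h1, h2, h3, h4, h5, J, hJ, hKJ, hJI, hJ1⟩ :=
    hh.loc hI (isCompact_uIcc (a := (0 : ℝ)) (b := t₀)) (hc.uIcc_subset h0 ht₀)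
  exact ⟨fun t x => χ t • h t x, h5, contDiffOn_univ.1 (by simpa [JSOn, univ_prod_univ] using h5),
    J, hJ, hKJ, hJI, fun t ht => funext fun x => (hJ1 t ht).2 x⟩

end

end Crest.Agent.R106.Kir
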