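import Crest.Prelude.Def_VecCalc3
import Crest.Agent.R202.SphDiv
import Crest.Agent.R240.SmInt
import Crest.Agent.R216.ParamInt

/-!
# Row 106, KIR (helper246): normalised surface measure of the unit sphere of ℝ³, spherical means
-/

set_option autoImplicit false

open MeasureTheory Set Metric Filter Topology
open scoped ContDiff ENNReal Pointwise
open Crest.AnalysisR.VecCalc3

noncomputable section

namespace Crest.Agent.R106.Kir

/-- the unit sphere -/
abbrev S2 : Set R3 := sphere (0 : R3) 1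

/-- surface measure on the sphere type -/
abbrev sig3 : Measure (R202.SphDiv.Sph 3) := R202.SphDiv.sig 3

/-- normalised surface measure of the unit sphere, as a measure on `ℝ³` -/
def sg : Measure R3 :=
  (ENNReal.ofReal (4 * Real.pi))⁻¹ • (sig3.map (fun z : R202.SphDiv.Sph 3 => (z : R3)))

theorem four_pi_pos : (0 : ℝ) < 4 * Real.pi := by positivity

theorem sig3_univ : sig3 univ = ENNReal.ofReal (4 * Real.pi) := by
  show ((volume : Measure R3).toSphere) univ = _
  rw [Measure.toSphere_apply_univ, EuclideanSpace.volume_ball_fin_three]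
  rw [finrank_euclideanSpace_fin]
  rw [ENNReal.ofReal_one, one_pow, one_mul,
    show ((3 : ℕ) : ℝ≥0∞) = ENNReal.ofReal 3 by norm_num,
    ← ENNReal.ofReal_mul (by norm_num)]
  congr 1
  ring

theorem emb : MeasurableEmbedding (fun z : R202.SphDiv.Sph 3 => (z : R3)) :=
  MeasurableEmbedding.subtype_coe (isClosed_sphere.measurableSet)

instance : IsProbabilityMeasure sg := by
  refine ⟨?_⟩
  unfold sg
  rw [Measure.smul_apply, emb.map_apply, preimage_univ, sig3_univ, smul_eq_mul]
  exact ENNReal.inv_mul_cancel (by simpa using Real.pi_pos) ENNReal.ofReal_ne_top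

/-- integrals against `sg` -/
theorem integral_sg {V : Type*} [NormedAddCommGroup V] [NormedSpace ℝ V] (g : R3 → V) :
    ∫ w, g w ∂sg = (4 * Real.pi)⁻¹ • ∫ z : R202.SphDiv.Sph 3, g z ∂sig3 := by
  unfold sg
  rw [integral_smul_measure, emb.integral_map, ENNReal.toReal_inv,
    ENNReal.toReal_ofReal four_pi_pos.le]

theorem sg_compl : sg (S2ᶜ) = 0 := by
  unfold sg
  rw [Measure.smul_apply, emb.map_apply]
  have : (fun z : R202.SphDiv.Sph 3 => (z : R3)) ⁻¹' (S2ᶜ) = ∅ := by
    ext z
    simp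
  rw [this]
  simp

theorem ae_mem : ∀ᵐ w ∂sg, w ∈ S2 := by
  rw [ae_iff]
  exact sg_compl

theorem ae_norm : ∀ᵐ w ∂sg, ‖w‖ = 1 := by
  filter_upwards [ae_mem] with w hw
  simpa using hw

theorem sg_restrict : sg.restrict S2 = sg := Measure.restrict_eq_self_of_ae_mem ae_mem

theorem setIntegral_sg {V : Type*} [NormedAddCommGroup V] [NormedSpace ℝ V] (g : R3 → V) :
    ∫ w in S2, g w ∂sg = ∫ w, g w ∂sg := by
  rw [sg_restrict]

theorem compS2 : IsCompact S2 := isCompact_sphere _ _

theorem integrable_sg {V : Type*} [NormedAddCommGroup V] [NormedSpace ℝ V] {g : R3 → V}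
    (hg : ContinuousOn g S2) : Integrable g sg := by
  have h : IntegrableOn g S2 sg := hg.integrableOn_compact compS2
  rwa [IntegrableOn, sg_restrict] at h

/-- pointwise bound on the sphere bounds the mean -/
theorem norm_integral_sg_le {V : Type*} [NormedAddCommGroup V] [NormedSpace ℝ V] {g : R3 → V}
    {C : ℝ} (h : ∀ w : R3, ‖w‖ = 1 → ‖g w‖ ≤ C) : ‖∫ w, g w ∂sg‖ ≤ C := by
  have h1 : ∀ᵐ w ∂sg, ‖g w‖ ≤ C := by
    filter_upwards [ae_norm] with w hw
    exact h w hw
  have := norm_integral_le_of_norm_le_const h1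
  simpa using this

/-- equality on the sphere is enough -/
theorem integral_sg_congr {V : Type*} [NormedAddCommGroup V] [NormedSpace ℝ V] {g k : R3 → V}
    (h : ∀ w : R3, ‖w‖ = 1 → g w = k w) : ∫ w, g w ∂sg = ∫ w, k w ∂sg := by
  refine integral_congr_ae ?_
  filter_upwards [ae_norm] with w hw
  exact h w hw

/-- invariance under linear isometries -/
theorem sig3_isometry (L : R3 ≃ₗᵢ[ℝ] R3) {s : Set R3} (hs : MeasurableSet s) :
    sig3 ((fun z : R202.SphDiv.Sph 3 => L (z : R3)) ⁻¹' s)
      = sig3 ((fun z : R202.SphDiv.Sph 3 => (z : R3)) ⁻¹' s) := by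
  have hmL : Measurable (fun z : R202.SphDiv.Sph 3 => L (z : R3)) :=
    (L.continuous.comp continuous_subtype_val).measurable
  have hm : Measurable (fun z : R202.SphDiv.Sph 3 => (z : R3)) := measurable_subtype_coe
  show ((volume : Measure R3).toSphere) _ = ((volume : Measure R3).toSphere) _
  rw [Measure.toSphere_apply' _ (hmL hs), Measure.toSphere_apply' _ (hm hs)]
  congr 1
  have e : Ioo (0 : ℝ) 1 • ((fun z : R202.SphDiv.Sph 3 => (z : R3)) ''
        ((fun z : R202.SphDiv.Sph 3 => L (z : R3)) ⁻¹' s))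
      = L ⁻¹' (Ioo (0 : ℝ) 1 • ((fun z : R202.SphDiv.Sph 3 => (z : R3)) ''
        ((fun z : R202.SphDiv.Sph 3 => (z : R3)) ⁻¹' s))) := by
    ext x
    simp only [Set.mem_smul, mem_image, mem_preimage]
    constructor
    · rintro ⟨a, ha, y, ⟨z, hz, rfl⟩, rfl⟩
      refine ⟨a, ha, L z, ⟨⟨L z, ?_⟩, hz, rfl⟩, ?_⟩
      · have := z.2
        simp only [mem_sphere, dist_zero_right] at this ⊢
        rw [L.norm_map]; exact this
      · simp
    · rintro ⟨a, ha, y, ⟨z, hz, rfl⟩, hx⟩
      refine ⟨a, ha, L.symm z, ⟨⟨L.symm z, ?_⟩, ?_, rfl⟩, ?_⟩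
      · have := z.2
        simp only [mem_sphere, dist_zero_right] at this ⊢
        rw [L.symm.norm_map]; exact this
      · simpa using hz
      · apply L.injective
        rw [← hx]
        simp
  rw [e]
  exact (L.measurePreserving).measure_preimage_emb L.toHomeomorph.measurableEmbedding _

/-- `sg` is invariant under linear isometries -/
theorem measurePreserving_sg (L : R3 ≃ₗᵢ[ℝ] R3) : MeasurePreserving L sg sg := by
  refine ⟨L.continuous.measurable, ?_⟩
  ext s hs
  rw [Measure.map_apply L.continuous.measurable hs]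
  unfold sg
  rw [Measure.smul_apply, Measure.smul_apply, emb.map_apply, emb.map_apply]
  congr 1
  exact sig3_isometry L hs

theorem integral_sg_isometry {V : Type*} [NormedAddCommGroup V] [NormedSpace ℝ V]
    (L : R3 ≃ₗᵢ[ℝ] R3) (g : R3 → V) : ∫ w, g (L w) ∂sg = ∫ w, g w ∂sg :=
  (measurePreserving_sg L).integral_comp L.toHomeomorph.measurableEmbedding g

theorem integral_sg_neg {V : Type*} [NormedAddCommGroup V] [NormedSpace ℝ V]
    (g : R3 → V) : ∫ w, g (-w) ∂sg = ∫ w, g w ∂sg :=
  integral_sg_isometry (LinearIsometryEquiv.neg ℝ) g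

/-- spherical means -/
def Mn {V : Type*} [NormedAddCommGroup V] [NormedSpace ℝ V] (g : R3 → V) (r : ℝ) (x : R3) : V :=
  ∫ w, g (x + r • w) ∂sg

theorem Mn_zero {V : Type*} [NormedAddCommGroup V] [NormedSpace ℝ V] [CompleteSpace V]
    (g : R3 → V) (x : R3) : Mn g 0 x = g x := by
  simp [Mn]

theorem Mn_neg {V : Type*} [NormedAddCommGroup V] [NormedSpace ℝ V] (g : R3 → V) (r : ℝ) (x : R3) :
    Mn g (-r) x = Mn g r x := by
  unfold Mn
  rw [← integral_sg_neg]
  simp

theorem norm_Mn_le {V : Type*} [NormedAddCommGroup V] [NormedSpace ℝ V] {g : R3 → V} {r : ℝ}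
    {x : R3} {C : ℝ} (h : ∀ y : R3, ‖y - x‖ = |r| → ‖g y‖ ≤ C) : ‖Mn g r x‖ ≤ C := by
  refine norm_integral_sg_le fun w hw => h _ ?_
  rw [add_sub_cancel_left, norm_smul, hw, mul_one, Real.norm_eq_abs]

end Crest.Agent.R106.Kir
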