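/- Row 106, KIR part (V) (helper562): volume form of the retarded potential. -/
import Crest.Agent.R106.KirSph

set_option autoImplicit false

open MeasureTheory Set Metric Filter Topology
open scoped ContDiff ENNReal Pointwise
open Crest.AnalysisR.VecCalc3

noncomputable section

namespace Crest.Agent.R106.Kir

/-- `1/|z|` is integrable on balls of `ℝ³`. -/
theorem integrableOn_inv_norm (t : ℝ) :
    IntegrableOn (fun z : R3 => ‖z‖⁻¹) (ball (0 : R3) t) := by
  have h1 : Integrable (fun z : R3 => (fun r : ℝ => (Iio t).indicator (fun r => r⁻¹) r) ‖z‖) := by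
    rw [integrable_fun_norm_addHaar (E := R3) volume]
    rw [finrank_euclideanSpace_fin]
    have h2 : IntegrableOn (fun y : ℝ => y) (Ioi 0 ∩ Iio t) := by
      have : IntegrableOn (fun y : ℝ => y) (Icc 0 t) :=
        (continuous_id.continuousOn).integrableOn_Icc
      refine this.mono_set ?_
      rintro y ⟨hy1, hy2⟩
      exact ⟨le_of_lt hy1, le_of_lt hy2⟩
    have h3 : IntegrableOn ((Iio t).indicator (fun y : ℝ => y)) (Ioi 0) := by
      rw [IntegrableOn, integrable_indicator_iff measurableSet_Iio, IntegrableOn,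
        Measure.restrict_restrict measurableSet_Iio, inter_comm]
      exact h2
    refine h3.congr_fun (fun y hy => ?_) measurableSet_Ioi
    have hy' : y ≠ 0 := ne_of_gt hy
    simp only [indicator, mem_Iio, smul_eq_mul]
    split_ifs
    · norm_num
      field_simp
    · simp
  have h4 : (fun z : R3 => (fun r : ℝ => (Iio t).indicator (fun r => r⁻¹) r) ‖z‖)
      = (ball (0 : R3) t).indicator (fun z => ‖z‖⁻¹) := by
    funext z
    simp [indicator]
  rw [h4, integrable_indicator_iff measurableSet_ball] at h1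
  exact h1

variable {h : ℝ → R3 → ℝ} {t : ℝ} {x : R3}

theorem vol_aux_cont (hc : ContinuousOn (fun p : ℝ × R3 => h p.1 p.2) (Icc 0 t ×ˢ univ)) (x : R3) :
    ContinuousOn (fun z : R3 => h (t - ‖z‖) (x + z)) (closedBall 0 t) := by
  refine hc.comp (f := fun z : R3 => (t - ‖z‖, x + z)) (by fun_prop) ?_
  intro z hz
  rw [mem_closedBall_zero_iff] at hz
  exact ⟨⟨by simp; linarith, by simp⟩, mem_univ _⟩

theorem integrableOn_vol (hc : ContinuousOn (fun p : ℝ × R3 => h p.1 p.2) (Icc 0 t ×ˢ univ))
    (x : R3) : IntegrableOn (fun z : R3 => h (t - ‖z‖) (x + z) / ‖z‖) (ball (0 : R3) t) := by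
  obtain ⟨C, hC⟩ := (isCompact_closedBall (0 : R3) t).exists_bound_of_continuousOn
    (vol_aux_cont hc x)
  have hcon := vol_aux_cont hc x
  have h1 : AEStronglyMeasurable (fun z : R3 => h (t - ‖z‖) (x + z) / ‖z‖)
      (volume.restrict (ball (0 : R3) t)) := by
    have a1 : AEStronglyMeasurable (fun z : R3 => h (t - ‖z‖) (x + z))
        (volume.restrict (ball (0 : R3) t)) :=
      (hcon.mono ball_subset_closedBall).aestronglyMeasurable measurableSet_ball
    have a2 : AEStronglyMeasurable (fun z : R3 => ‖z‖⁻¹)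
        (volume.restrict (ball (0 : R3) t)) :=
      (continuous_norm.measurable.inv).aestronglyMeasurable
    simp only [div_eq_mul_inv]
    exact a1.mul a2
  refine ((integrableOn_inv_norm t).const_mul C).mono' h1 ?_
  refine (ae_restrict_iff' measurableSet_ball).2 (Eventually.of_forall fun z hz => ?_)
  rw [norm_div, norm_norm, div_eq_mul_inv]
  exact mul_le_mul_of_nonneg_right (hC z (ball_subset_closedBall hz)) (by positivity)

/-- (V) volume form: `∫_0^t (t-τ) M_{t-τ}[h(τ)](x) dτ = (4π)⁻¹ ∫_{|z|<t} h(t-|z|, x+z)/|z| dz`. -/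
theorem vol_form (ht : 0 ≤ t)
    (hc : ContinuousOn (fun p : ℝ × R3 => h p.1 p.2) (Icc 0 t ×ˢ univ)) (x : R3) :
    ∫ τ in (0:ℝ)..t, (t - τ) * Mn (h τ) (t - τ) x
      = (4 * Real.pi)⁻¹ * ∫ z in ball (0 : R3) t, h (t - ‖z‖) (x + z) / ‖z‖ := by
  have hint : Integrable ((ball (0 : R3) t).indicator
      (fun z : R3 => h (t - ‖z‖) (x + z) / ‖z‖)) :=
    (integrableOn_vol hc x).integrable_indicator measurableSet_ball
  have hpol := R202.SphDiv.polar (n := 3) (by norm_num) _ hint
  rw [integral_indicator measurableSet_ball] at hpol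
  rw [hpol]
  -- the inner integral
  have hin : ∀ r ∈ Ioi (0:ℝ), r ^ (3 - 1) * ∫ z : R202.SphDiv.Sph 3,
      (ball (0 : R3) t).indicator (fun z : R3 => h (t - ‖z‖) (x + z) / ‖z‖) (r • (z : R3))
        ∂(R202.SphDiv.sig 3)
      = (Iio t).indicator (fun r => (4 * Real.pi) * (r * Mn (h (t - r)) r x)) r := by
    intro r hr
    have hr' : (0:ℝ) < r := hr
    have hnorm : ∀ z : R202.SphDiv.Sph 3, ‖r • (z : R3)‖ = r := by
      intro z
      rw [norm_smul, Real.norm_eq_abs, abs_of_pos hr']
      have := z.2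
      rw [mem_sphere_zero_iff_norm] at this
      rw [this, mul_one]
    by_cases hrt : r < t
    · have h1 : ∀ z : R202.SphDiv.Sph 3,
          (ball (0 : R3) t).indicator (fun z : R3 => h (t - ‖z‖) (x + z) / ‖z‖) (r • (z : R3))
            = r⁻¹ * h (t - r) (x + r • (z : R3)) := by
        intro z
        rw [indicator_of_mem (by rw [mem_ball_zero_iff, hnorm z]; exact hrt), hnorm z]
        rw [div_eq_mul_inv, mul_comm]
      simp only [h1]
      rw [integral_const_mul]
      rw [indicator_of_mem (by exact hrt)]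
      unfold Mn
      rw [integral_sg, smul_eq_mul]
      have h4 : (4 * Real.pi) ≠ 0 := by positivity
      field_simp
    · have h1 : ∀ z : R202.SphDiv.Sph 3,
          (ball (0 : R3) t).indicator (fun z : R3 => h (t - ‖z‖) (x + z) / ‖z‖) (r • (z : R3))
            = 0 := by
        intro z
        rw [indicator_of_notMem]
        rw [mem_ball_zero_iff, hnorm z]; exact hrt
      simp only [h1]
      rw [indicator_of_notMem (by simpa using hrt)]
      simp
  rw [setIntegral_congr_fun measurableSet_Ioi hin]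
  rw [setIntegral_indicator measurableSet_Iio]
  have hset : Ioi (0:ℝ) ∩ Iio t = Ioo 0 t := by ext; simp
  rw [hset, ← integral_Ioc_eq_integral_Ioo, ← intervalIntegral.integral_of_le ht]
  rw [intervalIntegral.integral_const_mul, ← mul_assoc,
    inv_mul_cancel₀ (by positivity : (4 * Real.pi) ≠ 0), one_mul]
  have hsub := intervalIntegral.integral_comp_sub_left (a := 0) (b := t)
    (fun r => r * Mn (h (t - r)) r x) t
  simp only [sub_self, sub_zero] at hsub
  rw [← hsub]
  apply intervalIntegral.integral_congr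
  intro τ _
  simp only [sub_sub_cancel]

/-- (V) in the normalisation `Wv` of `Gs2Defs`. -/
theorem vol_form' (ht : 0 ≤ t)
    (hc : ContinuousOn (fun p : ℝ × R3 => h p.1 p.2) (Icc 0 t ×ˢ univ)) (x : R3) :
    ∫ τ in (0:ℝ)..t, (t - τ) * Mn (h τ) (t - τ) x
      = ∫ z in ball (0 : R3) t, h (t - ‖z‖) (x + z) / (4 * Real.pi * ‖z‖) := by
  rw [vol_form ht hc, ← integral_const_mul]
  refine setIntegral_congr_fun measurableSet_ball fun z _ => ?_
  simp only [div_eq_mul_inv, mul_inv]
  ring

/-- open interval version -/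
theorem vol_form_Ioo {a b : ℝ} (hc : ContinuousOn (fun p : ℝ × R3 => h p.1 p.2)
    (Ioo a b ×ˢ univ)) (ha : a < 0) (ht : 0 ≤ t) (hb : t < b) (x : R3) :
    ∫ τ in (0:ℝ)..t, (t - τ) * Mn (h τ) (t - τ) x
      = (4 * Real.pi)⁻¹ * ∫ z in ball (0 : R3) t, h (t - ‖z‖) (x + z) / ‖z‖ :=
  vol_form ht (hc.mono (prod_mono (fun s hs => ⟨ha.trans_le hs.1, hs.2.trans_lt hb⟩)
    subset_rfl)) x

end Crest.Agent.R106.Kir
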