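import Crest.Agent.R106.KirWav
import Crest.Agent.R106.KirVol
import Crest.Agent.R106.KirLoc
import Crest.Agent.R106.Gs2Defs
import Crest.Agent.R106.GSRDefs

/-!
# Row 106, KirRep (helper262): pointwise Kirchhoff representation in volume form

`kirWv`     : `u t x = Wv (□u) t x + Sop (u_t 0) t x + Sdot (u 0) t x` (`u` globally smooth, `0 ≤ t`);
`kirWv_box` : the same for `u : ℝ × R3 → ℝ` with `GSR.box`;
`kirWv_loc` : `u` smooth on `J × R3`, `J` open, `[0,t] ⊆ J`;
`kir_bound` : `|u (t,x)| ≤ |Wv (box u) t x| + t C1 + (C0 + t D)`.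
-/

set_option autoImplicit false
open MeasureTheory Set Metric Filter Topology
open scoped ContDiff
open Crest.AnalysisR.VecCalc3

noncomputable section

namespace Crest.Agent.R106.Kir

open Crest.Agent.R106.Gs2 (Wv)

theorem W_eq_Wv {h : ℝ → R3 → ℝ} {t : ℝ} (ht : 0 ≤ t)
    (hc : ContinuousOn (fun p : ℝ × R3 => h p.1 p.2) (Icc 0 t ×ˢ univ)) (x : R3) :
    W h t x = Wv h t x := vol_form' ht hc x

theorem js_box {u : ℝ → R3 → ℝ} (hu : JS u) :
    JS (fun τ y => deriv (fun s => deriv (fun s' => u s' y) s) τ - lap (u τ) y) :=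
  hu.dt.dt.sub hu.lap

/-- Kirchhoff representation, volume form, globally smooth `u`. -/
theorem kirWv {u : ℝ → R3 → ℝ} (hu : JS u) {t : ℝ} (ht : 0 ≤ t) (x : R3) :
    u t x = Wv (fun τ y => deriv (fun s => deriv (fun s' => u s' y) s) τ - lap (u τ) y) t x
      + Sop (fun y => deriv (fun s => u s y) 0) t x + Sdot (u 0) t x := by
  rw [← W_eq_Wv ht ((js_box hu).continuous.continuousOn) x]
  exact kirchhoff hu t x

/-- `deriv`-form versus `fderiv`-form of the wave operator. -/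
theorem box_eq {u : ℝ × R3 → ℝ} (hu : ContDiff ℝ ∞ u) (t : ℝ) (x : R3) :
    deriv (fun s => deriv (fun s' => u (s', x)) s) t - lap (fun y => u (t, y)) x
      = GSR.box u (t, x) := by
  have hJ : JSOn univ (fun s y => u (s, y)) := js_iff.1 hu
  have hd : ∀ s y, deriv (fun s' => u (s', y)) s = GSR.pt u (s, y) := fun s y =>
    hJ.deriv_eq isOpen_univ (mem_univ s) y
  have hx : ∀ (i : Fin 3) s y, pderiv (fun z => u (s, z)) i y = GSR.px i u (s, y) :=
    fun i s y => hJ.pderiv_eq isOpen_univ (mem_univ s) i y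
  have hpt : ContDiff ℝ ∞ (GSR.pt u) := (hu.fderiv_right (m := ∞) (by simp)).clm_apply
    contDiff_const
  have hpx : ∀ i, ContDiff ℝ ∞ (GSR.px i u) := fun i =>
    (hu.fderiv_right (m := ∞) (by simp)).clm_apply contDiff_const
  have h1 : deriv (fun s => deriv (fun s' => u (s', x)) s) t = GSR.pt (GSR.pt u) (t, x) := by
    rw [show (fun s => deriv (fun s' => u (s', x)) s) = fun s => GSR.pt u (s, x) from
      funext fun s => hd s x]
    exact JSOn.deriv_eq (u := fun s y => GSR.pt u (s, y)) isOpen_univ (js_iff.1 hpt) (mem_univ t) x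
  have h2 : lap (fun y => u (t, y)) x = ∑ i, GSR.px i (GSR.px i u) (t, x) := by
    unfold lap
    refine Finset.sum_congr rfl fun i _ => ?_
    rw [show (fun y => pderiv (fun y => u (t, y)) i y) = fun y => GSR.px i u (t, y) from
      funext fun y => hx i t y]
    exact JSOn.pderiv_eq (u := fun s y => GSR.px i u (s, y)) isOpen_univ (js_iff.1 (hpx i))
      (mem_univ t) i x
  rw [h1, h2]
  rfl

/-- Kirchhoff representation, volume form, with `GSR.box`. -/
theorem kirWv_box {u : ℝ × R3 → ℝ} (hu : ContDiff ℝ ∞ u) {t : ℝ} (ht : 0 ≤ t) (x : R3) :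
    u (t, x) = Wv (fun s y => GSR.box u (s, y)) t x
      + Sop (fun y => GSR.pt u (0, y)) t x + Sdot (fun y => u (0, y)) t x := by
  have h := kirWv (u := fun s y => u (s, y)) hu ht x
  have hJ : JSOn univ (fun s y => u (s, y)) := js_iff.1 hu
  have e1 : (fun τ y => deriv (fun s => deriv (fun s' => u (s', y)) s) τ - lap (fun z => u (τ, z)) y)
      = fun s y => GSR.box u (s, y) := by
    funext s y
    exact box_eq hu s y
  have e2 : (fun y => deriv (fun s => u (s, y)) 0) = fun y => GSR.pt u (0, y) := by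
    funext y
    exact hJ.deriv_eq isOpen_univ (mem_univ 0) y
  rw [e2] at h
  refine h.trans ?_
  congr 3

theorem kir_bound {u : ℝ × R3 → ℝ} (hu : ContDiff ℝ ∞ u) {t : ℝ} (ht : 0 ≤ t) (x : R3)
    {C0 C1 D : ℝ} (h0 : ∀ y : R3, |u (0, y)| ≤ C0) (h1 : ∀ y : R3, |GSR.pt u (0, y)| ≤ C1)
    (hD : ∀ y : R3, ‖fderiv ℝ (fun z : R3 => u (0, z)) y‖ ≤ D) :
    |u (t, x)| ≤ |Wv (fun s y => GSR.box u (s, y)) t x| + t * C1 + (C0 + t * D) := by
  rw [kirWv_box hu ht x]
  refine (abs_add_le _ _).trans (add_le_add ((abs_add_le _ _).trans (add_le_add le_rfl ?_)) ?_)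
  · have := abs_Sop_le (φ := fun y => GSR.pt u (0, y)) (t := t) (x := x) (C := C1)
      (fun y _ => h1 y)
    rwa [abs_of_nonneg ht] at this
  · have := abs_Sdot_le (φ := fun y => u (0, y)) (t := t) (x := x) (C := C0) (D := D)
      (fun y _ => h0 y) (fun y _ => hD y)
    rwa [abs_of_nonneg ht] at this

/-- LOCAL version: `u` smooth on `J × R3`, `J` open, `[0,t] ⊆ J`. -/
theorem kirWv_loc {J : Set ℝ} (hJ : IsOpen J) {u : ℝ × R3 → ℝ}
    (hu : ContDiffOn ℝ ∞ u (J ×ˢ univ)) {t : ℝ} (ht : 0 ≤ t) (htJ : Icc 0 t ⊆ J) (x : R3) :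
    u (t, x) = Wv (fun s y => GSR.box u (s, y)) t x
      + Sop (fun y => GSR.pt u (0, y)) t x + Sdot (fun y => u (0, y)) t x := by
  obtain ⟨χ, -, -, -, -, h5, J', hJ', hKJ', hJ'J, h6⟩ := JSOn.loc hJ
    (isCompact_Icc (a := (0 : ℝ)) (b := t)) htJ (h := fun s y => u (s, y)) hu
  set g : ℝ × R3 → ℝ := fun p => χ p.1 • u p with hg
  have hgs : ContDiff ℝ ∞ g := by
    have := js_iff.2 h5
    exact this
  have heq : ∀ s ∈ J', ∀ y, g =ᶠ[𝓝 (s, y)] u := by
    intro s hs y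
    filter_upwards [(hJ'.prod isOpen_univ).mem_nhds (show (s, y) ∈ J' ×ˢ (univ : Set R3) from
      ⟨hs, mem_univ _⟩)] with p hp
    exact (h6 p.1 hp.1).2 p.2
  have hpt : ∀ s ∈ J', ∀ y, GSR.pt g =ᶠ[𝓝 (s, y)] GSR.pt u := by
    intro s hs y
    filter_upwards [(hJ'.prod isOpen_univ).mem_nhds (show (s, y) ∈ J' ×ˢ (univ : Set R3) from
      ⟨hs, mem_univ _⟩)] with p hp
    unfold GSR.pt
    rw [(heq p.1 hp.1 p.2).fderiv_eq]
  have hpx : ∀ i, ∀ s ∈ J', ∀ y, GSR.px i g =ᶠ[𝓝 (s, y)] GSR.px i u := by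
    intro i s hs y
    filter_upwards [(hJ'.prod isOpen_univ).mem_nhds (show (s, y) ∈ J' ×ˢ (univ : Set R3) from
      ⟨hs, mem_univ _⟩)] with p hp
    unfold GSR.px
    rw [(heq p.1 hp.1 p.2).fderiv_eq]
  have hbox : ∀ s ∈ J', ∀ y, GSR.box g (s, y) = GSR.box u (s, y) := by
    intro s hs y
    unfold GSR.box
    have a1 : GSR.pt (GSR.pt g) (s, y) = GSR.pt (GSR.pt u) (s, y) := by
      show fderiv ℝ (GSR.pt g) (s, y) (1, 0) = fderiv ℝ (GSR.pt u) (s, y) (1, 0)
      rw [(hpt s hs y).fderiv_eq]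
    have a2 : ∀ i, GSR.px i (GSR.px i g) (s, y) = GSR.px i (GSR.px i u) (s, y) := by
      intro i
      show fderiv ℝ (GSR.px i g) (s, y) _ = fderiv ℝ (GSR.px i u) (s, y) _
      rw [(hpx i s hs y).fderiv_eq]
    rw [a1]
    congr 1
    exact Finset.sum_congr rfl fun i _ => a2 i
  have h0 : (0 : ℝ) ∈ J' := hKJ' ⟨le_rfl, ht⟩
  have htJ' : t ∈ J' := hKJ' ⟨ht, le_rfl⟩
  have h := kirWv_box hgs ht x
  have e0 : g (t, x) = u (t, x) := (h6 t htJ').2 x
  have e1 : Wv (fun s y => GSR.box g (s, y)) t x = Wv (fun s y => GSR.box u (s, y)) t x := by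
    unfold Wv
    refine setIntegral_congr_fun measurableSet_ball fun z hz => ?_
    have hz' : ‖z‖ < t := by simpa using hz
    have : t - ‖z‖ ∈ J' := hKJ' ⟨by linarith, by linarith [norm_nonneg z]⟩
    show GSR.box g (t - ‖z‖, x + z) / _ = GSR.box u (t - ‖z‖, x + z) / _
    rw [hbox _ this]
  have e2 : (fun y => GSR.pt g (0, y)) = fun y => GSR.pt u (0, y) := by
    funext y
    exact (hpt 0 h0 y).eq_of_nhds
  have e3 : (fun y => g (0, y)) = fun y => u (0, y) := by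
    funext y
    exact (heq 0 h0 y).eq_of_nhds
  rw [e0, e1, e2, e3] at h
  exact h

end Crest.Agent.R106.Kir
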