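import Mathlib
import Crest.Prelude.Def_VecCalc3
import Crest.Prelude.Def_VlasovMaxwell

/-!
# Row 106, STANDARD PART: common definitions (helper797, FROZEN).

Architecture: helper775's note 12365 (force `G` truncated in momentum, linear in `(e,b)`, divergence
free; both signs of time; ONE global Picard iteration), majorant form as asked by helper18.
Everything is smooth on all of `ℝ × R3 (× R3)`; bounds are on slabs `|t| ≤ T`.
-/

set_option autoImplicit false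
open MeasureTheory Set Filter Topology
open scoped ContDiff
open Crest.AnalysisR.VecCalc3 Crest.AnalysisR.PDE.RVM

namespace Crest.Agent.R106.Std

/-- Phase space function: jointly smooth on `ℝ × R3 × R3`, with support in a bounded set of `(x,v)`
on every slab `|t| ≤ T`. -/
def PC (g : ℝ → R3 → R3 → ℝ) : Prop :=
  ContDiff ℝ ∞ (fun p : ℝ × R3 × R3 => g p.1 p.2.1 p.2.2) ∧
  ∀ T : ℝ, ∃ R : ℝ, ∀ t : ℝ, |t| ≤ T → ∀ x v : R3, (R < ‖x‖ ∨ R < ‖v‖) → g t x v = 0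

/-- Field: jointly smooth on `ℝ × R3`, every spatial derivative bounded on every slab `|t| ≤ T`. -/
def SF (E : ℝ → R3 → R3) : Prop :=
  ContDiff ℝ ∞ (fun p : ℝ × R3 => E p.1 p.2) ∧
  ∀ (T : ℝ) (k : ℕ), ∃ C : ℝ, ∀ t : ℝ, |t| ≤ T → ∀ x : R3, ‖iteratedFDeriv ℝ k (E t) x‖ ≤ C

/-- Maxwell's equations at `(t,x)` with sources `ρ`, `j` (same shape as in `EquationsHoldAt`). -/
def MaxwellAt (ρ : ℝ → R3 → ℝ) (j : ℝ → R3 → R3) (E B : ℝ → R3 → R3) (t : ℝ) (x : R3) : Prop :=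
  (∀ i : Fin 3, deriv (fun s => E s x i) t - curl3 (B t) x i = - j t x i) ∧
  (∀ i : Fin 3, deriv (fun s => B s x i) t + curl3 (E t) x i = 0) ∧
  div3 (E t) x = ρ t x ∧
  div3 (B t) x = 0

/-- A truncated force: `G v (e,b)` is linear in `(e,b)`, smooth in `v`, divergence free in `v`, equal
to the Lorentz force for `‖v‖ ≤ P` and zero for `‖v‖ ≥ 2P`. -/
structure IsTrunc (P : ℝ) (G : R3 → (R3 × R3) →L[ℝ] R3) : Prop where
  pos : 0 < P
  smooth : ContDiff ℝ ∞ G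
  supp : ∀ v : R3, 2 * P ≤ ‖v‖ → G v = 0
  divfree : ∀ (F : R3 × R3) (v : R3), div3 (fun w => G w F) v = 0
  eq : ∀ v e b : R3, ‖v‖ ≤ P → G v (e, b) = e + cross3 (relVel v) b

/-- The free transport derivative `∂ₜ f + u(v)·∇ₓ f`. -/
noncomputable def Tfree (f : ℝ → R3 → R3 → ℝ) (t : ℝ) (x v : R3) : ℝ :=
  deriv (fun s => f s x v) t + ∑ i : Fin 3, relVel v i * pderiv (fun y => f t y v) i x

/-- The momentum part `G(v;E,B)·∇ᵥ f`. -/
noncomputable def Gv (G : R3 → (R3 × R3) →L[ℝ] R3) (E B : ℝ → R3 → R3) (f : ℝ → R3 → R3 → ℝ)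
    (t : ℝ) (x v : R3) : ℝ :=
  ∑ i : Fin 3, (G v (E t x, B t x)) i * pderiv (fun w => f t x w) i v

/-- The linear Vlasov equation with force `G(v;E,B)` at `(t,x,v)`. -/
def TransEq (G : R3 → (R3 × R3) →L[ℝ] R3) (E B : ℝ → R3 → R3) (f : ℝ → R3 → R3 → ℝ)
    (t : ℝ) (x v : R3) : Prop :=
  Tfree f t x v + Gv G E B f t x v = 0

/-- One step of the Picard iteration: input fields `(E,B)`, output `f` (transported by the force of
`(E,B)`) and `(E',B')` (Maxwell with the moments of `f`). -/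
structure Step (P : ℝ) (G : R3 → (R3 × R3) →L[ℝ] R3) (f₀ : R3 → R3 → ℝ) (E₀ B₀ : R3 → R3)
    (E B : ℝ → R3 → R3) (f : ℝ → R3 → R3 → ℝ) (E' B' : ℝ → R3 → R3) : Prop where
  inE : SF E
  inB : SF B
  pc : PC f
  init : f 0 = f₀
  trans : ∀ (t : ℝ) (x v : R3), TransEq G E B f t x v
  values : ∀ (t : ℝ) (x v : R3), ∃ y w : R3, f t x v = f₀ y w
  suppv : ∀ R : ℝ, 2 * P ≤ R → (∀ x v : R3, R < ‖v‖ → f₀ x v = 0) →
    ∀ (t : ℝ) (x v : R3), R < ‖v‖ → f t x v = 0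
  suppx : ∀ R : ℝ, (∀ x v : R3, R < ‖x‖ → f₀ x v = 0) →
    ∀ (t : ℝ) (x v : R3), R + |t| < ‖x‖ → f t x v = 0
  outE : SF E'
  outB : SF B'
  initE : E' 0 = E₀
  initB : B' 0 = B₀
  maxwell : ∀ (t : ℝ) (x : R3), MaxwellAt (chargeDensity f) (currentDensity f) E' B' t x

/-- sup bound of order `k` in `x` for the pair of fields at time `t` -/
def FBd (k : ℕ) (E B : ℝ → R3 → R3) (t c : ℝ) : Prop :=
  ∀ x : R3, ‖iteratedFDeriv ℝ k (E t) x‖ ≤ c ∧ ‖iteratedFDeriv ℝ k (B t) x‖ ≤ c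

/-- sup bound for the first time derivative of the fields at time `t` -/
def FBt (E B : ℝ → R3 → R3) (t c : ℝ) : Prop :=
  ∀ x : R3, ‖deriv (fun s => E s x) t‖ ≤ c ∧ ‖deriv (fun s => B s x) t‖ ≤ c

/-- sup bound of order `k` in `(x,v)` for the density at time `t` -/
def fBd (k : ℕ) (f : ℝ → R3 → R3 → ℝ) (t c : ℝ) : Prop :=
  ∀ z : R3 × R3, ‖iteratedFDeriv ℝ k (fun z : R3 × R3 => f t z.1 z.2) z‖ ≤ c

/-- The Picard sequence starting from zero fields: step `n` maps `(E n, B n)` to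
`f n`, `(E (n+1), B (n+1))`. -/
structure Seq (P : ℝ) (G : R3 → (R3 × R3) →L[ℝ] R3) (f₀ : R3 → R3 → ℝ) (E₀ B₀ : R3 → R3)
    (E B : ℕ → ℝ → R3 → R3) (f : ℕ → ℝ → R3 → R3 → ℝ) : Prop where
  E0 : ∀ (t : ℝ) (x : R3), E 0 t x = 0
  B0 : ∀ (t : ℝ) (x : R3), B 0 t x = 0
  step : ∀ n : ℕ, Step P G f₀ E₀ B₀ (E n) (B n) (f n) (E (n + 1)) (B (n + 1))

end Crest.Agent.R106.Std
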