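import Crest.Agent.R106.KirWav
import Crest.Agent.R106.StdDefs

/-!
# Row 106, KIR (helper490): bounds of all space derivatives of `Sop`, `Sdot`, `W`, `Wd`
(both signs of time), and coordinate conversion lemmas for `iteratedFDeriv`.
-/

set_option autoImplicit false

open MeasureTheory Set Metric Filter Topology
open scoped ContDiff ENNReal Pointwise
open Crest.AnalysisR.VecCalc3

noncomputable section

namespace Crest.Agent.R106.Kir

section param
variable {E E' : Type} [NormedAddCommGroup E] [NormedSpace ℝ E]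
  [NormedAddCommGroup E'] [NormedSpace ℝ E'] [SecondCountableTopology E']
  [MeasurableSpace E'] [BorelSpace E']

/-- all derivatives of a parametric integral over a compact set are bounded by the integral of the
pointwise bounds -/
theorem param_iter_le {K : Set E'} (hK : IsCompact K) (μ : Measure E')
    [IsFiniteMeasureOnCompacts μ] (k : ℕ) :
    ∀ {V : Type} [NormedAddCommGroup V] [NormedSpace ℝ V] {g : E × E' → V} (_ : ContDiff ℝ ∞ g)
      (x : E) {m : E' → ℝ} (_ : IntegrableOn m K μ)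
      (_ : ∀ y ∈ K, ‖iteratedFDeriv ℝ k (fun x => g (x, y)) x‖ ≤ m y),
      ‖iteratedFDeriv ℝ k (fun x => ∫ y in K, g (x, y) ∂μ) x‖ ≤ ∫ y in K, m y ∂μ := by
  induction k with
  | zero =>
    intro V _ _ g hg x m hm h
    rw [norm_iteratedFDeriv_zero]
    refine norm_integral_le_of_norm_le hm ?_
    filter_upwards [ae_restrict_mem hK.measurableSet] with y hy
    have := h y hy
    rwa [norm_iteratedFDeriv_zero] at this
  | succ k ih =>
    intro V _ _ g hg x m hm h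
    have hdx : ContDiff ℝ ∞ (R240.SmJ.dx g) := by
      have h1 := R240.SmJ.contDiffOn_dx (s := univ) isOpen_univ hg.contDiffOn
      rwa [contDiffOn_univ] at h1
    have e1 : fderiv ℝ (fun x => ∫ y in K, g (x, y) ∂μ)
        = fun x => ∫ y in K, R240.SmJ.dx g (x, y) ∂μ := by
      funext x'
      exact (R240.SmJ.hasFDerivAt_integral (E := E) (E' := E') (s := univ) isOpen_univ (U := univ)
        isOpen_univ hK (subset_univ _) μ (g := g) hg.contDiffOn (mem_univ x')).fderiv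
    rw [← norm_iteratedFDeriv_fderiv, e1]
    refine ih hdx x hm fun y hy => ?_
    have e2 : (fun x => R240.SmJ.dx g (x, y)) = fderiv ℝ (fun x => g (x, y)) := by
      funext x'
      exact (R240.SmJ.hasFDerivAt_dx (p := (x', y)) ((hg.differentiable (by simp)) _)).fderiv.symm
    rw [e2, norm_iteratedFDeriv_fderiv]
    exact h y hy

end param

section mean
variable {E : Type} [NormedAddCommGroup E] [NormedSpace ℝ E]
  {V : Type} [NormedAddCommGroup V] [NormedSpace ℝ V]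

/-- derivatives of spherical means with parameters -/
theorem mean_iter_le (k : ℕ) {g : E × R3 → V} (hg : ContDiff ℝ ∞ g) (x : E) {C : ℝ}
    (h : ∀ w : R3, ‖w‖ = 1 → ‖iteratedFDeriv ℝ k (fun x => g (x, w)) x‖ ≤ C) :
    ‖iteratedFDeriv ℝ k (fun x => ∫ w, g (x, w) ∂sg) x‖ ≤ C := by
  have h1 := param_iter_le (E := E) (E' := R3) compS2 sg k hg x (m := fun _ => C)
    (integrableOn_const (by finiteness)) (fun w hw => h w (by simpa using hw))
  simpa only [setIntegral_sg, integral_const, sg_restrict, probReal_univ, one_smul] using h1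

/-- derivatives of interval integrals with parameters -/
theorem interval_iter_le (k : ℕ) {g : E × ℝ → V} (hg : ContDiff ℝ ∞ g) (x : E) (a b : ℝ)
    {m : ℝ → ℝ} (hm : IntervalIntegrable m volume a b)
    (h : ∀ τ ∈ uIcc a b, ‖iteratedFDeriv ℝ k (fun x => g (x, τ)) x‖ ≤ m τ) :
    ‖iteratedFDeriv ℝ k (fun x => ∫ τ in a..b, g (x, τ)) x‖ ≤ |∫ τ in a..b, m τ| := by
  have key : ∀ a b : ℝ, a ≤ b → IntervalIntegrable m volume a b →
      (∀ τ ∈ uIcc a b, ‖iteratedFDeriv ℝ k (fun x => g (x, τ)) x‖ ≤ m τ) →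
      ‖iteratedFDeriv ℝ k (fun x => ∫ τ in a..b, g (x, τ)) x‖ ≤ ∫ τ in a..b, m τ := by
    intro a b hab hm h
    have e : ∀ {V' : Type} [NormedAddCommGroup V'] [NormedSpace ℝ V'] (f : ℝ → V'),
        ∫ τ in a..b, f τ = ∫ τ in Icc a b, f τ := by
      intro V' _ _ f
      rw [intervalIntegral.integral_of_le hab, integral_Icc_eq_integral_Ioc]
    rw [e m]
    have e' : (fun x => ∫ τ in a..b, g (x, τ)) = fun x => ∫ τ in Icc a b, g (x, τ) := by
      funext x'; exact e _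
    rw [e']
    refine param_iter_le (E := E) (E' := ℝ) isCompact_Icc volume k hg x ?_ ?_
    · rw [← intervalIntegrable_iff_integrableOn_Icc_of_le hab]; exact hm
    · intro τ hτ
      exact h τ (by rwa [uIcc_of_le hab])
  rcases le_total a b with hab | hab
  · exact (key a b hab hm h).trans (le_abs_self _)
  · have h2 := key b a hab hm.symm (by rwa [uIcc_comm])
    have e1 : (fun x => ∫ τ in a..b, g (x, τ)) = fun x => -∫ τ in b..a, g (x, τ) := by
      funext x'; rw [intervalIntegral.integral_symm]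
    have e2 : iteratedFDeriv ℝ k (fun x => -∫ τ in b..a, g (x, τ)) x
        = - iteratedFDeriv ℝ k (fun x => ∫ τ in b..a, g (x, τ)) x := iteratedFDeriv_neg_apply
    rw [e1, e2, norm_neg, intervalIntegral.integral_symm, abs_neg]
    exact h2.trans (le_abs_self _)

end mean

section ops
variable {V : Type} [NormedAddCommGroup V] [NormedSpace ℝ V]

theorem iter_Mn_le {φ : R3 → V} (hφ : ContDiff ℝ ∞ φ) (k : ℕ) (r : ℝ) (x : R3) {C : ℝ}
    (h : ∀ y : R3, ‖y - x‖ = |r| → ‖iteratedFDeriv ℝ k φ y‖ ≤ C) :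
    ‖iteratedFDeriv ℝ k (fun x => Mn φ r x) x‖ ≤ C := by
  unfold Mn
  refine mean_iter_le k (g := fun q : R3 × R3 => φ (q.1 + r • q.2)) (hφ.comp (by fun_prop)) x ?_
  intro w hw
  show ‖iteratedFDeriv ℝ k (fun x => φ (x + r • w)) x‖ ≤ C
  rw [iteratedFDeriv_comp_add_right]
  refine h _ ?_
  rw [add_sub_cancel_left, norm_smul, hw, mul_one, Real.norm_eq_abs]

theorem iter_Mr_le {φ : R3 → ℝ} (hφ : ContDiff ℝ ∞ φ) (k : ℕ) (r : ℝ) (x : R3) {C : ℝ}
    (h : ∀ y : R3, ‖y - x‖ = |r| → ‖iteratedFDeriv ℝ (k + 1) φ y‖ ≤ C) :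
    ‖iteratedFDeriv ℝ k (fun x => Mr φ r x) x‖ ≤ C := by
  unfold Mr
  have hd : ContDiff ℝ ∞ (fderiv ℝ φ) := hφ.fderiv_right (m := ∞) (by simp)
  refine mean_iter_le k (g := fun q : R3 × R3 => fderiv ℝ φ (q.1 + r • q.2) q.2)
    ((hd.comp (by fun_prop)).clm_apply contDiff_snd) x ?_
  intro w hw
  show ‖iteratedFDeriv ℝ k (fun x => fderiv ℝ φ (x + r • w) w) x‖ ≤ C
  have hc : ContDiff ℝ ∞ (fun x => fderiv ℝ φ (x + r • w)) := hd.comp (by fun_prop)
  refine (norm_iteratedFDeriv_clm_apply_const (c := w) hc.contDiffAt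
    (n := k) (by exact_mod_cast le_top)).trans ?_
  rw [hw, one_mul, iteratedFDeriv_comp_add_right, norm_iteratedFDeriv_fderiv]
  refine h _ ?_
  rw [add_sub_cancel_left, norm_smul, hw, mul_one, Real.norm_eq_abs]

theorem iter_Sop_le {φ : R3 → ℝ} (hφ : ContDiff ℝ ∞ φ) (k : ℕ) (t : ℝ) (x : R3) {C : ℝ}
    (h : ∀ y : R3, ‖y - x‖ = |t| → ‖iteratedFDeriv ℝ k φ y‖ ≤ C) :
    ‖iteratedFDeriv ℝ k (fun x => Sop φ t x) x‖ ≤ |t| * C := by
  have hM : ContDiff ℝ ∞ (fun x => Mn φ t x) :=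
    (contDiff_Mn hφ).comp (by fun_prop : ContDiff ℝ ∞ fun y : R3 => (t, y))
  have e : iteratedFDeriv ℝ k (fun x => Sop φ t x) x
      = t • iteratedFDeriv ℝ k (fun x => Mn φ t x) x :=
    iteratedFDeriv_const_smul_apply' (𝕜 := ℝ) (a := t)
      ((hM.of_le (by exact_mod_cast le_top)).contDiffAt)
  rw [e, norm_smul, Real.norm_eq_abs]
  exact mul_le_mul_of_nonneg_left (iter_Mn_le hφ k t x h) (abs_nonneg t)

theorem iter_Sdot_le {φ : R3 → ℝ} (hφ : ContDiff ℝ ∞ φ) (k : ℕ) (t : ℝ) (x : R3) {C D : ℝ}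
    (h : ∀ y : R3, ‖y - x‖ = |t| → ‖iteratedFDeriv ℝ k φ y‖ ≤ C)
    (h' : ∀ y : R3, ‖y - x‖ = |t| → ‖iteratedFDeriv ℝ (k + 1) φ y‖ ≤ D) :
    ‖iteratedFDeriv ℝ k (fun x => Sdot φ t x) x‖ ≤ C + |t| * D := by
  have hM : ContDiff ℝ ∞ (fun x => Mn φ t x) :=
    (contDiff_Mn hφ).comp (by fun_prop : ContDiff ℝ ∞ fun y : R3 => (t, y))
  have hR : ContDiff ℝ ∞ (fun x => Mr φ t x) :=
    (contDiff_Mr hφ).comp (by fun_prop : ContDiff ℝ ∞ fun y : R3 => (t, y))
  have e2 : iteratedFDeriv ℝ k (fun x => t * Mr φ t x) x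
      = t • iteratedFDeriv ℝ k (fun x => Mr φ t x) x :=
    iteratedFDeriv_const_smul_apply' (𝕜 := ℝ) (a := t)
      ((hR.of_le (by exact_mod_cast le_top)).contDiffAt)
  have e : iteratedFDeriv ℝ k (fun x => Sdot φ t x) x
      = iteratedFDeriv ℝ k (fun x => Mn φ t x) x
        + t • iteratedFDeriv ℝ k (fun x => Mr φ t x) x := by
    rw [← e2]
    exact fun_iteratedFDeriv_add_apply ((hM.of_le (by exact_mod_cast le_top)).contDiffAt)
      (((contDiff_const.mul hR).of_le (by exact_mod_cast le_top)).contDiffAt)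
  rw [e]
  refine (norm_add_le _ _).trans (add_le_add (iter_Mn_le hφ k t x h) ?_)
  rw [norm_smul, Real.norm_eq_abs]
  exact mul_le_mul_of_nonneg_left (iter_Mr_le hφ k t x h') (abs_nonneg t)

variable {h : ℝ → R3 → ℝ}

theorem iter_W_le (hh : JS h) (k : ℕ) (t : ℝ) (x : R3) {m : ℝ → ℝ} (hm : Continuous m)
    (hb : ∀ s ∈ uIcc 0 t, ∀ y : R3, ‖iteratedFDeriv ℝ k (h s) y‖ ≤ m s) :
    ‖iteratedFDeriv ℝ k (fun x => W h t x) x‖ ≤ |∫ s in (0 : ℝ)..t, |t - s| * m s| := by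
  unfold W
  refine interval_iter_le k (g := fun q : R3 × ℝ => Sop (h q.2) (t - q.2) q.1) ?_ x 0 t
    (m := fun s => |t - s| * m s) ?_ ?_
  · exact ContDiff.comp (contDiff_Sop_param hh)
      (f := fun q : R3 × ℝ => (q.2, t - q.2, q.1)) (by fun_prop)
  · exact (by fun_prop : Continuous fun s => |t - s| * m s).intervalIntegrable _ _
  · intro s hs
    exact iter_Sop_le (hh.space s) k (t - s) x fun y _ => hb s hs y

theorem iter_Wd_le (hh : JS h) (k : ℕ) (t : ℝ) (x : R3) {m m' : ℝ → ℝ} (hm : Continuous m)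
    (hm' : Continuous m')
    (hb : ∀ s ∈ uIcc 0 t, ∀ y : R3, ‖iteratedFDeriv ℝ k (h s) y‖ ≤ m s)
    (hb' : ∀ s ∈ uIcc 0 t, ∀ y : R3, ‖iteratedFDeriv ℝ (k + 1) (h s) y‖ ≤ m' s) :
    ‖iteratedFDeriv ℝ k (fun x => Wd h t x) x‖ ≤ |∫ s in (0 : ℝ)..t, (m s + |t - s| * m' s)| := by
  unfold Wd
  refine interval_iter_le k (g := fun q : R3 × ℝ => Sdot (h q.2) (t - q.2) q.1) ?_ x 0 t
    (m := fun s => m s + |t - s| * m' s) ?_ ?_
  · exact ContDiff.comp (contDiff_Sdot_param hh)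
      (f := fun q : R3 × ℝ => (q.2, t - q.2, q.1)) (by fun_prop)
  · exact (by fun_prop : Continuous fun s => m s + |t - s| * m' s).intervalIntegrable _ _
  · intro s hs
    exact iter_Sdot_le (hh.space s) k (t - s) x (fun y _ => hb s hs y) fun y _ => hb' s hs y

end ops

/-! ### coordinates -/

section coord

theorem iter_coord_le {F : R3 → R3} (hF : ContDiff ℝ ∞ F) (k : ℕ) (x : R3) (i : Fin 3) :
    ‖iteratedFDeriv ℝ k (fun y => F y i) x‖ ≤ ‖iteratedFDeriv ℝ k F x‖ := by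
  have h := (EuclideanSpace.proj i : R3 →L[ℝ] ℝ).norm_iteratedFDeriv_comp_left
    (f := F) (x := x) (n := k) hF.contDiffAt (by exact_mod_cast le_top)
  refine h.trans ?_
  have h1 : ‖(EuclideanSpace.proj i : R3 →L[ℝ] ℝ)‖ ≤ 1 := by
    refine ContinuousLinearMap.opNorm_le_bound _ zero_le_one fun y => ?_
    rw [one_mul]
    exact PiLp.norm_apply_le y i
  exact (mul_le_mul_of_nonneg_right h1 (norm_nonneg _)).trans (one_mul _).le

theorem iter_le_sum {F : R3 → R3} (hF : ContDiff ℝ ∞ F) (k : ℕ) (x : R3) :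
    ‖iteratedFDeriv ℝ k F x‖ ≤ ∑ i : Fin 3, ‖iteratedFDeriv ℝ k (fun y => F y i) x‖ := by
  have hc : ∀ i : Fin 3, ContDiff ℝ ∞ (fun y => F y i) := fun i => (contDiff_euclidean.1 hF) i
  have e : F = fun y => ∑ i : Fin 3, F y i • (EuclideanSpace.single i (1 : ℝ) : R3) := by
    funext y
    ext j
    simp [Pi.single_apply]
  have hs : ∀ i : Fin 3, ContDiff ℝ ∞
      (fun y => F y i • (EuclideanSpace.single i (1 : ℝ) : R3)) := fun i =>
    (hc i).smul contDiff_const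
  have e2 : iteratedFDeriv ℝ k F x = ∑ i : Fin 3,
      iteratedFDeriv ℝ k (fun y => F y i • (EuclideanSpace.single i (1 : ℝ) : R3)) x := by
    conv_lhs => rw [e]
    exact iteratedFDeriv_fun_sum_apply fun i _ =>
      ((hs i).of_le (by exact_mod_cast le_top)).contDiffAt
  rw [e2]
  refine (norm_sum_le _ _).trans (Finset.sum_le_sum fun i _ => ?_)
  have h := ((ContinuousLinearMap.id ℝ ℝ).smulRight
    (EuclideanSpace.single i (1 : ℝ) : R3)).norm_iteratedFDeriv_comp_left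
    (f := fun y => F y i) (x := x) (n := k) (hc i).contDiffAt (by exact_mod_cast le_top)
  refine le_trans (le_of_eq ?_) (h.trans ?_)
  · rfl
  · have h1 : ‖(ContinuousLinearMap.id ℝ ℝ).smulRight
        (EuclideanSpace.single i (1 : ℝ) : R3)‖ ≤ 1 := by
      refine ContinuousLinearMap.opNorm_le_bound _ zero_le_one fun c => ?_
      simp [norm_smul]
    exact (mul_le_mul_of_nonneg_right h1 (norm_nonneg _)).trans (one_mul _).le

theorem iter_pderiv_le {φ : R3 → ℝ} (hφ : ContDiff ℝ ∞ φ) (k : ℕ) (x : R3) (i : Fin 3) :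
    ‖iteratedFDeriv ℝ k (fun y => pderiv φ i y) x‖ ≤ ‖iteratedFDeriv ℝ (k + 1) φ x‖ := by
  have hd : ContDiff ℝ ∞ (fderiv ℝ φ) := hφ.fderiv_right (m := ∞) (by simp)
  refine (norm_iteratedFDeriv_clm_apply_const (c := (EuclideanSpace.single i (1 : ℝ) : R3))
    hd.contDiffAt (n := k) (by exact_mod_cast le_top)).trans ?_
  rw [norm_iteratedFDeriv_fderiv]
  simp

end coord

/-! ### slab-bounded smooth functions -/

/-- jointly smooth, every spatial derivative bounded on slabs -/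
def SFs (u : ℝ → R3 → ℝ) : Prop :=
  JS u ∧ ∀ (T : ℝ) (k : ℕ), ∃ C : ℝ, ∀ t : ℝ, |t| ≤ T → ∀ x : R3, ‖iteratedFDeriv ℝ k (u t) x‖ ≤ C

/-- smooth with all derivatives bounded -/
def Bd (φ : R3 → ℝ) : Prop :=
  ContDiff ℝ ∞ φ ∧ ∀ k : ℕ, ∃ C : ℝ, ∀ x : R3, ‖iteratedFDeriv ℝ k φ x‖ ≤ C

section sf
variable {u v : ℝ → R3 → ℝ}

theorem SFs.js (h : SFs u) : JS u := h.1

theorem SFs.congr (h : SFs u) (e : ∀ t x, v t x = u t x) : SFs v := by
  have : v = u := by funext t x; exact e t x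
  rwa [this]

theorem SFs.at_bd (h : SFs u) (t : ℝ) : Bd (u t) := by
  refine ⟨h.1.space t, fun k => ?_⟩
  obtain ⟨C, hC⟩ := h.2 |t| k
  exact ⟨C, hC t le_rfl⟩

theorem SFs.add (hu : SFs u) (hv : SFs v) : SFs (fun t x => u t x + v t x) := by
  refine ⟨hu.1.add hv.1, fun T k => ?_⟩
  obtain ⟨C, hC⟩ := hu.2 T k
  obtain ⟨D, hD⟩ := hv.2 T k
  refine ⟨C + D, fun t ht x => ?_⟩
  have e : iteratedFDeriv ℝ k (fun x => u t x + v t x) x
      = iteratedFDeriv ℝ k (u t) x + iteratedFDeriv ℝ k (v t) x :=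
    fun_iteratedFDeriv_add_apply (((hu.1.space t).of_le (by exact_mod_cast le_top)).contDiffAt)
      (((hv.1.space t).of_le (by exact_mod_cast le_top)).contDiffAt)
  rw [e]
  exact (norm_add_le _ _).trans (add_le_add (hC t ht x) (hD t ht x))

theorem SFs.neg (hu : SFs u) : SFs (fun t x => - u t x) := by
  refine ⟨hu.1.neg, fun T k => ?_⟩
  obtain ⟨C, hC⟩ := hu.2 T k
  refine ⟨C, fun t ht x => ?_⟩
  have e : iteratedFDeriv ℝ k (fun x => - u t x) x = - iteratedFDeriv ℝ k (u t) x :=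
    iteratedFDeriv_neg_apply
  rw [e, norm_neg]
  exact hC t ht x

theorem SFs.sub (hu : SFs u) (hv : SFs v) : SFs (fun t x => u t x - v t x) :=
  (hu.add hv.neg).congr fun t x => by ring

theorem SFs.const_mul (c : ℝ) (hu : SFs u) : SFs (fun t x => c * u t x) := by
  refine ⟨ContDiff.mul contDiff_const hu.1, fun T k => ?_⟩
  obtain ⟨C, hC⟩ := hu.2 T k
  refine ⟨|c| * C, fun t ht x => ?_⟩
  have e : iteratedFDeriv ℝ k (fun x => c * u t x) x = c • iteratedFDeriv ℝ k (u t) x :=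
    iteratedFDeriv_const_smul_apply' (𝕜 := ℝ) (a := c)
      (((hu.1.space t).of_le (by exact_mod_cast le_top)).contDiffAt)
  rw [e, norm_smul, Real.norm_eq_abs]
  exact mul_le_mul_of_nonneg_left (hC t ht x) (abs_nonneg c)

theorem SFs.zero : SFs (fun _ _ => (0 : ℝ)) := by
  refine ⟨contDiff_const, fun T k => ⟨0, fun t _ x => ?_⟩⟩
  have : iteratedFDeriv ℝ k (fun _ : R3 => (0 : ℝ)) x = 0 := by simp
  rw [this, norm_zero]

theorem SFs.sum {ι : Type*} (s : Finset ι) {w : ι → ℝ → R3 → ℝ} (h : ∀ i ∈ s, SFs (w i)) :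
    SFs (fun t x => ∑ i ∈ s, w i t x) := by
  classical
  induction s using Finset.induction_on with
  | empty => simpa using SFs.zero
  | insert a s ha ih =>
    have h1 := (h a (Finset.mem_insert_self a s)).add
      (ih fun i hi => h i (Finset.mem_insert_of_mem hi))
    exact h1.congr fun t x => Finset.sum_insert ha

theorem SFs.dx (hu : SFs u) (i : Fin 3) : SFs (fun t x => pderiv (u t) i x) := by
  refine ⟨hu.1.dx i, fun T k => ?_⟩
  obtain ⟨C, hC⟩ := hu.2 T (k + 1)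
  exact ⟨C, fun t ht x => (iter_pderiv_le (hu.1.space t) k x i).trans (hC t ht x)⟩

theorem Bd.pderiv {φ : R3 → ℝ} (h : Bd φ) (i : Fin 3) : Bd (fun x => pderiv φ i x) := by
  refine ⟨contDiff_pderiv h.1 i, fun k => ?_⟩
  obtain ⟨C, hC⟩ := h.2 (k + 1)
  exact ⟨C, fun x => (iter_pderiv_le h.1 k x i).trans (hC x)⟩

theorem sfs_Sop {φ : R3 → ℝ} (h : Bd φ) : SFs (fun t x => Sop φ t x) := by
  refine ⟨js_Sop h.1, fun T k => ?_⟩
  obtain ⟨C, hC⟩ := h.2 k
  have hC0 : 0 ≤ C := (norm_nonneg _).trans (hC 0)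
  refine ⟨T * C, fun t ht x => (iter_Sop_le h.1 k t x fun y _ => hC y).trans ?_⟩
  exact mul_le_mul_of_nonneg_right ht hC0

theorem sfs_Sdot {φ : R3 → ℝ} (h : Bd φ) : SFs (fun t x => Sdot φ t x) := by
  refine ⟨js_Sdot h.1, fun T k => ?_⟩
  obtain ⟨C, hC⟩ := h.2 k
  obtain ⟨D, hD⟩ := h.2 (k + 1)
  have hD0 : 0 ≤ D := (norm_nonneg _).trans (hD 0)
  refine ⟨C + T * D, fun t ht x =>
    (iter_Sdot_le h.1 k t x (fun y _ => hC y) fun y _ => hD y).trans ?_⟩
  have := mul_le_mul_of_nonneg_right ht hD0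
  linarith

theorem sfs_W (hu : SFs u) : SFs (fun t x => W u t x) := by
  refine ⟨js_W hu.1, fun T k => ?_⟩
  obtain ⟨C, hC⟩ := hu.2 T k
  rcases lt_or_ge T 0 with hT | hT
  · exact ⟨0, fun t ht => absurd ((abs_nonneg t).trans ht) (not_le.2 hT)⟩
  have hC0 : 0 ≤ C := (norm_nonneg _).trans (hC 0 (by simpa using hT) 0)
  refine ⟨T * C * T, fun t ht x => ?_⟩
  have hs : ∀ s ∈ uIcc 0 t, |s| ≤ |t| ∧ |t - s| ≤ |t| := by
    intro s hs
    rcases le_total 0 t with h | h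
    · rw [uIcc_of_le h] at hs
      rw [abs_of_nonneg hs.1, abs_of_nonneg h, abs_of_nonneg (sub_nonneg.2 hs.2)]
      exact ⟨hs.2, by linarith [hs.1]⟩
    · rw [uIcc_of_ge h] at hs
      rw [abs_of_nonpos hs.2, abs_of_nonpos h, abs_of_nonpos (sub_nonpos.2 hs.1)]
      exact ⟨by linarith [hs.1], by linarith [hs.2]⟩
  refine (iter_W_le hu.1 k t x (m := fun _ => C) continuous_const
    fun s h y => hC s ((hs s h).1.trans ht) y).trans ?_
  have h1 := intervalIntegral.norm_integral_le_of_norm_le_const (a := (0 : ℝ)) (b := t)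
    (f := fun s => |t - s| * C) (C := T * C) (fun s h => by
      rw [Real.norm_eq_abs, abs_of_nonneg (mul_nonneg (abs_nonneg _) hC0)]
      exact mul_le_mul_of_nonneg_right (((hs s (uIoc_subset_uIcc h)).2).trans ht) hC0)
  rw [Real.norm_eq_abs, sub_zero] at h1
  exact h1.trans (mul_le_mul_of_nonneg_left ht (mul_nonneg hT hC0))

theorem sfs_Wd (hu : SFs u) : SFs (fun t x => Wd u t x) := by
  refine ⟨js_Wd hu.1, fun T k => ?_⟩
  obtain ⟨C, hC⟩ := hu.2 T k
  obtain ⟨D, hD⟩ := hu.2 T (k + 1)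
  rcases lt_or_ge T 0 with hT | hT
  · exact ⟨0, fun t ht => absurd ((abs_nonneg t).trans ht) (not_le.2 hT)⟩
  have hC0 : 0 ≤ C := (norm_nonneg _).trans (hC 0 (by simpa using hT) 0)
  have hD0 : 0 ≤ D := (norm_nonneg _).trans (hD 0 (by simpa using hT) 0)
  refine ⟨(C + T * D) * T, fun t ht x => ?_⟩
  have hs : ∀ s ∈ uIcc 0 t, |s| ≤ |t| ∧ |t - s| ≤ |t| := by
    intro s hs
    rcases le_total 0 t with h | h
    · rw [uIcc_of_le h] at hs
      rw [abs_of_nonneg hs.1, abs_of_nonneg h, abs_of_nonneg (sub_nonneg.2 hs.2)]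
      exact ⟨hs.2, by linarith [hs.1]⟩
    · rw [uIcc_of_ge h] at hs
      rw [abs_of_nonpos hs.2, abs_of_nonpos h, abs_of_nonpos (sub_nonpos.2 hs.1)]
      exact ⟨by linarith [hs.1], by linarith [hs.2]⟩
  refine (iter_Wd_le hu.1 k t x (m := fun _ => C) (m' := fun _ => D) continuous_const
    continuous_const (fun s h y => hC s ((hs s h).1.trans ht) y)
    fun s h y => hD s ((hs s h).1.trans ht) y).trans ?_
  have h1 := intervalIntegral.norm_integral_le_of_norm_le_const (a := (0 : ℝ)) (b := t)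
    (f := fun s => C + |t - s| * D) (C := C + T * D) (fun s h => by
      rw [Real.norm_eq_abs, abs_of_nonneg (add_nonneg hC0 (mul_nonneg (abs_nonneg _) hD0))]
      have := mul_le_mul_of_nonneg_right (((hs s (uIoc_subset_uIcc h)).2).trans ht) hD0
      linarith)
  rw [Real.norm_eq_abs, sub_zero] at h1
  exact h1.trans (mul_le_mul_of_nonneg_left ht (by positivity))

/-- jointly smooth with bounded `x`-support on slabs -/
theorem sfs_of_supp (hu : JS u)
    (hs : ∀ T : ℝ, ∃ R : ℝ, ∀ t : ℝ, |t| ≤ T → ∀ x : R3, R < ‖x‖ → u t x = 0) : SFs u := by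
  refine ⟨hu, fun T k => ?_⟩
  obtain ⟨R, hR⟩ := hs T
  have hc : ContinuousOn (R240.SmJ.jy k (fun p : ℝ × R3 => u p.1 p.2)) univ :=
    (R240.SmJ.contDiffOn_jy (s := univ) isOpen_univ (ContDiff.contDiffOn hu) k).continuousOn
  obtain ⟨C, hC⟩ := ((isCompact_Icc (a := -T) (b := T)).prod
    (isCompact_closedBall (0 : R3) (R + 1))).exists_bound_of_continuousOn
    (f := R240.SmJ.jy k (fun p : ℝ × R3 => u p.1 p.2)) (hc.mono (subset_univ _))
  refine ⟨max C 0, fun t ht x => ?_⟩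
  by_cases hx : ‖x‖ ≤ R + 1
  · have := hC (t, x) ⟨abs_le.1 ht, by simpa using hx⟩
    exact le_trans this (le_max_left _ _)
  · have hx' : R < ‖x‖ := by linarith [not_le.1 hx]
    have e : u t =ᶠ[𝓝 x] fun _ => 0 := by
      filter_upwards [(isOpen_lt continuous_const continuous_norm).mem_nhds hx'] with y hy
      exact hR t ht y hy
    rw [(e.iteratedFDeriv ℝ k).eq_of_nhds]
    have : iteratedFDeriv ℝ k (fun _ : R3 => (0 : ℝ)) x = 0 := by simp
    rw [this, norm_zero]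
    exact le_max_right _ _

end sf

/-! ### vector fields -/

open Crest.Agent.R106.Std in
theorem sf_iff {F : ℝ → R3 → R3} : SF F ↔ ∀ i : Fin 3, SFs (fun t x => F t x i) := by
  constructor
  · intro h i
    have hs : ∀ t, ContDiff ℝ ∞ (F t) := fun t => JS.space (u := F) h.1 t
    refine ⟨(contDiff_euclidean.1 h.1) i, fun T k => ?_⟩
    obtain ⟨C, hC⟩ := h.2 T k
    exact ⟨C, fun t ht x => (iter_coord_le (hs t) k x i).trans (hC t ht x)⟩
  · intro h
    have hj : ContDiff ℝ ∞ (fun p : ℝ × R3 => F p.1 p.2) := contDiff_euclidean.2 fun i => (h i).1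
    have hs : ∀ t, ContDiff ℝ ∞ (F t) := fun t => JS.space (u := F) hj t
    refine ⟨hj, fun T k => ?_⟩
    choose C hC using fun i => (h i).2 T k
    refine ⟨∑ i, C i, fun t ht x => (iter_le_sum (hs t) k x).trans ?_⟩
    exact Finset.sum_le_sum fun i _ => hC i t ht x

open Crest.Agent.R106.Std in
theorem SF.curl {F : ℝ → R3 → R3} (h : SF F) : SF (fun t x => curl3 (F t) x) := by
  have hc := sf_iff.1 h
  rw [sf_iff]
  intro i
  fin_cases i
  · exact ((hc 2).dx 1).sub ((hc 1).dx 2)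
  · exact ((hc 0).dx 2).sub ((hc 2).dx 0)
  · exact ((hc 1).dx 0).sub ((hc 0).dx 1)

/-- bounded data: coordinates of a bounded smooth field -/
theorem bd_coord {F : R3 → R3} (hF : ContDiff ℝ ∞ F)
    (hb : ∀ n : ℕ, ∃ C : ℝ, ∀ x, ‖iteratedFDeriv ℝ n F x‖ ≤ C) (i : Fin 3) :
    Bd (fun x => F x i) := by
  refine ⟨(contDiff_euclidean.1 hF) i, fun k => ?_⟩
  obtain ⟨C, hC⟩ := hb k
  exact ⟨C, fun x => (iter_coord_le hF k x i).trans (hC x)⟩

theorem Bd.add {φ ψ : R3 → ℝ} (h : Bd φ) (h' : Bd ψ) : Bd (fun x => φ x + ψ x) := by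
  refine ⟨h.1.add h'.1, fun k => ?_⟩
  obtain ⟨C, hC⟩ := h.2 k
  obtain ⟨D, hD⟩ := h'.2 k
  refine ⟨C + D, fun x => ?_⟩
  have e : iteratedFDeriv ℝ k (fun x => φ x + ψ x) x
      = iteratedFDeriv ℝ k φ x + iteratedFDeriv ℝ k ψ x :=
    fun_iteratedFDeriv_add_apply ((h.1.of_le (by exact_mod_cast le_top)).contDiffAt)
      ((h'.1.of_le (by exact_mod_cast le_top)).contDiffAt)
  rw [e]
  exact (norm_add_le _ _).trans (add_le_add (hC x) (hD x))

theorem Bd.neg {φ : R3 → ℝ} (h : Bd φ) : Bd (fun x => - φ x) := by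
  refine ⟨h.1.neg, fun k => ?_⟩
  obtain ⟨C, hC⟩ := h.2 k
  refine ⟨C, fun x => ?_⟩
  have e : iteratedFDeriv ℝ k (fun x => - φ x) x = - iteratedFDeriv ℝ k φ x :=
    iteratedFDeriv_neg_apply
  rw [e, norm_neg]
  exact hC x

theorem Bd.sub {φ ψ : R3 → ℝ} (h : Bd φ) (h' : Bd ψ) : Bd (fun x => φ x - ψ x) := by
  have := h.add h'.neg
  simpa only [sub_eq_add_neg] using this

/-- coordinates of the curl of a bounded smooth field -/
theorem bd_curl {F : R3 → R3} (hF : ContDiff ℝ ∞ F)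
    (hb : ∀ n : ℕ, ∃ C : ℝ, ∀ x, ‖iteratedFDeriv ℝ n F x‖ ≤ C) (i : Fin 3) :
    Bd (fun x => curl3 F x i) := by
  have hc := bd_coord hF hb
  fin_cases i
  · exact ((hc 2).pderiv 1).sub ((hc 1).pderiv 2)
  · exact ((hc 0).pderiv 2).sub ((hc 2).pderiv 0)
  · exact ((hc 1).pderiv 0).sub ((hc 0).pderiv 1)

end Crest.Agent.R106.Kir
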