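import Crest.Agent.R106.Src2
import Crest.Agent.R106.StdIface

/-!
Row 106, node `Std.Src` (helper105).
-/

set_option autoImplicit false

open MeasureTheory Set Filter Topology
open scoped ContDiff
open Crest.AnalysisR.VecCalc3 Crest.AnalysisR.PDE.RVM

namespace Crest.Agent.R106.Std

lemma PC.vsupp {f : ℝ → R3 → R3 → ℝ} (h : PC f) : Src.VSupp f univ := by
  intro t _
  obtain ⟨R, hR⟩ := h.2 (|t| + 1)
  refine ⟨Metric.ball t 1, Metric.ball_mem_nhds t one_pos, R, fun t' ht' x v hv => ?_⟩
  refine hR t' ?_ x v (Or.inr hv)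
  have h1 : |t' - t| < 1 := by simpa [Real.dist_eq] using ht'
  have h2 : |t'| ≤ |t' - t| + |t| := by
    have := abs_add_le (t' - t) t
    simpa using this
  linarith

/-- **SRC.** -/
theorem src : Src := by
  intro P G hG E B hE hB f hf htr
  refine ⟨?_, ?_, ?_, ?_⟩
  · exact Src.contDiff_chargeDensity (n := ⊤) hf.1 hf.vsupp
  · exact Src.contDiff_currentDensity (n := ⊤) hf.1 hf.vsupp
  · intro T
    obtain ⟨R, hR⟩ := hf.2 T
    refine ⟨R, fun t ht x hx => ⟨?_, ?_⟩⟩
    · exact Src.chargeDensity_eq_zero (fun v => hR t ht x v (Or.inl hx))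
    · exact Src.currentDensity_eq_zero (fun v => hR t ht x v (Or.inl hx))
  · intro t x
    have hsm : ContDiffOn ℝ 1 (fun p : ℝ × R3 × R3 => f p.1 p.2.1 p.2.2) (univ ×ˢ univ) :=
      (hf.1.of_le (by exact_mod_cast le_top)).contDiffOn
    refine Src.continuity_eq_of_force isOpen_univ hsm hf.vsupp (mem_univ t) x
      (G := fun v => G v (E t x, B t x)) ?_ (fun v => hG.divfree _ v) (fun v => htr t x v)
    have h1 : ContDiff ℝ 1 G := hG.smooth.of_le (by exact_mod_cast le_top)
    exact h1.clm_apply contDiff_const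

end Crest.Agent.R106.Std
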