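import Crest.Agent.R106.StdIface
import Crest.Agent.R106.Gs2Defs
import Crest.Agent.R106.Src2
import Crest.Agent.R106.SrcStd
import Crest.Agent.R106.KirRep
import Crest.Agent.R106.KirSm
import Crest.Agent.R106.FieldWave
import Crest.Agent.R106.FbRev

/-!
# Row 106, standard part, FB and FBz (helper330)

The field bounds `FBpos`, `FBzpos` of `Rev` from Kirchhoff's formula (helper246, 262), Maxwell's wave
equations (helper835) and the sup estimate `Gs2.SupEst` (helper375), directly in the global class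
(`J = univ`).

Class `SW`: a scalar wave `u` with `□u = mom m₁ (D₁ H) + mom m₂ (D₂ H)`, `T H = div_v G`; it is closed
under `∂_i`, and the bound of order `k + 1` follows from the bound of order `k` for `∂_i u`.
-/

set_option autoImplicit false
set_option linter.unusedSectionVars false
set_option linter.unusedVariables false
set_option maxHeartbeats 1000000
open MeasureTheory Set Filter Topology
open scoped ContDiff
open Crest.AnalysisR.VecCalc3 Crest.AnalysisR.PDE.RVM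

noncomputable section

namespace Crest.Agent.R106.FBDir

open Crest.Agent.R106.Gs2 (PS ev Tr divv dxt mom Wv SupEst)
open Crest.Agent.R106.Kir (JS W Sop Sdot lap Bd)
open Crest.Agent.R106.GSR (pt px box)
open Crest.Agent.R106.Field (dd dd_comm dd_sub dd_add dd_sum contDiffOn_dd diffAt)

abbrev eb (i : Fin 3) : R3 := EuclideanSpace.single i (1 : ℝ)

theorem norm_eb (i : Fin 3) : ‖eb i‖ = 1 := by simp [eb]

theorem inf_le {k : ℕ} : ((k : ℕ∞) : WithTop ℕ∞) ≤ ∞ := by exact_mod_cast le_top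

/-! ### norm comparisons -/

/-- the coordinate functional -/
def dxi (i : Fin 3) : R3 →L[ℝ] ℝ := EuclideanSpace.proj i

theorem norm_dxi_le (i : Fin 3) : ‖dxi i‖ ≤ 1 := by
  refine ContinuousLinearMap.opNorm_le_bound _ zero_le_one fun x => ?_
  rw [one_mul]
  exact PiLp.norm_apply_le x i

theorem fderiv_eq_sum_dxi {F : R3 → ℝ} (x : R3) :
    fderiv ℝ F x = ∑ i : Fin 3, pderiv F i x • dxi i := by
  ext v
  conv_lhs => rw [Std.FbRev.r3_sum v]
  rw [map_sum]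
  simp only [map_smul, smul_eq_mul, FunLike.coe_sum, Finset.sum_apply, FunLike.coe_smul,
    Pi.smul_apply]
  refine Finset.sum_congr rfl fun i _ => ?_
  show v i * pderiv F i x = pderiv F i x * v i
  ring

theorem norm_iter_smul_const_le {V : Type*} [NormedAddCommGroup V] [NormedSpace ℝ V]
    {F : R3 → ℝ} (hF : ContDiff ℝ ∞ F) (c : V) (k : ℕ) (x : R3) :
    ‖iteratedFDeriv ℝ k (fun y => F y • c) x‖ ≤ ‖c‖ * ‖iteratedFDeriv ℝ k F x‖ := by
  have h := (ContinuousLinearMap.toSpanSingleton ℝ c).norm_iteratedFDeriv_comp_left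
    (f := F) (x := x) (N := ∞) (n := k) hF.contDiffAt inf_le
  refine le_trans (le_of_eq ?_) (h.trans (mul_le_mul_of_nonneg_right ?_ (norm_nonneg _)))
  · rfl
  · rw [ContinuousLinearMap.norm_toSpanSingleton]

theorem norm_iter_succ_le {F : R3 → ℝ} (hF : ContDiff ℝ ∞ F) (k : ℕ) (x : R3) :
    ‖iteratedFDeriv ℝ (k + 1) F x‖ ≤
      ∑ i : Fin 3, ‖iteratedFDeriv ℝ k (fun y => pderiv F i y) x‖ := by
  have hp : ∀ i, ContDiff ℝ ∞ (fun y => pderiv F i y) := fun i => Kir.contDiff_pderiv hF i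
  have hs : ∀ i : Fin 3, ContDiff ℝ ∞ (fun y => pderiv F i y • dxi i) := fun i =>
    (hp i).smul contDiff_const
  rw [← norm_iteratedFDeriv_fderiv]
  have e : fderiv ℝ F = fun y => ∑ i : Fin 3, pderiv F i y • dxi i := by
    funext y; exact fderiv_eq_sum_dxi y
  have e2 : iteratedFDeriv ℝ k (fderiv ℝ F) x = ∑ i : Fin 3,
      iteratedFDeriv ℝ k (fun y => pderiv F i y • dxi i) x := by
    rw [e]
    exact iteratedFDeriv_fun_sum_apply fun i _ => ((hs i).of_le inf_le).contDiffAt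
  rw [e2]
  refine (norm_sum_le _ _).trans (Finset.sum_le_sum fun i _ => ?_)
  refine (norm_iter_smul_const_le (hp i) (dxi i) k x).trans ?_
  calc ‖dxi i‖ * _ ≤ 1 * _ := mul_le_mul_of_nonneg_right (norm_dxi_le i) (norm_nonneg _)
    _ = _ := one_mul _

/-! ### slices -/

section slices
variable {H : PS → ℝ}

theorem diffH (hH : ContDiff ℝ ∞ H) (p : PS) : DifferentiableAt ℝ H p :=
  (hH.differentiable (by simp)) p

theorem dxt_slice (hH : ContDiff ℝ ∞ H) (s : ℝ) (y v e : R3) :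
    dxt 0 e H (s, y, v) = fderiv ℝ (fun z => H (s, z, v)) y e := by
  have h2 : HasFDerivAt (fun z : R3 => ((s, z, v) : PS))
      ((0 : R3 →L[ℝ] ℝ).prod ((ContinuousLinearMap.id ℝ R3).prod 0)) y :=
    (hasFDerivAt_const s y).prodMk ((hasFDerivAt_id y).prodMk (hasFDerivAt_const v y))
  have h3 : HasFDerivAt (fun z : R3 => H (s, z, v))
      ((fderiv ℝ H (s, y, v)).comp
        ((0 : R3 →L[ℝ] ℝ).prod ((ContinuousLinearMap.id ℝ R3).prod 0))) y :=
    HasFDerivAt.comp y (f := fun z : R3 => ((s, z, v) : PS)) (diffH hH _).hasFDerivAt h2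
  rw [h3.fderiv]
  rfl

theorem smooth_dir (hH : ContDiff ℝ ∞ H) (w : PS) : ContDiff ℝ ∞ (fun p => fderiv ℝ H p w) := by
  have h1 : ContDiff ℝ ∞ (fderiv ℝ H) := hH.fderiv_right (m := ∞) (by simp)
  exact h1.clm_apply contDiff_const

theorem smooth_dxt (hH : ContDiff ℝ ∞ H) (a : ℝ) (b : R3) : ContDiff ℝ ∞ (dxt a b H) :=
  smooth_dir hH _

theorem slice_smooth (hH : ContDiff ℝ ∞ H) (s : ℝ) (v : R3) :
    ContDiff ℝ ∞ (fun z : R3 => H (s, z, v)) := by
  have : ContDiff ℝ ∞ (fun z : R3 => ((s, z, v) : PS)) := by fun_prop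
  exact hH.comp this

theorem dir_comm (hH : ContDiff ℝ ∞ H) (w z p : PS) :
    fderiv ℝ (fun q => fderiv ℝ H q w) p z = fderiv ℝ (fun q => fderiv ℝ H q z) p w :=
  Kir.symmE hH.contDiffAt w z

theorem dxt_comm (hH : ContDiff ℝ ∞ H) (a a' : ℝ) (b b' : R3) :
    dxt a b (dxt a' b' H) = dxt a' b' (dxt a b H) := by
  funext p
  exact dir_comm hH _ _ _

/-- the derivative of the transport equation -/
theorem Tr_dxt (hH : ContDiff ℝ ∞ H) (e : R3) (p : PS) :
    Tr (dxt 0 e H) p = fderiv ℝ (fun z => Tr H (p.1, z, p.2.2)) p.2.1 e := by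
  obtain ⟨s, y, v⟩ := p
  have h1 : Tr (dxt 0 e H) (s, y, v)
      = fderiv ℝ (fun q => fderiv ℝ H q (0, e, 0)) (s, y, v) (1, relVel v, 0) := rfl
  rw [h1, dir_comm hH]
  exact dxt_slice (smooth_dir hH (1, relVel v, 0)) s y v e

theorem divv_dxt {G : Fin 3 → PS → ℝ} (hG : ∀ i, ContDiff ℝ ∞ (G i)) (e : R3) (p : PS) :
    divv (fun j => dxt 0 e (G j)) p = fderiv ℝ (fun z => divv G (p.1, z, p.2.2)) p.2.1 e := by
  obtain ⟨s, y, v⟩ := p
  have h1 : divv (fun j => dxt 0 e (G j)) (s, y, v)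
      = ∑ j, fderiv ℝ (fun q => fderiv ℝ (G j) q (0, e, 0)) (s, y, v) (ev j) := rfl
  have h2 : (fun z => divv G (s, z, v)) = fun z => ∑ j, fderiv ℝ (G j) (s, z, v) (ev j) := rfl
  rw [h1]
  show _ = fderiv ℝ (fun z => divv G (s, z, v)) y e
  rw [h2, fderiv_fun_sum (fun j _ =>
    ((slice_smooth (smooth_dir (hG j) (ev j)) s v).differentiable (by simp)) y)]
  rw [FunLike.coe_sum, Finset.sum_apply]
  refine Finset.sum_congr rfl fun j _ => ?_
  rw [dir_comm (hG j)]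
  exact dxt_slice (smooth_dir (hG j) (ev j)) s y v e

/-- slice form of the iterated derivative -/
theorem iter_slice_dxt_le (hH : ContDiff ℝ ∞ H) (k : ℕ) (i : Fin 3) (s : ℝ) (y v : R3) :
    ‖iteratedFDeriv ℝ k (fun z => dxt 0 (eb i) H (s, z, v)) y‖ ≤
      ‖iteratedFDeriv ℝ (k + 1) (fun z => H (s, z, v)) y‖ := by
  have e : (fun z => dxt 0 (eb i) H (s, z, v)) = fun z => pderiv (fun z => H (s, z, v)) i z := by
    funext z
    exact dxt_slice hH s z v (eb i)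
  rw [e]
  exact Kir.iter_pderiv_le (slice_smooth hH s v) k y i

end slices

/-! ### functions on `ℝ × R3` -/

section st
variable {u : ℝ × R3 → ℝ}

theorem smooth_dd (hu : ContDiff ℝ ∞ u) (a : ℝ × R3) : ContDiff ℝ ∞ (dd a u) := by
  have h1 : ContDiff ℝ ∞ (fderiv ℝ u) := hu.fderiv_right (m := ∞) (by simp)
  exact h1.clm_apply contDiff_const

theorem ddc (hu : ContDiff ℝ ∞ u) (a b : ℝ × R3) : dd a (dd b u) = dd b (dd a u) := by
  funext q
  exact dd_comm isOpen_univ hu.contDiffOn a b (mem_univ q)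

theorem px_slice (hu : ContDiff ℝ ∞ u) (i : Fin 3) (s : ℝ) (y : R3) :
    px i u (s, y) = pderiv (fun z => u (s, z)) i y :=
  (Kir.JSOn.pderiv_eq (u := fun s y => u (s, y)) isOpen_univ (Kir.js_iff.1 hu) (mem_univ s) i y).symm

theorem box_px (hu : ContDiff ℝ ∞ u) (i : Fin 3) (q : ℝ × R3) :
    box (px i u) q = px i (box u) q := by
  have hd : ∀ {w : ℝ × R3 → ℝ}, ContDiff ℝ ∞ w → DifferentiableAt ℝ w q := fun hw =>
    (hw.differentiable (by simp)) q
  have e1 : px i (box u) q = dd (0, eb i) (dd (1, 0) (dd (1, 0) u)) q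
      - ∑ j : Fin 3, dd (0, eb i) (dd (0, eb j) (dd (0, eb j) u)) q := by
    have e2 : px i (box u) q
        = dd (0, eb i) (fun p => dd (1, 0) (dd (1, 0) u) p - ∑ j, dd (0, eb j) (dd (0, eb j) u) p) q :=
      rfl
    rw [e2, dd_sub (hd (smooth_dd (smooth_dd hu _) _)) (hd (ContDiff.sum fun j _ =>
      smooth_dd (smooth_dd hu _) _)), dd_sum _ (fun j _ => hd (smooth_dd (smooth_dd hu _) _))]
  rw [e1]
  show dd (1, 0) (dd (1, 0) (dd (0, eb i) u)) q
    - ∑ j : Fin 3, dd (0, eb j) (dd (0, eb j) (dd (0, eb i) u)) q = _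
  congr 1
  · rw [ddc hu (1, 0) (0, eb i), ddc (smooth_dd hu _) (1, 0) (0, eb i)]
  · refine Finset.sum_congr rfl fun j _ => ?_
    rw [ddc hu (0, eb j) (0, eb i), ddc (smooth_dd hu _) (0, eb j) (0, eb i)]

theorem iter_slice_px_le (hu : ContDiff ℝ ∞ u) (k : ℕ) (s : ℝ) (y : R3) :
    ‖iteratedFDeriv ℝ (k + 1) (fun z => u (s, z)) y‖ ≤
      ∑ i : Fin 3, ‖iteratedFDeriv ℝ k (fun z => px i u (s, z)) y‖ := by
  have hs : ContDiff ℝ ∞ (fun z => u (s, z)) := by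
    have : ContDiff ℝ ∞ (fun z : R3 => ((s, z) : ℝ × R3)) := by fun_prop
    exact hu.comp this
  have e : ∀ i, (fun z => px i u (s, z)) = fun z => pderiv (fun z => u (s, z)) i z := by
    intro i
    funext z
    exact px_slice hu i s z
  simp only [e]
  exact norm_iter_succ_le hs k y

end st

/-! ### the class -/

/-- scalar wave with a source made of two first derivatives of moments of a density `H` with
`T H = div_v G` -/
structure SW (R : ℝ) (m1 m2 : R3 → ℝ) (a1 a2 : ℝ) (b1 b2 : R3) (H : PS → ℝ) (G : Fin 3 → PS → ℝ)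
    (u : ℝ × R3 → ℝ) (H0 : R3 → R3 → ℝ) (u0 u1 : R3 → ℝ) : Prop where
  smH : ContDiff ℝ ∞ H
  smG : ∀ i, ContDiff ℝ ∞ (G i)
  smu : ContDiff ℝ ∞ u
  suppH : ∀ (s : ℝ) (y v : R3), R < ‖v‖ → H (s, y, v) = 0
  suppG : ∀ (s : ℝ) (y v : R3), R < ‖v‖ → ∀ i, G i (s, y, v) = 0
  cpt : ∃ X : ℝ, ∀ s : ℝ, |s| ≤ 1 → ∀ y v : R3, X < ‖y‖ → H (s, y, v) = 0
  tr : ∀ p : PS, Tr H p = divv G p
  wave : ∀ q : ℝ × R3, box u q = mom m1 (dxt a1 b1 H) q.1 q.2 + mom m2 (dxt a2 b2 H) q.1 q.2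
  init0 : ∀ x : R3, u (0, x) = u0 x
  init1 : ∀ x : R3, pt u (0, x) = u1 x
  initH : ∀ y v : R3, H (0, y, v) = H0 y v

section cls
variable {R : ℝ} {m1 m2 : R3 → ℝ} {a1 a2 : ℝ} {b1 b2 : R3} {H : PS → ℝ} {G : Fin 3 → PS → ℝ}
  {u : ℝ × R3 → ℝ} {H0 : R3 → R3 → ℝ} {u0 u1 : R3 → ℝ}

theorem dir_zero {g : PS → ℝ} (hs : ∀ (s : ℝ) (y v : R3), R < ‖v‖ → g (s, y, v) = 0) (w : PS)
    (s : ℝ) (y v : R3) (hv : R < ‖v‖) : fderiv ℝ g (s, y, v) w = 0 := by
  have hO2 : IsOpen {p : PS | R < ‖p.2.2‖} :=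
    isOpen_lt continuous_const (continuous_norm.comp (continuous_snd.comp continuous_snd))
  have he : g =ᶠ[𝓝 ((s, y, v) : PS)] fun _ => 0 := by
    filter_upwards [hO2.mem_nhds (show ((s, y, v) : PS) ∈ {p : PS | R < ‖p.2.2‖} from hv)] with p hp
    exact hs p.1 p.2.1 p.2.2 hp
  rw [he.fderiv_eq]
  simp

theorem vsupp {g : PS → ℝ} (hs : ∀ (s : ℝ) (y v : R3), R < ‖v‖ → g (s, y, v) = 0) :
    Src.VSupp (fun t x v => g (t, x, v)) univ :=
  Src.VSupp.of_bound (P := R) (fun t x v hv => hs t x v hv) univ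

theorem mom_smooth {m : R3 → ℝ} (hm : ContDiff ℝ ∞ m) {g : PS → ℝ} (hg : ContDiff ℝ ∞ g)
    (hs : ∀ (s : ℝ) (y v : R3), R < ‖v‖ → g (s, y, v) = 0) :
    ContDiff ℝ ∞ (fun q : ℝ × R3 => mom m g q.1 q.2) := by
  have := Src.contDiffOn_mom (n := ⊤) hm (g := g) (J := univ) isOpen_univ hg.contDiffOn (vsupp hs)
  rw [univ_prod_univ, contDiffOn_univ] at this
  exact this

theorem fderiv_mom_eq {m : R3 → ℝ} (hm : ContDiff ℝ ∞ m) {g : PS → ℝ} (hg : ContDiff ℝ ∞ g)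
    (hs : ∀ (s : ℝ) (y v : R3), R < ‖v‖ → g (s, y, v) = 0) (q : ℝ × R3) (a : ℝ) (b : R3) :
    fderiv ℝ (fun q : ℝ × R3 => mom m g q.1 q.2) q (a, b) = mom m (dxt a b g) q.1 q.2 :=
  Src.fderiv_mom (hm.of_le (by simp)) (J := univ) isOpen_univ
    ((hg.of_le (by simp)).contDiffOn) (vsupp hs) (mem_univ q.1) q.2 a b

theorem SW.dx (hm1 : ContDiff ℝ ∞ m1) (hm2 : ContDiff ℝ ∞ m2)
    (h : SW R m1 m2 a1 a2 b1 b2 H G u H0 u0 u1) (i : Fin 3) :
    SW R m1 m2 a1 a2 b1 b2 (dxt 0 (eb i) H) (fun j => dxt 0 (eb i) (G j)) (px i u)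
      (fun y v => pderiv (fun z => H0 z v) i y) (fun x => pderiv u0 i x)
      (fun x => pderiv u1 i x) where
  smH := smooth_dxt h.smH _ _
  smG := fun j => smooth_dxt (h.smG j) _ _
  smu := smooth_dd h.smu _
  suppH := fun s y v hv => dir_zero h.suppH _ s y v hv
  suppG := fun s y v hv j => dir_zero (fun s y v hv => h.suppG s y v hv j) _ s y v hv
  cpt := by
    obtain ⟨X, hX⟩ := h.cpt
    refine ⟨X, fun s hs y v hy => ?_⟩
    rw [dxt_slice h.smH]
    have hO : IsOpen {z : R3 | X < ‖z‖} := isOpen_lt continuous_const continuous_norm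
    have he : (fun z => H (s, z, v)) =ᶠ[𝓝 y] fun _ => 0 := by
      filter_upwards [hO.mem_nhds (show y ∈ {z : R3 | X < ‖z‖} from hy)] with z hz
      exact hX s hs z v hz
    rw [he.fderiv_eq]
    simp
  tr := fun p => by
    rw [Tr_dxt h.smH, divv_dxt h.smG]
    have : (fun z => Tr H (p.1, z, p.2.2)) = fun z => divv G (p.1, z, p.2.2) := by
      funext z
      exact h.tr _
    rw [this]
  wave := fun q => by
    rw [box_px h.smu]
    have e : box u = fun q : ℝ × R3 =>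
        mom m1 (dxt a1 b1 H) q.1 q.2 + mom m2 (dxt a2 b2 H) q.1 q.2 := funext h.wave
    have s1 : ∀ (s : ℝ) (y v : R3), R < ‖v‖ → dxt a1 b1 H (s, y, v) = 0 := fun s y v hv =>
      dir_zero h.suppH _ s y v hv
    have s2 : ∀ (s : ℝ) (y v : R3), R < ‖v‖ → dxt a2 b2 H (s, y, v) = 0 := fun s y v hv =>
      dir_zero h.suppH _ s y v hv
    rw [e]
    show dd (0, eb i) _ q = _
    rw [dd_add (((mom_smooth hm1 (smooth_dxt h.smH a1 b1) s1).differentiable (by simp)) q)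
      (((mom_smooth hm2 (smooth_dxt h.smH a2 b2) s2).differentiable (by simp)) q)]
    show fderiv ℝ _ q (0, eb i) + fderiv ℝ _ q (0, eb i) = _
    rw [fderiv_mom_eq hm1 (smooth_dxt h.smH a1 b1) s1,
      fderiv_mom_eq hm2 (smooth_dxt h.smH a2 b2) s2, dxt_comm h.smH 0 a1, dxt_comm h.smH 0 a2]
  init0 := fun x => by
    rw [px_slice h.smu]
    have : (fun z => u (0, z)) = u0 := funext h.init0
    rw [this]
  init1 := fun x => by
    have e1 : pt (px i u) (0, x) = px i (pt u) (0, x) :=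
      congrFun (ddc h.smu (1, 0) (0, eb i)) (0, x)
    rw [e1, px_slice (u := pt u) (smooth_dd h.smu (1, 0))]
    have : (fun z => pt u (0, z)) = u1 := funext h.init1
    rw [this]
  initH := fun y v => by
    rw [dxt_slice h.smH]
    have : (fun z => H (0, z, v)) = fun z => H0 z v := funext fun z => h.initH z v
    rw [this]
    rfl

/-! ### the bound of order zero -/

/-- near `t = 0` the density is close to its datum -/
theorem SW.near (h : SW R m1 m2 a1 a2 b1 b2 H G u H0 u0 u1) {c : ℝ} (hc : 0 ≤ c)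
    (hH : ∀ y v : R3, |H0 y v| ≤ c) {η : ℝ} (hη : 0 < η) :
    ∃ δ : ℝ, 0 < δ ∧ ∀ s ∈ Icc 0 δ, ∀ y v : R3, |H (s, y, v)| ≤ c + η := by
  obtain ⟨X, hX⟩ := h.cpt
  have hK : IsCompact (Metric.closedBall (0 : R3) X ×ˢ Metric.closedBall (0 : R3) R) :=
    (isCompact_closedBall _ _).prod (isCompact_closedBall _ _)
  have hev : ∀ᶠ s in 𝓝 (0 : ℝ), ∀ z ∈ Metric.closedBall (0 : R3) X ×ˢ Metric.closedBall (0 : R3) R,
      |H (s, z.1, z.2)| < c + η := by
    refine hK.eventually_forall_of_forall_eventually fun z _ => ?_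
    have hcont : Continuous (fun p : ℝ × (R3 × R3) => |H (p.1, p.2.1, p.2.2)|) := by
      refine continuous_abs.comp (h.smH.continuous.comp ?_)
      fun_prop
    have h0 : |H (0, z.1, z.2)| < c + η := by
      rw [h.initH]
      linarith [hH z.1 z.2]
    exact (hcont.tendsto (0, z)).eventually (gt_mem_nhds h0)
  obtain ⟨ε, hε, hball⟩ := Metric.eventually_nhds_iff.1 hev
  refine ⟨min (ε / 2) 1, by positivity, fun s hs y v => ?_⟩
  have hs1 : |s| ≤ 1 := by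
    rw [abs_of_nonneg hs.1]
    exact hs.2.trans (min_le_right _ _)
  have hs2 : dist s 0 < ε := by
    rw [Real.dist_eq, sub_zero, abs_of_nonneg hs.1]
    have := hs.2.trans (min_le_left _ _)
    linarith
  by_cases hy : X < ‖y‖
  · rw [hX s hs1 y v hy, abs_zero]; positivity
  · by_cases hv : R < ‖v‖
    · rw [h.suppH s y v hv, abs_zero]; positivity
    · refine (hball hs2 (y, v) ⟨?_, ?_⟩).le
      · rw [mem_closedBall_zero_iff]; exact not_lt.1 hy
      · rw [mem_closedBall_zero_iff]; exact not_lt.1 hv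

/-- the retarded potentials of the moments -/
theorem Wv_le (hS : SupEst) (R : ℝ) {m : R3 → ℝ} (hm : ContDiff ℝ ∞ m) (a : ℝ) (b : R3) (T : ℝ) :
    ∃ C : ℝ, 0 ≤ C ∧ ∀ (m1 m2 : R3 → ℝ) (a1 a2 : ℝ) (b1 b2 : R3) (H : PS → ℝ) (G : Fin 3 → PS → ℝ)
      (u : ℝ × R3 → ℝ) (H0 : R3 → R3 → ℝ) (u0 u1 : R3 → ℝ),
      SW R m1 m2 a1 a2 b1 b2 H G u H0 u0 u1 → ∀ c : ℝ, 0 ≤ c → (∀ y v, |H0 y v| ≤ c) →
      ∀ t ∈ Ioc 0 T, ∀ N : ℝ → ℝ, IntervalIntegrable N volume 0 t →
      (∀ s ∈ Icc 0 t, ∀ y v, |H (s, y, v)| ≤ N s) →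
      (∀ s ∈ Icc 0 t, ∀ i, ∀ y v, |G i (s, y, v)| ≤ N s) →
      ∀ x : R3, |Wv (mom m (dxt a b H)) t x| ≤ C * (c + ∫ s in (0:ℝ)..t, N s) := by
  obtain ⟨C, hC, HC⟩ := hS R m hm a b
  refine ⟨C * (1 + |T|), by positivity, ?_⟩
  intro m1 m2 a1 a2 b1 b2 H G u H0 u0 u1 h c hc hH0 t ht N hN hNH hNG x
  have hnn : ∀ s ∈ Icc 0 t, 0 ≤ N s := fun s hs => (abs_nonneg _).trans (hNH s hs 0 0)
  have hI : 0 ≤ ∫ s in (0:ℝ)..t, N s := intervalIntegral.integral_nonneg ht.1.le hnn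
  have hT : |T| = T := abs_of_nonneg (ht.1.le.trans ht.2)
  have hw : ∫ s in (0:ℝ)..t, (t - s) * (N s + (fun _ => (0:ℝ)) s) ≤ T * ∫ s in (0:ℝ)..t, N s := by
    rw [← intervalIntegral.integral_const_mul]
    refine intervalIntegral.integral_mono_on ht.1.le ?_ (hN.const_mul T) (fun s hs => ?_)
    · simp only [add_zero]
      exact hN.continuousOn_mul (by fun_prop)
    · simp only [add_zero]
      exact mul_le_mul_of_nonneg_right (by linarith [hs.1, ht.2]) (hnn s hs)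
  refine le_of_forall_pos_le_add fun η hη => ?_
  obtain ⟨η', hη', hle⟩ : ∃ η' : ℝ, 0 < η' ∧ C * (t * η') ≤ η := by
    refine ⟨η / (C * t + 1), by have := ht.1; positivity, ?_⟩
    have h1 : 0 ≤ C * t := mul_nonneg hC ht.1.le
    rw [← mul_assoc, mul_div_assoc']
    rw [div_le_iff₀ (by positivity)]
    nlinarith
  obtain ⟨δ, hδ, hnear⟩ := h.near hc hH0 hη'
  have key := HC univ t δ x H (fun _ => 0) G (c + η') N N (fun _ => 0) isOpen_univ (subset_univ _)
    ht.1 hδ (h.smH.of_le (by simp)).contDiffOn (fun i => ((h.smG i).of_le (by simp)).contDiffOn)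
    continuousOn_const (fun s _ y v hv => ⟨h.suppH s y v hv, h.suppG s y v hv, rfl⟩)
    (fun s _ y v => by rw [h.tr]; ring)
    (fun s hs y v => hnear s ⟨hs.1, hs.2.trans (min_le_right _ _)⟩ y v)
    hNH hNG (fun s _ y v => by simp) hN hN intervalIntegrable_const
  refine key.trans ?_
  have hTt : t ≤ T := ht.2
  calc C * (t * (c + η') + (∫ s in (0:ℝ)..t, N s)
        + ∫ s in (0:ℝ)..t, (t - s) * (N s + (fun _ => (0:ℝ)) s))
      ≤ C * (T * c + (∫ s in (0:ℝ)..t, N s) + T * ∫ s in (0:ℝ)..t, N s) + C * (t * η') := by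
        have : t * c ≤ T * c := mul_le_mul_of_nonneg_right hTt hc
        nlinarith [mul_le_mul_of_nonneg_left (add_le_add this hw) hC]
    _ ≤ C * (1 + |T|) * (c + ∫ s in (0:ℝ)..t, N s) + η := by
        rw [hT]
        have h1 : 0 ≤ C * c := mul_nonneg hC hc
        nlinarith

theorem bound0 (hS : SupEst) (R : ℝ) {m1 m2 : R3 → ℝ} (hm1 : ContDiff ℝ ∞ m1)
    (hm2 : ContDiff ℝ ∞ m2) (a1 a2 : ℝ) (b1 b2 : R3) (T : ℝ) :
    ∃ C : ℝ, 0 ≤ C ∧ ∀ (H : PS → ℝ) (G : Fin 3 → PS → ℝ)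
      (u : ℝ × R3 → ℝ) (H0 : R3 → R3 → ℝ) (u0 u1 : R3 → ℝ),
      SW R m1 m2 a1 a2 b1 b2 H G u H0 u0 u1 → ∀ c : ℝ, (∀ x, |u0 x| ≤ c) →
      (∀ x, ‖fderiv ℝ u0 x‖ ≤ c) → (∀ x, |u1 x| ≤ c) → (∀ y v, |H0 y v| ≤ c) →
      ∀ t ∈ Icc 0 T, ∀ N : ℝ → ℝ, IntervalIntegrable N volume 0 t →
      (∀ s ∈ Icc 0 t, ∀ y v, |H (s, y, v)| ≤ N s) →
      (∀ s ∈ Icc 0 t, ∀ i, ∀ y v, |G i (s, y, v)| ≤ N s) →
      ∀ x : R3, |u (t, x)| ≤ C * (c + ∫ s in (0:ℝ)..t, N s) := by
  obtain ⟨C1, hC1, H1⟩ := Wv_le hS R hm1 a1 b1 T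
  obtain ⟨C2, hC2, H2⟩ := Wv_le hS R hm2 a2 b2 T
  refine ⟨C1 + C2 + (1 + 2 * |T|), by positivity, ?_⟩
  intro H G u H0 u0 u1 h c hu0 hdu0 hu1 hH0 t ht N hN hNH hNG x
  have hc : 0 ≤ c := (abs_nonneg _).trans (hu0 0)
  have hnn : ∀ s ∈ Icc 0 t, 0 ≤ N s := fun s hs => (abs_nonneg _).trans (hNH s hs 0 0)
  have hI : 0 ≤ ∫ s in (0:ℝ)..t, N s := intervalIntegral.integral_nonneg ht.1 hnn
  have hT : |T| = T := abs_of_nonneg (ht.1.trans ht.2)
  rcases eq_or_lt_of_le ht.1 with h0 | h0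
  · rw [← h0, h.init0]
    refine (hu0 x).trans ?_
    rw [intervalIntegral.integral_same, add_zero]
    nlinarith [abs_nonneg T, mul_nonneg hC1 hc, mul_nonneg hC2 hc, mul_nonneg (abs_nonneg T) hc]
  · have s1 : ∀ (s : ℝ) (y v : R3), R < ‖v‖ → dxt a1 b1 H (s, y, v) = 0 := fun s y v hv =>
      dir_zero h.suppH _ s y v hv
    have s2 : ∀ (s : ℝ) (y v : R3), R < ‖v‖ → dxt a2 b2 H (s, y, v) = 0 := fun s y v hv =>
      dir_zero h.suppH _ s y v hv
    have j1 := mom_smooth hm1 (smooth_dxt h.smH a1 b1) s1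
    have j2 := mom_smooth hm2 (smooth_dxt h.smH a2 b2) s2
    have hfd : ∀ y : R3, ‖fderiv ℝ (fun z : R3 => u (0, z)) y‖ ≤ c := by
      intro y
      have : (fun z : R3 => u (0, z)) = u0 := funext h.init0
      rw [this]
      exact hdu0 y
    have hk := Kir.kir_bound h.smu ht.1 x (C0 := c) (C1 := c) (D := c)
      (fun y => by rw [h.init0]; exact hu0 y) (fun y => by rw [h.init1]; exact hu1 y) hfd
    have hb : Wv (fun s y => box u (s, y)) t x
        = Wv (mom m1 (dxt a1 b1 H)) t x + Wv (mom m2 (dxt a2 b2 H)) t x := by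
      have e0 : (fun s y => box u (s, y))
          = fun s y => mom m1 (dxt a1 b1 H) s y + mom m2 (dxt a2 b2 H) s y := by
        funext s y
        exact h.wave (s, y)
      rw [e0, ← Kir.W_eq_Wv ht.1 (h := fun s y => mom m1 (dxt a1 b1 H) s y
          + mom m2 (dxt a2 b2 H) s y) ((j1.add j2).continuous.continuousOn) x,
        ← Kir.W_eq_Wv ht.1 (h := mom m1 (dxt a1 b1 H)) (j1.continuous.continuousOn) x,
        ← Kir.W_eq_Wv ht.1 (h := mom m2 (dxt a2 b2 H)) (j2.continuous.continuousOn) x]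
      exact Kir.W_add j1 j2 t x
    rw [hb] at hk
    have k1 := H1 m1 m2 a1 a2 b1 b2 H G u H0 u0 u1 h c hc hH0 t ⟨h0, ht.2⟩ N hN hNH hNG x
    have k2 := H2 m1 m2 a1 a2 b1 b2 H G u H0 u0 u1 h c hc hH0 t ⟨h0, ht.2⟩ N hN hNH hNG x
    have k3 := abs_add_le (Wv (mom m1 (dxt a1 b1 H)) t x) (Wv (mom m2 (dxt a2 b2 H)) t x)
    have k4 : t * c ≤ T * c := mul_le_mul_of_nonneg_right ht.2 hc
    refine hk.trans ?_
    rw [hT]
    have k5 : 0 ≤ T := hT ▸ abs_nonneg T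
    nlinarith [mul_nonneg k5 hI]

/-! ### the bound of order `k` -/

theorem boundk (hS : SupEst) (R : ℝ) {m1 m2 : R3 → ℝ} (hm1 : ContDiff ℝ ∞ m1)
    (hm2 : ContDiff ℝ ∞ m2) (a1 a2 : ℝ) (b1 b2 : R3) (T : ℝ) (k : ℕ) :
    ∃ C : ℝ, 0 ≤ C ∧ ∀ (H : PS → ℝ) (G : Fin 3 → PS → ℝ)
      (u : ℝ × R3 → ℝ) (H0 : R3 → R3 → ℝ) (u0 u1 : R3 → ℝ),
      SW R m1 m2 a1 a2 b1 b2 H G u H0 u0 u1 → ∀ c : ℝ,
      (∀ x, ‖iteratedFDeriv ℝ k u0 x‖ ≤ c) → (∀ x, ‖iteratedFDeriv ℝ (k + 1) u0 x‖ ≤ c) →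
      (∀ x, ‖iteratedFDeriv ℝ k u1 x‖ ≤ c) →
      (∀ y v, ‖iteratedFDeriv ℝ k (fun z => H0 z v) y‖ ≤ c) →
      ∀ t ∈ Icc 0 T, ∀ N : ℝ → ℝ, IntervalIntegrable N volume 0 t →
      (∀ s ∈ Icc 0 t, ∀ y v, ‖iteratedFDeriv ℝ k (fun z => H (s, z, v)) y‖ ≤ N s) →
      (∀ s ∈ Icc 0 t, ∀ i, ∀ y v, ‖iteratedFDeriv ℝ k (fun z => G i (s, z, v)) y‖ ≤ N s) →
      ∀ x : R3, ‖iteratedFDeriv ℝ k (fun z => u (t, z)) x‖ ≤ C * (c + ∫ s in (0:ℝ)..t, N s) := by
  induction k with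
  | zero =>
    obtain ⟨C, hC, HC⟩ := bound0 hS R hm1 hm2 a1 a2 b1 b2 T
    refine ⟨C, hC, ?_⟩
    intro H G u H0 u0 u1 h c hu0 hdu0 hu1 hH0 t ht N hN hNH hNG x
    simp only [norm_iteratedFDeriv_zero, Real.norm_eq_abs] at hu0 hu1 hH0 hNH hNG ⊢
    refine HC H G u H0 u0 u1 h c hu0 (fun x => ?_) hu1 hH0 t ht N hN hNH hNG x
    have := hdu0 x
    rwa [zero_add, norm_iteratedFDeriv_one] at this
  | succ k ih =>
    obtain ⟨C, hC, HC⟩ := ih
    refine ⟨3 * C, by positivity, ?_⟩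
    intro H G u H0 u0 u1 h c hu0 hdu0 hu1 hH0 t ht N hN hNH hNG x
    have smu0 : ContDiff ℝ ∞ u0 := by
      have : u0 = fun z => u (0, z) := (funext h.init0).symm
      rw [this]
      exact h.smu.comp (by fun_prop)
    have smu1 : ContDiff ℝ ∞ u1 := by
      have : u1 = fun z => pt u (0, z) := (funext h.init1).symm
      rw [this]
      exact (smooth_dd h.smu (1, 0)).comp (by fun_prop)
    have smH0 : ∀ v, ContDiff ℝ ∞ (fun z => H0 z v) := by
      intro v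
      have : (fun z => H0 z v) = fun z => H (0, z, v) := (funext fun z => h.initH z v).symm
      rw [this]
      exact slice_smooth h.smH 0 v
    have key : ∀ i : Fin 3, ‖iteratedFDeriv ℝ k (fun z => px i u (t, z)) x‖
        ≤ C * (c + ∫ s in (0:ℝ)..t, N s) := by
      intro i
      refine HC _ _ _ _ _ _ (h.dx hm1 hm2 i) c (fun x => ?_) (fun x => ?_) (fun x => ?_)
        (fun y v => ?_) t ht N hN (fun s hs y v => ?_) (fun s hs j y v => ?_) x
      · exact (Kir.iter_pderiv_le smu0 k x i).trans (hu0 x)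
      · exact (Kir.iter_pderiv_le smu0 (k + 1) x i).trans (hdu0 x)
      · exact (Kir.iter_pderiv_le smu1 k x i).trans (hu1 x)
      · exact (Kir.iter_pderiv_le (smH0 v) k y i).trans (hH0 y v)
      · exact (iter_slice_dxt_le h.smH k i s y v).trans (hNH s hs y v)
      · exact (iter_slice_dxt_le (h.smG j) k i s y v).trans (hNG s hs j y v)
    refine (iter_slice_px_le h.smu k t x).trans ?_
    refine (Finset.sum_le_sum fun i _ => key i).trans (le_of_eq ?_)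
    simp
    ring

end cls

/-! ### Maxwell -/

section maxwell
variable {h : ℝ → R3 → R3 → ℝ} {E B : ℝ → R3 → R3}

/-- components on space-time -/
def cf (E : ℝ → R3 → R3) (i : Fin 3) : ℝ × R3 → ℝ := fun q => E q.1 q.2 i

/-- uncurried density -/
abbrev uh (h : ℝ → R3 → R3 → ℝ) : PS → ℝ := fun p => h p.1 p.2.1 p.2.2

theorem cf_smooth (hE : ContDiff ℝ ∞ (fun p : ℝ × R3 => E p.1 p.2)) (i : Fin 3) :
    ContDiff ℝ ∞ (cf E i) := (contDiff_euclidean.1 hE) i

theorem px_cf (hE : ContDiff ℝ ∞ (fun p : ℝ × R3 => E p.1 p.2)) (i j : Fin 3) (q : ℝ × R3) :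
    px j (cf E i) q = pderiv (fun y => E q.1 y i) j q.2 :=
  px_slice (cf_smooth hE i) j q.1 q.2

theorem pt_cf (hE : ContDiff ℝ ∞ (fun p : ℝ × R3 => E p.1 p.2)) (i : Fin 3) (q : ℝ × R3) :
    pt (cf E i) q = deriv (fun s => E s q.2 i) q.1 :=
  (Kir.JSOn.deriv_eq (u := fun s y => cf E i (s, y)) isOpen_univ
    (Kir.js_iff.1 (cf_smooth hE i)) (mem_univ q.1) q.2).symm

theorem mom_one (h : ℝ → R3 → R3 → ℝ) (t : ℝ) (x : R3) :
    mom (fun _ => 1) (uh h) t x = chargeDensity h t x := by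
  unfold mom chargeDensity
  simp

theorem mom_rel {R : ℝ} (hh : ContDiff ℝ ∞ (fun p : ℝ × R3 × R3 => h p.1 p.2.1 p.2.2))
    (hs : ∀ (t : ℝ) (x v : R3), R < ‖v‖ → h t x v = 0) (i : Fin 3) (t : ℝ) (x : R3) :
    mom (fun v => relVel v i) (uh h) t x = currentDensity h t x i := by
  unfold mom currentDensity
  have hc : HasCompactSupport (fun v => h t x v • relVel v) := by
    refine HasCompactSupport.of_support_subset_isCompact (isCompact_closedBall (0 : R3) R) ?_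
    intro v hv
    rw [mem_closedBall_zero_iff]
    by_contra hcon
    refine hv ?_
    show h t x v • relVel v = 0
    rw [hs t x v (not_le.1 hcon), zero_smul]
  have hcont : Continuous (fun v => h t x v • relVel v) := by
    have h1 : Continuous (fun v => h t x v) := by
      have : Continuous (fun v : R3 => ((t, x, v) : ℝ × R3 × R3)) := by fun_prop
      exact hh.continuous.comp this
    exact h1.smul (Src.contDiff_relVel (n := 0)).continuous
  have hi : Integrable (fun v => h t x v • relVel v) := hcont.integrable_of_hasCompactSupport hc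
  have := (EuclideanSpace.proj i : R3 →L[ℝ] ℝ).integral_comp_comm hi
  have e : (∫ v, h t x v • relVel v) i = (EuclideanSpace.proj i : R3 →L[ℝ] ℝ)
    (∫ v, h t x v • relVel v) := rfl
  rw [e, ← this]
  refine integral_congr_ae (Eventually.of_forall fun v => ?_)
  show relVel v i * h t x v = (h t x v • relVel v) i
  simp [mul_comm]

theorem curlc_cf (hE : ContDiff ℝ ∞ (fun p : ℝ × R3 => E p.1 p.2)) (i : Fin 3) (q : ℝ × R3) :
    Field.curlc (cf E) i q = curl3 (E q.1) q.2 i := by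
  unfold Field.curlc
  rw [px_cf hE, px_cf hE]
  fin_cases i <;> rfl

variable {R : ℝ}

theorem relVel_smooth (i : Fin 3) : ContDiff ℝ ∞ (fun v : R3 => relVel v i) :=
  (contDiff_euclidean.1 (Src.contDiff_relVel (n := ∞))) i

theorem maxC (hh : ContDiff ℝ ∞ (fun p : ℝ × R3 × R3 => h p.1 p.2.1 p.2.2))
    (hs : ∀ (t : ℝ) (x v : R3), R < ‖v‖ → h t x v = 0)
    (hE : ContDiff ℝ ∞ (fun p : ℝ × R3 => E p.1 p.2))
    (hB : ContDiff ℝ ∞ (fun p : ℝ × R3 => B p.1 p.2))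
    (hM : ∀ (t : ℝ) (x : R3), Std.MaxwellAt (chargeDensity h) (currentDensity h) E B t x) :
    Field.MaxC univ (cf E) (cf B) (fun q => mom (fun _ => 1) (uh h) q.1 q.2)
      (fun i q => mom (fun v => relVel v i) (uh h) q.1 q.2) where
  isOpen := isOpen_univ
  smE := fun i => (cf_smooth hE i).contDiffOn
  smB := fun i => (cf_smooth hB i).contDiffOn
  smρ := (mom_smooth contDiff_const hh hs).contDiffOn
  smj := fun i => (mom_smooth (relVel_smooth i) hh hs).contDiffOn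
  amp := fun i q _ => by
    rw [pt_cf hE, curlc_cf hB, mom_rel hh hs]
    have := (hM q.1 q.2).1 i
    linarith
  far := fun i q _ => by
    rw [pt_cf hB, curlc_cf hE]
    have := (hM q.1 q.2).2.1 i
    linarith
  gau := fun q _ => by
    rw [mom_one, ← (hM q.1 q.2).2.2.1]
    unfold div3
    exact Finset.sum_congr rfl fun i _ => px_cf hE i i q
  gauB := fun q _ => by
    rw [← (hM q.1 q.2).2.2.2]
    unfold div3
    exact Finset.sum_congr rfl fun i _ => px_cf hB i i q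

theorem mom_neg (m : R3 → ℝ) (g : PS → ℝ) (t : ℝ) (x : R3) :
    mom (fun v => - m v) g t x = - mom m g t x := by
  unfold mom
  rw [← integral_neg]
  simp

/-- the components of `E` are in the class -/
theorem sw_E {g : Fin 3 → ℝ → R3 → R3 → ℝ} (hh : Std.PC h) (hg : ∀ i, Std.PC (g i))
    (hE : Std.SF E) (hB : Std.SF B)
    (hs : ∀ (t : ℝ) (x v : R3), R < ‖v‖ → h t x v = 0 ∧ ∀ i, g i t x v = 0)
    (hT : ∀ (t : ℝ) (x v : R3), Std.Tfree h t x v = - ∑ i : Fin 3, pderiv (fun w => g i t x w) i v)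
    (hM : ∀ (t : ℝ) (x : R3), Std.MaxwellAt (chargeDensity h) (currentDensity h) E B t x)
    (i : Fin 3) :
    SW R (fun v => - (1 : ℝ)) (fun v => - relVel v i) 0 1 (eb i) 0 (uh h)
      (fun j p => - g j p.1 p.2.1 p.2.2) (cf E i) (h 0) (fun x => E 0 x i)
      (fun x => curl3 (B 0) x i - currentDensity h 0 x i) where
  smH := hh.1
  smG := fun j => (hg j).1.neg
  smu := cf_smooth hE.1 i
  suppH := fun s y v hv => (hs s y v hv).1
  suppG := fun s y v hv j => by simp [(hs s y v hv).2 j]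
  cpt := by
    obtain ⟨X, hX⟩ := hh.2 1
    exact ⟨X, fun s hs y v hy => hX s hs y v (Or.inl hy)⟩
  tr := fun p => by
    obtain ⟨s, y, v⟩ := p
    have h1 : Tr (uh h) (s, y, v) = Std.Tfree h s y v := Std.FbRev.Tr_unc hh.1 s y v
    rw [h1, hT s y v, ← Std.FbRev.divv_unc (fun i => (hg i).1)]
  wave := fun q => by
    have hs' : ∀ (t : ℝ) (x v : R3), R < ‖v‖ → h t x v = 0 := fun t x v hv => (hs t x v hv).1
    have hC := maxC hh.1 hs' hE.1 hB.1 hM
    rw [hC.boxE i (⟨mem_univ _, mem_univ _⟩ : q ∈ univ ×ˢ (univ : Set R3))]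
    show - fderiv ℝ _ q (0, eb i) - fderiv ℝ _ q (1, 0) = _
    rw [fderiv_mom_eq contDiff_const hh.1 hs', fderiv_mom_eq (relVel_smooth i) hh.1 hs',
      mom_neg (fun _ => 1), mom_neg (fun v => relVel v i)]
    ring
  init0 := fun x => rfl
  init1 := fun x => by
    rw [pt_cf hE.1]
    have := (hM 0 x).1 i
    show deriv (fun s => E s x i) 0 = _
    linarith
  initH := fun y v => rfl

/-- the components of `B` are in the class -/
theorem sw_B {g : Fin 3 → ℝ → R3 → R3 → ℝ} (hh : Std.PC h) (hg : ∀ i, Std.PC (g i))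
    (hE : Std.SF E) (hB : Std.SF B)
    (hs : ∀ (t : ℝ) (x v : R3), R < ‖v‖ → h t x v = 0 ∧ ∀ i, g i t x v = 0)
    (hT : ∀ (t : ℝ) (x v : R3), Std.Tfree h t x v = - ∑ i : Fin 3, pderiv (fun w => g i t x w) i v)
    (hM : ∀ (t : ℝ) (x : R3), Std.MaxwellAt (chargeDensity h) (currentDensity h) E B t x)
    (i : Fin 3) :
    SW R (fun v => relVel v (i + 2)) (fun v => - relVel v (i + 1)) 0 0 (eb (i + 1)) (eb (i + 2))
      (uh h) (fun j p => - g j p.1 p.2.1 p.2.2) (cf B i) (h 0) (fun x => B 0 x i)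
      (fun x => - curl3 (E 0) x i) where
  smH := hh.1
  smG := fun j => (hg j).1.neg
  smu := cf_smooth hB.1 i
  suppH := fun s y v hv => (hs s y v hv).1
  suppG := fun s y v hv j => by simp [(hs s y v hv).2 j]
  cpt := by
    obtain ⟨X, hX⟩ := hh.2 1
    exact ⟨X, fun s hs y v hy => hX s hs y v (Or.inl hy)⟩
  tr := fun p => by
    obtain ⟨s, y, v⟩ := p
    have h1 : Tr (uh h) (s, y, v) = Std.Tfree h s y v := Std.FbRev.Tr_unc hh.1 s y v
    rw [h1, hT s y v, ← Std.FbRev.divv_unc (fun i => (hg i).1)]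
  wave := fun q => by
    have hs' : ∀ (t : ℝ) (x v : R3), R < ‖v‖ → h t x v = 0 := fun t x v hv => (hs t x v hv).1
    have hC := maxC hh.1 hs' hE.1 hB.1 hM
    rw [hC.boxB i (⟨mem_univ _, mem_univ _⟩ : q ∈ univ ×ˢ (univ : Set R3))]
    unfold Field.curlc
    show fderiv ℝ _ q (0, eb (i + 1)) - fderiv ℝ _ q (0, eb (i + 2)) = _
    rw [fderiv_mom_eq (relVel_smooth _) hh.1 hs', fderiv_mom_eq (relVel_smooth _) hh.1 hs',
      mom_neg (fun v => relVel v (i + 1))]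
    ring
  init0 := fun x => rfl
  init1 := fun x => by
    rw [pt_cf hB.1]
    have := (hM 0 x).2.1 i
    show deriv (fun s => B s x i) 0 = _
    linarith
  initH := fun y v => rfl

end maxwell

/-! ### data -/

section data

theorem bd_of_compact {F : R3 → ℝ} (hF : ContDiff ℝ ∞ F) (hc : HasCompactSupport F) : Bd F := by
  refine ⟨hF, fun k => ?_⟩
  obtain ⟨C, hC⟩ := (hc.iteratedFDeriv (𝕜 := ℝ) k).exists_bound_of_continuous
    (hF.continuous_iteratedFDeriv inf_le)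
  exact ⟨C, hC⟩

theorem slice_data {f₀ : R3 → R3 → ℝ} (hF : ContDiff ℝ ∞ (Function.uncurry f₀))
    (hc : HasCompactSupport (Function.uncurry f₀)) (k : ℕ) :
    ∃ C : ℝ, ∀ y v : R3, ‖iteratedFDeriv ℝ k (fun z => f₀ z v) y‖ ≤ C := by
  obtain ⟨C, hC⟩ := (hc.iteratedFDeriv (𝕜 := ℝ) k).exists_bound_of_continuous
    (hF.continuous_iteratedFDeriv inf_le)
  refine ⟨C, fun y v => ?_⟩
  set F : R3 × R3 → ℝ := Function.uncurry f₀ with hFd
  set F' : R3 × R3 → ℝ := fun p => F (p + (0, v)) with hF'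
  have hF's : ContDiff ℝ ∞ F' := hF.comp (contDiff_id.add contDiff_const)
  have h1 : (fun z => f₀ z v) = F' ∘ (ContinuousLinearMap.inl ℝ R3 R3) := by
    funext z; simp [hF', hFd]
  have h2 := (ContinuousLinearMap.inl ℝ R3 R3).iteratedFDeriv_comp_right (f := F') hF's y
    (i := k) inf_le
  have h3 : iteratedFDeriv ℝ k F' (y, 0) = iteratedFDeriv ℝ k F (y, v) := by
    have := iteratedFDeriv_comp_add_right (𝕜 := ℝ) (f := F) k ((0 : R3), v) (y, 0)
    rw [hF']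
    simpa using this
  rw [h1, h2]
  have h4 : (ContinuousLinearMap.inl ℝ R3 R3) y = (y, 0) := rfl
  rw [h4, h3]
  refine (ContinuousMultilinearMap.norm_compContinuousLinearMap_le _ _).trans ?_
  have h5 : ∏ _i : Fin k, ‖(ContinuousLinearMap.inl ℝ R3 R3)‖ ≤ 1 := by
    refine Finset.prod_le_one (fun _ _ => norm_nonneg _) (fun _ _ => ?_)
    exact ContinuousLinearMap.opNorm_le_bound _ zero_le_one (fun y => by simp [Prod.norm_def])
  calc _ ≤ ‖iteratedFDeriv ℝ k F (y, v)‖ * 1 :=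
        mul_le_mul_of_nonneg_left h5 (norm_nonneg _)
    _ ≤ C := by rw [mul_one]; exact hC (y, v)

theorem bd_current {f₀ : R3 → R3 → ℝ} (hF : ContDiff ℝ ∞ (Function.uncurry f₀))
    (hc : HasCompactSupport (Function.uncurry f₀)) (i : Fin 3) :
    Bd (fun x => (currentDensity (fun _ => f₀) 0 x) i) := by
  have hsupp : ∃ X : ℝ, ∀ x v : R3, (X < ‖x‖ ∨ X < ‖v‖) → f₀ x v = 0 := by
    obtain ⟨X, hX⟩ := hc.isCompact.isBounded.exists_norm_le
    refine ⟨X, fun x v hxv => ?_⟩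
    by_contra hne
    have hmem : (x, v) ∈ tsupport (Function.uncurry f₀) := subset_tsupport _ hne
    have := hX _ hmem
    rw [Prod.norm_def] at this
    rcases hxv with h | h
    · exact absurd ((le_max_left _ _).trans this) (not_le.2 h)
    · exact absurd ((le_max_right _ _).trans this) (not_le.2 h)
  obtain ⟨X, hX⟩ := hsupp
  have hsm : ContDiff ℝ ∞ (fun p : ℝ × R3 × R3 => (fun _ : ℝ => f₀) p.1 p.2.1 p.2.2) :=
    hF.comp (contDiff_snd)
  have hJ := Src.contDiff_currentDensity (n := ⊤) hsm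
    (Src.VSupp.of_bound (P := X) (fun t x v hv => hX x v (Or.inr hv)) univ)
  have hsp : ContDiff ℝ ∞ (fun x : R3 => currentDensity (fun _ => f₀) 0 x) := by
    have : ContDiff ℝ ∞ (fun x : R3 => ((0, x) : ℝ × R3)) := by fun_prop
    exact ContDiff.comp (g := fun q : ℝ × R3 => currentDensity (fun _ => f₀) q.1 q.2) hJ this
  refine bd_of_compact ((contDiff_euclidean.1 hsp) i) ?_
  refine HasCompactSupport.of_support_subset_isCompact (isCompact_closedBall (0 : R3) X) ?_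
  intro x hx
  rw [mem_closedBall_zero_iff]
  by_contra hcon
  refine hx ?_
  show (currentDensity (fun _ => f₀) 0 x) i = 0
  rw [Src.currentDensity_eq_zero (fun v => hX x v (Or.inl (not_le.1 hcon)))]
  rfl

end data

/-! ### FB and FBz -/

theorem sum_bound {K c I : ℝ} (hK : 0 ≤ K) (hI : 0 ≤ I) : K * (c + I) ≤ (K * (|c| + 1)) * (1 + I) := by
  have h1 : c ≤ |c| := le_abs_self c
  have h2 := abs_nonneg c
  have h3 : c + I ≤ (|c| + 1) * (1 + I) := by nlinarith [mul_nonneg h2 hI]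
  calc K * (c + I) ≤ K * ((|c| + 1) * (1 + I)) := mul_le_mul_of_nonneg_left h3 hK
    _ = _ := by ring

theorem norm_iter_neg_fun {k : ℕ} (g : R3 → ℝ) (y : R3) :
    ‖iteratedFDeriv ℝ k (fun z => - g z) y‖ = ‖iteratedFDeriv ℝ k g y‖ :=
  Std.FbRev.norm_iteratedFDeriv_neg_fun g y

theorem fbpos (hS : SupEst) : Std.FBpos := by
  intro f₀ E₀ B₀ had k R T
  obtain ⟨-, hf, hfc, hE₀, hB₀, hbd, -, -, -, -⟩ := had
  have hbE : ∀ n : ℕ, ∃ C : ℝ, ∀ x, ‖iteratedFDeriv ℝ n E₀ x‖ ≤ C := fun n =>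
    (hbd n).imp fun C hC x => (hC x).1
  have hbB : ∀ n : ℕ, ∃ C : ℝ, ∀ x, ‖iteratedFDeriv ℝ n B₀ x‖ ≤ C := fun n =>
    (hbd n).imp fun C hC x => (hC x).2
  obtain ⟨Cf, hCf⟩ := slice_data hf hfc k
  -- constants for the components of `E`
  have hE : ∀ i : Fin 3, ∃ c : ℝ, (∀ x, ‖iteratedFDeriv ℝ k (fun x => E₀ x i) x‖ ≤ c) ∧
      (∀ x, ‖iteratedFDeriv ℝ (k + 1) (fun x => E₀ x i) x‖ ≤ c) ∧
      (∀ x, ‖iteratedFDeriv ℝ k
        (fun x => curl3 B₀ x i - (currentDensity (fun _ => f₀) 0 x) i) x‖ ≤ c) ∧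
      (∀ y v, ‖iteratedFDeriv ℝ k (fun z => f₀ z v) y‖ ≤ c) := by
    intro i
    obtain ⟨c1, h1⟩ := (Kir.bd_coord hE₀ hbE i).2 k
    obtain ⟨c2, h2⟩ := (Kir.bd_coord hE₀ hbE i).2 (k + 1)
    obtain ⟨c3, h3⟩ := ((Kir.bd_curl hB₀ hbB i).sub (bd_current hf hfc i)).2 k
    refine ⟨max (max c1 c2) (max c3 Cf), fun x => ?_, fun x => ?_, fun x => ?_, fun y v => ?_⟩
    · exact (h1 x).trans ((le_max_left _ _).trans (le_max_left _ _))
    · exact (h2 x).trans ((le_max_right _ _).trans (le_max_left _ _))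
    · exact (h3 x).trans ((le_max_left _ _).trans (le_max_right _ _))
    · exact (hCf y v).trans ((le_max_right _ _).trans (le_max_right _ _))
  have hB : ∀ i : Fin 3, ∃ c : ℝ, (∀ x, ‖iteratedFDeriv ℝ k (fun x => B₀ x i) x‖ ≤ c) ∧
      (∀ x, ‖iteratedFDeriv ℝ (k + 1) (fun x => B₀ x i) x‖ ≤ c) ∧
      (∀ x, ‖iteratedFDeriv ℝ k (fun x => - curl3 E₀ x i) x‖ ≤ c) ∧
      (∀ y v, ‖iteratedFDeriv ℝ k (fun z => f₀ z v) y‖ ≤ c) := by
    intro i
    obtain ⟨c1, h1⟩ := (Kir.bd_coord hB₀ hbB i).2 k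
    obtain ⟨c2, h2⟩ := (Kir.bd_coord hB₀ hbB i).2 (k + 1)
    obtain ⟨c3, h3⟩ := ((Kir.bd_curl hE₀ hbE i).neg).2 k
    refine ⟨max (max c1 c2) (max c3 Cf), fun x => ?_, fun x => ?_, fun x => ?_, fun y v => ?_⟩
    · exact (h1 x).trans ((le_max_left _ _).trans (le_max_left _ _))
    · exact (h2 x).trans ((le_max_right _ _).trans (le_max_left _ _))
    · exact (h3 x).trans ((le_max_left _ _).trans (le_max_right _ _))
    · exact (hCf y v).trans ((le_max_right _ _).trans (le_max_right _ _))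
  choose cE hcE using hE
  choose cB hcB using hB
  choose KE hKE HE using fun i : Fin 3 => boundk hS R (m1 := fun _ => - (1 : ℝ))
    (m2 := fun v => - relVel v i) contDiff_const (relVel_smooth i).neg 0 1 (eb i) 0 T k
  choose KB hKB HB using fun i : Fin 3 => boundk hS R (m1 := fun v => relVel v (i + 2))
    (m2 := fun v => - relVel v (i + 1)) (relVel_smooth (i + 2)) (relVel_smooth (i + 1)).neg 0 0
    (eb (i + 1)) (eb (i + 2)) T k
  have hC1 : 0 ≤ ∑ i : Fin 3, KE i * (|cE i| + 1) :=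
    Finset.sum_nonneg fun i _ => mul_nonneg (hKE i) (by positivity)
  have hC2 : 0 ≤ ∑ i : Fin 3, KB i * (|cB i| + 1) :=
    Finset.sum_nonneg fun i _ => mul_nonneg (hKB i) (by positivity)
  refine ⟨(∑ i : Fin 3, KE i * (|cE i| + 1)) + ∑ i : Fin 3, KB i * (|cB i| + 1), by positivity, ?_⟩
  intro h g E B φ hh hg hE hB hs hT hM h0 hE0 hB0 hφ hb t ht0 htT
  have hab : ∀ s ∈ Icc 0 t, |s| ≤ T := fun s hs' => by
    rw [abs_of_nonneg hs'.1]; exact hs'.2.trans htT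
  have hN : ∀ s ∈ Icc 0 t, ∀ y v, ‖iteratedFDeriv ℝ k (fun z => uh h (s, z, v)) y‖ ≤ φ s :=
    fun s hs' y v => (hb s (hab s hs') y v).1
  have hNG : ∀ s ∈ Icc 0 t, ∀ i, ∀ y v,
      ‖iteratedFDeriv ℝ k (fun z => (fun (j : Fin 3) (p : PS) => - g j p.1 p.2.1 p.2.2) i (s, z, v)) y‖
        ≤ φ s := fun s hs' i y v => by
    rw [norm_iter_neg_fun (fun z => g i s z v) y]
    exact (hb s (hab s hs') y v).2 i
  have hnn : ∀ s ∈ Icc 0 t, 0 ≤ φ s := fun s hs' => (norm_nonneg _).trans (hN s hs' 0 0)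
  have hI : 0 ≤ ∫ s in (0:ℝ)..t, φ s := intervalIntegral.integral_nonneg ht0 hnn
  rw [abs_of_nonneg hI]
  subst h0 hE0 hB0
  intro x
  refine ⟨?_, ?_⟩
  · have hEt : ContDiff ℝ ∞ (E t) :=
      hE.1.comp (by fun_prop : ContDiff ℝ ∞ fun y : R3 => ((t, y) : ℝ × R3))
    refine (Kir.iter_le_sum hEt k x).trans ?_
    have key : ∀ i : Fin 3, ‖iteratedFDeriv ℝ k (fun y => E t y i) x‖
        ≤ (KE i * (|cE i| + 1)) * (1 + ∫ s in (0:ℝ)..t, φ s) := by
      intro i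
      refine le_trans ?_ (sum_bound (c := cE i) (hKE i) hI)
      exact HE i _ _ _ _ _ _ (sw_E hh hg hE hB hs hT hM i) (cE i) (hcE i).1 (hcE i).2.1
        (hcE i).2.2.1 (hcE i).2.2.2 t ⟨ht0, htT⟩ φ (hφ.intervalIntegrable _ _) hN hNG x
    refine (Finset.sum_le_sum fun i _ => key i).trans ?_
    rw [← Finset.sum_mul]
    exact mul_le_mul_of_nonneg_right (by linarith) (by positivity)
  · have hBt : ContDiff ℝ ∞ (B t) :=
      hB.1.comp (by fun_prop : ContDiff ℝ ∞ fun y : R3 => ((t, y) : ℝ × R3))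
    refine (Kir.iter_le_sum hBt k x).trans ?_
    have key : ∀ i : Fin 3, ‖iteratedFDeriv ℝ k (fun y => B t y i) x‖
        ≤ (KB i * (|cB i| + 1)) * (1 + ∫ s in (0:ℝ)..t, φ s) := by
      intro i
      refine le_trans ?_ (sum_bound (c := cB i) (hKB i) hI)
      exact HB i _ _ _ _ _ _ (sw_B hh hg hE hB hs hT hM i) (cB i) (hcB i).1 (hcB i).2.1
        (hcB i).2.2.1 (hcB i).2.2.2 t ⟨ht0, htT⟩ φ (hφ.intervalIntegrable _ _) hN hNG x
    refine (Finset.sum_le_sum fun i _ => key i).trans ?_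
    rw [← Finset.sum_mul]
    exact mul_le_mul_of_nonneg_right (by linarith) (by positivity)

theorem norm_iter_zero {k : ℕ} {g : R3 → ℝ} (hg : ∀ z, g z = 0) (y : R3) :
    ‖iteratedFDeriv ℝ k g y‖ ≤ 0 := by
  have : g = fun _ => (0 : ℝ) := funext hg
  rw [this, iteratedFDeriv_fun_zero]
  simp

theorem fbzpos (hS : SupEst) : Std.FBzpos := by
  intro k R T
  choose KE hKE HE using fun i : Fin 3 => boundk hS R (m1 := fun _ => - (1 : ℝ))
    (m2 := fun v => - relVel v i) contDiff_const (relVel_smooth i).neg 0 1 (eb i) 0 T k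
  choose KB hKB HB using fun i : Fin 3 => boundk hS R (m1 := fun v => relVel v (i + 2))
    (m2 := fun v => - relVel v (i + 1)) (relVel_smooth (i + 2)) (relVel_smooth (i + 1)).neg 0 0
    (eb (i + 1)) (eb (i + 2)) T k
  have hC1 : 0 ≤ ∑ i : Fin 3, KE i := Finset.sum_nonneg fun i _ => hKE i
  have hC2 : 0 ≤ ∑ i : Fin 3, KB i := Finset.sum_nonneg fun i _ => hKB i
  refine ⟨(∑ i : Fin 3, KE i) + ∑ i : Fin 3, KB i, by positivity, ?_⟩
  intro h g E B φ hh hg hE hB hs hT hM h0 hE0 hB0 hφ hb t ht0 htT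
  have hab : ∀ s ∈ Icc 0 t, |s| ≤ T := fun s hs' => by
    rw [abs_of_nonneg hs'.1]; exact hs'.2.trans htT
  have hN : ∀ s ∈ Icc 0 t, ∀ y v, ‖iteratedFDeriv ℝ k (fun z => uh h (s, z, v)) y‖ ≤ φ s :=
    fun s hs' y v => (hb s (hab s hs') y v).1
  have hNG : ∀ s ∈ Icc 0 t, ∀ i, ∀ y v,
      ‖iteratedFDeriv ℝ k (fun z => (fun (j : Fin 3) (p : PS) => - g j p.1 p.2.1 p.2.2) i (s, z, v)) y‖
        ≤ φ s := fun s hs' i y v => by
    rw [norm_iter_neg_fun (fun z => g i s z v) y]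
    exact (hb s (hab s hs') y v).2 i
  have hnn : ∀ s ∈ Icc 0 t, 0 ≤ φ s := fun s hs' => (norm_nonneg _).trans (hN s hs' 0 0)
  have hI : 0 ≤ ∫ s in (0:ℝ)..t, φ s := intervalIntegral.integral_nonneg ht0 hnn
  rw [abs_of_nonneg hI]
  have hEz : ∀ (i : Fin 3) (x : R3), (fun x => E 0 x i) x = 0 := fun i x => by
    show E 0 x i = 0
    rw [hE0]; rfl
  have hBz : ∀ (i : Fin 3) (x : R3), (fun x => B 0 x i) x = 0 := fun i x => by
    show B 0 x i = 0
    rw [hB0]; rfl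
  have hpz : ∀ (F : R3 → ℝ) (i : Fin 3) (x : R3), (∀ z, F z = 0) → pderiv F i x = 0 := by
    intro F i x hF
    have : F = fun _ => (0 : ℝ) := funext hF
    rw [this]
    simp [pderiv]
  have hcurlB : ∀ (i : Fin 3) (x : R3), curl3 (B 0) x i = 0 := by
    intro i x
    unfold curl3
    rw [hpz _ _ _ (hBz 2), hpz _ _ _ (hBz 1), hpz _ _ _ (hBz 0), hpz _ _ _ (hBz 2),
      hpz _ _ _ (hBz 1), hpz _ _ _ (hBz 0)]
    fin_cases i <;> simp
  have hcurlE : ∀ (i : Fin 3) (x : R3), curl3 (E 0) x i = 0 := by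
    intro i x
    unfold curl3
    rw [hpz _ _ _ (hEz 2), hpz _ _ _ (hEz 1), hpz _ _ _ (hEz 0), hpz _ _ _ (hEz 2),
      hpz _ _ _ (hEz 1), hpz _ _ _ (hEz 0)]
    fin_cases i <;> simp
  have hcur : ∀ (i : Fin 3) (x : R3), currentDensity h 0 x i = 0 := by
    intro i x
    rw [Src.currentDensity_eq_zero (fun v => h0 x v)]
    rfl
  intro x
  refine ⟨?_, ?_⟩
  · have hEt : ContDiff ℝ ∞ (E t) :=
      hE.1.comp (by fun_prop : ContDiff ℝ ∞ fun y : R3 => ((t, y) : ℝ × R3))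
    refine (Kir.iter_le_sum hEt k x).trans ?_
    have key : ∀ i : Fin 3, ‖iteratedFDeriv ℝ k (fun y => E t y i) x‖
        ≤ KE i * ∫ s in (0:ℝ)..t, φ s := by
      intro i
      have := HE i _ _ _ _ _ _ (sw_E hh hg hE hB hs hT hM i) 0
        (fun x => norm_iter_zero (hEz i) x) (fun x => norm_iter_zero (hEz i) x)
        (fun x => norm_iter_zero (fun z => by rw [hcurlB, hcur, sub_zero]) x)
        (fun y v => norm_iter_zero (fun z => h0 z v) y) t ⟨ht0, htT⟩ φ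
        (hφ.intervalIntegrable _ _) hN hNG x
      rwa [zero_add] at this
    refine (Finset.sum_le_sum fun i _ => key i).trans ?_
    rw [← Finset.sum_mul]
    exact mul_le_mul_of_nonneg_right (by linarith) hI
  · have hBt : ContDiff ℝ ∞ (B t) :=
      hB.1.comp (by fun_prop : ContDiff ℝ ∞ fun y : R3 => ((t, y) : ℝ × R3))
    refine (Kir.iter_le_sum hBt k x).trans ?_
    have key : ∀ i : Fin 3, ‖iteratedFDeriv ℝ k (fun y => B t y i) x‖
        ≤ KB i * ∫ s in (0:ℝ)..t, φ s := by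
      intro i
      have := HB i _ _ _ _ _ _ (sw_B hh hg hE hB hs hT hM i) 0
        (fun x => norm_iter_zero (hBz i) x) (fun x => norm_iter_zero (hBz i) x)
        (fun x => norm_iter_zero (fun z => by rw [hcurlE, neg_zero]) x)
        (fun y v => norm_iter_zero (fun z => h0 z v) y) t ⟨ht0, htT⟩ φ
        (hφ.intervalIntegrable _ _) hN hNG x
      rwa [zero_add] at this
    refine (Finset.sum_le_sum fun i _ => key i).trans ?_
    rw [← Finset.sum_mul]
    exact mul_le_mul_of_nonneg_right (by linarith) hI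

/-- **FB** -/
theorem fb (hS : SupEst) : Std.FB := Std.fb_of_pos (fbpos hS)

/-- **FBz** -/
theorem fbz (hS : SupEst) : Std.FBz := Std.fbz_of_pos (fbzpos hS)

end Crest.Agent.R106.FBDir
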