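import Crest.Agent.R106.Src2
import Crest.Agent.R106.StdIface

/-!
Row 106, node REV (helper105): time reversal `(f,E,B)(t,x,v) ↦ (f(-t,x,-v), E(-t,x), -B(-t,x))`.
Two-sided bounds follow from bounds for `t ≥ 0`.
-/

set_option autoImplicit false

open MeasureTheory Set Filter Topology
open scoped ContDiff
open Crest.AnalysisR.VecCalc3 Crest.AnalysisR.PDE.RVM

namespace Crest.Agent.R106.Std

/-- reversed density -/
def rf (f : ℝ → R3 → R3 → ℝ) : ℝ → R3 → R3 → ℝ := fun t x v => f (-t) x (-v)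

/-- reversed electric field -/
def rE (E : ℝ → R3 → R3) : ℝ → R3 → R3 := fun t x => E (-t) x

/-- reversed magnetic field -/
def rB (B : ℝ → R3 → R3) : ℝ → R3 → R3 := fun t x => -B (-t) x

/-- reversed initial density -/
def rf0 (f₀ : R3 → R3 → ℝ) : R3 → R3 → ℝ := fun x v => f₀ x (-v)

/-- reversed initial magnetic field -/
def rB0 (B₀ : R3 → R3) : R3 → R3 := fun x => -B₀ x

/-- reversed truncated force -/
noncomputable def rG (G : R3 → (R3 × R3) →L[ℝ] R3) : R3 → (R3 × R3) →L[ℝ] R3 := fun v =>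
  (G (-v)).comp ((ContinuousLinearMap.fst ℝ R3 R3).prod (-(ContinuousLinearMap.snd ℝ R3 R3)))

lemma rG_apply (G : R3 → (R3 × R3) →L[ℝ] R3) (v e b : R3) : rG G v (e, b) = G (-v) (e, -b) := by
  simp [rG]

lemma rf_rf (f : ℝ → R3 → R3 → ℝ) : rf (rf f) = f := by
  funext t x v; simp [rf]

lemma rE_rE (E : ℝ → R3 → R3) : rE (rE E) = E := by
  funext t x; simp [rE]

lemma rB_rB (B : ℝ → R3 → R3) : rB (rB B) = B := by
  funext t x; simp [rB]

/-! ### derivatives -/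

lemma fderiv_comp_neg_R3 (g : R3 → ℝ) (v : R3) :
    fderiv ℝ (fun w => g (-w)) v = -fderiv ℝ g (-v) := by
  have h := (ContinuousLinearEquiv.neg ℝ : R3 ≃L[ℝ] R3).comp_right_fderiv (f := g) (x := v)
  have h2 : (g ∘ (ContinuousLinearEquiv.neg ℝ : R3 ≃L[ℝ] R3)) = fun w => g (-w) := by
    funext w; simp
  rw [h2] at h
  rw [h]
  ext w
  simp

lemma pderiv_comp_neg (g : R3 → ℝ) (i : Fin 3) (v : R3) :
    pderiv (fun w => g (-w)) i v = -pderiv g i (-v) := by
  unfold pderiv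
  rw [fderiv_comp_neg_R3]
  rfl

lemma pderiv_neg (g : R3 → ℝ) (i : Fin 3) (v : R3) :
    pderiv (fun w => -g w) i v = -pderiv g i v := by
  unfold pderiv
  have : (fun w => -g w) = -g := rfl
  rw [this, fderiv_neg]
  rfl

lemma relVel_neg (v : R3) : relVel (-v) = -relVel v := by
  simp [relVel]

lemma curl3_neg (B : R3 → R3) (x : R3) (i : Fin 3) :
    curl3 (fun y => -B y) x i = -curl3 B x i := by
  have h : ∀ j k : Fin 3, pderiv (fun y => (-B y) j) k x = -pderiv (fun y => B y j) k x := by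
    intro j k
    exact pderiv_neg (fun y => B y j) k x
  fin_cases i <;> simp only [curl3, h] <;> simp <;> ring

lemma div3_neg (B : R3 → R3) (x : R3) : div3 (fun y => -B y) x = -div3 B x := by
  unfold div3
  rw [← Finset.sum_neg_distrib]
  refine Finset.sum_congr rfl fun i _ => ?_
  exact pderiv_neg (fun y => B y i) i x

lemma Tfree_rf (f : ℝ → R3 → R3 → ℝ) (t : ℝ) (x v : R3) :
    Tfree (rf f) t x v = -Tfree f (-t) x (-v) := by
  unfold Tfree
  have h1 : deriv (fun s => rf f s x v) t = -deriv (fun s => f s x (-v)) (-t) :=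
    deriv_comp_neg (fun s => f s x (-v)) t
  have h2 : ∀ i : Fin 3, relVel v i * pderiv (fun y => rf f t y v) i x =
      -(relVel (-v) i * pderiv (fun y => f (-t) y (-v)) i x) := by
    intro i
    rw [relVel_neg]
    simp [rf]
  rw [h1, Finset.sum_congr rfl fun i _ => h2 i, Finset.sum_neg_distrib]
  ring

lemma pderiv_v_rf (f : ℝ → R3 → R3 → ℝ) (t : ℝ) (x v : R3) (i : Fin 3) :
    pderiv (fun w => rf f t x w) i v = -pderiv (fun w => f (-t) x w) i (-v) :=
  pderiv_comp_neg (fun w => f (-t) x w) i v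

lemma Gv_rf (G : R3 → (R3 × R3) →L[ℝ] R3) (E B : ℝ → R3 → R3) (f : ℝ → R3 → R3 → ℝ) (t : ℝ)
    (x v : R3) : Gv (rG G) (rE E) (rB B) (rf f) t x v = -Gv G E B f (-t) x (-v) := by
  unfold Gv
  rw [← Finset.sum_neg_distrib]
  refine Finset.sum_congr rfl fun i _ => ?_
  rw [pderiv_v_rf]
  have : (rG G v) (rE E t x, rB B t x) = G (-v) (E (-t) x, B (-t) x) := by
    rw [rG_apply]
    simp [rE, rB]
  rw [this]
  ring

lemma TransEq_rf {G : R3 → (R3 × R3) →L[ℝ] R3} {E B : ℝ → R3 → R3} {f : ℝ → R3 → R3 → ℝ} {t : ℝ}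
    {x v : R3} (h : TransEq G E B f (-t) x (-v)) : TransEq (rG G) (rE E) (rB B) (rf f) t x v := by
  unfold TransEq at *
  rw [Tfree_rf, Gv_rf, ← neg_add, h, neg_zero]

/-! ### moments and Maxwell -/

lemma chargeDensity_rf (f : ℝ → R3 → R3 → ℝ) (t : ℝ) (x : R3) :
    chargeDensity (rf f) t x = chargeDensity f (-t) x := by
  unfold chargeDensity rf
  exact integral_neg_eq_self (fun v => f (-t) x v) volume

lemma currentDensity_rf (f : ℝ → R3 → R3 → ℝ) (t : ℝ) (x : R3) :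
    currentDensity (rf f) t x = -currentDensity f (-t) x := by
  unfold currentDensity rf
  rw [← integral_neg_eq_self (fun v => f (-t) x (-v) • relVel v) volume, ← integral_neg]
  refine integral_congr_ae (Eventually.of_forall fun v => ?_)
  simp [relVel_neg]

lemma maxwellAt_rev {f : ℝ → R3 → R3 → ℝ} {E B : ℝ → R3 → R3} {t : ℝ} {x : R3}
    (h : MaxwellAt (chargeDensity f) (currentDensity f) E B (-t) x) :
    MaxwellAt (chargeDensity (rf f)) (currentDensity (rf f)) (rE E) (rB B) t x := by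
  obtain ⟨h1, h2, h3, h4⟩ := h
  refine ⟨fun i => ?_, fun i => ?_, ?_, ?_⟩
  · have hd : deriv (fun s => rE E s x i) t = -deriv (fun s => E s x i) (-t) :=
      deriv_comp_neg (fun s => E s x i) t
    have hc : curl3 (rB B t) x i = -curl3 (B (-t)) x i := curl3_neg (B (-t)) x i
    rw [hd, hc, currentDensity_rf]
    have := h1 i
    simp only [PiLp.neg_apply]
    linarith
  · have hd : deriv (fun s => rB B s x i) t = deriv (fun s => B s x i) (-t) := by
      have h5 := deriv_comp_neg (fun s => -(B s x i)) t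
      have h6 : (fun s => rB B s x i) = fun s => -(B (-s) x i) := by
        funext s; simp [rB]
      rw [h6, h5]
      have h7 : deriv (fun s => -(B s x i)) (-t) = -deriv (fun s => B s x i) (-t) :=
        deriv.fun_neg
      rw [h7, neg_neg]
    have hc : curl3 (rE E t) x i = curl3 (E (-t)) x i := rfl
    rw [hd, hc]
    exact h2 i
  · rw [chargeDensity_rf]
    exact h3
  · have : div3 (rB B t) x = -div3 (B (-t)) x := div3_neg (B (-t)) x
    rw [this, h4, neg_zero]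

/-! ### classes -/

lemma PC.rev {f : ℝ → R3 → R3 → ℝ} (h : PC f) : PC (rf f) := by
  refine ⟨?_, fun T => ?_⟩
  · have h1 : ContDiff ℝ ∞ (fun p : ℝ × R3 × R3 => ((-p.1, p.2.1, -p.2.2) : ℝ × R3 × R3)) := by
      fun_prop
    exact h.1.comp h1
  · obtain ⟨R, hR⟩ := h.2 T
    refine ⟨R, fun t ht x v hxv => ?_⟩
    exact hR (-t) (by rwa [abs_neg]) x (-v) (by rwa [norm_neg])

lemma SF.revE {E : ℝ → R3 → R3} (h : SF E) : SF (rE E) := by
  refine ⟨?_, fun T k => ?_⟩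
  · have h1 : ContDiff ℝ ∞ (fun p : ℝ × R3 => ((-p.1, p.2) : ℝ × R3)) := by fun_prop
    exact h.1.comp h1
  · obtain ⟨C, hC⟩ := h.2 T k
    exact ⟨C, fun t ht x => hC (-t) (by rwa [abs_neg]) x⟩

lemma norm_iteratedFDeriv_neg' {X Y : Type*} [NormedAddCommGroup X] [NormedSpace ℝ X]
    [NormedAddCommGroup Y] [NormedSpace ℝ Y] (k : ℕ) (g : X → Y) (x : X) :
    ‖iteratedFDeriv ℝ k (fun y => -g y) x‖ = ‖iteratedFDeriv ℝ k g x‖ := by
  have h1 : (fun y => -g y) = -g := rfl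
  rw [h1, iteratedFDeriv_neg_apply, norm_neg]

lemma SF.revB {B : ℝ → R3 → R3} (h : SF B) : SF (rB B) := by
  refine ⟨?_, fun T k => ?_⟩
  · have h1 : ContDiff ℝ ∞ (fun p : ℝ × R3 => ((-p.1, p.2) : ℝ × R3)) := by fun_prop
    exact (h.1.comp h1).neg
  · obtain ⟨C, hC⟩ := h.2 T k
    refine ⟨C, fun t ht x => ?_⟩
    have h2 := hC (-t) (by rwa [abs_neg]) x
    have h3 := norm_iteratedFDeriv_neg' k (B (-t)) x
    calc ‖iteratedFDeriv ℝ k (rB B t) x‖ = ‖iteratedFDeriv ℝ k (B (-t)) x‖ := h3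
      _ ≤ C := h2

lemma FBd_rev_iff {k : ℕ} {E B : ℝ → R3 → R3} {t c : ℝ} :
    FBd k (rE E) (rB B) t c ↔ FBd k E B (-t) c := by
  unfold FBd
  refine forall_congr' fun x => ?_
  have h3 : ‖iteratedFDeriv ℝ k (rB B t) x‖ = ‖iteratedFDeriv ℝ k (B (-t)) x‖ :=
    norm_iteratedFDeriv_neg' k (B (-t)) x
  rw [h3]
  rfl

lemma FBt_rev_iff {E B : ℝ → R3 → R3} {t c : ℝ} :
    FBt (rE E) (rB B) t c ↔ FBt E B (-t) c := by
  unfold FBt
  refine forall_congr' fun x => ?_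
  have h1 : deriv (fun s => rE E s x) t = -deriv (fun s => E s x) (-t) :=
    deriv_comp_neg (fun s => E s x) t
  have h2 : deriv (fun s => rB B s x) t = deriv (fun s => B s x) (-t) := by
    have h5 := deriv_comp_neg (fun s => -(B s x)) t
    have h6 : (fun s => rB B s x) = fun s => -(B (-s) x) := rfl
    rw [h6, h5]
    have h7 : deriv (fun s => -(B s x)) (-t) = -deriv (fun s => B s x) (-t) := deriv.fun_neg
    rw [h7, neg_neg]
  rw [h1, h2, norm_neg]

/-- the isometry `(x,v) ↦ (x,-v)` -/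
noncomputable def flipv : (R3 × R3) ≃ₗᵢ[ℝ] (R3 × R3) where
  toLinearEquiv := (LinearEquiv.refl ℝ R3).prodCongr (LinearEquiv.neg ℝ)
  norm_map' := fun z => by simp [Prod.norm_def]

lemma flipv_apply (z : R3 × R3) : flipv z = (z.1, -z.2) := rfl

lemma fBd_rev_iff {k : ℕ} {f : ℝ → R3 → R3 → ℝ} {t c : ℝ} :
    fBd k (rf f) t c ↔ fBd k f (-t) c := by
  unfold fBd
  have key : ∀ z : R3 × R3, ‖iteratedFDeriv ℝ k (fun z : R3 × R3 => rf f t z.1 z.2) z‖ =
      ‖iteratedFDeriv ℝ k (fun z : R3 × R3 => f (-t) z.1 z.2) (flipv z)‖ := by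
    intro z
    have h1 := flipv.norm_iteratedFDeriv_comp_right (𝕜 := ℝ)
      (fun z : R3 × R3 => f (-t) z.1 z.2) z k
    have h2 : ((fun z : R3 × R3 => f (-t) z.1 z.2) ∘ flipv) =
        fun z : R3 × R3 => rf f t z.1 z.2 := by
      funext w; simp [flipv_apply, rf]
    rw [h2] at h1
    exact h1
  constructor
  · intro h z
    have := h (flipv z)
    rw [key] at this
    have h3 : flipv (flipv z) = z := by simp [flipv_apply]
    rwa [h3] at this
  · intro h z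
    rw [key]
    exact h _

lemma IsTrunc.rev {P : ℝ} {G : R3 → (R3 × R3) →L[ℝ] R3} (h : IsTrunc P G) : IsTrunc P (rG G) where
  pos := h.pos
  smooth := by
    have h1 : ContDiff ℝ ∞ (fun v => G (-v)) := h.smooth.comp contDiff_neg
    exact h1.clm_comp contDiff_const
  supp := fun v hv => by
    unfold rG
    rw [h.supp (-v) (by rwa [norm_neg])]
    simp
  divfree := fun F v => by
    have h1 := h.divfree (F.1, -F.2) (-v)
    unfold div3 at *
    have h2 : ∀ i : Fin 3, pderiv (fun y => (rG G y F) i) i v =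
        -pderiv (fun y => (G y (F.1, -F.2)) i) i (-v) := by
      intro i
      have h3 := pderiv_comp_neg (fun y => (G y (F.1, -F.2)) i) i v
      rw [← h3]
      congr 1
    rw [Finset.sum_congr rfl fun i _ => h2 i, Finset.sum_neg_distrib, h1, neg_zero]
  eq := fun v e b hv => by
    rw [rG_apply, h.eq (-v) e (-b) (by rwa [norm_neg]), relVel_neg]
    congr 1
    ext i
    fin_cases i <;> simp [cross3]

lemma adm_rev {f₀ : R3 → R3 → ℝ} {E₀ B₀ : R3 → R3} (h : IsAdmissibleDatum f₀ E₀ B₀) :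
    IsAdmissibleDatum (rf0 f₀) E₀ (rB0 B₀) := by
  obtain ⟨h1, h2, h3, h4, h5, h6, h7, h8, h9, h10⟩ := h
  refine ⟨fun x v => h1 x (-v), ?_, ?_, h4, h5.neg, ?_, h7, h8.neg, ?_, ?_⟩
  · have h11 : ContDiff ℝ ∞ (fun p : R3 × R3 => ((p.1, -p.2) : R3 × R3)) := by fun_prop
    have h12 : Function.uncurry (rf0 f₀) = (Function.uncurry f₀) ∘ fun p : R3 × R3 => (p.1, -p.2) := by
      funext p; rfl
    rw [h12]
    exact h2.comp h11
  · have h12 : Function.uncurry (rf0 f₀) = (Function.uncurry f₀) ∘ flipv.toHomeomorph := by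
      funext p; rfl
    rw [h12]
    exact h3.comp_homeomorph _
  · intro n
    obtain ⟨C, hC⟩ := h6 n
    refine ⟨C, fun x => ⟨(hC x).1, ?_⟩⟩
    have h13 : ‖iteratedFDeriv ℝ n (rB0 B₀) x‖ = ‖iteratedFDeriv ℝ n B₀ x‖ :=
      norm_iteratedFDeriv_neg' n B₀ x
    rw [h13]
    exact (hC x).2
  · intro x
    rw [h9 x]
    exact (integral_neg_eq_self (fun v => f₀ x v) volume).symm
  · intro x
    have : div3 (rB0 B₀) x = -div3 B₀ x := div3_neg B₀ x
    rw [this, h10 x, neg_zero]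

/-- **Reversal of a Picard step.** -/
lemma Step.rev {P : ℝ} {G : R3 → (R3 × R3) →L[ℝ] R3} {f₀ : R3 → R3 → ℝ} {E₀ B₀ : R3 → R3}
    {E B : ℝ → R3 → R3} {f : ℝ → R3 → R3 → ℝ} {E' B' : ℝ → R3 → R3}
    (h : Step P G f₀ E₀ B₀ E B f E' B') :
    Step P (rG G) (rf0 f₀) E₀ (rB0 B₀) (rE E) (rB B) (rf f) (rE E') (rB B') where
  inE := h.inE.revE
  inB := h.inB.revB
  pc := h.pc.rev
  init := by
    funext x v
    simp [rf, rf0, h.init]
  trans := fun t x v => TransEq_rf (h.trans (-t) x (-v))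
  values := fun t x v => by
    obtain ⟨y, w, hyw⟩ := h.values (-t) x (-v)
    exact ⟨y, -w, by simp [rf, rf0, hyw]⟩
  suppv := fun R hR h0 t x v hv => by
    refine h.suppv R hR (fun x v hv => ?_) (-t) x (-v) (by rwa [norm_neg])
    have := h0 x (-v) (by rwa [norm_neg])
    simpa [rf0] using this
  suppx := fun R h0 t x v hx => by
    refine h.suppx R (fun x v hx => ?_) (-t) x (-v) (by rwa [abs_neg])
    have := h0 x (-v) hx
    simpa [rf0] using this
  outE := h.outE.revE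
  outB := h.outB.revB
  initE := by
    funext x
    simp [rE, h.initE]
  initB := by
    funext x
    simp [rB, rB0, h.initB]
  maxwell := fun t x => maxwellAt_rev (h.maxwell (-t) x)

/-! ### integrals -/

lemma abs_integral_neg (φ : ℝ → ℝ) (t : ℝ) :
    |∫ s in (0:ℝ)..(-t), φ (-s)| = |∫ s in (0:ℝ)..t, φ s| := by
  rw [intervalIntegral.integral_comp_neg, neg_neg, neg_zero, intervalIntegral.integral_symm, abs_neg]

/-! ### FB -/

/-- `FB` with the conclusion for `0 ≤ t ≤ T` only. -/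
def FBpos : Prop :=
  ∀ (f₀ : R3 → R3 → ℝ) (E₀ B₀ : R3 → R3), IsAdmissibleDatum f₀ E₀ B₀ →
  ∀ (k : ℕ) (R T : ℝ), ∃ C : ℝ, 0 ≤ C ∧
    ∀ (h : ℝ → R3 → R3 → ℝ) (g : Fin 3 → ℝ → R3 → R3 → ℝ) (E B : ℝ → R3 → R3) (φ : ℝ → ℝ),
      PC h → (∀ i, PC (g i)) → SF E → SF B →
      (∀ (t : ℝ) (x v : R3), R < ‖v‖ → h t x v = 0 ∧ ∀ i, g i t x v = 0) →
      (∀ (t : ℝ) (x v : R3), Tfree h t x v = - ∑ i : Fin 3, pderiv (fun w => g i t x w) i v) →
      (∀ (t : ℝ) (x : R3), MaxwellAt (chargeDensity h) (currentDensity h) E B t x) →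
      h 0 = f₀ → E 0 = E₀ → B 0 = B₀ →
      Continuous φ →
      (∀ t : ℝ, |t| ≤ T → ∀ x v : R3, ‖iteratedFDeriv ℝ k (fun y => h t y v) x‖ ≤ φ t ∧
        ∀ i, ‖iteratedFDeriv ℝ k (fun y => g i t y v) x‖ ≤ φ t) →
      ∀ t : ℝ, 0 ≤ t → t ≤ T → FBd k E B t (C * (1 + |∫ s in (0:ℝ)..t, φ s|))

private lemma FBd_mono_rev {k : ℕ} {E B : ℝ → R3 → R3} {t c c' : ℝ} (h : FBd k E B t c) (hc : c ≤ c') :
    FBd k E B t c' := fun x => ⟨(h x).1.trans hc, (h x).2.trans hc⟩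

private lemma FBt_mono_rev {E B : ℝ → R3 → R3} {t c c' : ℝ} (h : FBt E B t c) (hc : c ≤ c') :
    FBt E B t c' := fun x => ⟨(h x).1.trans hc, (h x).2.trans hc⟩

theorem fb_of_pos (hp : FBpos) : FB := by
  intro f₀ E₀ B₀ had k R T
  obtain ⟨C1, hC1, H1⟩ := hp f₀ E₀ B₀ had k R T
  obtain ⟨C2, hC2, H2⟩ := hp (rf0 f₀) E₀ (rB0 B₀) (adm_rev had) k R T
  refine ⟨max C1 C2, le_max_of_le_left hC1,
    fun h g E B φ hh hg hE hB hs hT hM h0 hE0 hB0 hφ hb t ht => ?_⟩
  have hnn : 0 ≤ 1 + |∫ s in (0:ℝ)..t, φ s| := by positivity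
  rcases le_total 0 t with h0t | h0t
  · exact FBd_mono_rev (H1 h g E B φ hh hg hE hB hs hT hM h0 hE0 hB0 hφ hb t h0t
      (by rwa [abs_of_nonneg h0t] at ht)) (mul_le_mul_of_nonneg_right (le_max_left _ _) hnn)
  · have key := H2 (rf h) (fun i => rf (g i)) (rE E) (rB B) (fun s => φ (-s)) hh.rev
      (fun i => (hg i).rev) hE.revE hB.revB
      (fun t x v hv => by
        have := hs (-t) x (-v) (by rwa [norm_neg])
        exact ⟨this.1, fun i => this.2 i⟩)
      (fun t x v => by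
        rw [Tfree_rf, hT (-t) x (-v), neg_neg, ← Finset.sum_neg_distrib]
        refine Finset.sum_congr rfl fun i _ => ?_
        rw [pderiv_v_rf, neg_neg])
      (fun t x => maxwellAt_rev (hM (-t) x))
      (by funext x v; simp [rf, rf0, h0])
      (by funext x; simp [rE, hE0])
      (by funext x; simp [rB, rB0, hB0])
      (hφ.comp continuous_neg)
      (fun t ht x v => by
        have := hb (-t) (by rwa [abs_neg]) x (-v)
        exact ⟨this.1, fun i => this.2 i⟩)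
      (-t) (by linarith) (by rw [abs_of_nonpos h0t] at ht; exact ht)
    rw [FBd_rev_iff, neg_neg, abs_integral_neg] at key
    exact FBd_mono_rev key (mul_le_mul_of_nonneg_right (le_max_right _ _) hnn)

/-- `FBz` with the conclusion for `0 ≤ t ≤ T` only. -/
def FBzpos : Prop :=
  ∀ (k : ℕ) (R T : ℝ), ∃ C : ℝ, 0 ≤ C ∧
    ∀ (h : ℝ → R3 → R3 → ℝ) (g : Fin 3 → ℝ → R3 → R3 → ℝ) (E B : ℝ → R3 → R3) (φ : ℝ → ℝ),
      PC h → (∀ i, PC (g i)) → SF E → SF B →
      (∀ (t : ℝ) (x v : R3), R < ‖v‖ → h t x v = 0 ∧ ∀ i, g i t x v = 0) →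
      (∀ (t : ℝ) (x v : R3), Tfree h t x v = - ∑ i : Fin 3, pderiv (fun w => g i t x w) i v) →
      (∀ (t : ℝ) (x : R3), MaxwellAt (chargeDensity h) (currentDensity h) E B t x) →
      (∀ x v : R3, h 0 x v = 0) → (∀ x : R3, E 0 x = 0) → (∀ x : R3, B 0 x = 0) →
      Continuous φ →
      (∀ t : ℝ, |t| ≤ T → ∀ x v : R3, ‖iteratedFDeriv ℝ k (fun y => h t y v) x‖ ≤ φ t ∧
        ∀ i, ‖iteratedFDeriv ℝ k (fun y => g i t y v) x‖ ≤ φ t) →
      ∀ t : ℝ, 0 ≤ t → t ≤ T → FBd k E B t (C * |∫ s in (0:ℝ)..t, φ s|)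

theorem fbz_of_pos (hp : FBzpos) : FBz := by
  intro k R T
  obtain ⟨C, hC, H⟩ := hp k R T
  refine ⟨C, hC, fun h g E B φ hh hg hE hB hs hT hM h0 hE0 hB0 hφ hb t ht => ?_⟩
  rcases le_total 0 t with h0t | h0t
  · exact H h g E B φ hh hg hE hB hs hT hM h0 hE0 hB0 hφ hb t h0t
      (by rwa [abs_of_nonneg h0t] at ht)
  · have key := H (rf h) (fun i => rf (g i)) (rE E) (rB B) (fun s => φ (-s)) hh.rev
      (fun i => (hg i).rev) hE.revE hB.revB
      (fun t x v hv => by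
        have := hs (-t) x (-v) (by rwa [norm_neg])
        exact ⟨this.1, fun i => this.2 i⟩)
      (fun t x v => by
        rw [Tfree_rf, hT (-t) x (-v), neg_neg, ← Finset.sum_neg_distrib]
        refine Finset.sum_congr rfl fun i _ => ?_
        rw [pderiv_v_rf, neg_neg])
      (fun t x => maxwellAt_rev (hM (-t) x))
      (fun x v => by simpa [rf] using h0 x (-v))
      (fun x => by simpa [rE] using hE0 x)
      (fun x => by simpa [rB] using hB0 x)
      (hφ.comp continuous_neg)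
      (fun t ht x v => by
        have := hb (-t) (by rwa [abs_neg]) x (-v)
        exact ⟨this.1, fun i => this.2 i⟩)
      (-t) (by linarith) (by rw [abs_of_nonpos h0t] at ht; exact ht)
    rw [FBd_rev_iff, neg_neg, abs_integral_neg] at key
    exact key

/-- `FBlog` with the conclusion for `0 ≤ τ ≤ T` only. -/
def FBlogpos : Prop :=
  ∀ (P : ℝ) (G : R3 → (R3 × R3) →L[ℝ] R3), IsTrunc P G →
    ∀ (f₀ : R3 → R3 → ℝ) (E₀ B₀ : R3 → R3), IsAdmissibleDatum f₀ E₀ B₀ → ∀ T A : ℝ,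
    ∃ C : ℝ, 0 ≤ C ∧ ∀ (E B : ℝ → R3 → R3) (f : ℝ → R3 → R3 → ℝ) (E' B' : ℝ → R3 → R3)
      (φ : ℝ → ℝ) (τ L : ℝ),
      Step P G f₀ E₀ B₀ E B f E' B' → 0 ≤ τ → τ ≤ T → 0 ≤ L → Continuous φ →
      (∀ s : ℝ, |s| ≤ T → FBd 0 E B s A) →
      (∀ s : ℝ, |s| ≤ T → FBd 1 E B s (φ s) ∧ FBt E B s (φ s)) →
      (∀ s ∈ uIcc 0 τ, fBd 1 f s (Real.exp L)) →
      FBd 1 E' B' τ (C * (1 + L + |∫ s in (0:ℝ)..τ, φ s|)) ∧
      FBt E' B' τ (C * (1 + L + |∫ s in (0:ℝ)..τ, φ s|))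

theorem fblog_of_pos (hp : FBlogpos) : FBlog := by
  intro P G hG f₀ E₀ B₀ had T A
  obtain ⟨C1, hC1, H1⟩ := hp P G hG f₀ E₀ B₀ had T A
  obtain ⟨C2, hC2, H2⟩ := hp P (rG G) hG.rev (rf0 f₀) E₀ (rB0 B₀) (adm_rev had) T A
  refine ⟨max C1 C2, le_max_of_le_left hC1, fun E B f E' B' φ τ L hst hτ hL hφ hb0 hb1 hf => ?_⟩
  have hnn : 0 ≤ 1 + L + |∫ s in (0:ℝ)..τ, φ s| := by positivity
  rcases le_total 0 τ with h0 | h0
  · have key := H1 E B f E' B' φ τ L hst h0 (by rwa [abs_of_nonneg h0] at hτ) hL hφ hb0 hb1 hf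
    have hle : C1 * (1 + L + |∫ s in (0:ℝ)..τ, φ s|) ≤
        max C1 C2 * (1 + L + |∫ s in (0:ℝ)..τ, φ s|) :=
      mul_le_mul_of_nonneg_right (le_max_left _ _) hnn
    exact ⟨FBd_mono_rev key.1 hle, FBt_mono_rev key.2 hle⟩
  · have key := H2 (rE E) (rB B) (rf f) (rE E') (rB B') (fun s => φ (-s)) (-τ) L hst.rev
      (by linarith) (by rw [abs_of_nonpos h0] at hτ; exact hτ) hL (hφ.comp continuous_neg)
      (fun s hs => by rw [FBd_rev_iff]; exact hb0 (-s) (by rwa [abs_neg]))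
      (fun s hs => by
        rw [FBd_rev_iff, FBt_rev_iff]
        exact hb1 (-s) (by rwa [abs_neg]))
      (fun s hs => by
        rw [fBd_rev_iff]
        refine hf (-s) ?_
        rw [uIcc_of_le (by linarith)] at hs
        rw [uIcc_of_ge h0]
        exact ⟨by linarith [hs.2], by linarith [hs.1]⟩)
    rw [FBd_rev_iff, FBt_rev_iff, neg_neg, abs_integral_neg] at key
    have hle : C2 * (1 + L + |∫ s in (0:ℝ)..τ, φ s|) ≤
        max C1 C2 * (1 + L + |∫ s in (0:ℝ)..τ, φ s|) :=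
      mul_le_mul_of_nonneg_right (le_max_right _ _) hnn
    exact ⟨FBd_mono_rev key.1 hle, FBt_mono_rev key.2 hle⟩

end Crest.Agent.R106.Std
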