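import Crest.Agent.R106.FieldStd
import Crest.Agent.R106.Rev

/-!
# Row 106 (helper2): node `FBlog` of the standard part from `GSLogU` (one-sided bound + time reversal).
-/

set_option autoImplicit false

namespace Crest.Agent.R106.FieldStd

open Crest.Agent.R106.Std

theorem fblogpos' (h : Field.GSLogU) : FBlogpos := fblogpos h

theorem fbLog (h : Field.GSLogU) : FBlog := fblog_of_pos (fblogpos' h)

end Crest.Agent.R106.FieldStd
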