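/- Row 106, node GS2 (helper375): homogeneous kernels. -/
import Crest.Agent.R106.Gs2Defs

set_option autoImplicit false
open MeasureTheory Set
open scoped ContDiff RealInnerProductSpace
open Crest.AnalysisR.VecCalc3 Crest.AnalysisR.PDE.RVM

namespace Crest.Agent.R106.Gs2

/-- position-momentum space of the cone variable `(z, v)` -/
abbrev ZV : Type := R3 × R3

/-- the region `z ≠ 0` -/
def SS : Set ZV := {p | p.1 ≠ 0}

theorem isOpen_SS : IsOpen SS := by
  have : SS = (fun p : ZV => p.1) ⁻¹' {0}ᶜ := by ext p; simp [SS]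
  rw [this]
  exact isOpen_compl_singleton.preimage continuous_fst

theorem mem_SS {p : ZV} : p ∈ SS ↔ p.1 ≠ 0 := Iff.rfl

/-- smooth kernels on `{z ≠ 0}`, homogeneous of degree `-k` in `z` -/
structure Hk (k : ℕ) (κ : ZV → ℝ) : Prop where
  smooth : ContDiffOn ℝ ∞ κ SS
  hom : ∀ c : ℝ, 0 < c → ∀ z v : R3, z ≠ 0 → κ (c • z, v) = (c ^ k)⁻¹ * κ (z, v)

namespace Hk

variable {k l : ℕ} {κ κ' : ZV → ℝ}

theorem mul (h : Hk k κ) (h' : Hk l κ') : Hk (k + l) (fun p => κ p * κ' p) where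
  smooth := h.smooth.mul h'.smooth
  hom c hc z v hz := by
    simp only [h.hom c hc z v hz, h'.hom c hc z v hz]
    rw [pow_add, mul_inv]; ring

theorem mul0 (h : Hk k κ) (h' : Hk 0 κ') : Hk k (fun p => κ p * κ' p) := by
  simpa using h.mul h'

theorem add (h : Hk k κ) (h' : Hk k κ') : Hk k (fun p => κ p + κ' p) where
  smooth := h.smooth.add h'.smooth
  hom c hc z v hz := by
    simp only [h.hom c hc z v hz, h'.hom c hc z v hz]; ring

theorem neg (h : Hk k κ) : Hk k (fun p => - κ p) where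
  smooth := h.smooth.neg
  hom c hc z v hz := by
    simp only [h.hom c hc z v hz]; ring

theorem sub (h : Hk k κ) (h' : Hk k κ') : Hk k (fun p => κ p - κ' p) := by
  simpa [sub_eq_add_neg] using h.add h'.neg

theorem zero : Hk k (fun _ => (0 : ℝ)) where
  smooth := contDiffOn_const
  hom c hc z v hz := by simp

theorem const (a : ℝ) : Hk 0 (fun _ => a) where
  smooth := contDiffOn_const
  hom c hc z v hz := by simp

theorem sum {ι : Type} (s : Finset ι) {f : ι → ZV → ℝ} (h : ∀ i ∈ s, Hk k (f i)) :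
    Hk k (fun p => ∑ i ∈ s, f i p) where
  smooth := ContDiffOn.sum fun i hi => (h i hi).smooth
  hom c hc z v hz := by
    rw [Finset.mul_sum]
    exact Finset.sum_congr rfl fun i hi => (h i hi).hom c hc z v hz

theorem ofV {m : R3 → ℝ} (hm : ContDiff ℝ ∞ m) : Hk 0 (fun p => m p.2) where
  smooth := (hm.comp contDiff_snd).contDiffOn
  hom c hc z v hz := by simp

theorem nrm_smooth : ContDiffOn ℝ ∞ (fun p : ZV => ‖p.1‖) SS := by
  intro p hp
  exact ((contDiffAt_norm ℝ hp).comp p contDiffAt_fst).contDiffWithinAt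

theorem nrmInv : Hk 1 (fun p : ZV => ‖p.1‖⁻¹) where
  smooth := nrm_smooth.inv fun p hp => norm_ne_zero_iff.2 hp
  hom c hc z v hz := by
    simp only [norm_smul, Real.norm_eq_abs, abs_of_pos hc, mul_inv, pow_one]

/-- `⟪ω, b⟫`, `ω = z/|z|` -/
theorem om (b : R3) : Hk 0 (fun p : ZV => ⟪p.1, b⟫ * ‖p.1‖⁻¹) where
  smooth := by
    refine ContDiffOn.mul ?_ nrmInv.smooth
    exact (contDiff_fst.inner ℝ contDiff_const).contDiffOn
  hom c hc z v hz := by
    have : c ≠ 0 := hc.ne'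
    simp only [norm_smul, Real.norm_eq_abs, abs_of_pos hc, mul_inv, pow_zero, inner_smul_left,
      inv_one, one_mul, RCLike.conj_to_real]
    field_simp

end Hk

theorem relVel_smooth : ContDiff ℝ ∞ relVel := by
  unfold relVel
  refine ContDiff.smul (ContDiff.inv (ContDiff.sqrt ?_ ?_) ?_) contDiff_id
  · exact contDiff_const.add (contDiff_norm_sq ℝ)
  · intro x; positivity
  · intro x; positivity

theorem norm_relVel_lt (v : R3) : ‖relVel v‖ < 1 := by
  unfold relVel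
  rw [norm_smul, norm_inv, Real.norm_of_nonneg (Real.sqrt_nonneg _)]
  rw [inv_mul_lt_iff₀ (by positivity), mul_one]
  apply Real.lt_sqrt_of_sq_lt
  linarith

/-- `1 + ⟪ω, u(v)⟫ > 0` -/
theorem den_pos {z : R3} (hz : z ≠ 0) (v : R3) : 0 < 1 + ⟪z, relVel v⟫ * ‖z‖⁻¹ := by
  have h1 : |⟪z, relVel v⟫| ≤ ‖z‖ * ‖relVel v‖ := abs_real_inner_le_norm _ _
  have hz' : 0 < ‖z‖ := norm_pos_iff.2 hz
  have h2 : |⟪z, relVel v⟫ * ‖z‖⁻¹| ≤ ‖relVel v‖ := by
    rw [abs_mul, abs_of_pos (inv_pos.2 hz')]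
    rw [← div_eq_mul_inv, div_le_iff₀ hz']
    linarith
  have h3 := norm_relVel_lt v
  have h4 := neg_abs_le (⟪z, relVel v⟫ * ‖z‖⁻¹)
  linarith

namespace Hk

variable {k l : ℕ} {κ κ' : ZV → ℝ}

theorem omu : Hk 0 (fun p : ZV => ⟪p.1, relVel p.2⟫ * ‖p.1‖⁻¹) where
  smooth := by
    refine ContDiffOn.mul ?_ nrmInv.smooth
    exact (contDiff_fst.inner ℝ (relVel_smooth.comp contDiff_snd)).contDiffOn
  hom c hc z v hz := by
    have : c ≠ 0 := hc.ne'
    simp only [norm_smul, Real.norm_eq_abs, abs_of_pos hc, mul_inv, pow_zero, inner_smul_left,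
      inv_one, one_mul, RCLike.conj_to_real]
    field_simp

theorem rho : Hk 0 (fun p : ZV => (1 + ⟪p.1, relVel p.2⟫ * ‖p.1‖⁻¹)⁻¹) where
  smooth := ((const 1).add omu).smooth.inv fun p hp => (den_pos hp p.2).ne'
  hom c hc z v hz := by
    rw [((const 1).add omu).hom c hc z v hz]
    simp

theorem differentiableAt (h : Hk k κ) {p : ZV} (hp : p ∈ SS) : DifferentiableAt ℝ κ p :=
  (h.smooth.contDiffAt (isOpen_SS.mem_nhds hp)).differentiableAt (by simp)

theorem deriv_smooth (h : Hk k κ) (d : ZV) : ContDiffOn ℝ ∞ (fun p => fderiv ℝ κ p d) SS := by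
  have h1 : ContDiffOn ℝ ∞ (fderiv ℝ κ) SS :=
    h.smooth.fderiv_of_isOpen isOpen_SS (by simp)
  exact h1.clm_apply contDiffOn_const

/-- the scaling map -/
theorem fderiv_scale (h : Hk k κ) {c : ℝ} (hc : 0 < c) {z v : R3} (hz : z ≠ 0) (d : ZV) :
    fderiv ℝ κ (c • z, v) (c • d.1, d.2) = (c ^ k)⁻¹ * fderiv ℝ κ (z, v) d := by
  set L : ZV →L[ℝ] ZV := (c • ContinuousLinearMap.fst ℝ R3 R3).prod
    (ContinuousLinearMap.snd ℝ R3 R3) with hL
  have hLd : ∀ q : ZV, L q = (c • q.1, q.2) := fun q => by simp [hL]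
  have hcz : c • z ≠ 0 := smul_ne_zero hc.ne' hz
  have hd1 : HasFDerivAt κ (fderiv ℝ κ (c • z, v)) (L (z, v)) := by
    rw [hLd]; exact (h.differentiableAt (p := (c • z, v)) hcz).hasFDerivAt
  have hcomp : HasFDerivAt (fun q => κ (L q)) ((fderiv ℝ κ (c • z, v)).comp L) (z, v) :=
    hd1.comp (z, v) L.hasFDerivAt
  have heq : (fun q => κ (L q)) =ᶠ[nhds (z, v)] fun q => (c ^ k)⁻¹ * κ q := by
    filter_upwards [isOpen_SS.mem_nhds (show (z, v) ∈ SS from hz)] with q hq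
    rw [hLd, h.hom c hc q.1 q.2 hq]
  have hd2 : HasFDerivAt (fun q => (c ^ k)⁻¹ * κ q) ((c ^ k)⁻¹ • fderiv ℝ κ (z, v)) (z, v) :=
    (h.differentiableAt (p := (z, v)) hz).hasFDerivAt.const_mul _
  have := hcomp.unique (hd2.congr_of_eventuallyEq heq)
  have h2 := congrArg (fun T : ZV →L[ℝ] ℝ => T d) this
  simpa [hLd] using h2

theorem derivZ (h : Hk k κ) (e : R3) : Hk (k + 1) (fun p => fderiv ℝ κ p (e, 0)) where
  smooth := h.deriv_smooth (e, 0)
  hom c hc z v hz := by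
    have := h.fderiv_scale hc hz (v := v) (c⁻¹ • e, 0)
    simp only [smul_inv_smul₀ hc.ne'] at this
    rw [this]
    have h2 : ((c⁻¹ • e, (0 : R3)) : ZV) = c⁻¹ • (e, (0 : R3)) := by simp
    rw [h2, map_smul, smul_eq_mul, pow_succ, mul_inv]
    ring

theorem derivV (h : Hk k κ) (e : R3) : Hk k (fun p => fderiv ℝ κ p (0, e)) where
  smooth := h.deriv_smooth (0, e)
  hom c hc z v hz := by
    have := h.fderiv_scale hc hz (v := v) (0, e)
    simpa using this

theorem bound (h : Hk k κ) (P : ℝ) :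
    ∃ C : ℝ, 0 ≤ C ∧ ∀ z v : R3, z ≠ 0 → ‖v‖ ≤ P → |κ (z, v)| ≤ C * (‖z‖ ^ k)⁻¹ := by
  have hc : IsCompact (Metric.sphere (0 : R3) 1 ×ˢ Metric.closedBall (0 : R3) P) :=
    (isCompact_sphere _ _).prod (isCompact_closedBall _ _)
  have hsub : Metric.sphere (0 : R3) 1 ×ˢ Metric.closedBall (0 : R3) P ⊆ SS := by
    rintro ⟨z, v⟩ ⟨hz, -⟩
    rw [mem_SS]
    intro h0
    simp only [mem_sphere_iff_norm, sub_zero] at hz
    simp only at h0
    rw [h0, norm_zero] at hz
    exact zero_ne_one hz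
  obtain ⟨C, hC⟩ := hc.exists_bound_of_continuousOn (h.smooth.continuousOn.mono hsub)
  refine ⟨max C 0, le_max_right _ _, fun z v hz hv => ?_⟩
  have hz' : 0 < ‖z‖ := norm_pos_iff.2 hz
  have h1 := h.hom ‖z‖ hz' (‖z‖⁻¹ • z) v (smul_ne_zero (inv_ne_zero hz'.ne') hz)
  rw [smul_inv_smul₀ hz'.ne'] at h1
  rw [h1, abs_mul, abs_of_pos (by positivity), mul_comm]
  refine mul_le_mul_of_nonneg_right ?_ (by positivity)
  refine le_trans ?_ (le_max_left _ _)
  have := hC (‖z‖⁻¹ • z, v) ⟨by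
    rw [mem_sphere_iff_norm, sub_zero, norm_smul, norm_inv, norm_norm, inv_mul_cancel₀ hz'.ne'],
    by simpa using hv⟩
  simpa using this

end Hk

end Crest.Agent.R106.Gs2
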