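/- Row 106, node GS2 (helper375): integrals on the cone. -/
import Crest.Agent.R106.Gs2Hom

set_option autoImplicit false
open MeasureTheory Set Filter Topology
open scoped ContDiff RealInnerProductSpace
open Crest.AnalysisR.VecCalc3 Crest.AnalysisR.PDE.RVM

namespace Crest.Agent.R106.Gs2

/-- indicator of the momentum ball -/
noncomputable def indP (P : ℝ) (v : R3) : ℝ :=
  (Metric.closedBall (0 : R3) P).indicator (fun _ => (1 : ℝ)) v

theorem indP_nonneg (P : ℝ) (v : R3) : 0 ≤ indP P v := by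
  unfold indP; exact indicator_nonneg (fun _ _ => zero_le_one) _

theorem indP_of_le {P : ℝ} {v : R3} (h : ‖v‖ ≤ P) : indP P v = 1 := by
  unfold indP; rw [indicator_of_mem]; simpa using h

theorem indP_of_lt {P : ℝ} {v : R3} (h : P < ‖v‖) : indP P v = 0 := by
  unfold indP; rw [indicator_of_notMem]; simpa using h

/-- the constant of the bound -/
noncomputable def cB (P : ℝ) : ℝ :=
  3 * volume.real (Metric.ball (0 : R3) 1) * volume.real (Metric.closedBall (0 : R3) P)

theorem cB_nonneg (P : ℝ) : 0 ≤ cB P := by unfold cB; positivity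

theorem integrable_indP (P : ℝ) : Integrable (indP P) (volume : Measure R3) := by
  unfold indP
  exact (integrable_indicator_iff measurableSet_closedBall).2
    (integrableOn_const (measure_closedBall_lt_top).ne)

theorem integral_indP (P : ℝ) : ∫ v, indP P v = volume.real (Metric.closedBall (0 : R3) P) := by
  have : (∫ v, indP P v) = ∫ v, (Metric.closedBall (0 : R3) P).indicator (fun _ => (1 : ℝ)) v := rfl
  rw [this, integral_indicator measurableSet_closedBall]
  simp

theorem integrable_rad {φ : ℝ → ℝ} (hφ : IntegrableOn (fun r => r ^ 2 * φ r) (Ioi 0)) :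
    Integrable (fun z : R3 => φ ‖z‖) := by
  rw [integrable_fun_norm_addHaar (volume : Measure R3)]
  simpa [finrank_euclideanSpace] using hφ

theorem integral_rad (φ : ℝ → ℝ) :
    ∫ z : R3, φ ‖z‖ = 3 * volume.real (Metric.ball (0 : R3) 1) * ∫ r in Ioi (0:ℝ), r ^ 2 * φ r := by
  rw [integral_fun_norm_addHaar (volume : Measure R3)]
  simp [finrank_euclideanSpace, mul_assoc]

theorem integrable_dom (P : ℝ) {φ : ℝ → ℝ} (hφ : IntegrableOn (fun r => r ^ 2 * φ r) (Ioi 0)) :
    Integrable (fun p : ZV => φ ‖p.1‖ * indP P p.2) := by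
  rw [Measure.volume_eq_prod]
  exact (integrable_rad hφ).mul_prod (integrable_indP P)

theorem integral_dom (P : ℝ) (φ : ℝ → ℝ) :
    ∫ p : ZV, φ ‖p.1‖ * indP P p.2 = cB P * ∫ r in Ioi (0:ℝ), r ^ 2 * φ r := by
  rw [Measure.volume_eq_prod, integral_prod_mul (fun z : R3 => φ ‖z‖) (indP P), integral_rad,
    integral_indP]
  unfold cB; ring

theorem ae_SS : ∀ᵐ p : ZV, p ∈ SS := by
  rw [ae_iff]
  have : {p : ZV | ¬ p ∈ SS} = ({0} : Set R3) ×ˢ (univ : Set R3) := by
    ext p; simp [SS]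
  rw [this, Measure.volume_eq_prod, Measure.prod_prod]
  simp

theorem abs_integral_le {Φ : ZV → ℝ} {P : ℝ} {φ : ℝ → ℝ}
    (hφ : IntegrableOn (fun r => r ^ 2 * φ r) (Ioi 0))
    (hb : ∀ z v : R3, z ≠ 0 → |Φ (z, v)| ≤ φ ‖z‖ * indP P v) :
    |∫ p, Φ p| ≤ cB P * ∫ r in Ioi (0:ℝ), r ^ 2 * φ r := by
  rw [← integral_dom, ← Real.norm_eq_abs]
  refine norm_integral_le_of_norm_le (integrable_dom P hφ) ?_
  filter_upwards [ae_SS] with p hp
  exact hb p.1 p.2 hp

theorem aesm_of_SS {Φ : ZV → ℝ} (hc : ContinuousOn Φ SS) : AEStronglyMeasurable Φ volume := by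
  have h1 := hc.aestronglyMeasurable (μ := (volume : Measure ZV)) isOpen_SS.measurableSet
  rwa [Measure.restrict_eq_self_of_ae_mem ae_SS] at h1

theorem integrable_of_bound {Φ : ZV → ℝ} (hc : ContinuousOn Φ SS) {P : ℝ} {φ : ℝ → ℝ}
    (hφ : IntegrableOn (fun r => r ^ 2 * φ r) (Ioi 0))
    (hb : ∀ z v : R3, z ≠ 0 → |Φ (z, v)| ≤ φ ‖z‖ * indP P v) : Integrable Φ := by
  refine (integrable_dom P hφ).mono' (aesm_of_SS hc) ?_
  filter_upwards [ae_SS] with p hp
  exact hb p.1 p.2 hp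

/-- the profile `C r^{-k} 1_{r ≤ R}`, `k ≤ 2` -/
theorem integrableOn_profile {k : ℕ} (hk : k ≤ 2) (C R : ℝ) :
    IntegrableOn (fun r => r ^ 2 * ((Iic R).indicator (fun r => C * (r ^ k)⁻¹) r)) (Ioi 0) := by
  have h1 : IntegrableOn (fun r : ℝ => C * r ^ (2 - k)) (Ioc 0 R) := by
    refine (Continuous.integrableOn_Icc (a := 0) (b := R) (by fun_prop)).mono_set Ioc_subset_Icc_self
  have h2 : IntegrableOn ((Ioc 0 R).indicator fun r : ℝ => C * r ^ (2 - k)) (Ioi 0) :=
    (h1.integrable_indicator measurableSet_Ioc).integrableOn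
  refine h2.congr_fun ?_ measurableSet_Ioi
  intro r hr
  have hr' : (0:ℝ) < r := hr
  by_cases h : r ≤ R
  · have e1 : r ∈ Ioc 0 R := ⟨hr', h⟩
    have e2 : r ∈ Iic R := h
    simp only [indicator_of_mem e1, indicator_of_mem e2]
    have : r ^ 2 = r ^ (2 - k) * r ^ k := by rw [← pow_add, Nat.sub_add_cancel hk]
    rw [this]
    field_simp
  · have e1 : r ∉ Ioc 0 R := fun h' => h h'.2
    have e2 : r ∉ Iic R := h
    simp only [indicator_of_notMem e1, indicator_of_notMem e2, mul_zero]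

instance instHaarZV : (volume : Measure ZV).IsAddHaarMeasure := by
  rw [Measure.volume_eq_prod]; infer_instance

theorem integral_fderiv_compact {Ψ : ZV → ℝ} (h1 : ContDiff ℝ 1 Ψ) (h2 : HasCompactSupport Ψ)
    (d : ZV) : ∫ p, fderiv ℝ Ψ p d = 0 := by
  have hd : Continuous fun p => fderiv ℝ Ψ p d :=
    (h1.continuous_fderiv (by simp)).clm_apply continuous_const
  have hs : HasCompactSupport fun p => fderiv ℝ Ψ p d := by
    refine (h2.fderiv (𝕜 := ℝ)).comp_left (g := fun L : ZV →L[ℝ] ℝ => L d) (by simp)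
  have hi : Integrable (fun p => fderiv ℝ Ψ p d) := hd.integrable_of_hasCompactSupport hs
  have := integral_mul_fderiv_eq_neg_fderiv_mul_of_integrable (μ := (volume : Measure ZV))
    (f := fun _ => (1 : ℝ)) (g := Ψ) (v := d) (by simp) (by simpa using hi)
    (by simpa using h1.continuous.integrable_of_hasCompactSupport h2)
    (fun x _ => differentiableAt_const _) (fun x _ => h1.differentiable (by simp) x)
  simpa using this

theorem sT_deriv_zero {y : ℝ} (h : y < 0 ∨ 1 < y) : deriv Real.smoothTransition y = 0 := by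
  rcases h with h | h
  · have : Real.smoothTransition =ᶠ[𝓝 y] fun _ => (0 : ℝ) := by
      filter_upwards [Iio_mem_nhds h] with w hw
      exact Real.smoothTransition.zero_of_nonpos (le_of_lt hw)
    rw [this.deriv_eq]; simp
  · have : Real.smoothTransition =ᶠ[𝓝 y] fun _ => (1 : ℝ) := by
      filter_upwards [Ioi_mem_nhds h] with w hw
      exact Real.smoothTransition.one_of_one_le (le_of_lt hw)
    rw [this.deriv_eq]; simp

theorem sT_deriv_cont : Continuous (deriv Real.smoothTransition) :=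
  (Real.smoothTransition.contDiff (n := 1)).continuous_deriv (by simp)

theorem exists_sT_bound : ∃ M : ℝ, 0 ≤ M ∧ ∀ y, |deriv Real.smoothTransition y| ≤ M := by
  obtain ⟨M, hM⟩ := (isCompact_Icc (a := (0:ℝ)) (b := 1)).exists_bound_of_continuousOn
    sT_deriv_cont.continuousOn
  refine ⟨max M 0, le_max_right _ _, fun y => ?_⟩
  by_cases h : y ∈ Icc (0:ℝ) 1
  · exact (hM y h).trans (le_max_left _ _)
  · rw [sT_deriv_zero, abs_zero]; · exact le_max_right _ _
    simp only [mem_Icc, not_and_or, not_le] at h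
    exact h

theorem integral_fderiv_zero {Φ : ZV → ℝ} (hΦ : ContDiffOn ℝ 1 Φ SS) {R P C : ℝ} (hC : 0 ≤ C)
    (h0 : ∀ z v : R3, z ≠ 0 → (R ≤ ‖z‖ ∨ P < ‖v‖) → Φ (z, v) = 0)
    (h1 : ∀ z v : R3, z ≠ 0 → |Φ (z, v)| ≤ C * ‖z‖⁻¹) (d : ZV)
    (h2 : ∀ z v : R3, z ≠ 0 → |fderiv ℝ Φ (z, v) d| ≤ C * (‖z‖ ^ 2)⁻¹) :
    ∫ p, fderiv ℝ Φ p d = 0 := by
  obtain ⟨M, hM0, hM⟩ := exists_sT_bound
  -- cut-offs
  set q : ℕ → ZV → ℝ := fun n p => ((n:ℝ) + 1) ^ 2 * ‖p.1‖ ^ 2 - 1 with hq
  set χ : ℕ → ZV → ℝ := fun n p => Real.smoothTransition (q n p) with hχ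
  have hqs : ∀ n, ContDiff ℝ 1 (q n) := fun n =>
    (contDiff_const.mul (contDiff_fst.norm_sq ℝ)).sub contDiff_const
  have hχs : ∀ n, ContDiff ℝ 1 (χ n) := fun n =>
    (Real.smoothTransition.contDiff (n := 1)).comp (hqs n)
  have hzero : ∀ n, ∀ p : ZV, p.1 = 0 → (fun p => χ n p * Φ p) =ᶠ[𝓝 p] fun _ => 0 := by
    intro n p hp
    have hc : ContinuousAt (q n) p := (hqs n).continuous.continuousAt
    have hneg : q n p < 0 := by simp [hq, hp]
    filter_upwards [hc.eventually (Iio_mem_nhds hneg)] with w hw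
    simp only [hχ]
    rw [Real.smoothTransition.zero_of_nonpos (le_of_lt hw), zero_mul]
  have hprod : ∀ n, ContDiff ℝ 1 (fun p => χ n p * Φ p) := by
    intro n
    rw [contDiff_iff_contDiffAt]
    intro p
    by_cases hp : p.1 = 0
    · exact contDiffAt_const.congr_of_eventuallyEq (hzero n p hp)
    · exact (hχs n).contDiffAt.mul (hΦ.contDiffAt (isOpen_SS.mem_nhds hp))
  have hsupp : ∀ n, HasCompactSupport (fun p => χ n p * Φ p) := by
    intro n
    refine HasCompactSupport.of_support_subset_isCompact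
      ((isCompact_closedBall (0 : R3) R).prod (isCompact_closedBall (0 : R3) P)) ?_
    intro p hp
    simp only [Function.mem_support, ne_eq, mul_eq_zero, not_or] at hp
    by_contra hnot
    have hp0 : p.1 ≠ 0 := by
      intro h
      have := (hzero n p h).self_of_nhds
      simp only [mul_eq_zero] at this
      tauto
    refine hp.2 (h0 p.1 p.2 hp0 ?_)
    simp only [mem_prod, Metric.mem_closedBall, dist_zero_right, not_and_or, not_le] at hnot
    rcases hnot with h | h
    · exact Or.inl h.le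
    · exact Or.inr h
  have hint : ∀ n, ∫ p, fderiv ℝ (fun p => χ n p * Φ p) p d = 0 := fun n =>
    integral_fderiv_compact (hprod n) (hsupp n) d
  -- derivative of the cut-off
  have hdq : ∀ n p, ∃ L : ZV →L[ℝ] ℝ, HasFDerivAt (q n) L p ∧
      L d = (((n:ℝ) + 1) ^ 2) * (2 * ⟪p.1, d.1⟫) := by
    intro n p
    have h := ((hasFDerivAt_fst (𝕜 := ℝ) (p := p)).norm_sq.const_mul (((n:ℝ) + 1) ^ 2)).sub_const 1
    refine ⟨_, h, ?_⟩
    simp
  have hdχ : ∀ n p, fderiv ℝ (χ n) p d
      = deriv Real.smoothTransition (q n p) * ((((n:ℝ) + 1) ^ 2) * (2 * ⟪p.1, d.1⟫)) := by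
    intro n p
    obtain ⟨L, hL, hLd⟩ := hdq n p
    have h := ((Real.smoothTransition.contDiff (n := 1)).differentiable
      (by simp) (q n p)).hasDerivAt.comp_hasFDerivAt p hL
    have h' : HasFDerivAt (χ n) _ p := h
    rw [h'.fderiv]
    simp [hLd]
  have hdχb : ∀ n p, p.1 ≠ 0 → |fderiv ℝ (χ n) p d| ≤ 4 * M * ‖d.1‖ * ‖p.1‖⁻¹ := by
    intro n p hp
    have hz : 0 < ‖p.1‖ := norm_pos_iff.2 hp
    rw [hdχ]
    by_cases hr : 1 < q n p
    · rw [sT_deriv_zero (Or.inr hr), zero_mul, abs_zero]; positivity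
    · rw [not_lt] at hr
      have h3 : ((n:ℝ) + 1) ^ 2 * ‖p.1‖ ^ 2 ≤ 2 := by simp only [hq] at hr; linarith
      rw [abs_mul, abs_mul, abs_mul, abs_of_pos (by positivity : (0:ℝ) < ((n:ℝ)+1)^2),
        abs_of_pos (by norm_num : (0:ℝ) < 2)]
      have h4 : |⟪p.1, d.1⟫| ≤ ‖p.1‖ * ‖d.1‖ := abs_real_inner_le_norm _ _
      calc |deriv Real.smoothTransition (q n p)| * (((n:ℝ) + 1) ^ 2 * (2 * |⟪p.1, d.1⟫|))
          ≤ M * (((n:ℝ) + 1) ^ 2 * (2 * (‖p.1‖ * ‖d.1‖))) := by
            gcongr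
            exact hM _
        _ = M * 2 * ‖d.1‖ * ‖p.1‖⁻¹ * (((n:ℝ) + 1) ^ 2 * ‖p.1‖ ^ 2) := by
            field_simp
        _ ≤ M * 2 * ‖d.1‖ * ‖p.1‖⁻¹ * 2 := by gcongr
        _ = 4 * M * ‖d.1‖ * ‖p.1‖⁻¹ := by ring
  have hprodrule : ∀ n p, p ∈ SS → fderiv ℝ (fun p => χ n p * Φ p) p d
      = χ n p * fderiv ℝ Φ p d + Φ p * fderiv ℝ (χ n) p d := by
    intro n p hp
    have := ((hχs n).differentiable (by simp) p).hasFDerivAt.mul
      ((hΦ.contDiffAt (isOpen_SS.mem_nhds hp)).differentiableAt (by simp)).hasFDerivAt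
    have h' : HasFDerivAt (fun p => χ n p * Φ p) _ p := this
    rw [h'.fderiv]
    simp
  -- vanishing outside
  have hΦd0 : ∀ z v : R3, z ≠ 0 → (R < ‖z‖ ∨ P < ‖v‖) → fderiv ℝ Φ (z, v) d = 0 := by
    intro z v hz h
    have hopen : IsOpen {p : ZV | p ∈ SS ∧ (R < ‖p.1‖ ∨ P < ‖p.2‖)} := by
      refine isOpen_SS.inter ?_
      exact (isOpen_lt continuous_const continuous_fst.norm).union
        (isOpen_lt continuous_const continuous_snd.norm)
    have hev : Φ =ᶠ[𝓝 (z, v)] fun _ => 0 := by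
      filter_upwards [hopen.mem_nhds (show (z, v) ∈ {p : ZV | p ∈ SS ∧ (R < ‖p.1‖ ∨ P < ‖p.2‖)}
        from ⟨hz, h⟩)] with w hw
      exact h0 w.1 w.2 hw.1 (hw.2.imp le_of_lt id)
    rw [hev.fderiv_eq]; simp
  set C' : ℝ := C + C * (4 * M * ‖d.1‖) with hC'
  have hC'0 : 0 ≤ C' := by positivity
  have hlim : Tendsto (fun n : ℕ => ∫ p, fderiv ℝ (fun p => χ n p * Φ p) p d) atTop
      (𝓝 (∫ p, fderiv ℝ Φ p d)) := by
    refine tendsto_integral_of_dominated_convergence
      (fun p : ZV => (Iic R).indicator (fun r => C' * (r ^ 2)⁻¹) ‖p.1‖ * indP P p.2) ?_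
      (integrable_dom P (integrableOn_profile le_rfl C' R)) ?_ ?_
    · intro n
      exact (((hprod n).continuous_fderiv (by simp)).clm_apply
        continuous_const).aestronglyMeasurable
    · intro n
      filter_upwards [ae_SS] with p hp
      have hz : 0 < ‖p.1‖ := norm_pos_iff.2 hp
      rw [Real.norm_eq_abs, hprodrule n p hp]
      by_cases hout : R < ‖p.1‖ ∨ P < ‖p.2‖
      · rw [hΦd0 p.1 p.2 hp hout, h0 p.1 p.2 hp (hout.imp le_of_lt id)]
        simp only [mul_zero, zero_mul, add_zero, abs_zero]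
        exact mul_nonneg (indicator_nonneg (fun r _ => by positivity) _) (indP_nonneg _ _)
      · simp only [not_or, not_lt] at hout
        rw [indP_of_le hout.2, mul_one, indicator_of_mem (show ‖p.1‖ ∈ Iic R from hout.1)]
        have e1 : |χ n p * fderiv ℝ Φ p d| ≤ C * (‖p.1‖ ^ 2)⁻¹ := by
          rw [abs_mul]
          have : |χ n p| ≤ 1 := by
            rw [abs_of_nonneg (Real.smoothTransition.nonneg _)]
            exact Real.smoothTransition.le_one _
          calc |χ n p| * |fderiv ℝ Φ p d| ≤ 1 * (C * (‖p.1‖ ^ 2)⁻¹) := by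
                gcongr
                exact h2 p.1 p.2 hp
            _ = _ := one_mul _
        have e2 : |Φ p * fderiv ℝ (χ n) p d| ≤ C * (4 * M * ‖d.1‖) * (‖p.1‖ ^ 2)⁻¹ := by
          rw [abs_mul]
          calc |Φ p| * |fderiv ℝ (χ n) p d| ≤ (C * ‖p.1‖⁻¹) * (4 * M * ‖d.1‖ * ‖p.1‖⁻¹) := by
                gcongr
                · exact h1 p.1 p.2 hp
                · exact hdχb n p hp
            _ = _ := by field_simp
        calc |χ n p * fderiv ℝ Φ p d + Φ p * fderiv ℝ (χ n) p d|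
            ≤ C * (‖p.1‖ ^ 2)⁻¹ + C * (4 * M * ‖d.1‖) * (‖p.1‖ ^ 2)⁻¹ :=
              (abs_add_le _ _).trans (add_le_add e1 e2)
          _ = C' * (‖p.1‖ ^ 2)⁻¹ := by rw [hC']; ring
    · filter_upwards [ae_SS] with p hp
      have hz : 0 < ‖p.1‖ := norm_pos_iff.2 hp
      have hq_top : Tendsto (fun n : ℕ => q n p) atTop atTop := by
        have h5 : Tendsto (fun n : ℕ => ((n:ℝ) + 1) ^ 2) atTop atTop :=
          (tendsto_pow_atTop (by norm_num)).comp
            (tendsto_atTop_add_const_right _ _ tendsto_natCast_atTop_atTop)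
        exact tendsto_atTop_add_const_right _ _ (h5.atTop_mul_const (by positivity))
      refine tendsto_const_nhds.congr' ?_
      filter_upwards [hq_top.eventually_gt_atTop 1] with n hn
      rw [hprodrule n p hp, hdχ, sT_deriv_zero (Or.inr hn)]
      have : χ n p = 1 := Real.smoothTransition.one_of_one_le (le_of_lt hn)
      rw [this]; ring
  have h6 : Tendsto (fun n : ℕ => ∫ p, fderiv ℝ (fun p => χ n p * Φ p) p d) atTop (𝓝 0) := by
    simp only [hint]; exact tendsto_const_nhds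
  exact tendsto_nhds_unique hlim h6

end Crest.Agent.R106.Gs2
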