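/- Row 106, node GS2 (helper375): pull-back to the cone and the division identity. -/
import Crest.Agent.R106.Gs2Int

set_option autoImplicit false
open MeasureTheory Set Filter Topology
open scoped ContDiff RealInnerProductSpace
open Crest.AnalysisR.VecCalc3 Crest.AnalysisR.PDE.RVM

namespace Crest.Agent.R106.Gs2

/-- the backward cone map -/
noncomputable def cone (t : ℝ) (x : R3) (p : ZV) : PS := (t - ‖p.1‖, x + p.1, p.2)

theorem cone_smooth (t : ℝ) (x : R3) : ContDiffOn ℝ ∞ (cone t x) SS := by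
  unfold cone
  exact (contDiffOn_const.sub Hk.nrm_smooth).prodMk
    ((contDiff_const.add contDiff_fst).contDiffOn.prodMk contDiff_snd.contDiffOn)

theorem hasFDerivAt_nrm {p : ZV} (hp : p ∈ SS) :
    ∃ L : ZV →L[ℝ] ℝ, HasFDerivAt (fun q : ZV => ‖q.1‖) L p ∧
      ∀ d : ZV, L d = ⟪p.1, d.1⟫ * ‖p.1‖⁻¹ := by
  have hz : 0 < ‖p.1‖ := norm_pos_iff.2 hp
  have h1 := (hasFDerivAt_fst (𝕜 := ℝ) (p := p)).norm_sq
  have h2 := h1.sqrt (by positivity)
  have h3 : (fun q : ZV => Real.sqrt (‖q.1‖ ^ 2)) = fun q : ZV => ‖q.1‖ := by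
    ext q; exact Real.sqrt_sq (norm_nonneg _)
  have h2' : HasFDerivAt (fun q : ZV => Real.sqrt (‖q.1‖ ^ 2)) _ p := h2
  rw [h3] at h2'
  refine ⟨_, h2', fun d => ?_⟩
  simp only [smul_apply, ContinuousLinearMap.comp_apply,
    ContinuousLinearMap.coe_fst', innerSL_apply_apply, smul_eq_mul, Real.sqrt_sq (norm_nonneg p.1)]
  simp
  field_simp

theorem fderiv_pb {F : PS → ℝ} {t : ℝ} {x : R3} {p : ZV} (hp : p ∈ SS)
    (hF : DifferentiableAt ℝ F (cone t x p)) (d : ZV) :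
    fderiv ℝ (fun q => F (cone t x q)) p d
      = fderiv ℝ F (cone t x p) (-(⟪p.1, d.1⟫ * ‖p.1‖⁻¹), d.1, d.2) := by
  obtain ⟨L, hL, hLd⟩ := hasFDerivAt_nrm hp
  have hc : HasFDerivAt (cone t x) ((-L).prod
      ((ContinuousLinearMap.fst ℝ R3 R3).prod (ContinuousLinearMap.snd ℝ R3 R3))) p := by
    unfold cone
    exact (hL.const_sub t).prodMk ((hasFDerivAt_fst.const_add x).prodMk hasFDerivAt_snd)
  have := hF.hasFDerivAt.comp p hc
  have h' : HasFDerivAt (fun q => F (cone t x q)) _ p := this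
  rw [h'.fderiv]
  simp [hLd]

/-- local kernel class with one derivative -/
structure KB (k : ℕ) (f : ZV → ℝ) : Prop where
  smooth : ContDiffOn ℝ 1 f SS
  bound : ∀ R P : ℝ, ∃ C : ℝ, 0 ≤ C ∧ ∀ z v : R3, z ≠ 0 → ‖z‖ ≤ R → ‖v‖ ≤ P →
    |f (z, v)| ≤ C * (‖z‖ ^ k)⁻¹ ∧ ‖fderiv ℝ f (z, v)‖ ≤ C * (‖z‖ ^ (k + 1))⁻¹

namespace KB

variable {k l : ℕ} {f f' : ZV → ℝ}

theorem differentiableAt (h : KB k f) {p : ZV} (hp : p ∈ SS) : DifferentiableAt ℝ f p :=
  (h.smooth.contDiffAt (isOpen_SS.mem_nhds hp)).differentiableAt (by simp)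

theorem fderiv_mul (h : KB k f) (h' : KB l f') {p : ZV} (hp : p ∈ SS) :
    fderiv ℝ (fun q => f q * f' q) p = f p • fderiv ℝ f' p + f' p • fderiv ℝ f p := by
  have := (h.differentiableAt hp).hasFDerivAt.mul (h'.differentiableAt hp).hasFDerivAt
  have h2 : HasFDerivAt (fun q => f q * f' q) _ p := this
  exact h2.fderiv

theorem mul (h : KB k f) (h' : KB l f') : KB (k + l) (fun p => f p * f' p) where
  smooth := h.smooth.mul h'.smooth
  bound R P := by
    obtain ⟨C, hC, hb⟩ := h.bound R P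
    obtain ⟨C', hC', hb'⟩ := h'.bound R P
    refine ⟨2 * (C * C'), by positivity, fun z v hz hzR hvP => ?_⟩
    obtain ⟨b1, b2⟩ := hb z v hz hzR hvP
    obtain ⟨b1', b2'⟩ := hb' z v hz hzR hvP
    have hz' : 0 < ‖z‖ := norm_pos_iff.2 hz
    constructor
    · rw [abs_mul]
      calc |f (z, v)| * |f' (z, v)| ≤ (C * (‖z‖ ^ k)⁻¹) * (C' * (‖z‖ ^ l)⁻¹) := by gcongr
        _ = C * C' * (‖z‖ ^ (k + l))⁻¹ := by rw [pow_add, mul_inv]; ring
        _ ≤ 2 * (C * C') * (‖z‖ ^ (k + l))⁻¹ :=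
          mul_le_mul_of_nonneg_right (by nlinarith [mul_nonneg hC hC']) (by positivity)
    · rw [h.fderiv_mul h' (show (z, v) ∈ SS from hz)]
      calc ‖f (z, v) • fderiv ℝ f' (z, v) + f' (z, v) • fderiv ℝ f (z, v)‖
          ≤ |f (z, v)| * ‖fderiv ℝ f' (z, v)‖ + |f' (z, v)| * ‖fderiv ℝ f (z, v)‖ := by
            refine (norm_add_le _ _).trans ?_
            rw [norm_smul, norm_smul, Real.norm_eq_abs, Real.norm_eq_abs]
        _ ≤ (C * (‖z‖ ^ k)⁻¹) * (C' * (‖z‖ ^ (l + 1))⁻¹)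
            + (C' * (‖z‖ ^ l)⁻¹) * (C * (‖z‖ ^ (k + 1))⁻¹) := by gcongr
        _ = 2 * (C * C') * (‖z‖ ^ (k + l + 1))⁻¹ := by
            rw [pow_add, pow_add, pow_add, pow_add, pow_one]; field_simp; ring

theorem mono (h : KB k f) : KB (k + 1) f where
  smooth := h.smooth
  bound R P := by
    obtain ⟨C, hC, hb⟩ := h.bound R P
    refine ⟨C * |R|, by positivity, fun z v hz hzR hvP => ?_⟩
    obtain ⟨b1, b2⟩ := hb z v hz hzR hvP
    have hz' : 0 < ‖z‖ := norm_pos_iff.2 hz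
    have hR : ‖z‖ ≤ |R| := hzR.trans (le_abs_self R)
    have key : ∀ j : ℕ, C * (‖z‖ ^ j)⁻¹ ≤ C * |R| * (‖z‖ ^ (j + 1))⁻¹ := by
      intro j
      have : C * (‖z‖ ^ j)⁻¹ = C * ‖z‖ * (‖z‖ ^ (j + 1))⁻¹ := by
        rw [pow_succ]; field_simp
      rw [this]
      gcongr
    exact ⟨b1.trans (key _), b2.trans (key _)⟩

theorem of_contDiff (h : ContDiff ℝ 1 f) : KB 0 f where
  smooth := h.contDiffOn
  bound R P := by
    have hc : IsCompact (Metric.closedBall (0 : R3) R ×ˢ Metric.closedBall (0 : R3) P) :=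
      (isCompact_closedBall _ _).prod (isCompact_closedBall _ _)
    obtain ⟨C1, hC1⟩ := hc.exists_bound_of_continuousOn h.continuous.continuousOn
    obtain ⟨C2, hC2⟩ := hc.exists_bound_of_continuousOn
      (h.continuous_fderiv (by simp)).continuousOn
    refine ⟨|C1| + |C2| * |R|, by positivity, fun z v hz hzR hvP => ?_⟩
    have hmem : (z, v) ∈ Metric.closedBall (0 : R3) R ×ˢ Metric.closedBall (0 : R3) P := by
      simp [hzR, hvP]
    have hz' : 0 < ‖z‖ := norm_pos_iff.2 hz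
    constructor
    · have := hC1 _ hmem
      rw [Real.norm_eq_abs] at this
      rw [pow_zero, inv_one, mul_one]
      nlinarith [le_abs_self C1, abs_nonneg C2, abs_nonneg R, mul_nonneg (abs_nonneg C2) (abs_nonneg R)]
    · have := hC2 _ hmem
      have hR : ‖z‖ ≤ |R| := hzR.trans (le_abs_self R)
      calc ‖fderiv ℝ f (z, v)‖ ≤ |C2| := this.trans (le_abs_self _)
        _ = |C2| * ‖z‖ * (‖z‖ ^ (0 + 1))⁻¹ := by rw [zero_add, pow_one]; field_simp
        _ ≤ |C2| * |R| * (‖z‖ ^ (0 + 1))⁻¹ := by gcongr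
        _ ≤ (|C1| + |C2| * |R|) * (‖z‖ ^ (0 + 1))⁻¹ := by
          gcongr
          linarith [abs_nonneg C1]

theorem continuousOn_fderiv (h : KB k f) (d : ZV) :
    ContinuousOn (fun p => fderiv ℝ f p d) SS :=
  (h.smooth.continuousOn_fderiv_of_isOpen isOpen_SS (by simp)).clm_apply continuousOn_const

end KB

theorem zv_split (d : ZV) : d = (d.1, 0) + (0, d.2) := by ext <;> simp

/-- operator norm bound from coordinate directions -/
theorem norm_clm_le_of_basis (L : ZV →L[ℝ] ℝ) {B : ℝ} (hB : 0 ≤ B)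
    (h1 : ∀ l : Fin 3, |L (EuclideanSpace.single l 1, 0)| ≤ B)
    (h2 : ∀ l : Fin 3, |L (0, EuclideanSpace.single l 1)| ≤ B) : ‖L‖ ≤ 6 * B := by
  refine L.opNorm_le_bound (by positivity) fun d => ?_
  have e0 : ∀ w : R3, w = ∑ l : Fin 3, w l • (EuclideanSpace.single l (1:ℝ)) := by
    intro w
    ext j
    simp [Pi.single_apply]
  have e1 := e0 d.1
  have e2 := e0 d.2
  have l1 : L (d.1, 0) = ∑ l : Fin 3, d.1 l * L (EuclideanSpace.single l 1, 0) := by
    have : ((d.1, (0:R3)) : ZV) = ∑ l : Fin 3, d.1 l • ((EuclideanSpace.single l (1:ℝ), (0:R3)) : ZV) := by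
      refine Prod.ext ?_ ?_
      · rw [Prod.fst_sum]; simpa using e1
      · rw [Prod.snd_sum]; simp
    rw [this, map_sum]
    exact Finset.sum_congr rfl fun l _ => by rw [map_smul, smul_eq_mul]
  have l2 : L (0, d.2) = ∑ l : Fin 3, d.2 l * L (0, EuclideanSpace.single l 1) := by
    have : (((0:R3), d.2) : ZV) = ∑ l : Fin 3, d.2 l • (((0:R3), EuclideanSpace.single l (1:ℝ)) : ZV) := by
      refine Prod.ext ?_ ?_
      · rw [Prod.fst_sum]; simp
      · rw [Prod.snd_sum]; simpa using e2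
    rw [this, map_sum]
    exact Finset.sum_congr rfl fun l _ => by rw [map_smul, smul_eq_mul]
  rw [zv_split d, map_add, l1, l2, Real.norm_eq_abs]
  have n1 : ∀ l : Fin 3, |d.1 l| ≤ ‖d‖ := fun l =>
    (by simpa using PiLp.norm_apply_le d.1 l : |d.1 l| ≤ ‖d.1‖).trans (norm_fst_le d)
  have n2 : ∀ l : Fin 3, |d.2 l| ≤ ‖d‖ := fun l =>
    (by simpa using PiLp.norm_apply_le d.2 l : |d.2 l| ≤ ‖d.2‖).trans (norm_snd_le d)
  have hd : ‖(d.1, (0:R3)) + ((0:R3), d.2)‖ = ‖d‖ := by rw [← zv_split d]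
  rw [hd]
  have s1 : |∑ l : Fin 3, d.1 l * L (EuclideanSpace.single l 1, 0)| ≤ 3 * (‖d‖ * B) := by
    refine (Finset.abs_sum_le_sum_abs _ _).trans ?_
    calc ∑ l : Fin 3, |d.1 l * L (EuclideanSpace.single l 1, 0)| ≤ ∑ _l : Fin 3, ‖d‖ * B := by
          refine Finset.sum_le_sum fun l _ => ?_
          rw [abs_mul]
          exact mul_le_mul (n1 l) (h1 l) (abs_nonneg _) (norm_nonneg _)
      _ = 3 * (‖d‖ * B) := by simp
  have s2 : |∑ l : Fin 3, d.2 l * L (0, EuclideanSpace.single l 1)| ≤ 3 * (‖d‖ * B) := by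
    refine (Finset.abs_sum_le_sum_abs _ _).trans ?_
    calc ∑ l : Fin 3, |d.2 l * L (0, EuclideanSpace.single l 1)| ≤ ∑ _l : Fin 3, ‖d‖ * B := by
          refine Finset.sum_le_sum fun l _ => ?_
          rw [abs_mul]
          exact mul_le_mul (n2 l) (h2 l) (abs_nonneg _) (norm_nonneg _)
      _ = 3 * (‖d‖ * B) := by simp
  calc _ ≤ 3 * (‖d‖ * B) + 3 * (‖d‖ * B) := (abs_add_le _ _).trans (add_le_add s1 s2)
    _ = 6 * B * ‖d‖ := by ring

theorem Hk.toKB {k : ℕ} {κ : ZV → ℝ} (h : Hk k κ) : KB k κ where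
  smooth := h.smooth.of_le (by simp)
  bound R P := by
    obtain ⟨C0, hC0, hb0⟩ := h.bound P
    choose C1 hC1 hb1 using fun l : Fin 3 => (h.derivZ (EuclideanSpace.single l 1)).bound P
    choose C2 hC2 hb2 using fun l : Fin 3 => (h.derivV (EuclideanSpace.single l 1)).bound P
    set B : ℝ := (∑ l, C1 l) + (∑ l, C2 l) * |R| with hB
    have hs1 : 0 ≤ ∑ l, C1 l := Finset.sum_nonneg fun l _ => hC1 l
    have hs2 : 0 ≤ ∑ l, C2 l := Finset.sum_nonneg fun l _ => hC2 l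
    have hB0 : 0 ≤ B := by positivity
    refine ⟨C0 + 6 * B, by positivity, fun z v hz hzR hvP => ?_⟩
    have hz' : 0 < ‖z‖ := norm_pos_iff.2 hz
    have hR : ‖z‖ ≤ |R| := hzR.trans (le_abs_self R)
    constructor
    · refine (hb0 z v hz hvP).trans ?_
      gcongr
      linarith
    · have : ‖fderiv ℝ κ (z, v)‖ ≤ 6 * (B * (‖z‖ ^ (k + 1))⁻¹) := by
        refine norm_clm_le_of_basis _ (by positivity) (fun l => ?_) fun l => ?_
        · refine (hb1 l z v hz hvP).trans ?_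
          gcongr
          have := Finset.single_le_sum (f := C1) (fun l _ => hC1 l) (Finset.mem_univ l)
          have h3 : 0 ≤ (∑ l, C2 l) * |R| := by positivity
          linarith
        · refine (hb2 l z v hz hvP).trans ?_
          have : C2 l * (‖z‖ ^ k)⁻¹ = C2 l * ‖z‖ * (‖z‖ ^ (k + 1))⁻¹ := by
            rw [pow_succ]; field_simp
          rw [this]
          gcongr
          have h4 := Finset.single_le_sum (f := C2) (fun l _ => hC2 l) (Finset.mem_univ l)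
          calc C2 l * ‖z‖ ≤ (∑ l, C2 l) * |R| := by gcongr
            _ ≤ B := by linarith
      calc ‖fderiv ℝ κ (z, v)‖ ≤ 6 * (B * (‖z‖ ^ (k + 1))⁻¹) := this
        _ = 6 * B * (‖z‖ ^ (k + 1))⁻¹ := by ring
        _ ≤ (C0 + 6 * B) * (‖z‖ ^ (k + 1))⁻¹ := by
          gcongr
          linarith

theorem pb_KB {F : PS → ℝ} (hF : ContDiff ℝ 1 F) (t : ℝ) (x : R3) :
    KB 0 (fun p => F (cone t x p)) where
  smooth := hF.comp_contDiffOn ((cone_smooth t x).of_le (by simp))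
  bound R P := by
    have hc : IsCompact (Metric.closedBall t R ×ˢ
        (Metric.closedBall x R ×ˢ Metric.closedBall (0 : R3) P)) :=
      (isCompact_closedBall _ _).prod ((isCompact_closedBall _ _).prod (isCompact_closedBall _ _))
    obtain ⟨C1, hC1⟩ := hc.exists_bound_of_continuousOn hF.continuous.continuousOn
    obtain ⟨C2, hC2⟩ := hc.exists_bound_of_continuousOn
      (hF.continuous_fderiv (by simp)).continuousOn
    refine ⟨|C1| + |C2| * |R|, by positivity, fun z v hz hzR hvP => ?_⟩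
    have hmem : cone t x (z, v) ∈ Metric.closedBall t R ×ˢ
        (Metric.closedBall x R ×ˢ Metric.closedBall (0 : R3) P) := by
      simp [cone, hzR, hvP, Real.dist_eq]
    have hz' : 0 < ‖z‖ := norm_pos_iff.2 hz
    constructor
    · have := hC1 _ hmem
      rw [Real.norm_eq_abs] at this
      rw [pow_zero, inv_one, mul_one]
      nlinarith [le_abs_self C1, mul_nonneg (abs_nonneg C2) (abs_nonneg R)]
    · have h2 := hC2 _ hmem
      have hR : ‖z‖ ≤ |R| := hzR.trans (le_abs_self R)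
      have h3 : ‖fderiv ℝ (fun p => F (cone t x p)) (z, v)‖ ≤ |C2| := by
        refine ContinuousLinearMap.opNorm_le_bound _ (abs_nonneg _) fun d => ?_
        rw [fderiv_pb (show (z, v) ∈ SS from hz) (hF.differentiable (by simp) _)]
        refine (ContinuousLinearMap.le_opNorm _ _).trans ?_
        refine mul_le_mul (h2.trans (le_abs_self _)) ?_ (norm_nonneg _) (abs_nonneg _)
        have e1 : |⟪z, d.1⟫ * ‖z‖⁻¹| ≤ ‖d‖ := by
          rw [abs_mul, abs_of_pos (inv_pos.2 hz'), ← div_eq_mul_inv, div_le_iff₀ hz']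
          refine (abs_real_inner_le_norm _ _).trans ?_
          rw [mul_comm]
          gcongr
          exact norm_fst_le d
        have e2 : ‖-(⟪z, d.1⟫ * ‖z‖⁻¹)‖ ≤ ‖d‖ := by rw [norm_neg, Real.norm_eq_abs]; exact e1
        exact (norm_prod_le_iff).2 ⟨e2, (norm_prod_le_iff).2 ⟨norm_fst_le d, norm_snd_le d⟩⟩
      calc _ ≤ |C2| := h3
        _ = |C2| * ‖z‖ * (‖z‖ ^ (0 + 1))⁻¹ := by rw [zero_add, pow_one]; field_simp
        _ ≤ |C2| * |R| * (‖z‖ ^ (0 + 1))⁻¹ := by gcongr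
        _ ≤ (|C1| + |C2| * |R|) * (‖z‖ ^ (0 + 1))⁻¹ := by
          gcongr
          linarith [abs_nonneg C1]

/-! ### the division kernels -/

noncomputable def kA (a : ℝ) (b : R3) (p : ZV) : ℝ :=
  (a + ⟪p.1, b⟫ * ‖p.1‖⁻¹) * (1 + ⟪p.1, relVel p.2⟫ * ‖p.1‖⁻¹)⁻¹

noncomputable def kE (a : ℝ) (b : R3) (l : Fin 3) (p : ZV) : ℝ :=
  b l - kA a b p * relVel p.2 l

theorem kA_Hk (a : ℝ) (b : R3) : Hk 0 (kA a b) := ((Hk.const a).add (Hk.om b)).mul0 Hk.rho

theorem kE_Hk (a : ℝ) (b : R3) (l : Fin 3) : Hk 0 (kE a b l) := by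
  refine (Hk.const (b l)).sub ((kA_Hk a b).mul0 (Hk.ofV (m := fun v => relVel v l) ?_))
  exact contDiff_euclidean.1 relVel_smooth l

/-- pointwise division identity -/
theorem division_pt {F : PS → ℝ} {t : ℝ} {x : R3} {p : ZV} (hp : p ∈ SS)
    (hF : DifferentiableAt ℝ F (cone t x p)) (a : ℝ) (b : R3) :
    dxt a b F (cone t x p) = kA a b p * Tr F (cone t x p)
      + ∑ l : Fin 3, kE a b l p *
          fderiv ℝ (fun q => F (cone t x q)) p (EuclideanSpace.single l 1, 0) := by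
  have hden := (den_pos hp p.2).ne'
  set L := fderiv ℝ F (cone t x p) with hL
  have e1 : ∀ l : Fin 3, fderiv ℝ (fun q => F (cone t x q)) p (EuclideanSpace.single l 1, 0)
      = L (-(p.1 l * ‖p.1‖⁻¹), EuclideanSpace.single l 1, 0) := by
    intro l
    rw [fderiv_pb hp hF]
    simp [hL, EuclideanSpace.inner_single_right]
  have e2 : ∑ l : Fin 3, kE a b l p * L (-(p.1 l * ‖p.1‖⁻¹), EuclideanSpace.single l 1, 0)
      = L (∑ l : Fin 3, kE a b l p • ((-(p.1 l * ‖p.1‖⁻¹), EuclideanSpace.single l 1, 0) : PS)) := by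
    rw [map_sum]
    exact Finset.sum_congr rfl fun l _ => by rw [map_smul, smul_eq_mul]
  have hinner : ∀ w : R3, ⟪p.1, w⟫ = ∑ l : Fin 3, p.1 l * w l := by
    intro w
    rw [PiLp.inner_apply]
    refine Finset.sum_congr rfl fun l _ => ?_
    simp [mul_comm]
  have e3 : ∑ l : Fin 3, kE a b l p • ((-(p.1 l * ‖p.1‖⁻¹), EuclideanSpace.single l 1, 0) : PS)
      = (-((⟪p.1, b⟫ - kA a b p * ⟪p.1, relVel p.2⟫) * ‖p.1‖⁻¹), b - kA a b p • relVel p.2, 0) := by
    refine Prod.ext ?_ (Prod.ext ?_ ?_)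
    · rw [Prod.fst_sum, hinner, hinner]
      simp only [Prod.smul_mk, smul_eq_mul, kE, Fin.sum_univ_three]
      ring
    · rw [Prod.snd_sum, Prod.fst_sum]
      ext j
      simp [kE, Pi.single_apply]
    · rw [Prod.snd_sum, Prod.snd_sum]; simp
  simp only [e1]
  rw [e2, e3]
  unfold dxt Tr
  have hc2 : (cone t x p).2.2 = p.2 := rfl
  rw [hc2, ← hL]
  have e4 : kA a b p * L (1, relVel p.2, 0) = L (kA a b p • ((1, relVel p.2, 0) : PS)) := by
    rw [map_smul, smul_eq_mul]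
  rw [e4, ← map_add]
  congr 1
  refine Prod.ext ?_ (Prod.ext ?_ ?_)
  · simp only [Prod.smul_mk, Prod.mk_add_mk, smul_eq_mul, mul_one]
    have : kA a b p * (1 + ⟪p.1, relVel p.2⟫ * ‖p.1‖⁻¹) = a + ⟪p.1, b⟫ * ‖p.1‖⁻¹ := by
      unfold kA
      rw [mul_assoc, inv_mul_cancel₀ hden, mul_one]
    linarith
  · simp
  · simp

end Crest.Agent.R106.Gs2
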