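/- Row 106, node GS2 (helper375): the division identity in integral form. -/
import Crest.Agent.R106.Gs2Div

set_option autoImplicit false
open MeasureTheory Set Filter Topology
open scoped ContDiff RealInnerProductSpace
open Crest.AnalysisR.VecCalc3 Crest.AnalysisR.PDE.RVM

namespace Crest.Agent.R106.Gs2

theorem fderiv_zero_of_lt_v {f : ZV → ℝ} {P : ℝ}
    (h1 : ∀ z v : R3, z ≠ 0 → P < ‖v‖ → f (z, v) = 0) {z v : R3} (hz : z ≠ 0) (hv : P < ‖v‖) :
    fderiv ℝ f (z, v) = 0 := by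
  have hopen : IsOpen {p : ZV | p ∈ SS ∧ P < ‖p.2‖} :=
    isOpen_SS.inter (isOpen_lt continuous_const continuous_snd.norm)
  have hev : f =ᶠ[𝓝 (z, v)] fun _ => 0 := by
    filter_upwards [hopen.mem_nhds (show (z, v) ∈ {p : ZV | p ∈ SS ∧ P < ‖p.2‖} from ⟨hz, hv⟩)]
      with w hw
    exact h1 w.1 w.2 hw.1 hw.2
  rw [hev.fderiv_eq]; simp

theorem fderiv_zero_of_lt_z {f : ZV → ℝ} {R : ℝ}
    (h1 : ∀ z v : R3, z ≠ 0 → R < ‖z‖ → f (z, v) = 0) {z v : R3} (hz : z ≠ 0) (hv : R < ‖z‖) :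
    fderiv ℝ f (z, v) = 0 := by
  have hopen : IsOpen {p : ZV | p ∈ SS ∧ R < ‖p.1‖} :=
    isOpen_SS.inter (isOpen_lt continuous_const continuous_fst.norm)
  have hev : f =ᶠ[𝓝 (z, v)] fun _ => 0 := by
    filter_upwards [hopen.mem_nhds (show (z, v) ∈ {p : ZV | p ∈ SS ∧ R < ‖p.1‖} from ⟨hz, hv⟩)]
      with w hw
    exact h1 w.1 w.2 hw.1 hw.2
  rw [hev.fderiv_eq]; simp

theorem fderiv_zero_of_gt_z {f : ZV → ℝ} {R : ℝ}
    (h1 : ∀ z v : R3, z ≠ 0 → ‖z‖ < R → f (z, v) = 0) {z v : R3} (hz : z ≠ 0) (hv : ‖z‖ < R) :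
    fderiv ℝ f (z, v) = 0 := by
  have hopen : IsOpen {p : ZV | p ∈ SS ∧ ‖p.1‖ < R} :=
    isOpen_SS.inter (isOpen_lt continuous_fst.norm continuous_const)
  have hev : f =ᶠ[𝓝 (z, v)] fun _ => 0 := by
    filter_upwards [hopen.mem_nhds (show (z, v) ∈ {p : ZV | p ∈ SS ∧ ‖p.1‖ < R} from ⟨hz, hv⟩)]
      with w hw
    exact h1 w.1 w.2 hw.1 hw.2
  rw [hev.fderiv_eq]; simp

/-- a continuous function on `SS`, supported in `‖z‖ ≤ R`, `‖v‖ ≤ P` and `O(‖z‖⁻²)` -/
theorem integrable_two {Φ : ZV → ℝ} (hc : ContinuousOn Φ SS) {R P C : ℝ} (hC : 0 ≤ C)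
    (h0 : ∀ z v : R3, z ≠ 0 → (R < ‖z‖ ∨ P < ‖v‖) → Φ (z, v) = 0)
    (h1 : ∀ z v : R3, z ≠ 0 → ‖z‖ ≤ R → ‖v‖ ≤ P → |Φ (z, v)| ≤ C * (‖z‖ ^ 2)⁻¹) :
    Integrable Φ := by
  refine integrable_of_bound hc (P := P) (integrableOn_profile le_rfl C R) fun z v hz => ?_
  have hz' : 0 < ‖z‖ := norm_pos_iff.2 hz
  by_cases hout : R < ‖z‖ ∨ P < ‖v‖
  · rw [h0 z v hz hout, abs_zero]
    exact mul_nonneg (indicator_nonneg (fun r _ => by positivity) _) (indP_nonneg _ _)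
  · simp only [not_or, not_lt] at hout
    rw [indP_of_le hout.2, mul_one, indicator_of_mem (show ‖z‖ ∈ Iic R from hout.1)]
    exact h1 z v hz hout.1 hout.2

/-- integration by parts -/
theorem KB.by_parts {f F : ZV → ℝ} (hf : KB 1 f) (hF : KB 0 F) {R P : ℝ}
    (h0 : ∀ z v : R3, z ≠ 0 → R ≤ ‖z‖ → f (z, v) = 0)
    (h1 : ∀ z v : R3, z ≠ 0 → P < ‖v‖ → F (z, v) = 0) (d : ZV) :
    Integrable (fun p => f p * fderiv ℝ F p d) ∧ Integrable (fun p => fderiv ℝ f p d * F p) ∧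
      ∫ p, f p * fderiv ℝ F p d = - ∫ p, fderiv ℝ f p d * F p := by
  obtain ⟨C, hC, hb⟩ := hf.bound R P
  obtain ⟨C', hC', hb'⟩ := hF.bound R P
  have i1 : Integrable (fun p => f p * fderiv ℝ F p d) := by
    refine integrable_two (R := R) (P := P) (C := C * (C' * ‖d‖))
      (hf.smooth.continuousOn.mul (hF.continuousOn_fderiv d)) (by positivity) ?_ ?_
    · rintro z v hz (h | h)
      · simp only [h0 z v hz h.le, zero_mul]
      · simp only [fderiv_zero_of_lt_v h1 hz h]; simp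
    · intro z v hz hzR hvP
      obtain ⟨b1, -⟩ := hb z v hz hzR hvP
      obtain ⟨-, b2⟩ := hb' z v hz hzR hvP
      rw [zero_add, pow_one] at b2
      rw [pow_one] at b1
      have hz' : 0 < ‖z‖ := norm_pos_iff.2 hz
      rw [abs_mul]
      have b3 : |fderiv ℝ F (z, v) d| ≤ C' * ‖z‖⁻¹ * ‖d‖ :=
        ((fderiv ℝ F (z, v)).le_opNorm d).trans (by gcongr)
      calc |f (z, v)| * |fderiv ℝ F (z, v) d| ≤ (C * ‖z‖⁻¹) * (C' * ‖z‖⁻¹ * ‖d‖) := by gcongr
        _ = C * (C' * ‖d‖) * (‖z‖ ^ 2)⁻¹ := by field_simp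
  have i2 : Integrable (fun p => fderiv ℝ f p d * F p) := by
    refine integrable_two (R := R) (P := P) (C := C * (C' * ‖d‖))
      ((hf.continuousOn_fderiv d).mul hF.smooth.continuousOn) (by positivity) ?_ ?_
    · rintro z v hz (h | h)
      · simp only [fderiv_zero_of_lt_z (fun z v hz h => h0 z v hz h.le) hz h]; simp
      · simp only [h1 z v hz h, mul_zero]
    · intro z v hz hzR hvP
      obtain ⟨-, b1⟩ := hb z v hz hzR hvP
      obtain ⟨b2, -⟩ := hb' z v hz hzR hvP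
      rw [pow_zero, inv_one, mul_one] at b2
      have hz' : 0 < ‖z‖ := norm_pos_iff.2 hz
      rw [abs_mul]
      have b3 : |fderiv ℝ f (z, v) d| ≤ C * (‖z‖ ^ (1 + 1))⁻¹ * ‖d‖ :=
        ((fderiv ℝ f (z, v)).le_opNorm d).trans (by gcongr)
      calc |fderiv ℝ f (z, v) d| * |F (z, v)| ≤ (C * (‖z‖ ^ (1 + 1))⁻¹ * ‖d‖) * C' := by gcongr
        _ = C * (C' * ‖d‖) * (‖z‖ ^ 2)⁻¹ := by ring
  refine ⟨i1, i2, ?_⟩
  have hm : KB 1 (fun p => f p * F p) := by simpa using hf.mul hF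
  obtain ⟨C'', hC'', hb''⟩ := hm.bound R P
  have hz0 : ∀ z v : R3, z ≠ 0 → (R ≤ ‖z‖ ∨ P < ‖v‖) → f (z, v) * F (z, v) = 0 := by
    rintro z v hz (h | h)
    · rw [h0 z v hz h, zero_mul]
    · rw [h1 z v hz h, mul_zero]
  have key : ∫ p, fderiv ℝ (fun p => f p * F p) p d = 0 := by
    refine integral_fderiv_zero (C := C'' + C'' * ‖d‖) hm.smooth (by positivity) hz0 ?_ d ?_
    · intro z v hz
      have hz' : 0 < ‖z‖ := norm_pos_iff.2 hz
      by_cases hout : R ≤ ‖z‖ ∨ P < ‖v‖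
      · rw [hz0 z v hz hout, abs_zero]; positivity
      · simp only [not_or, not_lt, not_le] at hout
        obtain ⟨b1, -⟩ := hb'' z v hz hout.1.le hout.2
        rw [pow_one] at b1
        refine b1.trans ?_
        gcongr
        have : 0 ≤ C'' * ‖d‖ := by positivity
        linarith
    · intro z v hz
      have hz' : 0 < ‖z‖ := norm_pos_iff.2 hz
      by_cases hout1 : R < ‖z‖
      · rw [fderiv_zero_of_lt_z (fun z v hz h => hz0 z v hz (Or.inl h.le)) hz hout1]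
        simp only [zero_apply, abs_zero]; positivity
      by_cases hout2 : P < ‖v‖
      · rw [fderiv_zero_of_lt_v (fun z v hz h => hz0 z v hz (Or.inr h)) hz hout2]
        simp only [zero_apply, abs_zero]; positivity
      rw [not_lt] at hout1 hout2
      obtain ⟨-, b1⟩ := hb'' z v hz hout1 hout2
      have b3 : |fderiv ℝ (fun p => f p * F p) (z, v) d| ≤ C'' * (‖z‖ ^ (1 + 1))⁻¹ * ‖d‖ :=
        ((fderiv ℝ (fun p => f p * F p) (z, v)).le_opNorm d).trans (by gcongr)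
      refine b3.trans ?_
      have : C'' * (‖z‖ ^ (1 + 1))⁻¹ * ‖d‖ = (C'' * ‖d‖) * (‖z‖ ^ 2)⁻¹ := by ring
      rw [this]
      gcongr
      linarith
  have hsum : ∫ p, fderiv ℝ (fun p => f p * F p) p d
      = (∫ p, f p * fderiv ℝ F p d) + ∫ p, fderiv ℝ f p d * F p := by
    rw [← integral_add i1 i2]
    refine integral_congr_ae ?_
    filter_upwards [ae_SS] with p hp
    rw [hf.fderiv_mul hF hp]
    simp [mul_comm]
  rw [key] at hsum
  linarith

theorem KB.lower {k : ℕ} {f : ZV → ℝ} (h : KB (k + 1) f) {r0 : ℝ} (hr : 0 < r0)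
    (h0 : ∀ z v : R3, z ≠ 0 → ‖z‖ < r0 → f (z, v) = 0) : KB k f where
  smooth := h.smooth
  bound R P := by
    obtain ⟨C, hC, hb⟩ := h.bound R P
    refine ⟨C * r0⁻¹, by positivity, fun z v hz hzR hvP => ?_⟩
    obtain ⟨b1, b2⟩ := hb z v hz hzR hvP
    have hz' : 0 < ‖z‖ := norm_pos_iff.2 hz
    by_cases hlt : ‖z‖ < r0
    · rw [h0 z v hz hlt, fderiv_zero_of_gt_z h0 hz hlt]
      simp only [abs_zero, norm_zero]
      constructor <;> positivity
    · rw [not_lt] at hlt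
      have key : ∀ j : ℕ, C * (‖z‖ ^ (j + 1))⁻¹ ≤ C * r0⁻¹ * (‖z‖ ^ j)⁻¹ := by
        intro j
        have : C * (‖z‖ ^ (j + 1))⁻¹ = C * ‖z‖⁻¹ * (‖z‖ ^ j)⁻¹ := by
          rw [pow_succ, mul_inv]; ring
        rw [this]
        gcongr
      exact ⟨b1.trans (key _), b2.trans (key _)⟩

/-! ### radial cut-offs -/

theorem fderiv_rad {ϑ : ℝ → ℝ} (hϑ : ContDiff ℝ 1 ϑ) {p : ZV} (hp : p ∈ SS) (d : ZV) :
    fderiv ℝ (fun q : ZV => ϑ ‖q.1‖) p d = deriv ϑ ‖p.1‖ * (⟪p.1, d.1⟫ * ‖p.1‖⁻¹) := by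
  obtain ⟨L, hL, hLd⟩ := hasFDerivAt_nrm hp
  have h := (hϑ.differentiable (by simp) ‖p.1‖).hasDerivAt.comp_hasFDerivAt p hL
  have h' : HasFDerivAt (fun q : ZV => ϑ ‖q.1‖) _ p := h
  rw [h'.fderiv]
  simp [hLd]

theorem rad_KB {ϑ : ℝ → ℝ} (hϑ : ContDiff ℝ 1 ϑ) : KB 0 (fun p : ZV => ϑ ‖p.1‖) where
  smooth := hϑ.comp_contDiffOn (Hk.nrm_smooth.of_le (by simp))
  bound R P := by
    obtain ⟨C1, hC1⟩ := (isCompact_Icc (a := (0:ℝ)) (b := R)).exists_bound_of_continuousOn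
      hϑ.continuous.continuousOn
    obtain ⟨C2, hC2⟩ := (isCompact_Icc (a := (0:ℝ)) (b := R)).exists_bound_of_continuousOn
      (hϑ.continuous_deriv (by simp)).continuousOn
    refine ⟨|C1| + |C2| * |R|, by positivity, fun z v hz hzR hvP => ?_⟩
    have hz' : 0 < ‖z‖ := norm_pos_iff.2 hz
    have hmem : ‖z‖ ∈ Icc (0:ℝ) R := ⟨hz'.le, hzR⟩
    constructor
    · have := hC1 _ hmem
      rw [Real.norm_eq_abs] at this
      rw [pow_zero, inv_one, mul_one]
      nlinarith [le_abs_self C1, mul_nonneg (abs_nonneg C2) (abs_nonneg R)]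
    · have h2 := hC2 _ hmem
      rw [Real.norm_eq_abs] at h2
      have hR : ‖z‖ ≤ |R| := hzR.trans (le_abs_self R)
      have h3 : ‖fderiv ℝ (fun p : ZV => ϑ ‖p.1‖) (z, v)‖ ≤ |C2| := by
        refine ContinuousLinearMap.opNorm_le_bound _ (abs_nonneg _) fun d => ?_
        rw [fderiv_rad hϑ (show (z, v) ∈ SS from hz), Real.norm_eq_abs, abs_mul]
        refine mul_le_mul (h2.trans (le_abs_self _)) ?_ (abs_nonneg _) (abs_nonneg _)
        rw [abs_mul, abs_of_pos (inv_pos.2 hz'), ← div_eq_mul_inv, div_le_iff₀ hz']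
        refine (abs_real_inner_le_norm _ _).trans ?_
        rw [mul_comm]
        gcongr
        exact norm_fst_le d
      calc _ ≤ |C2| := h3
        _ = |C2| * ‖z‖ * (‖z‖ ^ (0 + 1))⁻¹ := by rw [zero_add, pow_one]; field_simp
        _ ≤ |C2| * |R| * (‖z‖ ^ (0 + 1))⁻¹ := by gcongr
        _ ≤ (|C1| + |C2| * |R|) * (‖z‖ ^ (0 + 1))⁻¹ := by
          gcongr
          linarith [abs_nonneg C1]

/-- `v_i`-derivative kernel -/
noncomputable def kV (κ : ZV → ℝ) (a : ℝ) (b : R3) (i : Fin 3) (p : ZV) : ℝ :=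
  fderiv ℝ (fun q => κ q * kA a b q) p (0, EuclideanSpace.single i 1)

/-- `z`-divergence kernel -/
noncomputable def kZ (κ : ZV → ℝ) (a : ℝ) (b : R3) (p : ZV) : ℝ :=
  ∑ l : Fin 3, fderiv ℝ (fun q => κ q * kE a b l q) p (EuclideanSpace.single l 1, 0)

/-- radial kernel -/
noncomputable def kR (κ : ZV → ℝ) (a : ℝ) (b : R3) (p : ZV) : ℝ :=
  ∑ l : Fin 3, (⟪p.1, EuclideanSpace.single l (1:ℝ)⟫ * ‖p.1‖⁻¹) * (κ p * kE a b l p)

theorem kV_Hk {k : ℕ} {κ : ZV → ℝ} (h : Hk k κ) (a : ℝ) (b : R3) (i : Fin 3) :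
    Hk k (kV κ a b i) := (h.mul0 (kA_Hk a b)).derivV _

theorem kZ_Hk {k : ℕ} {κ : ZV → ℝ} (h : Hk k κ) (a : ℝ) (b : R3) : Hk (k + 1) (kZ κ a b) :=
  Hk.sum _ fun l _ => (h.mul0 (kE_Hk a b l)).derivZ _

theorem kR_Hk {k : ℕ} {κ : ZV → ℝ} (h : Hk k κ) (a : ℝ) (b : R3) : Hk k (kR κ a b) :=
  Hk.sum _ fun l _ => by simpa using (Hk.om (EuclideanSpace.single l (1:ℝ))).mul (h.mul0 (kE_Hk a b l))

theorem dxt_cont {F : PS → ℝ} (hF : ContDiff ℝ 1 F) (a : ℝ) (b : R3) : Continuous (dxt a b F) :=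
  (hF.continuous_fderiv (by simp)).clm_apply continuous_const

theorem cone_contOn (t : ℝ) (x : R3) : ContinuousOn (cone t x) SS := (cone_smooth t x).continuousOn

/-- **division**: integration of `κ · dxt a b g` over the cone, radial cut-off `ϑ` -/
theorem division_rad {k : ℕ} {κ : ZV → ℝ} (hκ : Hk k κ) {ϑ : ℝ → ℝ} (hϑ : ContDiff ℝ 1 ϑ)
    (hKB : KB 1 (fun p => ϑ ‖p.1‖ * κ p)) {R P t : ℝ} {x : R3} (h0 : ∀ r, R ≤ r → ϑ r = 0)
    {g h : PS → ℝ} {G : Fin 3 → PS → ℝ} (hg : ContDiff ℝ 1 g) (hG : ∀ i, ContDiff ℝ 1 (G i))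
    (hh : Continuous h)
    (hP : ∀ (s : ℝ) (y v : R3), P < ‖v‖ → g (s, y, v) = 0 ∧ (∀ i, G i (s, y, v) = 0) ∧
      h (s, y, v) = 0)
    (hT : ∀ p ∈ SS, ϑ ‖p.1‖ ≠ 0 → Tr g (cone t x p) = h (cone t x p) + divv G (cone t x p))
    (a : ℝ) (b : R3)
    (hI : Integrable (fun p => ϑ ‖p.1‖ * kZ κ a b p * g (cone t x p))) :
    ∫ p, ϑ ‖p.1‖ * κ p * dxt a b g (cone t x p)
      = (∫ p, ϑ ‖p.1‖ * (κ p * kA a b p) * h (cone t x p))
        - (∑ i, ∫ p, ϑ ‖p.1‖ * kV κ a b i p * G i (cone t x p))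
        - (∫ p, ϑ ‖p.1‖ * kZ κ a b p * g (cone t x p))
        - ∫ p, deriv ϑ ‖p.1‖ * kR κ a b p * g (cone t x p) := by
  -- kernels
  have hA : KB 1 (fun p => (ϑ ‖p.1‖ * κ p) * kA a b p) := by simpa using hKB.mul (kA_Hk a b).toKB
  have hE : ∀ l, KB 1 (fun p => (ϑ ‖p.1‖ * κ p) * kE a b l p) := fun l => by
    simpa using hKB.mul (kE_Hk a b l).toKB
  have hA0 : ∀ z v : R3, z ≠ 0 → R ≤ ‖z‖ → (ϑ ‖z‖ * κ (z, v)) * kA a b (z, v) = 0 := by
    intro z v _ hR; rw [h0 _ hR]; ring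
  have hE0 : ∀ l, ∀ z v : R3, z ≠ 0 → R ≤ ‖z‖ → (ϑ ‖z‖ * κ (z, v)) * kE a b l (z, v) = 0 := by
    intro l z v _ hR; rw [h0 _ hR]; ring
  have pA := fun i : Fin 3 => hA.by_parts (pb_KB (hG i) t x) (P := P) hA0
    (fun z v _ hv => (hP _ _ _ hv).2.1 i) (0, EuclideanSpace.single i 1)
  have pE := fun l : Fin 3 => (hE l).by_parts (pb_KB hg t x) (P := P) (hE0 l)
    (fun z v _ hv => (hP _ _ _ hv).1) (EuclideanSpace.single l 1, 0)
  -- integrability of the source term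
  have iH : Integrable (fun p => ϑ ‖p.1‖ * (κ p * kA a b p) * h (cone t x p)) := by
    obtain ⟨C, hC, hb⟩ := hA.bound R P
    have hc : IsCompact (Metric.closedBall t R ×ˢ
        (Metric.closedBall x R ×ˢ Metric.closedBall (0 : R3) P)) :=
      (isCompact_closedBall _ _).prod ((isCompact_closedBall _ _).prod (isCompact_closedBall _ _))
    obtain ⟨C1, hC1⟩ := hc.exists_bound_of_continuousOn hh.continuousOn
    refine integrable_two (R := R) (P := P) (C := C * |C1| * |R|) ?_ (by positivity) ?_ ?_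
    · exact ((rad_KB hϑ).smooth.continuousOn.mul
        (hκ.smooth.continuousOn.mul (kA_Hk a b).smooth.continuousOn)).mul
        (hh.comp_continuousOn (cone_contOn t x))
    · rintro z v hz (hv | hv)
      · simp only [h0 _ hv.le]; ring
      · have : h (cone t x (z, v)) = 0 := (hP _ _ _ hv).2.2
        simp only [this, mul_zero]
    · intro z v hz hzR hvP
      have hz' : 0 < ‖z‖ := norm_pos_iff.2 hz
      obtain ⟨b1, -⟩ := hb z v hz hzR hvP
      rw [pow_one] at b1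
      have hmem : cone t x (z, v) ∈ Metric.closedBall t R ×ˢ
          (Metric.closedBall x R ×ˢ Metric.closedBall (0 : R3) P) := by
        simp [cone, hzR, hvP]
      have b2 := hC1 _ hmem
      rw [Real.norm_eq_abs] at b2
      have hR : ‖z‖ ≤ |R| := hzR.trans (le_abs_self R)
      have e : ϑ ‖z‖ * (κ (z, v) * kA a b (z, v)) = ϑ ‖z‖ * κ (z, v) * kA a b (z, v) := by ring
      calc |ϑ ‖z‖ * (κ (z, v) * kA a b (z, v)) * h (cone t x (z, v))|
          = |ϑ ‖z‖ * κ (z, v) * kA a b (z, v)| * |h (cone t x (z, v))| := by rw [abs_mul, e]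
        _ ≤ (C * ‖z‖⁻¹) * |C1| := mul_le_mul b1 (b2.trans (le_abs_self _)) (abs_nonneg _)
            (by positivity)
        _ = C * |C1| * ‖z‖ * (‖z‖ ^ 2)⁻¹ := by field_simp
        _ ≤ C * |C1| * |R| * (‖z‖ ^ 2)⁻¹ := by gcongr
  -- pointwise identity
  have hpt : (fun p => ϑ ‖p.1‖ * κ p * dxt a b g (cone t x p)) =ᵐ[volume]
      fun p => ϑ ‖p.1‖ * (κ p * kA a b p) * h (cone t x p)
        + (∑ i : Fin 3, (ϑ ‖p.1‖ * κ p) * kA a b p *
            fderiv ℝ (fun q => G i (cone t x q)) p (0, EuclideanSpace.single i 1))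
        + ∑ l : Fin 3, (ϑ ‖p.1‖ * κ p) * kE a b l p *
            fderiv ℝ (fun q => g (cone t x q)) p (EuclideanSpace.single l 1, 0) := by
    filter_upwards [ae_SS] with p hp
    rw [division_pt hp (hg.differentiable (by simp) _) a b]
    have e1 : ∀ i : Fin 3, fderiv ℝ (fun q => G i (cone t x q)) p (0, EuclideanSpace.single i 1)
        = fderiv ℝ (G i) (cone t x p) (ev i) := by
      intro i
      rw [fderiv_pb hp ((hG i).differentiable (by simp) _)]
      simp [ev]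
    simp only [e1]
    by_cases hz : ϑ ‖p.1‖ = 0
    · simp [hz]
    · rw [hT p hp hz]
      unfold divv
      rw [mul_add, mul_add, mul_add, Finset.mul_sum, Finset.mul_sum, Finset.mul_sum]
      congr 1
      · congr 1
        · ring
        · exact Finset.sum_congr rfl fun i _ => by ring
      · exact Finset.sum_congr rfl fun l _ => by ring
  have sA : Integrable (fun p => ∑ i : Fin 3, (ϑ ‖p.1‖ * κ p) * kA a b p *
      fderiv ℝ (fun q => G i (cone t x q)) p (0, EuclideanSpace.single i 1)) :=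
    integrable_finsetSum _ fun i _ => (pA i).1
  have sE : Integrable (fun p => ∑ l : Fin 3, (ϑ ‖p.1‖ * κ p) * kE a b l p *
      fderiv ℝ (fun q => g (cone t x q)) p (EuclideanSpace.single l 1, 0)) :=
    integrable_finsetSum _ fun l _ => (pE l).1
  have sHA : Integrable (fun p => ϑ ‖p.1‖ * (κ p * kA a b p) * h (cone t x p)
      + ∑ i : Fin 3, (ϑ ‖p.1‖ * κ p) * kA a b p *
      fderiv ℝ (fun q => G i (cone t x q)) p (0, EuclideanSpace.single i 1)) := iH.add sA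
  rw [integral_congr_ae hpt, integral_add sHA sE, integral_add iH sA,
    integral_finsetSum _ fun i _ => (pA i).1, integral_finsetSum _ fun l _ => (pE l).1]
  -- the momentum terms
  have tV : ∀ i : Fin 3, ∫ p, (ϑ ‖p.1‖ * κ p) * kA a b p *
      fderiv ℝ (fun q => G i (cone t x q)) p (0, EuclideanSpace.single i 1)
      = - ∫ p, ϑ ‖p.1‖ * kV κ a b i p * G i (cone t x p) := by
    intro i
    rw [(pA i).2.2]
    congr 1
    refine integral_congr_ae ?_
    filter_upwards [ae_SS] with p hp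
    have hk := hκ.mul0 (kA_Hk a b)
    have e : (fun q : ZV => ϑ ‖q.1‖ * κ q * kA a b q) = fun q => ϑ ‖q.1‖ * (κ q * kA a b q) := by
      ext q; ring
    have e2 : fderiv ℝ (fun q : ZV => ϑ ‖q.1‖ * κ q * kA a b q) p (0, EuclideanSpace.single i 1)
        = ϑ ‖p.1‖ * kV κ a b i p := by
      rw [e, (rad_KB hϑ).fderiv_mul hk.toKB hp]
      simp only [add_apply, smul_apply, smul_eq_mul, fderiv_rad hϑ hp, inner_zero_right,
        zero_mul, mul_zero, add_zero]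
      rfl
    rw [e2]
  -- the space terms
  have tZ : ∑ l : Fin 3, ∫ p, (ϑ ‖p.1‖ * κ p) * kE a b l p *
      fderiv ℝ (fun q => g (cone t x q)) p (EuclideanSpace.single l 1, 0)
      = - (∫ p, ϑ ‖p.1‖ * kZ κ a b p * g (cone t x p))
        - ∫ p, deriv ϑ ‖p.1‖ * kR κ a b p * g (cone t x p) := by
    have hs : Integrable (fun p => ∑ l : Fin 3, fderiv ℝ (fun q : ZV => ϑ ‖q.1‖ * κ q * kE a b l q) p
        (EuclideanSpace.single l 1, 0) * g (cone t x p)) :=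
      integrable_finsetSum _ fun l _ => (pE l).2.1
    have e3 : (fun p => ∑ l : Fin 3, fderiv ℝ (fun q : ZV => ϑ ‖q.1‖ * κ q * kE a b l q) p
        (EuclideanSpace.single l 1, 0) * g (cone t x p)) =ᵐ[volume]
        fun p => ϑ ‖p.1‖ * kZ κ a b p * g (cone t x p)
          + deriv ϑ ‖p.1‖ * kR κ a b p * g (cone t x p) := by
      filter_upwards [ae_SS] with p hp
      rw [← Finset.sum_mul, ← add_mul]
      congr 1
      unfold kZ kR
      rw [Finset.mul_sum, Finset.mul_sum, ← Finset.sum_add_distrib]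
      refine Finset.sum_congr rfl fun l _ => ?_
      have hk := hκ.mul0 (kE_Hk a b l)
      have e : (fun q : ZV => ϑ ‖q.1‖ * κ q * kE a b l q) = fun q => ϑ ‖q.1‖ * (κ q * kE a b l q) := by
        ext q; ring
      rw [e, (rad_KB hϑ).fderiv_mul hk.toKB hp]
      simp only [add_apply, smul_apply, smul_eq_mul, fderiv_rad hϑ hp]
      ring
    have hs2 := hs.congr e3
    have hs3 : Integrable (fun p => deriv ϑ ‖p.1‖ * kR κ a b p * g (cone t x p)) := by
      have := hs2.sub hI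
      refine this.congr (Eventually.of_forall fun p => ?_)
      simp
    have e4 : ∑ l : Fin 3, ∫ p, (ϑ ‖p.1‖ * κ p) * kE a b l p *
        fderiv ℝ (fun q => g (cone t x q)) p (EuclideanSpace.single l 1, 0)
        = - ∫ p, ∑ l : Fin 3, fderiv ℝ (fun q : ZV => ϑ ‖q.1‖ * κ q * kE a b l q) p
        (EuclideanSpace.single l 1, 0) * g (cone t x p) := by
      rw [integral_finsetSum _ fun l _ => (pE l).2.1, ← Finset.sum_neg_distrib]
      exact Finset.sum_congr rfl fun l _ => (pE l).2.2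
    rw [e4, integral_congr_ae e3, integral_add hI hs3]
    ring
  rw [tZ, Finset.sum_congr rfl fun i _ => tV i, Finset.sum_neg_distrib]
  ring

end Crest.Agent.R106.Gs2
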