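/- Row 106, node GS2 (helper585 for helper375 / helper899): auxiliary lemmas. -/
import Crest.Agent.R106.Gs2DivInt

set_option autoImplicit false
open MeasureTheory Set Filter Topology
open scoped ContDiff RealInnerProductSpace
open Crest.AnalysisR.VecCalc3 Crest.AnalysisR.PDE.RVM

namespace Crest.Agent.R106.Gs2

/-! ### (i) commuting `Tr` and `dxt 0 e` -/

section comm

variable {E : Type} [NormedAddCommGroup E] [NormedSpace ℝ E]

theorem fderiv_fderiv_apply {g : E → ℝ} (hg : ContDiff ℝ 2 g) (p u w : E) :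
    fderiv ℝ (fun q => fderiv ℝ g q w) p u = fderiv ℝ (fderiv ℝ g) p u w := by
  have h2 : DifferentiableAt ℝ (fderiv ℝ g) p :=
    (hg.fderiv_right (m := 1) (by norm_num)).differentiable (by norm_num) p
  rw [fderiv_clm_apply h2 (differentiableAt_const w)]
  simp

theorem fderiv_fderiv_symm {g : E → ℝ} (hg : ContDiff ℝ 2 g) (p u w : E) :
    fderiv ℝ (fderiv ℝ g) p u w = fderiv ℝ (fderiv ℝ g) p w u := by
  have h := (hg.contDiffAt (x := p)).isSymmSndFDerivAt (by simp)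
  exact h.eq u w

/-- derivative along a line -/
theorem hasDerivAt_line {g : E → ℝ} (hg : ContDiff ℝ 2 g) (p u w : E) :
    HasDerivAt (fun r : ℝ => fderiv ℝ g (p + r • u) w) (fderiv ℝ (fderiv ℝ g) p u w) 0 := by
  have h2 : DifferentiableAt ℝ (fderiv ℝ g) p :=
    (hg.fderiv_right (m := 1) (by norm_num)).differentiable (by norm_num) p
  have h3 : HasDerivAt (fun r : ℝ => p + r • u) u 0 := by
    simpa using ((hasDerivAt_id (0 : ℝ)).smul_const u).const_add p
  have h4 : HasFDerivAt (fderiv ℝ g) (fderiv ℝ (fderiv ℝ g) p) (p + (0 : ℝ) • u) := by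
    simpa using h2.hasFDerivAt
  have h5 := h4.comp_hasDerivAt (0 : ℝ) h3
  exact (ContinuousLinearMap.apply ℝ ℝ w).hasFDerivAt.comp_hasDerivAt (0 : ℝ) h5

end comm

theorem Tr_dxt {g : PS → ℝ} {G : Fin 3 → PS → ℝ} (hg : ContDiff ℝ 2 g)
    (hG : ∀ i, ContDiff ℝ 2 (G i)) {s : ℝ}
    (h : ∀ y v : R3, Tr g (s, y, v) = divv G (s, y, v)) (e y v : R3) :
    Tr (dxt 0 e g) (s, y, v) = divv (fun i => dxt 0 e (G i)) (s, y, v) := by
  set p : PS := (s, y, v) with hp
  set u : PS := (0, e, 0) with hu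
  have hline : ∀ r : ℝ, p + r • u = (s, y + r • e, v) := fun r => by
    simp [hp, hu]
  have h1 := hasDerivAt_line hg p u (1, relVel v, 0)
  have h2 : HasDerivAt (fun r : ℝ => ∑ i, fderiv ℝ (G i) (p + r • u) (ev i))
      (∑ i, fderiv ℝ (fderiv ℝ (G i)) p u (ev i)) 0 :=
    HasDerivAt.fun_sum fun i _ => hasDerivAt_line (hG i) p u (ev i)
  have h3 : (fun r : ℝ => fderiv ℝ g (p + r • u) (1, relVel v, 0))
      = fun r : ℝ => ∑ i, fderiv ℝ (G i) (p + r • u) (ev i) := by
    funext r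
    rw [hline r]
    exact h (y + r • e) v
  rw [h3] at h1
  have h4 := h1.unique h2
  have e1 : Tr (dxt 0 e g) p = fderiv ℝ (fderiv ℝ g) p (1, relVel v, 0) u := by
    unfold Tr dxt
    exact fderiv_fderiv_apply hg p (1, relVel v, 0) u
  have e2 : divv (fun i => dxt 0 e (G i)) p = ∑ i, fderiv ℝ (fderiv ℝ (G i)) p (ev i) u := by
    unfold divv dxt
    exact Finset.sum_congr rfl fun i _ => fderiv_fderiv_apply (hG i) p (ev i) u
  rw [e1, e2, fderiv_fderiv_symm hg, h4]
  exact Finset.sum_congr rfl fun i _ => fderiv_fderiv_symm (hG i) p u (ev i)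

/-! ### (ii) the radial cut-off -/

/-- radial cut-off: `0` for `r ≤ ε/2`, `1` for `r ≥ ε` -/
noncomputable def ch (ε r : ℝ) : ℝ := Real.smoothTransition (2 * r / ε - 1)

theorem ch_smooth (ε : ℝ) : ContDiff ℝ ∞ (ch ε) :=
  Real.smoothTransition.contDiff.comp
    (((contDiff_const.mul contDiff_id).div_const ε).sub contDiff_const)

theorem ch_mem (ε r : ℝ) : 0 ≤ ch ε r ∧ ch ε r ≤ 1 :=
  ⟨Real.smoothTransition.nonneg _, Real.smoothTransition.le_one _⟩

theorem ch_zero {ε r : ℝ} (hε : 0 < ε) (hr : r ≤ ε / 2) : ch ε r = 0 := by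
  refine Real.smoothTransition.zero_of_nonpos ?_
  have : 2 * r / ε ≤ 1 := by rw [div_le_one hε]; linarith
  linarith

theorem ch_one {ε r : ℝ} (hε : 0 < ε) (hr : ε ≤ r) : ch ε r = 1 := by
  refine Real.smoothTransition.one_of_one_le ?_
  have : 2 ≤ 2 * r / ε := by rw [le_div_iff₀ hε]; linarith
  linarith

theorem ch_hasDerivAt (ε r : ℝ) :
    HasDerivAt (ch ε) (deriv Real.smoothTransition (2 * r / ε - 1) * (2 / ε)) r := by
  have h1 : HasDerivAt (fun r : ℝ => 2 * r / ε - 1) (2 / ε) r := by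
    have := (((hasDerivAt_id r).const_mul 2).div_const ε).sub_const 1
    simpa using this
  have h2 : HasDerivAt Real.smoothTransition
      (deriv Real.smoothTransition (2 * r / ε - 1)) (2 * r / ε - 1) :=
    ((Real.smoothTransition.contDiff (n := 1)).differentiable (by simp) _).hasDerivAt
  exact h2.comp r h1

theorem ch_deriv_le : ∃ M : ℝ, 0 ≤ M ∧ ∀ ε : ℝ, 0 < ε → ∀ r : ℝ, |deriv (ch ε) r| ≤ M / ε := by
  obtain ⟨M, hM0, hM⟩ := exists_sT_bound
  refine ⟨M * 2, by positivity, fun ε hε r => ?_⟩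
  rw [(ch_hasDerivAt ε r).deriv, abs_mul, abs_of_pos (by positivity : 0 < 2 / ε)]
  have h := mul_le_mul_of_nonneg_right (hM (2 * r / ε - 1)) (by positivity : 0 ≤ 2 / ε)
  refine h.trans (le_of_eq ?_)
  ring

theorem ch_deriv_zero {ε r : ℝ} (hε : 0 < ε) (hr : r ≤ ε / 2 ∨ ε ≤ r) : deriv (ch ε) r = 0 := by
  rcases hr with h | h
  · apply IsLocalMin.deriv_eq_zero
    refine Eventually.of_forall fun y => ?_
    rw [ch_zero hε h]
    exact (ch_mem ε y).1
  · apply IsLocalMax.deriv_eq_zero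
    refine Eventually.of_forall fun y => ?_
    rw [ch_one hε h]
    exact (ch_mem ε y).2

/-! ### (iii) integrability of `ϑ κ F∘cone` -/

theorem continuousOn_cone {F : PS → ℝ} (hF : Continuous F) (t : ℝ) (x : R3) :
    Continuous (fun p : ZV => F (cone t x p)) := by
  refine hF.comp ?_
  unfold cone
  fun_prop

theorem integrable_RI {κ : ZV → ℝ} (hκ : ContinuousOn κ SS) {ϑ : ℝ → ℝ} (hϑ : Continuous ϑ)
    {F : PS → ℝ} (hF : Continuous F) {R P t C : ℝ} {x : R3} (hC : 0 ≤ C)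
    (h0 : ∀ r, R < r → ϑ r = 0) (hP : ∀ (s : ℝ) (y v : R3), P < ‖v‖ → F (s, y, v) = 0)
    (hb : ∀ z v : R3, z ≠ 0 → ‖z‖ ≤ R → ‖v‖ ≤ P → |ϑ ‖z‖ * κ (z, v)| ≤ C * (‖z‖ ^ 2)⁻¹) :
    Integrable (fun p : ZV => ϑ ‖p.1‖ * κ p * F (cone t x p)) := by
  have hFc := continuousOn_cone hF t x
  have hK : IsCompact (Metric.closedBall (0 : R3) R ×ˢ Metric.closedBall (0 : R3) P) :=
    (isCompact_closedBall _ _).prod (isCompact_closedBall _ _)
  obtain ⟨M, hM⟩ := hK.exists_bound_of_continuousOn hFc.continuousOn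
  refine integrable_two (R := R) (P := P) (C := C * |M|) ?_ (by positivity) ?_ ?_
  · refine ContinuousOn.mul (ContinuousOn.mul ?_ hκ) hFc.continuousOn
    exact (hϑ.comp (continuous_norm.comp continuous_fst)).continuousOn
  · rintro z v hz (h | h)
    · simp only [h0 _ h, zero_mul]
    · have : F (cone t x (z, v)) = 0 := by unfold cone; exact hP _ _ _ h
      simp only [this, mul_zero]
  · intro z v hz hzR hvP
    have h1 := hb z v hz hzR hvP
    have h2 : |F (cone t x (z, v))| ≤ |M| := by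
      have := hM (z, v) ⟨by simpa using hzR, by simpa using hvP⟩
      exact this.trans (le_abs_self M)
    rw [abs_mul]
    calc |ϑ ‖z‖ * κ (z, v)| * |F (cone t x (z, v))| ≤ (C * (‖z‖ ^ 2)⁻¹) * |M| := by gcongr
      _ = C * |M| * (‖z‖ ^ 2)⁻¹ := by ring

end Crest.Agent.R106.Gs2
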