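/- Row 106, node GS2 (helper375): core statements (global functions, smooth time cut-off). -/
import Crest.Agent.R106.Gs2Defs

set_option autoImplicit false
open MeasureTheory Set
open scoped ContDiff
open Crest.AnalysisR.VecCalc3 Crest.AnalysisR.PDE.RVM

namespace Crest.Agent.R106.Gs2

/-- smooth time cut-off: `0` for `s ≤ 0`, `1` for `s ≥ d` -/
noncomputable def th (d s : ℝ) : ℝ := Real.smoothTransition (s / d)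

/-- cone integral with time cut-off and weight `m(v)/(4π|z|)` -/
noncomputable def Wth (d : ℝ) (m : R3 → ℝ) (F : PS → ℝ) (t : ℝ) (x : R3) : ℝ :=
  ∫ p : R3 × R3, th d (t - ‖p.1‖) * (m p.2 * (4 * Real.pi * ‖p.1‖)⁻¹) *
    F (t - ‖p.1‖, x + p.1, p.2)

/-- core of `SupEst` -/
def CoreSup : Prop :=
  ∀ (P : ℝ) (m : R3 → ℝ), ContDiff ℝ ∞ m → ∀ (a : ℝ) (b : R3), ∃ C : ℝ, 0 ≤ C ∧
    ∀ (t d : ℝ) (x : R3) (g h : PS → ℝ) (G : Fin 3 → PS → ℝ) (a0 : ℝ) (N NG Nh : ℝ → ℝ),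
      0 < t → 0 < d → d ≤ t →
      ContDiff ℝ 1 g → (∀ i, ContDiff ℝ 1 (G i)) → Continuous h →
      (∀ (s : ℝ) (y v : R3), P < ‖v‖ → g (s, y, v) = 0 ∧ (∀ i, G i (s, y, v) = 0) ∧ h (s, y, v) = 0) →
      (∀ s ∈ Icc 0 t, ∀ y v : R3, Tr g (s, y, v) = h (s, y, v) + divv G (s, y, v)) →
      (∀ s ∈ Icc 0 d, ∀ y v : R3, |g (s, y, v)| ≤ a0) →
      (∀ s ∈ Icc 0 t, ∀ y v : R3, |g (s, y, v)| ≤ N s) →
      (∀ s ∈ Icc 0 t, ∀ i, ∀ y v : R3, |G i (s, y, v)| ≤ NG s) →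
      (∀ s ∈ Icc 0 t, ∀ y v : R3, |h (s, y, v)| ≤ Nh s) →
      IntervalIntegrable N volume 0 t → IntervalIntegrable NG volume 0 t →
      IntervalIntegrable Nh volume 0 t →
      |Wth d m (dxt a b g) t x| ≤
        C * (t * a0 + (∫ s in (0:ℝ)..t, N s) + (∫ s in (0:ℝ)..t, (t - s) * (NG s + Nh s)))

/-- core of `GradEst` -/
def CoreGrad : Prop :=
  ∀ (P : ℝ) (m : R3 → ℝ), ContDiff ℝ ∞ m → ∀ (a : ℝ) (b e : R3), ∃ C : ℝ, 0 ≤ C ∧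
    ∀ (t d ε : ℝ) (x : R3) (g : PS → ℝ) (G H : Fin 3 → PS → ℝ)
      (K : Fin 3 → Fin 3 → PS → ℝ) (a0 a1 b0 n0 n1 : ℝ) (NG NH : ℝ → ℝ),
      0 < t → 0 < d → d ≤ t → 0 < ε → ε ≤ t →
      ContDiff ℝ 2 g → (∀ i, ContDiff ℝ 2 (G i)) →
      (∀ i, Continuous (H i)) → (∀ i j, ContDiff ℝ 1 (K i j)) →
      (∀ (s : ℝ) (y v : R3), P < ‖v‖ → g (s, y, v) = 0 ∧
        ∀ i, G i (s, y, v) = 0 ∧ H i (s, y, v) = 0 ∧ ∀ j, K i j (s, y, v) = 0) →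
      (∀ s ∈ Icc 0 t, ∀ y v : R3, Tr g (s, y, v) = divv G (s, y, v)) →
      (∀ s ∈ Icc 0 t, ∀ i, ∀ y v : R3,
        Tr (G i) (s, y, v) = H i (s, y, v) + divv (K i) (s, y, v)) →
      (∀ s ∈ Icc 0 d, ∀ y v : R3, |g (s, y, v)| ≤ a0 ∧ |dxt 0 e g (s, y, v)| ≤ a1 ∧
        ∀ i, |G i (s, y, v)| ≤ b0) →
      (∀ s ∈ Icc 0 t, ∀ y v : R3, |g (s, y, v)| ≤ n0 ∧ |dxt 0 e g (s, y, v)| ≤ n1) →
      (∀ s ∈ Icc 0 t, ∀ i, ∀ y v : R3, |G i (s, y, v)| ≤ NG s) →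
      (∀ s ∈ Icc 0 t, ∀ i, ∀ y v : R3, |H i (s, y, v)| ≤ NH s ∧ ∀ j, |K i j (s, y, v)| ≤ NH s) →
      IntervalIntegrable NG volume 0 t → IntervalIntegrable NH volume 0 t →
      |Wth d m (dxt a b (dxt 0 e g)) t x| ≤
        C * (t * a1 + a0 + t * b0 + n0 * (1 + Real.log (t / ε)) + ε * n1
          + (∫ s in (0:ℝ)..t, NG s) + (∫ s in (0:ℝ)..t, (t - s) * NH s))

end Crest.Agent.R106.Gs2
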