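/- Row 106, node GS2 (helper585 for helper375): radial profiles and the time cut-off. -/
import Crest.Agent.R106.Gs2Int
import Crest.Agent.R106.Gs2Core

set_option autoImplicit false
open MeasureTheory Set Filter Topology
open scoped ContDiff RealInnerProductSpace
open Crest.AnalysisR.VecCalc3 Crest.AnalysisR.PDE.RVM

namespace Crest.Agent.R106.Gs2

/-! ### radial profiles -/

theorem cone_int_le {k : ℕ} (hk : k ≤ 2) {P C t : ℝ} (ht : 0 ≤ t) {M : ℝ → ℝ} {Φ : ZV → ℝ}
    (hM : IntervalIntegrable (fun s => (t - s) ^ (2 - k) * M s) volume 0 t)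
    (h0 : ∀ z v : R3, z ≠ 0 → (t ≤ ‖z‖ ∨ P < ‖v‖) → Φ (z, v) = 0)
    (h1 : ∀ z v : R3, z ≠ 0 → ‖z‖ < t → ‖v‖ ≤ P →
      |Φ (z, v)| ≤ C * (‖z‖ ^ k)⁻¹ * M (t - ‖z‖)) :
    |∫ p, Φ p| ≤ cB P * C * ∫ s in (0:ℝ)..t, (t - s) ^ (2 - k) * M s := by
  set φ : ℝ → ℝ := (Iio t).indicator (fun r => C * (r ^ k)⁻¹ * M (t - r)) with hφ
  set ψ : ℝ → ℝ := fun r => C * (r ^ (2 - k) * M (t - r)) with hψ
  have hint1 : IntervalIntegrable (fun r => r ^ (2 - k) * M (t - r)) volume 0 t := by
    have h := hM.comp_sub_left t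
    simp only [sub_zero, sub_self, sub_sub_cancel] at h
    exact h.symm
  have hψi : IntegrableOn ψ (Ioo 0 t) := by
    have h := hint1.const_mul C
    rw [intervalIntegrable_iff_integrableOn_Ioc_of_le ht] at h
    exact h.mono_set Ioo_subset_Ioc_self
  have hcongr : ∀ r ∈ Ioi (0:ℝ), r ^ 2 * φ r = (Ioo 0 t).indicator ψ r := by
    intro r hr
    have hr' : (0:ℝ) < r := hr
    by_cases h : r < t
    · have e1 : r ∈ Ioo 0 t := ⟨hr', h⟩
      have e2 : r ∈ Iio t := h
      simp only [hφ, hψ, indicator_of_mem e1, indicator_of_mem e2]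
      have : r ^ 2 = r ^ (2 - k) * r ^ k := by rw [← pow_add, Nat.sub_add_cancel hk]
      rw [this]
      field_simp
    · have e1 : r ∉ Ioo 0 t := fun h' => h h'.2
      have e2 : r ∉ Iio t := h
      simp only [hφ, indicator_of_notMem e1, indicator_of_notMem e2, mul_zero]
  have hφi : IntegrableOn (fun r => r ^ 2 * φ r) (Ioi 0) := by
    have h2 : IntegrableOn ((Ioo 0 t).indicator ψ) (Ioi 0) :=
      (hψi.integrable_indicator measurableSet_Ioo).integrableOn
    exact h2.congr_fun (fun r hr => (hcongr r hr).symm) measurableSet_Ioi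
  have hval : ∫ r in Ioi (0:ℝ), r ^ 2 * φ r = C * ∫ s in (0:ℝ)..t, (t - s) ^ (2 - k) * M s := by
    rw [setIntegral_congr_fun measurableSet_Ioi hcongr, setIntegral_indicator measurableSet_Ioo]
    have e1 : Ioi (0:ℝ) ∩ Ioo 0 t = Ioo 0 t := by
      ext r; simp only [mem_inter_iff, mem_Ioi, mem_Ioo]; tauto
    rw [e1, ← integral_Ioc_eq_integral_Ioo, ← intervalIntegral.integral_of_le ht]
    simp only [hψ]
    rw [intervalIntegral.integral_const_mul]
    congr 1
    have h := intervalIntegral.integral_comp_sub_left (a := 0) (b := t)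
      (fun s => (t - s) ^ (2 - k) * M s) t
    simp only [sub_sub_cancel, sub_self, sub_zero] at h
    exact h
  have hb : ∀ z v : R3, z ≠ 0 → |Φ (z, v)| ≤ φ ‖z‖ * indP P v := by
    intro z v hz
    by_cases hout : t ≤ ‖z‖ ∨ P < ‖v‖
    · rw [h0 z v hz hout, abs_zero]
      rcases hout with h | h
      · have e2 : ‖z‖ ∉ Iio t := by simpa using h
        simp only [hφ, indicator_of_notMem e2, zero_mul, le_refl]
      · rw [indP_of_lt h, mul_zero]
    · simp only [not_or, not_le, not_lt] at hout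
      rw [indP_of_le hout.2, mul_one]
      have e2 : ‖z‖ ∈ Iio t := hout.1
      simp only [hφ, indicator_of_mem e2]
      exact h1 z v hz hout.1 hout.2
  refine (abs_integral_le hφi hb).trans ?_
  rw [hval, mul_assoc]

theorem near_int_le {P C ε : ℝ} (hC : 0 ≤ C) (hε : 0 < ε) {Φ : ZV → ℝ}
    (h0 : ∀ z v : R3, z ≠ 0 → (ε < ‖z‖ ∨ P < ‖v‖) → Φ (z, v) = 0)
    (h1 : ∀ z v : R3, z ≠ 0 → ‖v‖ ≤ P → |Φ (z, v)| ≤ C * (‖z‖ ^ 2)⁻¹) :
    |∫ p, Φ p| ≤ cB P * C * ε := by
  set φ : ℝ → ℝ := (Iic ε).indicator (fun r => C * (r ^ 2)⁻¹) with hφ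
  have hval : ∫ r in Ioi (0:ℝ), r ^ 2 * φ r = C * ε := by
    have hcongr : ∀ r ∈ Ioi (0:ℝ), r ^ 2 * φ r = (Ioc 0 ε).indicator (fun _ => C) r := by
      intro r hr
      have hr' : (0:ℝ) < r := hr
      by_cases h : r ≤ ε
      · have e1 : r ∈ Ioc 0 ε := ⟨hr', h⟩
        have e2 : r ∈ Iic ε := h
        simp only [hφ, indicator_of_mem e1, indicator_of_mem e2]
        field_simp
      · have e1 : r ∉ Ioc 0 ε := fun h' => h h'.2
        have e2 : r ∉ Iic ε := h
        simp only [hφ, indicator_of_notMem e1, indicator_of_notMem e2, mul_zero]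
    rw [setIntegral_congr_fun measurableSet_Ioi hcongr, setIntegral_indicator measurableSet_Ioc]
    have e1 : Ioi (0:ℝ) ∩ Ioc 0 ε = Ioc 0 ε := by
      ext r; simp only [mem_inter_iff, mem_Ioi, mem_Ioc]; tauto
    rw [e1, setIntegral_const]
    simp [Measure.real, hε.le, mul_comm]
  have hb : ∀ z v : R3, z ≠ 0 → |Φ (z, v)| ≤ φ ‖z‖ * indP P v := by
    intro z v hz
    by_cases hout : ε < ‖z‖ ∨ P < ‖v‖
    · rw [h0 z v hz hout, abs_zero]
      exact mul_nonneg (indicator_nonneg (fun r _ => by positivity) _) (indP_nonneg _ _)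
    · simp only [not_or, not_lt] at hout
      rw [indP_of_le hout.2, mul_one]
      have e2 : ‖z‖ ∈ Iic ε := hout.1
      simp only [hφ, indicator_of_mem e2]
      exact h1 z v hz hout.2
  refine (abs_integral_le (integrableOn_profile le_rfl C ε) hb).trans ?_
  rw [← hφ, hval, mul_assoc]

theorem log_int_le {P C ε t : ℝ} (hC : 0 ≤ C) (hε : 0 < ε) (ht : ε ≤ t) {Φ : ZV → ℝ}
    (h0 : ∀ z v : R3, z ≠ 0 → (‖z‖ < ε / 2 ∨ t < ‖z‖ ∨ P < ‖v‖) → Φ (z, v) = 0)
    (h1 : ∀ z v : R3, z ≠ 0 → ‖v‖ ≤ P → |Φ (z, v)| ≤ C * (‖z‖ ^ 3)⁻¹) :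
    |∫ p, Φ p| ≤ cB P * C * (Real.log 2 + Real.log (t / ε)) := by
  have ht0 : 0 < t := hε.trans_le ht
  have h2t : ε / 2 ≤ t := by linarith
  set φ : ℝ → ℝ := (Icc (ε / 2) t).indicator (fun r => C * (r ^ 3)⁻¹) with hφ
  have hcongr : ∀ r ∈ Ioi (0:ℝ), r ^ 2 * φ r = (Icc (ε / 2) t).indicator (fun r => C * r⁻¹) r := by
    intro r hr
    have hr' : (0:ℝ) < r := hr
    by_cases h : r ∈ Icc (ε / 2) t
    · simp only [hφ, indicator_of_mem h]
      field_simp
    · simp only [hφ, indicator_of_notMem h, mul_zero]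
  have hsub : Ioi (0:ℝ) ∩ Icc (ε / 2) t = Icc (ε / 2) t := by
    ext r; simp only [mem_inter_iff, mem_Ioi, mem_Icc]
    constructor
    · rintro ⟨-, h⟩; exact h
    · rintro h; exact ⟨by linarith [h.1], h⟩
  have hcont : ContinuousOn (fun r : ℝ => C * r⁻¹) (Icc (ε / 2) t) := by
    refine continuousOn_const.mul (continuousOn_inv₀.mono ?_)
    intro r hr
    have : 0 < r := by linarith [hr.1]
    exact this.ne'
  have hint : IntegrableOn (fun r : ℝ => C * r⁻¹) (Icc (ε / 2) t) := hcont.integrableOn_Icc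
  have hφi : IntegrableOn (fun r => r ^ 2 * φ r) (Ioi 0) := by
    have h2 : IntegrableOn ((Icc (ε / 2) t).indicator fun r : ℝ => C * r⁻¹) (Ioi 0) :=
      (hint.integrable_indicator measurableSet_Icc).integrableOn
    exact h2.congr_fun (fun r hr => (hcongr r hr).symm) measurableSet_Ioi
  have hval : ∫ r in Ioi (0:ℝ), r ^ 2 * φ r = C * (Real.log 2 + Real.log (t / ε)) := by
    rw [setIntegral_congr_fun measurableSet_Ioi hcongr, setIntegral_indicator measurableSet_Icc,
      hsub, integral_Icc_eq_integral_Ioc, ← intervalIntegral.integral_of_le h2t,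
      intervalIntegral.integral_const_mul, integral_inv_of_pos (by positivity) ht0]
    congr 1
    rw [← Real.log_mul (by norm_num) (by positivity)]
    congr 1
    field_simp
  have hb : ∀ z v : R3, z ≠ 0 → |Φ (z, v)| ≤ φ ‖z‖ * indP P v := by
    intro z v hz
    by_cases hout : ‖z‖ < ε / 2 ∨ t < ‖z‖ ∨ P < ‖v‖
    · rw [h0 z v hz hout, abs_zero]
      exact mul_nonneg (indicator_nonneg (fun r _ => by
        have : 0 < r := by have := ‹r ∈ Icc (ε / 2) t›.1; linarith
        positivity) _) (indP_nonneg _ _)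
    · simp only [not_or, not_lt] at hout
      rw [indP_of_le hout.2.2, mul_one]
      have e2 : ‖z‖ ∈ Icc (ε / 2) t := ⟨hout.1, hout.2.1⟩
      simp only [hφ, indicator_of_mem e2]
      exact h1 z v hz hout.2.2
  refine (abs_integral_le hφi hb).trans ?_
  rw [hval, mul_assoc]

/-! ### the time cut-off -/

theorem th_smooth (d : ℝ) : ContDiff ℝ ∞ (th d) :=
  Real.smoothTransition.contDiff.comp (contDiff_id.div_const d)

theorem th_zero {d s : ℝ} (hd : 0 < d) (hs : s ≤ 0) : th d s = 0 :=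
  Real.smoothTransition.zero_of_nonpos (div_nonpos_of_nonpos_of_nonneg hs hd.le)

theorem th_one {d s : ℝ} (hd : 0 < d) (hs : d ≤ s) : th d s = 1 :=
  Real.smoothTransition.one_of_one_le (by rwa [le_div_iff₀ hd, one_mul])

theorem th_mem (d s : ℝ) : 0 ≤ th d s ∧ th d s ≤ 1 :=
  ⟨Real.smoothTransition.nonneg _, Real.smoothTransition.le_one _⟩

theorem th_mono {d : ℝ} (hd : 0 < d) : Monotone (th d) := fun _ _ h =>
  Real.smoothTransition.monotone (by gcongr)

theorem th_deriv_nonneg {d : ℝ} (hd : 0 < d) (s : ℝ) : 0 ≤ deriv (th d) s :=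
  (th_mono hd).deriv_nonneg

theorem th_deriv_zero {d s : ℝ} (hd : 0 < d) (hs : s ≤ 0 ∨ d ≤ s) : deriv (th d) s = 0 := by
  rcases hs with h | h
  · apply IsLocalMin.deriv_eq_zero
    refine Eventually.of_forall fun y => ?_
    rw [th_zero hd h]
    exact (th_mem d y).1
  · apply IsLocalMax.deriv_eq_zero
    refine Eventually.of_forall fun y => ?_
    rw [th_one hd h]
    exact (th_mem d y).2

theorem int_th_deriv {d t : ℝ} (hd : 0 < d) (hdt : d ≤ t) :
    ∫ s in (0:ℝ)..t, deriv (th d) s = 1 := by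
  have h1 : Differentiable ℝ (th d) := (th_smooth d).differentiable (by simp)
  have h2 : Continuous (deriv (th d)) := (th_smooth d).continuous_deriv (by simp)
  rw [intervalIntegral.integral_deriv_eq_sub (fun x _ => h1 x) (h2.intervalIntegrable _ _),
    th_one hd hdt, th_zero hd le_rfl, sub_zero]

end Crest.Agent.R106.Gs2
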