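/- Row 106, node GS2 (helper375): the sup estimate on the cone. -/
import Crest.Agent.R106.Gs2DivInt
import Crest.Agent.R106.Gs2Prof

set_option autoImplicit false
open MeasureTheory Set Filter Topology
open scoped ContDiff RealInnerProductSpace
open Crest.AnalysisR.VecCalc3 Crest.AnalysisR.PDE.RVM

namespace Crest.Agent.R106.Gs2

theorem thr_smooth (d t : ℝ) : ContDiff ℝ 1 (fun r => th d (t - r)) :=
  ((th_smooth d).of_le (by simp)).comp (contDiff_const.sub contDiff_id)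

theorem thr_deriv (d t r : ℝ) : deriv (fun r => th d (t - r)) r = - deriv (th d) (t - r) := by
  rw [deriv_comp_const_sub]

theorem thr_zero {d t r : ℝ} (hd : 0 < d) (hr : t ≤ r) : th d (t - r) = 0 :=
  th_zero hd (by linarith)

theorem th_deriv_cont (d : ℝ) : Continuous (deriv (th d)) :=
  ((th_smooth d).of_le (by simp : (1 : WithTop ℕ∞) ≤ ∞)).continuous_deriv (by simp)

/-- weighted interval integrability -/
theorem ii_weight {t : ℝ} {N : ℝ → ℝ} (h : IntervalIntegrable N volume 0 t) (j : ℕ) :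
    IntervalIntegrable (fun s => (t - s) ^ j * N s) volume 0 t :=
  h.continuousOn_mul (by fun_prop)

/-- bound of the main terms -/
theorem main_term {k : ℕ} (hk : k ≤ 2) (P : ℝ) {κ : ZV → ℝ} (hκ : Hk k κ) :
    ∃ C : ℝ, 0 ≤ C ∧ ∀ (t : ℝ) (x : R3) (ϑ : ℝ → ℝ) (F : PS → ℝ) (N : ℝ → ℝ), 0 < t →
      (∀ r, t ≤ r → ϑ r = 0) → (∀ r, |ϑ r| ≤ 1) →
      (∀ (s : ℝ) (y v : R3), P < ‖v‖ → F (s, y, v) = 0) →
      (∀ s ∈ Icc 0 t, ∀ y v : R3, |F (s, y, v)| ≤ N s) →
      IntervalIntegrable N volume 0 t →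
      |∫ p, ϑ ‖p.1‖ * κ p * F (cone t x p)| ≤ C * ∫ s in (0:ℝ)..t, (t - s) ^ (2 - k) * N s := by
  obtain ⟨C, hC, hb⟩ := hκ.bound P
  refine ⟨cB P * C, mul_nonneg (cB_nonneg P) hC, ?_⟩
  intro t x ϑ F N ht h0 h1 hP hN hi
  refine cone_int_le hk ht.le (ii_weight hi _) ?_ ?_
  · rintro z v hz (h | h)
    · simp only [h0 _ h, zero_mul]
    · have : F (cone t x (z, v)) = 0 := hP _ _ _ h
      simp only [this, mul_zero]
  · intro z v hz hzt hv
    have hz' : 0 < ‖z‖ := norm_pos_iff.2 hz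
    have hF : |F (cone t x (z, v))| ≤ N (t - ‖z‖) :=
      hN _ ⟨by linarith, by linarith⟩ _ _
    rw [abs_mul, abs_mul]
    have hκb := hb z v hz hv
    calc |ϑ ‖z‖| * |κ (z, v)| * |F (cone t x (z, v))|
        ≤ 1 * (C * (‖z‖ ^ k)⁻¹) * N (t - ‖z‖) := by
          gcongr
          exact h1 _
      _ = C * (‖z‖ ^ k)⁻¹ * N (t - ‖z‖) := by ring

/-- bound of the terms with the derivative of the time cut-off -/
theorem radial_term {k : ℕ} (hk : k ≤ 2) (P : ℝ) {κ : ZV → ℝ} (hκ : Hk k κ) :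
    ∃ C : ℝ, 0 ≤ C ∧ ∀ (t d : ℝ) (x : R3) (χ : ℝ → ℝ) (F : PS → ℝ) (a0 : ℝ), 0 < t → 0 < d → d ≤ t →
      (∀ r, |χ r| ≤ 1) →
      (∀ (s : ℝ) (y v : R3), P < ‖v‖ → F (s, y, v) = 0) →
      (∀ s ∈ Icc 0 d, ∀ y v : R3, |F (s, y, v)| ≤ a0) →
      |∫ p, (deriv (th d) (t - ‖p.1‖) * χ ‖p.1‖) * κ p * F (cone t x p)|
        ≤ C * (t ^ (2 - k) * a0) := by
  obtain ⟨C, hC, hb⟩ := hκ.bound P
  refine ⟨cB P * C, mul_nonneg (cB_nonneg P) hC, ?_⟩
  intro t d x χ F a0 ht hd hdt hχ hP hF0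
  have ha0 : 0 ≤ a0 := (abs_nonneg _).trans (hF0 0 ⟨le_rfl, hd.le⟩ 0 0)
  have hcont : Continuous fun s => (t - s) ^ (2 - k) * (deriv (th d) s * a0) := by
    have := th_deriv_cont d
    fun_prop
  have h1 : |∫ p, (deriv (th d) (t - ‖p.1‖) * χ ‖p.1‖) * κ p * F (cone t x p)|
      ≤ cB P * C * ∫ s in (0:ℝ)..t, (t - s) ^ (2 - k) * (deriv (th d) s * a0) := by
    refine cone_int_le (M := fun s => deriv (th d) s * a0) hk ht.le
      (hcont.intervalIntegrable _ _) ?_ ?_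
    · rintro z v hz (h | h)
      · have : deriv (th d) (t - ‖z‖) = 0 := th_deriv_zero hd (Or.inl (by linarith))
        simp only [this, zero_mul]
      · have : F (cone t x (z, v)) = 0 := hP _ _ _ h
        simp only [this, mul_zero]
    · intro z v hz hzt hv
      have hz' : 0 < ‖z‖ := norm_pos_iff.2 hz
      have hκb := hb z v hz hv
      by_cases hs : d ≤ t - ‖z‖
      · have : deriv (th d) (t - ‖z‖) = 0 := th_deriv_zero hd (Or.inr hs)
        simp only [this, zero_mul, abs_zero, mul_zero, le_refl]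
      · rw [not_le] at hs
        have hF : |F (cone t x (z, v))| ≤ a0 := hF0 _ ⟨by linarith, hs.le⟩ _ _
        have hdn := th_deriv_nonneg hd (t - ‖z‖)
        rw [abs_mul, abs_mul, abs_mul, abs_of_nonneg hdn]
        calc deriv (th d) (t - ‖z‖) * |χ ‖z‖| * |κ (z, v)| * |F (cone t x (z, v))|
            ≤ deriv (th d) (t - ‖z‖) * 1 * (C * (‖z‖ ^ k)⁻¹) * a0 := by
              gcongr
              · exact hχ _
          _ = C * (‖z‖ ^ k)⁻¹ * (deriv (th d) (t - ‖z‖) * a0) := by ring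
  refine h1.trans ?_
  refine mul_le_mul_of_nonneg_left ?_ (mul_nonneg (cB_nonneg P) hC)
  have hc2 : Continuous fun s => t ^ (2 - k) * (deriv (th d) s * a0) := by
    have := th_deriv_cont d
    fun_prop
  calc ∫ s in (0:ℝ)..t, (t - s) ^ (2 - k) * (deriv (th d) s * a0)
      ≤ ∫ s in (0:ℝ)..t, t ^ (2 - k) * (deriv (th d) s * a0) := by
        refine intervalIntegral.integral_mono_on ht.le (hcont.intervalIntegrable _ _)
          (hc2.intervalIntegrable _ _) ?_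
        intro s hs
        have hdn := th_deriv_nonneg hd s
        refine mul_le_mul_of_nonneg_right ?_ (by positivity)
        exact pow_le_pow_left₀ (by linarith [hs.2]) (by linarith [hs.1]) _
    _ = t ^ (2 - k) * a0 := by
        rw [intervalIntegral.integral_const_mul, intervalIntegral.integral_mul_const,
          int_th_deriv hd hdt, one_mul]

/-- integrability of the terms -/
theorem integrable_hk {k : ℕ} (hk : k ≤ 2) {κ : ZV → ℝ} (hκ : Hk k κ) {ϑ : ℝ → ℝ}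
    (hϑ : Continuous ϑ) {R P t : ℝ} {x : R3} (h0 : ∀ r, R ≤ r → ϑ r = 0) {F : PS → ℝ}
    (hF : Continuous F) (hP : ∀ (s : ℝ) (y v : R3), P < ‖v‖ → F (s, y, v) = 0) :
    Integrable (fun p => ϑ ‖p.1‖ * κ p * F (cone t x p)) := by
  obtain ⟨C, hC, hb⟩ := hκ.bound P
  obtain ⟨C1, hC1⟩ := (isCompact_Icc (a := (0:ℝ)) (b := R)).exists_bound_of_continuousOn
    hϑ.continuousOn
  have hc : IsCompact (Metric.closedBall t R ×ˢ
      (Metric.closedBall x R ×ˢ Metric.closedBall (0 : R3) P)) :=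
    (isCompact_closedBall _ _).prod ((isCompact_closedBall _ _).prod (isCompact_closedBall _ _))
  obtain ⟨C2, hC2⟩ := hc.exists_bound_of_continuousOn hF.continuousOn
  refine integrable_of_bound (P := P) (φ := (Iic R).indicator fun r => (|C1| * C * |C2|) * (r ^ k)⁻¹)
    ?_ (integrableOn_profile hk _ R) ?_
  · exact ((hϑ.comp_continuousOn Hk.nrm_smooth.continuousOn).mul hκ.smooth.continuousOn).mul
      (hF.comp_continuousOn (cone_contOn t x))
  · intro z v hz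
    have hz' : 0 < ‖z‖ := norm_pos_iff.2 hz
    have hnn : 0 ≤ (Iic R).indicator (fun r => (|C1| * C * |C2|) * (r ^ k)⁻¹) ‖z‖ * indP P v := by
      refine mul_nonneg ?_ (indP_nonneg _ _)
      by_cases hR : ‖z‖ ≤ R
      · rw [indicator_of_mem (show ‖z‖ ∈ Iic R from hR)]; positivity
      · rw [indicator_of_notMem (show ‖z‖ ∉ Iic R from hR)]
    · by_cases hout1 : R < ‖z‖
      · simpa only [h0 _ hout1.le, zero_mul, abs_zero] using hnn
      by_cases hout2 : P < ‖v‖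
      · have : F (cone t x (z, v)) = 0 := hP _ _ _ hout2
        simpa only [this, mul_zero, abs_zero] using hnn
      rw [not_lt] at hout1 hout2
      rw [indP_of_le hout2, mul_one, indicator_of_mem (show ‖z‖ ∈ Iic R from hout1)]
      have hmem : cone t x (z, v) ∈ Metric.closedBall t R ×ˢ
          (Metric.closedBall x R ×ˢ Metric.closedBall (0 : R3) P) := by
        simp [cone, hout1, hout2]
      have b2 := hC2 _ hmem
      have b1 := hC1 ‖z‖ ⟨hz'.le, hout1⟩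
      rw [Real.norm_eq_abs] at b1 b2
      rw [abs_mul, abs_mul]
      calc |ϑ ‖z‖| * |κ (z, v)| * |F (cone t x (z, v))|
          ≤ |C1| * (C * (‖z‖ ^ k)⁻¹) * |C2| :=
            mul_le_mul (mul_le_mul (b1.trans (le_abs_self _)) (hb z v hz hout2) (abs_nonneg _)
              (abs_nonneg _)) (b2.trans (le_abs_self _)) (abs_nonneg _) (by positivity)
        _ = |C1| * C * |C2| * (‖z‖ ^ k)⁻¹ := by ring

theorem supK (P : ℝ) {κ : ZV → ℝ} (hκ : Hk 1 κ) (a : ℝ) (b : R3) : ∃ C : ℝ, 0 ≤ C ∧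
    ∀ (t d : ℝ) (x : R3) (g h : PS → ℝ) (G : Fin 3 → PS → ℝ) (a0 : ℝ) (N NG Nh : ℝ → ℝ),
      0 < t → 0 < d → d ≤ t →
      ContDiff ℝ 1 g → (∀ i, ContDiff ℝ 1 (G i)) → Continuous h →
      (∀ (s : ℝ) (y v : R3), P < ‖v‖ → g (s, y, v) = 0 ∧ (∀ i, G i (s, y, v) = 0) ∧ h (s, y, v) = 0) →
      (∀ s ∈ Icc 0 t, ∀ y v : R3, Tr g (s, y, v) = h (s, y, v) + divv G (s, y, v)) →
      (∀ s ∈ Icc 0 d, ∀ y v : R3, |g (s, y, v)| ≤ a0) →
      (∀ s ∈ Icc 0 t, ∀ y v : R3, |g (s, y, v)| ≤ N s) →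
      (∀ s ∈ Icc 0 t, ∀ i, ∀ y v : R3, |G i (s, y, v)| ≤ NG s) →
      (∀ s ∈ Icc 0 t, ∀ y v : R3, |h (s, y, v)| ≤ Nh s) →
      IntervalIntegrable N volume 0 t → IntervalIntegrable NG volume 0 t →
      IntervalIntegrable Nh volume 0 t →
      |∫ p, th d (t - ‖p.1‖) * κ p * dxt a b g (cone t x p)| ≤
        C * (t * a0 + (∫ s in (0:ℝ)..t, N s) + (∫ s in (0:ℝ)..t, (t - s) * (NG s + Nh s))) := by
  obtain ⟨C1, hC1, B1⟩ := main_term (by norm_num) P (hκ.mul0 (kA_Hk a b))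
  choose C2 hC2 B2 using fun i => main_term (by norm_num) P (kV_Hk hκ a b i)
  obtain ⟨C3, hC3, B3⟩ := main_term (by norm_num) P (kZ_Hk hκ a b)
  obtain ⟨C4, hC4, B4⟩ := radial_term (by norm_num) P (kR_Hk hκ a b)
  have hS2 : 0 ≤ ∑ i, C2 i := Finset.sum_nonneg fun i _ => hC2 i
  refine ⟨C1 + (∑ i, C2 i) + C3 + C4, by positivity, ?_⟩
  intro t d x g h G a0 N NG Nh ht hd hdt hg hG hh hP hT hg0 hgN hGN hhN iN iNG iNh
  have hr0 : ∀ r, t ≤ r → (fun r => th d (t - r)) r = 0 := fun r hr => thr_zero hd hr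
  have hKB : KB 1 (fun p : ZV => (fun r => th d (t - r)) ‖p.1‖ * κ p) := by
    simpa using (rad_KB (thr_smooth d t)).mul hκ.toKB
  have hmain := division_rad (t := t) (x := x) hκ (thr_smooth d t) hKB hr0 hg hG hh hP ?_ a b
    (integrable_hk (by norm_num) (kZ_Hk hκ a b) (thr_smooth d t).continuous hr0 hg.continuous
      fun s y v hv => (hP s y v hv).1)
  · have t1 := B1 t x (fun r => th d (t - r)) h Nh ht hr0
      (fun r => by rw [abs_of_nonneg (th_mem _ _).1]; exact (th_mem _ _).2)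
      (fun s y v hv => (hP s y v hv).2.2) hhN iNh
    have t2 := fun i => B2 i t x (fun r => th d (t - r)) (G i) NG ht hr0
      (fun r => by rw [abs_of_nonneg (th_mem _ _).1]; exact (th_mem _ _).2)
      (fun s y v hv => (hP s y v hv).2.1 i) (fun s hs => hGN s hs i) iNG
    have t3 := B3 t x (fun r => th d (t - r)) g N ht hr0
      (fun r => by rw [abs_of_nonneg (th_mem _ _).1]; exact (th_mem _ _).2)
      (fun s y v hv => (hP s y v hv).1) hgN iN
    have t4 := B4 t d x (fun _ => -1) g a0 ht hd hdt (fun r => by simp)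
      (fun s y v hv => (hP s y v hv).1) hg0
    have e4 : (∫ p, deriv (fun r => th d (t - r)) ‖p.1‖ * kR κ a b p * g (cone t x p))
        = ∫ p, (deriv (th d) (t - ‖p.1‖) * (fun _ => (-1:ℝ)) ‖p.1‖) * kR κ a b p *
          g (cone t x p) := by
      refine integral_congr_ae (Eventually.of_forall fun p => ?_)
      simp only [thr_deriv]; ring
    rw [e4] at hmain
    simp only at hmain
    rw [hmain]
    norm_num at t1 t2 t3
    rw [show 2 - 1 = 1 from rfl, pow_one] at t4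
    have hNG0 : ∀ s ∈ Icc 0 t, 0 ≤ NG s := fun s hs => (abs_nonneg _).trans (hGN s hs 0 0 0)
    have hNh0 : ∀ s ∈ Icc 0 t, 0 ≤ Nh s := fun s hs => (abs_nonneg _).trans (hhN s hs 0 0)
    have hN0 : ∀ s ∈ Icc 0 t, 0 ≤ N s := fun s hs => (abs_nonneg _).trans (hgN s hs 0 0)
    have ha0 : 0 ≤ a0 := (abs_nonneg _).trans (hg0 0 ⟨le_rfl, hd.le⟩ 0 0)
    have w1 : IntervalIntegrable (fun s => (t - s) * NG s) volume 0 t := by
      simpa using ii_weight iNG 1
    have w2 : IntervalIntegrable (fun s => (t - s) * Nh s) volume 0 t := by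
      simpa using ii_weight iNh 1
    have eS : (∫ s in (0:ℝ)..t, (t - s) * (NG s + Nh s))
        = (∫ s in (0:ℝ)..t, (t - s) * NG s) + ∫ s in (0:ℝ)..t, (t - s) * Nh s := by
      rw [← intervalIntegral.integral_add w1 w2]
      congr 1; ext s; ring
    have q1 : 0 ≤ ∫ s in (0:ℝ)..t, (t - s) * NG s :=
      intervalIntegral.integral_nonneg ht.le fun s hs =>
        mul_nonneg (by linarith [hs.2]) (hNG0 s hs)
    have q2 : 0 ≤ ∫ s in (0:ℝ)..t, (t - s) * Nh s :=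
      intervalIntegral.integral_nonneg ht.le fun s hs =>
        mul_nonneg (by linarith [hs.2]) (hNh0 s hs)
    have q3 : 0 ≤ ∫ s in (0:ℝ)..t, N s :=
      intervalIntegral.integral_nonneg ht.le fun s hs => hN0 s hs
    have q4 : 0 ≤ t * a0 := by positivity
    rw [eS]
    set I1 := ∫ s in (0:ℝ)..t, (t - s) * NG s
    set I2 := ∫ s in (0:ℝ)..t, (t - s) * Nh s
    set I3 := ∫ s in (0:ℝ)..t, N s
    have t2' : |∑ i, ∫ p, th d (t - ‖p.1‖) * kV κ a b i p * G i (cone t x p)|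
        ≤ (∑ i, C2 i) * I1 := by
      rw [Finset.sum_mul]
      exact (Finset.abs_sum_le_sum_abs _ _).trans (Finset.sum_le_sum fun i _ => t2 i)
    set A1 := ∫ p, th d (t - ‖p.1‖) * (κ p * kA a b p) * h (cone t x p)
    set A2 := ∑ i, ∫ p, th d (t - ‖p.1‖) * kV κ a b i p * G i (cone t x p)
    set A3 := ∫ p, th d (t - ‖p.1‖) * kZ κ a b p * g (cone t x p)
    set A4 := ∫ p, deriv (th d) (t - ‖p.1‖) * -1 * kR κ a b p * g (cone t x p)
    have tri : |A1 - A2 - A3 - A4| ≤ |A1| + |A2| + |A3| + |A4| := by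
      refine (abs_sub _ _).trans (add_le_add_left ?_ _)
      refine (abs_sub _ _).trans (add_le_add_left ?_ _)
      exact abs_sub _ _
    refine tri.trans ?_
    set S2 := ∑ i, C2 i
    nlinarith [mul_nonneg hC1 q1, mul_nonneg hC1 q3, mul_nonneg hC1 q4, mul_nonneg hS2 q2,
      mul_nonneg hS2 q3, mul_nonneg hS2 q4, mul_nonneg hC3 q1, mul_nonneg hC3 q2,
      mul_nonneg hC3 q4, mul_nonneg hC4 q1, mul_nonneg hC4 q2, mul_nonneg hC4 q3]
  · intro p hp hne
    have hp' : 0 < ‖p.1‖ := norm_pos_iff.2 hp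
    have hlt : ‖p.1‖ < t := by
      by_contra hcon
      exact hne (thr_zero hd (not_lt.1 hcon))
    exact hT (t - ‖p.1‖) ⟨by linarith, by linarith⟩ _ _

theorem coreSup : CoreSup := by
  intro P m hm a b
  have hk : Hk 1 (fun p : ZV => (m p.2 * (4 * Real.pi)⁻¹) * ‖p.1‖⁻¹) := by
    have := (((Hk.ofV hm).mul0 (Hk.const ((4 * Real.pi)⁻¹))).mul Hk.nrmInv)
    simpa using this
  obtain ⟨C, hC, hmain⟩ := supK P hk a b
  refine ⟨C, hC, ?_⟩
  intro t d x g h G a0 N NG Nh ht hd hdt hg hG hh hP hT hg0 hgN hGN hhN iN iNG iNh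
  have := hmain t d x g h G a0 N NG Nh ht hd hdt hg hG hh hP hT hg0 hgN hGN hhN iN iNG iNh
  unfold Wth
  have e : (∫ p : R3 × R3, th d (t - ‖p.1‖) * (m p.2 * (4 * Real.pi * ‖p.1‖)⁻¹) *
      dxt a b g (t - ‖p.1‖, x + p.1, p.2))
      = ∫ p : ZV, th d (t - ‖p.1‖) * (m p.2 * (4 * Real.pi)⁻¹ * ‖p.1‖⁻¹) *
        dxt a b g (cone t x p) := by
    refine integral_congr_ae (Eventually.of_forall fun p => ?_)
    simp only [cone, mul_inv]
    ring
  rw [e]
  exact this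

end Crest.Agent.R106.Gs2
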