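/- Row 106, node GS2 (helper374): from the core statements (global functions, smooth time cut-off)
to the frozen statements `SupEst`, `GradEst`. -/
import Crest.Agent.R106.Gs2Core
import Crest.Agent.R106.Gs2Int

set_option autoImplicit false
open MeasureTheory Set Filter Topology
open scoped ContDiff
open Crest.AnalysisR.VecCalc3 Crest.AnalysisR.PDE.RVM

namespace Crest.Agent.R106.Gs2

/-! ### the limit `d → 0` -/

theorem th_nonneg (d s : ℝ) : 0 ≤ th d s := Real.smoothTransition.nonneg _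
theorem th_le_one (d s : ℝ) : th d s ≤ 1 := Real.smoothTransition.le_one _
theorem th_of_nonpos {d s : ℝ} (hd : 0 < d) (hs : s ≤ 0) : th d s = 0 :=
  Real.smoothTransition.zero_of_nonpos (div_nonpos_of_nonpos_of_nonneg hs hd.le)
theorem th_of_le {d s : ℝ} (hd : 0 < d) (hs : d ≤ s) : th d s = 1 :=
  Real.smoothTransition.one_of_one_le ((one_le_div hd).2 hs)

theorem prof_nonneg {C t : ℝ} (hC : 0 ≤ C) (z : R3) :
    0 ≤ (Iic t).indicator (fun r => C * (r ^ 1)⁻¹) ‖z‖ := by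
  by_cases h : ‖z‖ ∈ Iic t
  · rw [indicator_of_mem h]; positivity
  · rw [indicator_of_notMem h]

/-- the limit integrand -/
noncomputable def limI (m : R3 → ℝ) (F : PS → ℝ) (t : ℝ) (x : R3) (p : ZV) : ℝ :=
  (Metric.ball (0 : R3) t).indicator (fun _ => (1 : ℝ)) p.1 *
    (m p.2 * (4 * Real.pi * ‖p.1‖)⁻¹) * F (t - ‖p.1‖, x + p.1, p.2)

section limit

variable {m : R3 → ℝ} {F : PS → ℝ} {t P : ℝ} {x : R3}

theorem exists_dom (hm : Continuous m) (hF : Continuous F)
    (hP : ∀ (s : ℝ) (y v : R3), P < ‖v‖ → F (s, y, v) = 0) :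
    ∃ C : ℝ, 0 ≤ C ∧ ∀ z v : R3, z ≠ 0 → ‖z‖ < t →
      |(m v * (4 * Real.pi * ‖z‖)⁻¹) * F (t - ‖z‖, x + z, v)|
        ≤ (Iic t).indicator (fun r => C * (r ^ 1)⁻¹) ‖z‖ * indP P v := by
  have hK : IsCompact (Metric.closedBall (0 : R3) t ×ˢ Metric.closedBall (0 : R3) P) :=
    (isCompact_closedBall _ _).prod (isCompact_closedBall _ _)
  have hc : Continuous (fun p : ZV => m p.2 * F (t - ‖p.1‖, x + p.1, p.2)) := by
    refine (hm.comp continuous_snd).mul (hF.comp ?_)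
    fun_prop
  obtain ⟨C, hC⟩ := hK.exists_bound_of_continuousOn hc.continuousOn
  refine ⟨max C 0 * (4 * Real.pi)⁻¹, by positivity, fun z v hz hzt => ?_⟩
  by_cases hv : ‖v‖ ≤ P
  · have hmem : ((z, v) : ZV) ∈ Metric.closedBall (0 : R3) t ×ˢ Metric.closedBall (0 : R3) P := by
      simp only [mem_prod, Metric.mem_closedBall, dist_zero_right]
      exact ⟨hzt.le, hv⟩
    have h1 := (hC _ hmem).trans (le_max_left C 0)
    rw [Real.norm_eq_abs] at h1
    have h2 : ‖z‖ ∈ Iic t := hzt.le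
    rw [indicator_of_mem h2, indP_of_le hv, mul_one]
    have h3 : |(m v * (4 * Real.pi * ‖z‖)⁻¹) * F (t - ‖z‖, x + z, v)|
        = |m v * F (t - ‖z‖, x + z, v)| * ((4 * Real.pi)⁻¹ * ‖z‖⁻¹) := by
      rw [show (m v * (4 * Real.pi * ‖z‖)⁻¹) * F (t - ‖z‖, x + z, v)
        = (m v * F (t - ‖z‖, x + z, v)) * ((4 * Real.pi)⁻¹ * ‖z‖⁻¹) by
          rw [mul_inv]; ring, abs_mul]
      congr 1
      exact abs_of_nonneg (by positivity)
    rw [h3, pow_one]
    calc |m v * F (t - ‖z‖, x + z, v)| * ((4 * Real.pi)⁻¹ * ‖z‖⁻¹)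
        ≤ max C 0 * ((4 * Real.pi)⁻¹ * ‖z‖⁻¹) := by
          refine mul_le_mul_of_nonneg_right h1 (by positivity)
      _ = _ := by ring
  · have hv : P < ‖v‖ := not_le.1 hv
    rw [hP _ _ _ hv, indP_of_lt hv, mul_zero, abs_zero, mul_zero]

theorem cont_base (hm : Continuous m) (hF : Continuous F) :
    ContinuousOn (fun p : ZV => (m p.2 * (4 * Real.pi * ‖p.1‖)⁻¹) * F (t - ‖p.1‖, x + p.1, p.2))
      SS := by
  have h1 : Continuous (fun p : ZV => F (t - ‖p.1‖, x + p.1, p.2)) := hF.comp (by fun_prop)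
  refine ContinuousOn.mul (ContinuousOn.mul (hm.comp continuous_snd).continuousOn ?_)
    h1.continuousOn
  refine ContinuousOn.inv₀ (by fun_prop) fun p hp => ?_
  have : 0 < ‖p.1‖ := norm_pos_iff.2 hp
  positivity

theorem aesm_limI (hm : Continuous m) (hF : Continuous F) :
    AEStronglyMeasurable (limI m F t x) volume := by
  have h1 : AEStronglyMeasurable
      (fun p : ZV => (m p.2 * (4 * Real.pi * ‖p.1‖)⁻¹) * F (t - ‖p.1‖, x + p.1, p.2)) volume :=
    aesm_of_SS (cont_base hm hF)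
  have h2 : AEStronglyMeasurable
      (fun p : ZV => (Metric.ball (0 : R3) t).indicator (fun _ => (1 : ℝ)) p.1) volume := by
    have : Measurable (fun p : ZV => (Metric.ball (0 : R3) t).indicator (fun _ => (1 : ℝ)) p.1) :=
      (measurable_const.indicator Metric.isOpen_ball.measurableSet).comp measurable_fst
    exact this.aestronglyMeasurable
  refine (h2.mul h1).congr (Eventually.of_forall fun p => ?_)
  simp only [limI, Pi.mul_apply]
  ring

theorem limI_bound (hm : Continuous m) (hF : Continuous F)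
    (hP : ∀ (s : ℝ) (y v : R3), P < ‖v‖ → F (s, y, v) = 0) :
    ∃ C : ℝ, 0 ≤ C ∧ ∀ z v : R3, z ≠ 0 →
      |limI m F t x (z, v)| ≤ (Iic t).indicator (fun r => C * (r ^ 1)⁻¹) ‖z‖ * indP P v := by
  obtain ⟨C, hC0, hC⟩ := exists_dom (m := m) (F := F) (t := t) (x := x) hm hF hP
  refine ⟨C, hC0, fun z v hz => ?_⟩
  unfold limI
  by_cases h : z ∈ Metric.ball (0 : R3) t
  · simp only [indicator_of_mem h, one_mul]
    exact hC z v hz (by simpa using h)
  · simp only [indicator_of_notMem h, zero_mul, abs_zero]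
    exact mul_nonneg (prof_nonneg hC0 _) (indP_nonneg _ _)

/-- the limit of the cut-off cone integrals -/
theorem tendsto_Wth (hm : Continuous m) (hF : Continuous F)
    (hP : ∀ (s : ℝ) (y v : R3), P < ‖v‖ → F (s, y, v) = 0) :
    Tendsto (fun d => Wth d m F t x) (𝓝[>] 0) (𝓝 (∫ p, limI m F t x p)) := by
  obtain ⟨C, hC0, hC⟩ := limI_bound (m := m) (F := F) (t := t) (x := x) hm hF hP
  have hI := integrable_dom P (integrableOn_profile (k := 1) (by norm_num) C t)
  refine tendsto_integral_filter_of_dominated_convergence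
    (fun p : ZV => (Iic t).indicator (fun r => C * (r ^ 1)⁻¹) ‖p.1‖ * indP P p.2) ?_ ?_ hI ?_
  · refine Eventually.of_forall fun d => ?_
    have h1 : AEStronglyMeasurable
        (fun p : ZV => (m p.2 * (4 * Real.pi * ‖p.1‖)⁻¹) * F (t - ‖p.1‖, x + p.1, p.2)) volume :=
      aesm_of_SS (cont_base hm hF)
    have h2 : Continuous (fun p : ZV => th d (t - ‖p.1‖)) := by
      unfold th
      exact Real.smoothTransition.continuous.comp (by fun_prop)
    refine (h2.aestronglyMeasurable.mul h1).congr (Eventually.of_forall fun p => ?_)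
    simp only [Pi.mul_apply]
    ring
  · filter_upwards [self_mem_nhdsWithin] with d hd
    filter_upwards [ae_SS] with p hp
    have hd' : (0 : ℝ) < d := hd
    rw [Real.norm_eq_abs]
    by_cases h : ‖p.1‖ < t
    · have h1 := hC p.1 p.2 hp
      have hb : p.1 ∈ Metric.ball (0 : R3) t := by simpa using h
      unfold limI at h1
      simp only [indicator_of_mem hb, one_mul] at h1
      refine le_trans ?_ h1
      rw [mul_assoc, abs_mul, abs_of_nonneg (th_nonneg _ _)]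
      exact mul_le_of_le_one_left (abs_nonneg _) (th_le_one _ _)
    · rw [th_of_nonpos hd' (by linarith [not_lt.1 h])]
      simp only [zero_mul, abs_zero]
      exact mul_nonneg (prof_nonneg hC0 _) (indP_nonneg _ _)
  · refine Eventually.of_forall fun p => ?_
    by_cases h : ‖p.1‖ < t
    · have hb : p.1 ∈ Metric.ball (0 : R3) t := by simpa using h
      have hev : (fun _ : ℝ => limI m F t x p) =ᶠ[𝓝[>] 0] fun d =>
          th d (t - ‖p.1‖) * (m p.2 * (4 * Real.pi * ‖p.1‖)⁻¹) * F (t - ‖p.1‖, x + p.1, p.2) := by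
        have h0 : (0 : ℝ) < t - ‖p.1‖ := by linarith
        filter_upwards [self_mem_nhdsWithin, mem_nhdsWithin_of_mem_nhds (Iio_mem_nhds h0)]
          with d hd hd2
        have hd' : (0 : ℝ) < d := hd
        have hd2' : d < t - ‖p.1‖ := hd2
        rw [th_of_le hd' hd2'.le]
        unfold limI
        simp only [indicator_of_mem hb]
      exact tendsto_const_nhds.congr' hev
    · have hb : p.1 ∉ Metric.ball (0 : R3) t := by simpa using h
      have h0 : limI m F t x p = 0 := by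
        unfold limI
        simp only [indicator_of_notMem hb, zero_mul]
      rw [h0]
      have hev : (fun _ : ℝ => (0 : ℝ)) =ᶠ[𝓝[>] 0] fun d =>
          th d (t - ‖p.1‖) * (m p.2 * (4 * Real.pi * ‖p.1‖)⁻¹) * F (t - ‖p.1‖, x + p.1, p.2) := by
        filter_upwards [self_mem_nhdsWithin] with d hd
        have hd' : (0 : ℝ) < d := hd
        rw [th_of_nonpos hd' (by linarith [not_lt.1 h])]
        simp
      exact tendsto_const_nhds.congr' hev

/-- the limit integral is the retarded potential of the moment -/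
theorem integral_limI (hm : Continuous m) (hF : Continuous F)
    (hP : ∀ (s : ℝ) (y v : R3), P < ‖v‖ → F (s, y, v) = 0) :
    ∫ p, limI m F t x p = Wv (mom m F) t x := by
  obtain ⟨C, hC0, hC⟩ := limI_bound (m := m) (F := F) (t := t) (x := x) hm hF hP
  have hI := integrable_dom P (integrableOn_profile (k := 1) (by norm_num) C t)
  have hint : Integrable (limI m F t x) (volume : Measure ZV) := by
    refine hI.mono' (aesm_limI hm hF) ?_
    filter_upwards [ae_SS] with p hp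
    exact hC p.1 p.2 hp
  rw [Measure.volume_eq_prod] at hint ⊢
  rw [integral_prod _ hint]
  unfold Wv
  rw [← integral_indicator Metric.isOpen_ball.measurableSet]
  refine integral_congr_ae (Eventually.of_forall fun z => ?_)
  simp only [limI]
  by_cases h : z ∈ Metric.ball (0 : R3) t
  · simp only [indicator_of_mem h, one_mul]
    unfold mom
    rw [div_eq_mul_inv, mul_comm (∫ v, _) _, ← integral_const_mul]
    refine integral_congr_ae (Eventually.of_forall fun v => ?_)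
    simp only
    ring
  · simp only [indicator_of_notMem h, zero_mul]
    simp

end limit

/-! ### localisation in time -/

section cutoff

variable {J : Set ℝ} {t : ℝ}

/-- a smooth cut-off in time which is `1` near `[0,t]` and supported in `J` -/
theorem exists_zeta (hJ : IsOpen J) (hJt : Icc 0 t ⊆ J) (ht : 0 < t) :
    ∃ ζ : ℝ → ℝ, ContDiff ℝ ∞ ζ ∧ (∀ s, s ∉ J → ζ =ᶠ[𝓝 s] fun _ => 0) ∧
      (∀ s ∈ Icc 0 t, ζ =ᶠ[𝓝 s] fun _ => 1) := by
  obtain ⟨δ, hδ, hδJ⟩ := isCompact_Icc.exists_thickening_subset_open hJ hJt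
  have hmem : ∀ s, -δ < s → s < t + δ → s ∈ J := by
    intro s h1 h2
    apply hδJ
    rw [Metric.mem_thickening_iff]
    by_cases hs0 : s < 0
    · exact ⟨0, ⟨le_refl _, ht.le⟩, by rw [Real.dist_eq, abs_lt]; constructor <;> linarith⟩
    · by_cases hst : t < s
      · exact ⟨t, ⟨ht.le, le_refl _⟩, by rw [Real.dist_eq, abs_lt]; constructor <;> linarith⟩
      · exact ⟨s, ⟨by linarith, by linarith⟩, by simpa using hδ⟩
  set η := δ / 4 with hη
  have hη0 : 0 < η := by positivity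
  refine ⟨fun s => Real.smoothTransition ((s + 2 * η) / η) *
    Real.smoothTransition ((t + 2 * η - s) / η), ?_, ?_, ?_⟩
  · refine ContDiff.mul ?_ ?_
    · exact Real.smoothTransition.contDiff.comp (by fun_prop)
    · exact Real.smoothTransition.contDiff.comp (by fun_prop)
  · intro s hs
    have h1 : s ≤ -δ ∨ t + δ ≤ s := by
      by_contra hcon
      rw [not_or, not_le, not_le] at hcon
      exact hs (hmem s hcon.1 hcon.2)
    rcases h1 with h1 | h1
    · filter_upwards [Iio_mem_nhds (show s < -2 * η by linarith)] with r hr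
      have hr' : r < -2 * η := hr
      rw [Real.smoothTransition.zero_of_nonpos, zero_mul]
      exact div_nonpos_of_nonpos_of_nonneg (by linarith) hη0.le
    · filter_upwards [Ioi_mem_nhds (show t + 2 * η < s by linarith)] with r hr
      have hr' : t + 2 * η < r := hr
      rw [Real.smoothTransition.zero_of_nonpos (x := (t + 2 * η - r) / η), mul_zero]
      exact div_nonpos_of_nonpos_of_nonneg (by linarith) hη0.le
  · intro s hs
    filter_upwards [Ioi_mem_nhds (show -η < s by linarith [hs.1]),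
      Iio_mem_nhds (show s < t + η by linarith [hs.2])] with r hr1 hr2
    have hr1' : -η < r := hr1
    have hr2' : r < t + η := hr2
    rw [Real.smoothTransition.one_of_one_le, Real.smoothTransition.one_of_one_le, one_mul]
    · rw [one_le_div hη0]; linarith
    · rw [one_le_div hη0]; linarith

/-- localised function -/
noncomputable def loc (ζ : ℝ → ℝ) (F : PS → ℝ) : PS → ℝ := fun p => ζ p.1 * F p

theorem loc_contDiff {ζ : ℝ → ℝ} {F : PS → ℝ} {n : ℕ∞} (hJ : IsOpen J) (hζ : ContDiff ℝ ∞ ζ)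
    (h0 : ∀ s, s ∉ J → ζ =ᶠ[𝓝 s] fun _ => 0) (hF : ContDiffOn ℝ n F (J ×ˢ univ)) :
    ContDiff ℝ n (loc ζ F) := by
  rw [contDiff_iff_contDiffAt]
  intro p
  by_cases hp : p.1 ∈ J
  · have h1 : ContDiffAt ℝ n F p :=
      hF.contDiffAt ((hJ.prod isOpen_univ).mem_nhds ⟨hp, mem_univ _⟩)
    have h2 : ContDiff ℝ n (fun p : PS => ζ p.1) :=
      (hζ.of_le (by exact_mod_cast le_top)).comp contDiff_fst
    exact h2.contDiffAt.mul h1
  · have h1 : (fun p : PS => ζ p.1) =ᶠ[𝓝 p] fun _ => 0 :=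
      (continuous_fst.tendsto p).eventually (h0 p.1 hp)
    have h2 : loc ζ F =ᶠ[𝓝 p] fun _ => 0 := by
      filter_upwards [h1] with q hq
      unfold loc
      rw [hq, zero_mul]
    exact contDiffAt_const.congr_of_eventuallyEq h2

theorem loc_continuous {ζ : ℝ → ℝ} {F : PS → ℝ} (hJ : IsOpen J) (hζ : ContDiff ℝ ∞ ζ)
    (h0 : ∀ s, s ∉ J → ζ =ᶠ[𝓝 s] fun _ => 0) (hF : ContinuousOn F (J ×ˢ univ)) :
    Continuous (loc ζ F) := by
  have := loc_contDiff (n := 0) hJ hζ h0 (by simpa using hF)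
  simpa using this

theorem loc_eq {ζ : ℝ → ℝ} {F : PS → ℝ} (h1 : ∀ s ∈ Icc 0 t, ζ =ᶠ[𝓝 s] fun _ => 1)
    {p : PS} (hp : p.1 ∈ Icc 0 t) : loc ζ F =ᶠ[𝓝 p] F := by
  have h2 : (fun p : PS => ζ p.1) =ᶠ[𝓝 p] fun _ => 1 :=
    (continuous_fst.tendsto p).eventually (h1 p.1 hp)
  filter_upwards [h2] with q hq
  unfold loc
  rw [hq, one_mul]

theorem loc_val {ζ : ℝ → ℝ} {F : PS → ℝ} (h1 : ∀ s ∈ Icc 0 t, ζ =ᶠ[𝓝 s] fun _ => 1)
    {p : PS} (hp : p.1 ∈ Icc 0 t) : loc ζ F p = F p := (loc_eq h1 hp).self_of_nhds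

theorem loc_zero {ζ : ℝ → ℝ} {F : PS → ℝ} {P : ℝ}
    (h0 : ∀ s, s ∉ J → ζ =ᶠ[𝓝 s] fun _ => 0)
    (hF : ∀ s ∈ J, ∀ y v : R3, P < ‖v‖ → F (s, y, v) = 0) (s : ℝ) (y v : R3) (hv : P < ‖v‖) :
    loc ζ F (s, y, v) = 0 := by
  unfold loc
  by_cases hs : s ∈ J
  · rw [hF s hs y v hv, mul_zero]
  · have : ζ s = 0 := (h0 s hs).self_of_nhds
    simp only [this, zero_mul]

theorem fderiv_loc {ζ : ℝ → ℝ} {F : PS → ℝ} (h1 : ∀ s ∈ Icc 0 t, ζ =ᶠ[𝓝 s] fun _ => 1)
    {p : PS} (hp : p.1 ∈ Icc 0 t) : fderiv ℝ (loc ζ F) p = fderiv ℝ F p :=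
  (loc_eq h1 hp).fderiv_eq

theorem dxt_loc_eq {ζ : ℝ → ℝ} {F : PS → ℝ} (h1 : ∀ s ∈ Icc 0 t, ζ =ᶠ[𝓝 s] fun _ => 1)
    {p : PS} (hp : p.1 ∈ Icc 0 t) (a : ℝ) (b : R3) : dxt a b (loc ζ F) =ᶠ[𝓝 p] dxt a b F := by
  have h2 := (loc_eq (F := F) h1 hp).eventuallyEq_nhds
  filter_upwards [h2] with q hq
  unfold dxt
  rw [hq.fderiv_eq]

/-- the retarded potential only sees times in `[0,t]` -/
theorem Wv_congr {m : R3 → ℝ} {F G : PS → ℝ} {x : R3}
    (h : ∀ s ∈ Icc 0 t, ∀ y v : R3, F (s, y, v) = G (s, y, v)) :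
    Wv (mom m F) t x = Wv (mom m G) t x := by
  unfold Wv
  refine setIntegral_congr_fun Metric.isOpen_ball.measurableSet fun z hz => ?_
  have hz' : ‖z‖ < t := by simpa using hz
  have : mom m F (t - ‖z‖) (x + z) = mom m G (t - ‖z‖) (x + z) := by
    unfold mom
    refine integral_congr_ae (Eventually.of_forall fun v => ?_)
    simp only
    rw [h _ ⟨by linarith, by linarith [norm_nonneg z]⟩]
  simp only [this]

end cutoff

theorem dxt_contDiff {n : ℕ} {F : PS → ℝ} (hF : ContDiff ℝ (n + 1) F) (a : ℝ) (b : R3) :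
    ContDiff ℝ n (dxt a b F) := by
  unfold dxt
  exact (hF.fderiv_right (le_refl _)).clm_apply contDiff_const

theorem dxt_zero_of {P : ℝ} {F : PS → ℝ} (hF : ∀ (s : ℝ) (y v : R3), P < ‖v‖ → F (s, y, v) = 0)
    (a : ℝ) (b : R3) (s : ℝ) (y v : R3) (hv : P < ‖v‖) : dxt a b F (s, y, v) = 0 := by
  unfold dxt
  have : F =ᶠ[𝓝 (s, y, v)] fun _ => 0 := by
    have hc : Continuous (fun q : PS => ‖q.2.2‖) := by fun_prop
    filter_upwards [hc.continuousAt.eventually (Ioi_mem_nhds hv)] with q hq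
    exact hF q.1 q.2.1 q.2.2 hq
  rw [this.fderiv_eq]
  simp

/-- passage to the limit in the bounds of the cut-off integrals -/
theorem bound_of_Wth {m : R3 → ℝ} {F : PS → ℝ} {t P : ℝ} {x : R3} (hm : Continuous m)
    (hF : Continuous F) (hP : ∀ (s : ℝ) (y v : R3), P < ‖v‖ → F (s, y, v) = 0) {δ K : ℝ}
    (hδ : 0 < δ) (h : ∀ d, 0 < d → d ≤ δ → |Wth d m F t x| ≤ K) :
    |Wv (mom m F) t x| ≤ K := by
  have h1 := (tendsto_Wth (m := m) (F := F) (t := t) (x := x) hm hF hP).abs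
  rw [integral_limI hm hF hP] at h1
  refine le_of_tendsto h1 ?_
  filter_upwards [self_mem_nhdsWithin, mem_nhdsWithin_of_mem_nhds (Iio_mem_nhds hδ)] with d hd hd2
  exact h d hd (le_of_lt hd2)

theorem supEst_of_core (h : CoreSup) : SupEst := by
  intro P m hm a b
  obtain ⟨C, hC0, hC⟩ := h P m hm a b
  refine ⟨C, hC0, ?_⟩
  intro J t δ x g h G a0 N NG Nh hJ hJt ht hδ hg hG hh hsupp heq ha0 hN hNG hNh iN iNG iNh
  obtain ⟨ζ, hζ, hζ0, hζ1⟩ := exists_zeta hJ hJt ht
  have hgl : ContDiff ℝ 1 (loc ζ g) := loc_contDiff (n := 1) hJ hζ hζ0 hg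
  have hGl : ∀ i, ContDiff ℝ 1 (loc ζ (G i)) := fun i => loc_contDiff (n := 1) hJ hζ hζ0 (hG i)
  have hhl : Continuous (loc ζ h) := loc_continuous hJ hζ hζ0 hh
  have hzg : ∀ (s : ℝ) (y v : R3), P < ‖v‖ → loc ζ g (s, y, v) = 0 :=
    loc_zero hζ0 fun s hs y v hv => (hsupp s hs y v hv).1
  have e0 : Wv (mom m (dxt a b g)) t x = Wv (mom m (dxt a b (loc ζ g))) t x := by
    refine Wv_congr fun s hs y v => ?_
    exact ((dxt_loc_eq (F := g) hζ1 (p := (s, y, v)) hs a b).self_of_nhds).symm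
  rw [e0]
  refine bound_of_Wth (P := P) hm.continuous ((dxt_contDiff (n := 0) (by simpa using hgl) a b).continuous)
    (dxt_zero_of hzg a b) (lt_min ht hδ) fun d hd hd2 => ?_
  refine hC t d x (loc ζ g) (loc ζ h) (fun i => loc ζ (G i)) a0 N NG Nh ht hd
    (hd2.trans (min_le_left _ _)) hgl hGl hhl ?_ ?_ ?_ ?_ ?_ ?_ iN iNG iNh
  · intro s y v hv
    exact ⟨hzg s y v hv, fun i => loc_zero hζ0 (fun s hs y v hv => (hsupp s hs y v hv).2.1 i) s y v hv,
      loc_zero hζ0 (fun s hs y v hv => (hsupp s hs y v hv).2.2) s y v hv⟩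
  · intro s hs y v
    have := heq s hs y v
    unfold Tr divv at this ⊢
    rw [fderiv_loc hζ1 (p := (s, y, v)) hs, loc_val hζ1 (p := (s, y, v)) hs, this]
    congr 1
    refine Finset.sum_congr rfl fun i _ => ?_
    rw [fderiv_loc hζ1 (p := (s, y, v)) hs]
  · intro s hs y v
    have hs' : s ∈ Icc 0 (min t δ) := ⟨hs.1, hs.2.trans hd2⟩
    have hst : s ∈ Icc 0 t := ⟨hs.1, hs'.2.trans (min_le_left _ _)⟩
    rw [loc_val hζ1 (p := (s, y, v)) hst]
    exact ha0 s hs' y v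
  · intro s hs y v
    rw [loc_val hζ1 (p := (s, y, v)) hs]
    exact hN s hs y v
  · intro s hs i y v
    rw [loc_val hζ1 (p := (s, y, v)) hs]
    exact hNG s hs i y v
  · intro s hs y v
    rw [loc_val hζ1 (p := (s, y, v)) hs]
    exact hNh s hs y v

theorem gradEst_of_core (h : CoreGrad) : GradEst := by
  intro P m hm a b e
  obtain ⟨C, hC0, hC⟩ := h P m hm a b e
  refine ⟨C, hC0, ?_⟩
  intro J t δ ε x g G H K a0 a1 b0 n0 n1 NG NH hJ hJt ht hδ hε hεt hg hG hH hK hsupp heq heqG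
    ha0 hn hNG hNH iNG iNH
  obtain ⟨ζ, hζ, hζ0, hζ1⟩ := exists_zeta hJ hJt ht
  have hgl : ContDiff ℝ 2 (loc ζ g) := loc_contDiff (n := 2) hJ hζ hζ0 hg
  have hGl : ∀ i, ContDiff ℝ 2 (loc ζ (G i)) := fun i => loc_contDiff (n := 2) hJ hζ hζ0 (hG i)
  have hHl : ∀ i, Continuous (loc ζ (H i)) := fun i => loc_continuous hJ hζ hζ0 (hH i)
  have hKl : ∀ i j, ContDiff ℝ 1 (loc ζ (K i j)) := fun i j =>
    loc_contDiff (n := 1) hJ hζ hζ0 (hK i j)
  have hzg : ∀ (s : ℝ) (y v : R3), P < ‖v‖ → loc ζ g (s, y, v) = 0 :=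
    loc_zero hζ0 fun s hs y v hv => (hsupp s hs y v hv).1
  have hd1 : ContDiff ℝ 1 (dxt 0 e (loc ζ g)) :=
    dxt_contDiff (n := 1) (by simpa using (by exact_mod_cast hgl : ContDiff ℝ (1 + 1) (loc ζ g))) 0 e
  have e0 : Wv (mom m (dxt a b (dxt 0 e g))) t x = Wv (mom m (dxt a b (dxt 0 e (loc ζ g)))) t x := by
    refine Wv_congr fun s hs y v => ?_
    have h1 := dxt_loc_eq (F := g) hζ1 (p := (s, y, v)) hs 0 e
    unfold dxt at h1 ⊢
    rw [h1.fderiv_eq]
  rw [e0]
  refine bound_of_Wth (P := P) hm.continuous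
    ((dxt_contDiff (n := 0) (by simpa using hd1) a b).continuous)
    (dxt_zero_of (dxt_zero_of hzg 0 e) a b) (lt_min ht hδ) fun d hd hd2 => ?_
  have hdx : ∀ s ∈ Icc 0 t, ∀ y v : R3, dxt 0 e (loc ζ g) (s, y, v) = dxt 0 e g (s, y, v) :=
    fun s hs y v => (dxt_loc_eq (F := g) hζ1 (p := (s, y, v)) hs 0 e).self_of_nhds
  refine hC t d ε x (loc ζ g) (fun i => loc ζ (G i)) (fun i => loc ζ (H i))
    (fun i j => loc ζ (K i j)) a0 a1 b0 n0 n1 NG NH ht hd
    (hd2.trans (min_le_left _ _)) hε hεt hgl hGl hHl hKl ?_ ?_ ?_ ?_ ?_ ?_ ?_ iNG iNH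
  · intro s y v hv
    refine ⟨hzg s y v hv, fun i => ⟨?_, ?_, fun j => ?_⟩⟩
    · exact loc_zero hζ0 (fun s hs y v hv => ((hsupp s hs y v hv).2 i).1) s y v hv
    · exact loc_zero hζ0 (fun s hs y v hv => ((hsupp s hs y v hv).2 i).2.1) s y v hv
    · exact loc_zero hζ0 (fun s hs y v hv => ((hsupp s hs y v hv).2 i).2.2 j) s y v hv
  · intro s hs y v
    have := heq s (hJt hs) y v
    unfold Tr divv at this ⊢
    rw [fderiv_loc hζ1 (p := (s, y, v)) hs, this]
    refine Finset.sum_congr rfl fun i _ => ?_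
    rw [fderiv_loc hζ1 (p := (s, y, v)) hs]
  · intro s hs i y v
    have := heqG s (hJt hs) i y v
    unfold Tr divv at this ⊢
    rw [fderiv_loc hζ1 (p := (s, y, v)) hs, loc_val hζ1 (p := (s, y, v)) hs, this]
    congr 1
    refine Finset.sum_congr rfl fun j _ => ?_
    rw [fderiv_loc hζ1 (p := (s, y, v)) hs]
  · intro s hs y v
    have hs' : s ∈ Icc 0 (min t δ) := ⟨hs.1, hs.2.trans hd2⟩
    have hst : s ∈ Icc 0 t := ⟨hs.1, hs'.2.trans (min_le_left _ _)⟩
    have h1 := ha0 s hs' y v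
    refine ⟨?_, ?_, fun i => ?_⟩
    · rw [loc_val hζ1 (p := (s, y, v)) hst]; exact h1.1
    · rw [hdx s hst y v]; exact h1.2.1
    · rw [loc_val hζ1 (p := (s, y, v)) hst]; exact h1.2.2 i
  · intro s hs y v
    have h1 := hn s hs y v
    refine ⟨?_, ?_⟩
    · rw [loc_val hζ1 (p := (s, y, v)) hs]; exact h1.1
    · rw [hdx s hs y v]; exact h1.2
  · intro s hs i y v
    rw [loc_val hζ1 (p := (s, y, v)) hs]
    exact hNG s hs i y v
  · intro s hs i y v
    have h1 := hNH s hs i y v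
    refine ⟨?_, fun j => ?_⟩
    · rw [loc_val hζ1 (p := (s, y, v)) hs]; exact h1.1
    · rw [loc_val hζ1 (p := (s, y, v)) hs]; exact h1.2 j

end Crest.Agent.R106.Gs2
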