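/- Row 106, node GS2 (helper899 for helper375): the logarithmic gradient estimate. -/
import Crest.Agent.R106.Gs2Aux
import Crest.Agent.R106.Gs2Sup
import Crest.Agent.R106.Gs2Wrap

set_option autoImplicit false
open MeasureTheory Set Filter Topology
open scoped ContDiff RealInnerProductSpace
open Crest.AnalysisR.VecCalc3 Crest.AnalysisR.PDE.RVM

namespace Crest.Agent.R106.Gs2

namespace Grad

/-- base kernel `m(v) / (4 π |z|)` -/
theorem k0_Hk {m : R3 → ℝ} (hm : ContDiff ℝ ∞ m) :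
    Hk 1 (fun p : ZV => m p.2 * (4 * Real.pi * ‖p.1‖)⁻¹) := by
  have h := Hk.nrmInv.mul0 ((Hk.ofV hm).mul0 (Hk.const (4 * Real.pi)⁻¹))
  have e : (fun p : ZV => m p.2 * (4 * Real.pi * ‖p.1‖)⁻¹)
      = fun p : ZV => ‖p.1‖⁻¹ * (m p.2 * (4 * Real.pi)⁻¹) := by
    funext p; rw [mul_inv]; ring
  rw [e]; exact h

theorem thr_contDiff (d t : ℝ) : ContDiff ℝ 1 (fun r : ℝ => th d (t - r)) :=
  ((th_smooth d).of_le (by simp)).comp (contDiff_const.sub contDiff_id)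

theorem deriv_thr (d t r : ℝ) : deriv (fun r : ℝ => th d (t - r)) r = - deriv (th d) (t - r) := by
  have h1 : HasDerivAt (th d) (deriv (th d) (t - r)) (t - r) :=
    ((th_smooth d).differentiable (by simp) _).hasDerivAt
  have h2 : HasDerivAt (fun r : ℝ => t - r) (-1) r := by
    simpa using (hasDerivAt_id r).const_sub t
  have h3 := h1.comp r h2
  rw [show (fun r : ℝ => th d (t - r)) = th d ∘ (fun r => t - r) from rfl, h3.deriv]
  ring

/-- the radial term produced by the time cut-off (with a bounded factor `ψ`) -/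
theorem radial {k : ℕ} (hk : k ≤ 2) {κ : ZV → ℝ} {P C : ℝ} (hC : 0 ≤ C)
    (hb : ∀ z v : R3, z ≠ 0 → ‖v‖ ≤ P → |κ (z, v)| ≤ C * (‖z‖ ^ k)⁻¹)
    {t d a0 : ℝ} {x : R3} (ht : 0 < t) (hd : 0 < d) (hdt : d ≤ t) {ψ : ℝ → ℝ}
    (hψ : ∀ r, |ψ r| ≤ 1) {F : PS → ℝ}
    (hP : ∀ (s : ℝ) (y v : R3), P < ‖v‖ → F (s, y, v) = 0)
    (ha : ∀ s ∈ Icc 0 d, ∀ y v : R3, |F (s, y, v)| ≤ a0) :
    |∫ p : ZV, (deriv (th d) (t - ‖p.1‖) * ψ ‖p.1‖) * κ p * F (cone t x p)|
      ≤ cB P * C * (t ^ (2 - k) * a0) := by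
  have ha0 : 0 ≤ a0 := (abs_nonneg _).trans (ha 0 ⟨le_rfl, hd.le⟩ 0 0)
  have hcont : Continuous (deriv (th d)) := (th_smooth d).continuous_deriv (by simp)
  have hM : IntervalIntegrable (fun s => (t - s) ^ (2 - k) * (deriv (th d) s * a0)) volume 0 t :=
    Continuous.intervalIntegrable (by fun_prop) _ _
  refine (cone_int_le hk ht.le hM (P := P) (C := C) ?_ ?_).trans ?_
  · rintro z v hz (h | h)
    · simp only [th_deriv_zero hd (Or.inl (by linarith : t - ‖z‖ ≤ 0)), zero_mul]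
    · have : F (cone t x (z, v)) = 0 := hP _ _ _ h
      simp only [this, mul_zero]
  · intro z v hz hzt hv
    have hz' : 0 < ‖z‖ := norm_pos_iff.2 hz
    by_cases hin : d < t - ‖z‖
    · simp only [th_deriv_zero hd (Or.inr hin.le)]; simp
    · have hF : |F (cone t x (z, v))| ≤ a0 := ha _ ⟨by linarith, not_lt.1 hin⟩ _ _
      have h1 := th_deriv_nonneg hd (t - ‖z‖)
      have h2 := hb z v hz hv
      rw [abs_mul, abs_mul, abs_mul, abs_of_nonneg h1]
      calc deriv (th d) (t - ‖z‖) * |ψ ‖z‖| * |κ (z, v)| * |F (cone t x (z, v))|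
          ≤ deriv (th d) (t - ‖z‖) * 1 * (C * (‖z‖ ^ k)⁻¹) * a0 := by
            gcongr
            exact hψ _
        _ = _ := by ring
  · refine mul_le_mul_of_nonneg_left ?_ (mul_nonneg (cB_nonneg P) hC)
    have e : ∫ s in (0:ℝ)..t, (t - s) ^ (2 - k) * (deriv (th d) s * a0)
        ≤ ∫ s in (0:ℝ)..t, t ^ (2 - k) * a0 * deriv (th d) s := by
      refine intervalIntegral.integral_mono_on ht.le hM
        (Continuous.intervalIntegrable (by fun_prop) _ _) ?_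
      intro s hs
      have h1 := th_deriv_nonneg hd s
      have h2 : (t - s) ^ (2 - k) ≤ t ^ (2 - k) :=
        pow_le_pow_left₀ (by linarith [hs.2]) (by linarith [hs.1]) _
      calc (t - s) ^ (2 - k) * (deriv (th d) s * a0) ≤ t ^ (2 - k) * (deriv (th d) s * a0) := by
            gcongr
        _ = _ := by ring
    refine e.trans ?_
    rw [intervalIntegral.integral_const_mul, int_th_deriv hd hdt, mul_one]

/-- the `|z|^{-2}`-kernel part, with a cut-off at `|z| ~ ε` -/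
theorem hk2 (P : ℝ) {κ : ZV → ℝ} (hκ : Hk 2 κ) (e : R3) : ∃ C : ℝ, 0 ≤ C ∧
    ∀ (t d ε : ℝ) (x : R3) (g : PS → ℝ) (G : Fin 3 → PS → ℝ) (a0 n0 n1 : ℝ) (NG : ℝ → ℝ),
      0 < t → 0 < d → d ≤ t → 0 < ε → ε ≤ t →
      ContDiff ℝ 2 g → (∀ i, ContDiff ℝ 1 (G i)) →
      (∀ (s : ℝ) (y v : R3), P < ‖v‖ → g (s, y, v) = 0 ∧ ∀ i, G i (s, y, v) = 0) →
      (∀ s ∈ Icc 0 t, ∀ y v : R3, Tr g (s, y, v) = divv G (s, y, v)) →
      (∀ s ∈ Icc 0 d, ∀ y v : R3, |g (s, y, v)| ≤ a0) →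
      (∀ s ∈ Icc 0 t, ∀ y v : R3, |g (s, y, v)| ≤ n0 ∧ |dxt 0 e g (s, y, v)| ≤ n1) →
      (∀ s ∈ Icc 0 t, ∀ i, ∀ y v : R3, |G i (s, y, v)| ≤ NG s) →
      IntervalIntegrable NG volume 0 t →
      |∫ p, th d (t - ‖p.1‖) * κ p * dxt 0 e g (cone t x p)| ≤
        C * (a0 + n0 * (1 + Real.log (t / ε)) + ε * n1 + (∫ s in (0:ℝ)..t, NG s)) := by
  obtain ⟨M, hM0, hM'⟩ := ch_deriv_le
  have hM : ∀ ε r : ℝ, 0 < ε → |deriv (ch ε) r| ≤ M / ε ∧
      (r < ε / 2 ∨ ε < r → deriv (ch ε) r = 0) := fun ε r hε =>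
    ⟨hM' ε hε r, fun h => ch_deriv_zero hε (h.imp le_of_lt le_of_lt)⟩
  have hV := fun i : Fin 3 => kV_Hk hκ 0 e i
  have hZ : Hk 3 (kZ κ 0 e) := kZ_Hk hκ 0 e
  have hR : Hk 2 (kR κ 0 e) := kR_Hk hκ 0 e
  obtain ⟨C1, hC1, b1⟩ := hκ.bound P
  choose C2 hC2 b2 using fun i : Fin 3 => (hV i).bound P
  obtain ⟨C3, hC3, b3⟩ := hZ.bound P
  obtain ⟨C4, hC4, b4⟩ := hR.bound P
  have hcB := cB_nonneg P
  have hl2 : 0 ≤ Real.log 2 := Real.log_nonneg (by norm_num)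
  have hl2' : Real.log 2 ≤ 1 := by
    have := Real.log_two_lt_d9; linarith
  have hs2 : 0 ≤ ∑ i, C2 i := Finset.sum_nonneg fun i _ => hC2 i
  refine ⟨cB P * (C1 + (∑ i, C2 i) + C3 + C4 + M * C4), by positivity, ?_⟩
  intro t d ε x g G a0 n0 n1 NG ht hd hdt hε hεt hg hG hP hT ha hn hNG hNGi
  have ht0 : (0:ℝ) ∈ Icc 0 t := ⟨le_rfl, ht.le⟩
  have hn0 : 0 ≤ n0 := (abs_nonneg _).trans (hn 0 ht0 0 0).1
  have hn1 : 0 ≤ n1 := (abs_nonneg _).trans (hn 0 ht0 0 0).2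
  have ha0 : 0 ≤ a0 := (abs_nonneg _).trans (ha 0 ⟨le_rfl, hd.le⟩ 0 0)
  have hg1 : ContDiff ℝ 1 g := hg.of_le (by norm_num)
  have hge : ContDiff ℝ 1 (dxt 0 e g) := dxt_contDiff (n := 1) (by exact_mod_cast hg) 0 e
  have hPe : ∀ (s : ℝ) (y v : R3), P < ‖v‖ → dxt 0 e g (s, y, v) = 0 :=
    dxt_zero_of (fun s y v hv => (hP s y v hv).1) 0 e
  -- the cut-offs
  set ϑ : ℝ → ℝ := fun r => th d (t - r) with hϑ
  have hϑc : ContDiff ℝ 1 ϑ := thr_contDiff d t
  have hϑ0 : ∀ r, t ≤ r → ϑ r = 0 := fun r hr => th_zero hd (by linarith)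
  have hϑm : ∀ r, 0 ≤ ϑ r ∧ ϑ r ≤ 1 := fun r => th_mem d _
  set Θ : ℝ → ℝ := fun r => ϑ r * ch ε r with hΘ
  have hchc : ContDiff ℝ 1 (ch ε) := (ch_smooth ε).of_le (by simp)
  have hΘc : ContDiff ℝ 1 Θ := hϑc.mul hchc
  have hΘ0 : ∀ r, t ≤ r → Θ r = 0 := fun r hr => by simp [hΘ, hϑ0 r hr]
  have hΘm : ∀ r, |Θ r| ≤ 1 := fun r => by
    have h1 := hϑm r
    have h2 := ch_mem ε r
    rw [abs_le]; constructor
    · have : 0 ≤ Θ r := mul_nonneg h1.1 h2.1
      linarith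
    · exact mul_le_one₀ h1.2 h2.1 h2.2
  have hΘn : ∀ r, r ≤ ε / 2 → Θ r = 0 := fun r hr => by simp [hΘ, ch_zero hε hr]
  -- splitting
  have iA : Integrable (fun p : ZV => (ϑ ‖p.1‖ * (1 - ch ε ‖p.1‖)) * κ p * dxt 0 e g (cone t x p)) := by
    refine integrable_RI (ϑ := fun r => ϑ r * (1 - ch ε r)) (R := t) (P := P) (C := C1)
      hκ.smooth.continuousOn (hϑc.continuous.mul (continuous_const.sub hchc.continuous))
      hge.continuous hC1 (fun r hr => by simp [hϑ0 r hr.le]) hPe ?_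
    intro z v hz _ hv
    have h1 := hϑm ‖z‖
    have h2 := ch_mem ε ‖z‖
    rw [abs_mul]
    calc |ϑ ‖z‖ * (1 - ch ε ‖z‖)| * |κ (z, v)| ≤ 1 * (C1 * (‖z‖ ^ 2)⁻¹) := by
          gcongr
          · rw [abs_of_nonneg (mul_nonneg h1.1 (by linarith))]
            exact mul_le_one₀ h1.2 (by linarith) (by linarith)
          · exact b1 z v hz hv
      _ = _ := one_mul _
  have iB : Integrable (fun p : ZV => Θ ‖p.1‖ * κ p * dxt 0 e g (cone t x p)) := by
    refine integrable_RI (ϑ := Θ) (R := t) (P := P) (C := C1)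
      hκ.smooth.continuousOn hΘc.continuous
      hge.continuous hC1 (fun r hr => hΘ0 r hr.le) hPe ?_
    intro z v hz _ hv
    rw [abs_mul]
    calc |Θ ‖z‖| * |κ (z, v)| ≤ 1 * (C1 * (‖z‖ ^ 2)⁻¹) := by
          gcongr
          · exact hΘm _
          · exact b1 z v hz hv
      _ = _ := one_mul _
  have split : ∫ p : ZV, th d (t - ‖p.1‖) * κ p * dxt 0 e g (cone t x p)
      = (∫ p : ZV, (ϑ ‖p.1‖ * (1 - ch ε ‖p.1‖)) * κ p * dxt 0 e g (cone t x p))
        + ∫ p : ZV, Θ ‖p.1‖ * κ p * dxt 0 e g (cone t x p) := by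
    rw [← integral_add iA iB]
    refine integral_congr_ae (Eventually.of_forall fun p => ?_)
    simp only [hΘ, hϑ]; ring
  -- near part
  have near : |∫ p : ZV, (ϑ ‖p.1‖ * (1 - ch ε ‖p.1‖)) * κ p * dxt 0 e g (cone t x p)|
      ≤ cB P * (C1 * n1) * ε := by
    refine near_int_le (by positivity) hε ?_ ?_
    · rintro z v hz (h | h)
      · simp only [ch_one hε h.le]; ring
      · have : dxt 0 e g (cone t x (z, v)) = 0 := hPe _ _ _ h
        simp only [this, mul_zero]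
    · intro z v hz hv
      have h1 := hϑm ‖z‖
      have h2 := ch_mem ε ‖z‖
      by_cases hzt : t ≤ ‖z‖
      · simp only [hϑ0 _ hzt, zero_mul, abs_zero]; positivity
      · have hF : |dxt 0 e g (cone t x (z, v))| ≤ n1 :=
          (hn (t - ‖z‖) ⟨by linarith, by linarith [norm_nonneg z]⟩ (x + z) v).2
        rw [abs_mul, abs_mul]
        calc |ϑ ‖z‖ * (1 - ch ε ‖z‖)| * |κ (z, v)| * |dxt 0 e g (cone t x (z, v))|
            ≤ 1 * (C1 * (‖z‖ ^ 2)⁻¹) * n1 := by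
              gcongr
              · rw [abs_of_nonneg (mul_nonneg h1.1 (by linarith))]
                exact mul_le_one₀ h1.2 (by linarith) (by linarith)
              · exact b1 z v hz hv
          _ = _ := by ring
  -- far part
  have hKB : KB 1 (fun p : ZV => Θ ‖p.1‖ * κ p) := by
    have h2 : KB (1 + 1) (fun p : ZV => Θ ‖p.1‖ * κ p) := by
      have := (rad_KB hΘc).mul hκ.toKB
      simpa using this
    refine h2.lower (r0 := ε / 2) (by positivity) ?_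
    intro z v hz hlt
    rw [hΘn _ hlt.le, zero_mul]
  have iZ : Integrable (fun p : ZV => Θ ‖p.1‖ * kZ κ 0 e p * g (cone t x p)) := by
    refine integrable_RI (ϑ := Θ) (R := t) (P := P) (C := C3 * (2 / ε))
      hZ.smooth.continuousOn hΘc.continuous
      hg.continuous (by positivity) (fun r hr => hΘ0 r hr.le) (fun s y v hv => (hP s y v hv).1) ?_
    intro z v hz _ hv
    have hz' : 0 < ‖z‖ := norm_pos_iff.2 hz
    by_cases hnear : ‖z‖ ≤ ε / 2
    · rw [hΘn _ hnear, zero_mul, abs_zero]; positivity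
    · rw [not_le] at hnear
      rw [abs_mul]
      calc |Θ ‖z‖| * |kZ κ 0 e (z, v)| ≤ 1 * (C3 * (‖z‖ ^ 3)⁻¹) := by
            gcongr
            · exact hΘm _
            · exact b3 z v hz hv
        _ = C3 * ‖z‖⁻¹ * (‖z‖ ^ 2)⁻¹ := by rw [pow_succ]; field_simp
        _ ≤ C3 * (2 / ε) * (‖z‖ ^ 2)⁻¹ := by
            gcongr
            rw [inv_le_comm₀ hz' (by positivity), inv_div]
            exact hnear.le
  have hTΘ : ∀ p ∈ SS, Θ ‖p.1‖ ≠ 0 →
      Tr g (cone t x p) = (fun _ => (0:ℝ)) (cone t x p) + divv G (cone t x p) := by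
    intro p _ hne
    have hlt : ‖p.1‖ < t := by
      by_contra hge
      exact hne (hΘ0 _ (not_lt.1 hge))
    rw [zero_add]
    exact hT (t - ‖p.1‖) ⟨by linarith, by linarith [norm_nonneg p.1]⟩ (x + p.1) p.2
  have hdiv := division_rad (t := t) (x := x) hκ hΘc hKB (P := P) hΘ0 hg1 hG
    (h := fun _ => (0:ℝ)) continuous_const
    (fun s y v hv => ⟨(hP s y v hv).1, (hP s y v hv).2, rfl⟩) hTΘ 0 e iZ
  simp only [mul_zero, integral_zero, zero_sub] at hdiv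
  -- the momentum terms
  have tV : ∀ i, |∫ p : ZV, Θ ‖p.1‖ * kV κ 0 e i p * G i (cone t x p)|
      ≤ cB P * C2 i * ∫ s in (0:ℝ)..t, NG s := by
    intro i
    have hc2i := hC2 i
    have h := cone_int_le (k := 2) le_rfl (P := P) (C := C2 i) ht.le (M := NG)
      (Φ := fun p : ZV => Θ ‖p.1‖ * kV κ 0 e i p * G i (cone t x p)) (by simpa using hNGi) ?_ ?_
    · simpa using h
    · rintro z v hz (h | h)
      · simp only [hΘ0 _ h, zero_mul]
      · have : G i (cone t x (z, v)) = 0 := (hP _ _ _ h).2 i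
        simp only [this, mul_zero]
    · intro z v hz hzt hv
      have hF : |G i (cone t x (z, v))| ≤ NG (t - ‖z‖) :=
        hNG (t - ‖z‖) ⟨by linarith, by linarith [norm_nonneg z]⟩ i (x + z) v
      have hN0 : 0 ≤ NG (t - ‖z‖) := (abs_nonneg _).trans hF
      rw [abs_mul, abs_mul]
      calc |Θ ‖z‖| * |kV κ 0 e i (z, v)| * |G i (cone t x (z, v))|
          ≤ 1 * (C2 i * (‖z‖ ^ 2)⁻¹) * NG (t - ‖z‖) := by
            gcongr
            · exact hΘm _
            · exact b2 i z v hz hv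
        _ = _ := by ring
  -- the logarithmic term
  have tL : |∫ p : ZV, Θ ‖p.1‖ * kZ κ 0 e p * g (cone t x p)|
      ≤ cB P * (C3 * n0) * (Real.log 2 + Real.log (t / ε)) := by
    refine log_int_le (by positivity) hε hεt ?_ ?_
    · rintro z v hz (h | h | h)
      · simp only [hΘn _ h.le, zero_mul]
      · simp only [hΘ0 _ h.le, zero_mul]
      · have : g (cone t x (z, v)) = 0 := (hP _ _ _ h).1
        simp only [this, mul_zero]
    · intro z v hz hv
      by_cases hzt : t ≤ ‖z‖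
      · simp only [hΘ0 _ hzt, zero_mul, abs_zero]; positivity
      · have hF : |g (cone t x (z, v))| ≤ n0 :=
          (hn (t - ‖z‖) ⟨by linarith, by linarith [norm_nonneg z]⟩ (x + z) v).1
        rw [abs_mul, abs_mul]
        calc |Θ ‖z‖| * |kZ κ 0 e (z, v)| * |g (cone t x (z, v))|
            ≤ 1 * (C3 * (‖z‖ ^ 3)⁻¹) * n0 := by
              gcongr
              · exact hΘm _
              · exact b3 z v hz hv
          _ = _ := by ring
  -- the radial term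
  have hdΘ : ∀ r, deriv Θ r = -(deriv (th d) (t - r) * ch ε r) + ϑ r * deriv (ch ε) r := by
    intro r
    have h1 : HasDerivAt ϑ (deriv ϑ r) r := (hϑc.differentiable (by simp) r).hasDerivAt
    have h2 : HasDerivAt (ch ε) (deriv (ch ε) r) r := (hchc.differentiable (by simp) r).hasDerivAt
    have h3 : HasDerivAt Θ (deriv ϑ r * ch ε r + ϑ r * deriv (ch ε) r) r := h1.mul h2
    rw [h3.deriv]
    have h4 : deriv ϑ r = - deriv (th d) (t - r) := deriv_thr d t r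
    rw [h4]; ring
  have hthc : Continuous (deriv (th d)) := (th_smooth d).continuous_deriv (by simp)
  have hchd : Continuous (deriv (ch ε)) := (ch_smooth ε).continuous_deriv (by simp)
  obtain ⟨K1, hK1⟩ : ∃ K1 : ℝ, ∀ r ∈ Icc 0 t, |deriv (th d) (t - r)| ≤ K1 := by
    obtain ⟨K, hK⟩ := (isCompact_Icc (a := (0:ℝ)) (b := t)).exists_bound_of_continuousOn
      (f := fun r => deriv (th d) (t - r)) (by fun_prop)
    exact ⟨K, hK⟩
  have iR1 : Integrable (fun p : ZV => (deriv (th d) (t - ‖p.1‖) * ch ε ‖p.1‖) * kR κ 0 e p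
      * g (cone t x p)) := by
    refine integrable_RI (ϑ := fun r => deriv (th d) (t - r) * ch ε r) (R := t) (P := P)
      (C := |K1| * C4)
      hR.smooth.continuousOn (by fun_prop) hg.continuous (by positivity) ?_
      (fun s y v hv => (hP s y v hv).1) ?_
    · intro r hr
      simp only [th_deriv_zero hd (Or.inl (by linarith : t - r ≤ 0)), zero_mul]
    · intro z v hz hzt hv
      have h1 := ch_mem ε ‖z‖
      rw [abs_mul, abs_mul]
      have k1 : |deriv (th d) (t - ‖z‖)| ≤ |K1| :=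
        (hK1 _ ⟨norm_nonneg z, hzt⟩).trans (le_abs_self _)
      have k2 : |ch ε ‖z‖| ≤ 1 := by rw [abs_of_nonneg h1.1]; exact h1.2
      calc |deriv (th d) (t - ‖z‖)| * |ch ε ‖z‖| * |kR κ 0 e (z, v)|
          ≤ |K1| * 1 * (C4 * (‖z‖ ^ 2)⁻¹) :=
            mul_le_mul (mul_le_mul k1 k2 (abs_nonneg _) (abs_nonneg _)) (b4 z v hz hv)
              (abs_nonneg _) (by positivity)
        _ = _ := by ring
  have iR2 : Integrable (fun p : ZV => (ϑ ‖p.1‖ * deriv (ch ε) ‖p.1‖) * kR κ 0 e p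
      * g (cone t x p)) := by
    refine integrable_RI (ϑ := fun r => ϑ r * deriv (ch ε) r) (R := t) (P := P)
      (C := M / ε * C4)
      hR.smooth.continuousOn (hϑc.continuous.mul hchd) hg.continuous (by positivity) ?_
      (fun s y v hv => (hP s y v hv).1) ?_
    · intro r hr
      simp only [hϑ0 r hr.le, zero_mul]
    · intro z v hz hzt hv
      have h1 := hϑm ‖z‖
      rw [abs_mul, abs_mul]
      calc |ϑ ‖z‖| * |deriv (ch ε) ‖z‖| * |kR κ 0 e (z, v)|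
          ≤ 1 * (M / ε) * (C4 * (‖z‖ ^ 2)⁻¹) := by
            gcongr
            · rw [abs_of_nonneg h1.1]; exact h1.2
            · exact (hM ε ‖z‖ hε).1
            · exact b4 z v hz hv
        _ = _ := by ring
  have splitR : ∫ p : ZV, deriv Θ ‖p.1‖ * kR κ 0 e p * g (cone t x p)
      = -(∫ p : ZV, (deriv (th d) (t - ‖p.1‖) * ch ε ‖p.1‖) * kR κ 0 e p * g (cone t x p))
        + ∫ p : ZV, (ϑ ‖p.1‖ * deriv (ch ε) ‖p.1‖) * kR κ 0 e p * g (cone t x p) := by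
    have iR1' : Integrable (fun p : ZV => -((deriv (th d) (t - ‖p.1‖) * ch ε ‖p.1‖) * kR κ 0 e p
      * g (cone t x p))) := iR1.neg
    rw [← integral_neg, ← integral_add iR1' iR2]
    refine integral_congr_ae (Eventually.of_forall fun p => ?_)
    simp only [hdΘ]; ring
  have tR1 : |∫ p : ZV, (deriv (th d) (t - ‖p.1‖) * ch ε ‖p.1‖) * kR κ 0 e p * g (cone t x p)|
      ≤ cB P * C4 * a0 := by
    have h := radial (k := 2) le_rfl (κ := kR κ 0 e) hC4 b4 (x := x) ht hd hdt (ψ := ch ε)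
      (fun r => by rw [abs_of_nonneg (ch_mem ε r).1]; exact (ch_mem ε r).2)
      (fun s y v hv => (hP s y v hv).1) ha
    simpa using h
  have tR2 : |∫ p : ZV, (ϑ ‖p.1‖ * deriv (ch ε) ‖p.1‖) * kR κ 0 e p * g (cone t x p)|
      ≤ cB P * (M / ε * C4 * n0) * ε := by
    refine near_int_le (by positivity) hε ?_ ?_
    · rintro z v hz (h | h)
      · simp only [(hM ε ‖z‖ hε).2 (Or.inr h)]; ring
      · have : g (cone t x (z, v)) = 0 := (hP _ _ _ h).1
        simp only [this, mul_zero]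
    · intro z v hz hv
      have h1 := hϑm ‖z‖
      by_cases hzt : t ≤ ‖z‖
      · simp only [hϑ0 _ hzt, zero_mul, abs_zero]; positivity
      · have hF : |g (cone t x (z, v))| ≤ n0 :=
          (hn (t - ‖z‖) ⟨by linarith, by linarith [norm_nonneg z]⟩ (x + z) v).1
        rw [abs_mul, abs_mul, abs_mul]
        calc |ϑ ‖z‖| * |deriv (ch ε) ‖z‖| * |kR κ 0 e (z, v)| * |g (cone t x (z, v))|
            ≤ 1 * (M / ε) * (C4 * (‖z‖ ^ 2)⁻¹) * n0 := by
              gcongr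
              · rw [abs_of_nonneg h1.1]; exact h1.2
              · exact (hM ε ‖z‖ hε).1
              · exact b4 z v hz hv
          _ = _ := by ring
  have e2 : cB P * (M / ε * C4 * n0) * ε = cB P * (M * C4) * n0 := by field_simp
  rw [e2] at tR2
  -- conclusion
  have hNI : 0 ≤ ∫ s in (0:ℝ)..t, NG s :=
    intervalIntegral.integral_nonneg ht.le fun s hs => (abs_nonneg _).trans (hNG s hs 0 0 0)
  have hlog : 0 ≤ Real.log (t / ε) := Real.log_nonneg ((one_le_div hε).2 hεt)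
  have sV : |∑ i, ∫ p : ZV, Θ ‖p.1‖ * kV κ 0 e i p * G i (cone t x p)|
      ≤ cB P * (∑ i, C2 i) * ∫ s in (0:ℝ)..t, NG s := by
    refine (Finset.abs_sum_le_sum_abs _ _).trans ?_
    calc _ ≤ ∑ i, cB P * C2 i * ∫ s in (0:ℝ)..t, NG s := Finset.sum_le_sum fun i _ => tV i
      _ = _ := by rw [Finset.mul_sum, Finset.sum_mul]
  set S1 := ∑ i, ∫ p : ZV, Θ ‖p.1‖ * kV κ 0 e i p * G i (cone t x p)
  set S2 := ∫ p : ZV, Θ ‖p.1‖ * kZ κ 0 e p * g (cone t x p)
  set S3 := ∫ p : ZV, (deriv (th d) (t - ‖p.1‖) * ch ε ‖p.1‖) * kR κ 0 e p * g (cone t x p)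
  set S4 := ∫ p : ZV, (ϑ ‖p.1‖ * deriv (ch ε) ‖p.1‖) * kR κ 0 e p * g (cone t x p)
  rw [split, hdiv, splitR]
  set S0 := ∫ p : ZV, (ϑ ‖p.1‖ * (1 - ch ε ‖p.1‖)) * κ p * dxt 0 e g (cone t x p)
  have habs : |S0 + (-S1 - S2 - (-S3 + S4))| ≤ |S0| + |S1| + |S2| + |S3| + |S4| := by
    rw [abs_le]
    constructor <;> nlinarith [neg_abs_le S0, le_abs_self S0, neg_abs_le S1, le_abs_self S1,
      neg_abs_le S2, le_abs_self S2, neg_abs_le S3, le_abs_self S3, neg_abs_le S4, le_abs_self S4]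
  refine habs.trans ?_
  have t1 : cB P * (C1 * n1) * ε = cB P * C1 * (ε * n1) := by ring
  have t2 : cB P * (C3 * n0) * (Real.log 2 + Real.log (t / ε))
      ≤ cB P * C3 * (n0 * (1 + Real.log (t / ε))) := by
    have : cB P * (C3 * n0) * (Real.log 2 + Real.log (t / ε))
        ≤ cB P * (C3 * n0) * (1 + Real.log (t / ε)) := by
      gcongr
    refine this.trans (le_of_eq (by ring))
  have t3 : cB P * (M * C4) * n0 ≤ cB P * (M * C4) * (n0 * (1 + Real.log (t / ε))) := by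
    have : n0 * 1 ≤ n0 * (1 + Real.log (t / ε)) := by gcongr; linarith
    rw [mul_one] at this
    gcongr
  set X1 := n0 * (1 + Real.log (t / ε)) with hX1
  set X2 := ε * n1 with hX2
  set X3 := ∫ s in (0:ℝ)..t, NG s with hX3
  have hX1n : 0 ≤ X1 := by positivity
  have hX2n : 0 ≤ X2 := by positivity
  have total : cB P * C1 * X2 + cB P * (∑ i, C2 i) * X3 + cB P * C3 * X1 + cB P * C4 * a0
      + cB P * (M * C4) * X1 ≤ cB P * (C1 + (∑ i, C2 i) + C3 + C4 + M * C4)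
        * (a0 + X1 + X2 + X3) := by
    have hA : 0 ≤ a0 + X1 + X2 + X3 := by positivity
    have p1 : X2 ≤ a0 + X1 + X2 + X3 := by linarith
    have p2 : X3 ≤ a0 + X1 + X2 + X3 := by linarith
    have p3 : X1 ≤ a0 + X1 + X2 + X3 := by linarith
    have p4 : a0 ≤ a0 + X1 + X2 + X3 := by linarith
    calc _ ≤ cB P * C1 * (a0 + X1 + X2 + X3) + cB P * (∑ i, C2 i) * (a0 + X1 + X2 + X3)
          + cB P * C3 * (a0 + X1 + X2 + X3) + cB P * C4 * (a0 + X1 + X2 + X3)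
          + cB P * (M * C4) * (a0 + X1 + X2 + X3) := by gcongr
      _ = _ := by ring
  refine le_trans ?_ total
  rw [t1] at near
  linarith [tL.trans t2, tR2.trans t3]

end Grad

open Grad in
/-- **the logarithmic gradient estimate** -/
theorem coreGrad : CoreGrad := by
  intro P m hm a b e
  have hκ := k0_Hk hm
  set κ : ZV → ℝ := fun p : ZV => m p.2 * (4 * Real.pi * ‖p.1‖)⁻¹ with hκdef
  have hV := fun i : Fin 3 => kV_Hk hκ a b i
  have hZ : Hk 2 (kZ κ a b) := kZ_Hk hκ a b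
  have hR : Hk 1 (kR κ a b) := kR_Hk hκ a b
  choose C1 hC1 b1 using fun i : Fin 3 => supK P (hV i) 0 e
  obtain ⟨C2, hC2, b2⟩ := hk2 P hZ e
  obtain ⟨C3, hC3, b3⟩ := hR.bound P
  obtain ⟨C4, hC4, b4⟩ := hZ.bound P
  have hcB := cB_nonneg P
  have hs1 : 0 ≤ ∑ i, C1 i := Finset.sum_nonneg fun i _ => hC1 i
  refine ⟨2 * (∑ i, C1 i) + C2 + cB P * C3, by positivity, ?_⟩
  intro t d ε x g G H K a0 a1 b0 n0 n1 NG NH ht hd hdt hε hεt hg hG hH hK hP hT hTG ha hn hNG hNH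
    hNGi hNHi
  have ht0 : (0:ℝ) ∈ Icc 0 t := ⟨le_rfl, ht.le⟩
  have hd0 : (0:ℝ) ∈ Icc 0 d := ⟨le_rfl, hd.le⟩
  have hn0 : 0 ≤ n0 := (abs_nonneg _).trans (hn 0 ht0 0 0).1
  have hn1 : 0 ≤ n1 := (abs_nonneg _).trans (hn 0 ht0 0 0).2
  have ha0 : 0 ≤ a0 := (abs_nonneg _).trans (ha 0 hd0 0 0).1
  have ha1 : 0 ≤ a1 := (abs_nonneg _).trans (ha 0 hd0 0 0).2.1
  have hb0 : 0 ≤ b0 := (abs_nonneg _).trans ((ha 0 hd0 0 0).2.2 0)
  have hg1 : ContDiff ℝ 1 g := hg.of_le (by norm_num)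
  have hG1 : ∀ i, ContDiff ℝ 1 (G i) := fun i => (hG i).of_le (by norm_num)
  have hge : ContDiff ℝ 1 (dxt 0 e g) := dxt_contDiff (n := 1) (by exact_mod_cast hg) 0 e
  have hGe : ∀ i, ContDiff ℝ 1 (dxt 0 e (G i)) := fun i =>
    dxt_contDiff (n := 1) (by exact_mod_cast hG i) 0 e
  have hPg : ∀ (s : ℝ) (y v : R3), P < ‖v‖ → g (s, y, v) = 0 := fun s y v hv => (hP s y v hv).1
  have hPG : ∀ i, ∀ (s : ℝ) (y v : R3), P < ‖v‖ → G i (s, y, v) = 0 :=
    fun i s y v hv => ((hP s y v hv).2 i).1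
  have hPge : ∀ (s : ℝ) (y v : R3), P < ‖v‖ → dxt 0 e g (s, y, v) = 0 := dxt_zero_of hPg 0 e
  have hPGe : ∀ i, ∀ (s : ℝ) (y v : R3), P < ‖v‖ → dxt 0 e (G i) (s, y, v) = 0 :=
    fun i => dxt_zero_of (hPG i) 0 e
  have hTe : ∀ s ∈ Icc 0 t, ∀ y v : R3,
      Tr (dxt 0 e g) (s, y, v) = divv (fun i => dxt 0 e (G i)) (s, y, v) := fun s hs y v =>
    Tr_dxt hg hG (hT s hs) e y v
  set ϑ : ℝ → ℝ := fun r => th d (t - r) with hϑ
  have hϑc : ContDiff ℝ 1 ϑ := thr_contDiff d t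
  have hϑ0 : ∀ r, t ≤ r → ϑ r = 0 := fun r hr => th_zero hd (by linarith)
  have hϑm : ∀ r, 0 ≤ ϑ r ∧ ϑ r ≤ 1 := fun r => th_mem d _
  have hKB : KB 1 (fun p : ZV => ϑ ‖p.1‖ * κ p) := by
    simpa using (rad_KB hϑc).mul hκ.toKB
  have iZ : Integrable (fun p : ZV => ϑ ‖p.1‖ * kZ κ a b p * dxt 0 e g (cone t x p)) := by
    refine integrable_RI (ϑ := ϑ) (R := t) (P := P) (C := C4)
      hZ.smooth.continuousOn hϑc.continuous
      hge.continuous hC4 (fun r hr => hϑ0 r hr.le) hPge ?_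
    intro z v hz _ hv
    rw [abs_mul]
    calc |ϑ ‖z‖| * |kZ κ a b (z, v)| ≤ 1 * (C4 * (‖z‖ ^ 2)⁻¹) := by
          gcongr
          · rw [abs_of_nonneg (hϑm _).1]; exact (hϑm _).2
          · exact b4 z v hz hv
      _ = _ := one_mul _
  have hTϑ : ∀ p ∈ SS, ϑ ‖p.1‖ ≠ 0 → Tr (dxt 0 e g) (cone t x p)
      = (fun _ => (0:ℝ)) (cone t x p) + divv (fun i => dxt 0 e (G i)) (cone t x p) := by
    intro p _ hne
    have hlt : ‖p.1‖ < t := by
      by_contra hge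
      exact hne (hϑ0 _ (not_lt.1 hge))
    rw [zero_add]
    exact hTe (t - ‖p.1‖) ⟨by linarith, by linarith [norm_nonneg p.1]⟩ (x + p.1) p.2
  have hdiv := division_rad (t := t) (x := x) hκ hϑc hKB (P := P) hϑ0 hge hGe
    (h := fun _ => (0:ℝ)) continuous_const
    (fun s y v hv => ⟨hPge s y v hv, fun i => hPGe i s y v hv, rfl⟩) hTϑ a b iZ
  simp only [mul_zero, integral_zero, zero_sub] at hdiv
  -- first term
  have t1 : ∀ i, |∫ p : ZV, ϑ ‖p.1‖ * kV κ a b i p * dxt 0 e (G i) (cone t x p)|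
      ≤ C1 i * (t * b0 + (∫ s in (0:ℝ)..t, NG s) + (∫ s in (0:ℝ)..t, (t - s) * (NH s + NH s))) := by
    intro i
    refine b1 i t d x (G i) (H i) (K i) b0 NG NH NH ht hd hdt (hG1 i) (fun j => hK i j) (hH i)
      (fun s y v hv => ⟨hPG i s y v hv, fun j => ((hP s y v hv).2 i).2.2 j,
        ((hP s y v hv).2 i).2.1⟩)
      (fun s hs y v => hTG s hs i y v) (fun s hs y v => (ha s hs y v).2.2 i)
      (fun s hs y v => hNG s hs i y v) (fun s hs j y v => (hNH s hs i y v).2 j)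
      (fun s hs y v => (hNH s hs i y v).1) hNGi hNHi hNHi
  -- second term
  have t2 := b2 t d ε x g G a0 n0 n1 NG ht hd hdt hε hεt hg hG1
    (fun s y v hv => ⟨hPg s y v hv, fun i => hPG i s y v hv⟩) hT
    (fun s hs y v => (ha s hs y v).1) hn hNG hNGi
  -- third term
  have t3 : |∫ p : ZV, deriv ϑ ‖p.1‖ * kR κ a b p * dxt 0 e g (cone t x p)|
      ≤ cB P * C3 * (t * a1) := by
    have h := radial (k := 1) (by norm_num) (κ := kR κ a b) hC3 b3 (x := x) ht hd hdt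
      (ψ := fun _ => (1:ℝ)) (fun r => by simp) hPge (fun s hs y v => (ha s hs y v).2.1)
    have e1 : ∫ p : ZV, deriv ϑ ‖p.1‖ * kR κ a b p * dxt 0 e g (cone t x p)
        = - ∫ p : ZV, (deriv (th d) (t - ‖p.1‖) * 1) * kR κ a b p * dxt 0 e g (cone t x p) := by
      rw [← integral_neg]
      refine integral_congr_ae (Eventually.of_forall fun p => ?_)
      simp only [hϑ, deriv_thr]; ring
    rw [e1, abs_neg]
    simpa using h
  have hNI : 0 ≤ ∫ s in (0:ℝ)..t, NG s :=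
    intervalIntegral.integral_nonneg ht.le fun s hs => (abs_nonneg _).trans (hNG s hs 0 0 0)
  have hNHI : 0 ≤ ∫ s in (0:ℝ)..t, (t - s) * NH s :=
    intervalIntegral.integral_nonneg ht.le fun s hs =>
      mul_nonneg (by linarith [hs.2]) ((abs_nonneg _).trans (hNH s hs 0 0 0).1)
  have hlog : 0 ≤ Real.log (t / ε) := Real.log_nonneg ((one_le_div hε).2 hεt)
  have e2 : ∫ s in (0:ℝ)..t, (t - s) * (NH s + NH s) = 2 * ∫ s in (0:ℝ)..t, (t - s) * NH s := by
    rw [← intervalIntegral.integral_const_mul]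
    congr 1
    funext s; ring
  simp only [e2] at t1
  have s1 : |∑ i, ∫ p : ZV, ϑ ‖p.1‖ * kV κ a b i p * dxt 0 e (G i) (cone t x p)|
      ≤ (∑ i, C1 i) * (t * b0 + (∫ s in (0:ℝ)..t, NG s) + 2 * ∫ s in (0:ℝ)..t, (t - s) * NH s) := by
    refine (Finset.abs_sum_le_sum_abs _ _).trans ?_
    rw [Finset.sum_mul]
    exact Finset.sum_le_sum fun i _ => t1 i
  have hW : Wth d m (dxt a b (dxt 0 e g)) t x
      = ∫ p : ZV, ϑ ‖p.1‖ * κ p * dxt a b (dxt 0 e g) (cone t x p) := rfl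
  rw [hW, hdiv]
  set S1 := ∑ i, ∫ p : ZV, ϑ ‖p.1‖ * kV κ a b i p * dxt 0 e (G i) (cone t x p)
  have t2' : |∫ p : ZV, ϑ ‖p.1‖ * kZ κ a b p * dxt 0 e g (cone t x p)|
      ≤ C2 * (a0 + n0 * (1 + Real.log (t / ε)) + ε * n1 + (∫ s in (0:ℝ)..t, NG s)) := t2
  set S2 := ∫ p : ZV, ϑ ‖p.1‖ * kZ κ a b p * dxt 0 e g (cone t x p)
  set S3 := ∫ p : ZV, deriv ϑ ‖p.1‖ * kR κ a b p * dxt 0 e g (cone t x p)
  have habs : |-S1 - S2 - S3| ≤ |S1| + |S2| + |S3| := by
    rw [abs_le]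
    constructor <;> linarith [neg_abs_le S1, le_abs_self S1,
      neg_abs_le S2, le_abs_self S2, neg_abs_le S3, le_abs_self S3]
  refine habs.trans ?_
  set X1 := n0 * (1 + Real.log (t / ε)) with hX1
  set X2 := ε * n1 with hX2
  set X3 := ∫ s in (0:ℝ)..t, NG s with hX3
  set X4 := ∫ s in (0:ℝ)..t, (t - s) * NH s with hX4
  set X5 := t * b0 with hX5
  set X6 := t * a1 with hX6
  have hX1n : 0 ≤ X1 := by positivity
  have hX2n : 0 ≤ X2 := by positivity
  have hX5n : 0 ≤ X5 := by positivity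
  have hX6n : 0 ≤ X6 := by positivity
  have A : (∑ i, C1 i) * (X5 + X3 + 2 * X4) ≤ 2 * (∑ i, C1 i) * (X6 + a0 + X5 + X1 + X2 + X3 + X4) := by
    have : X5 + X3 + 2 * X4 ≤ 2 * (X6 + a0 + X5 + X1 + X2 + X3 + X4) := by linarith
    calc _ ≤ (∑ i, C1 i) * (2 * (X6 + a0 + X5 + X1 + X2 + X3 + X4)) := by gcongr
      _ = _ := by ring
  have B : C2 * (a0 + X1 + X2 + X3) ≤ C2 * (X6 + a0 + X5 + X1 + X2 + X3 + X4) := by
    gcongr ?_ * ?_
    linarith
  have D : cB P * C3 * X6 ≤ cB P * C3 * (X6 + a0 + X5 + X1 + X2 + X3 + X4) := by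
    have : X6 ≤ X6 + a0 + X5 + X1 + X2 + X3 + X4 := by linarith
    gcongr
  calc |S1| + |S2| + |S3| ≤ 2 * (∑ i, C1 i) * (X6 + a0 + X5 + X1 + X2 + X3 + X4)
        + C2 * (X6 + a0 + X5 + X1 + X2 + X3 + X4)
        + cB P * C3 * (X6 + a0 + X5 + X1 + X2 + X3 + X4) := by
        linarith [s1.trans A, t2'.trans B, t3.trans D]
    _ = _ := by ring

end Crest.Agent.R106.Gs2
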