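/- Row 106, node GS2: the gradient estimate. -/
import Crest.Agent.R106.Gs2Grad

set_option autoImplicit false

namespace Crest.Agent.R106.Gs2

theorem gradEst : GradEst := gradEst_of_core coreGrad

end Crest.Agent.R106.Gs2
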