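import Crest.Agent.R106.FieldLogU
import Crest.Agent.R106.Gs2GradEst
import Crest.Agent.R106.FBlogFin

/-! Row 106 (helper835): node FBlog complete. -/

namespace Crest.Agent.R106.Std

theorem fbLog : FBlog := FieldStd.fbLog (Field.gslogU Gs2.gradEst)

end Crest.Agent.R106.Std
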