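import Crest.Agent.R106.Gs2Defs
import Crest.Agent.R106.Gs2Hom

/-!
# Row 106, FieldDir (helper262): iterated spatial directional derivatives

`ddl l g` (`l : List R3`): iterated derivatives `dxt 0 e` of a function on phase space-time;
`ddx l u`: the same for functions on space-time. Smoothness, supports, commutation with
`Tr`, `divv`, `dxt`, and comparison with `iteratedFDeriv` of the slices.
-/

set_option autoImplicit false
open MeasureTheory Set Filter Topology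
open scoped ContDiff
open Crest.AnalysisR.VecCalc3 Crest.AnalysisR.PDE.RVM

noncomputable section

namespace Crest.Agent.R106.FieldDir

open Crest.Agent.R106.Gs2 (PS Tr divv dxt mom ev)

/-- basis vector -/
abbrev eb (i : Fin 3) : R3 := EuclideanSpace.single i (1 : ℝ)

/-- iterated spatial directional derivatives of a function on phase space-time -/
def ddl : List R3 → (PS → ℝ) → PS → ℝ
  | [], g => g
  | e :: l, g => dxt 0 e (ddl l g)

/-- iterated spatial directional derivatives of a function on space-time -/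
def ddx : List R3 → (ℝ × R3 → ℝ) → ℝ × R3 → ℝ
  | [], u => u
  | e :: l, u => fun p => fderiv ℝ (ddx l u) p (0, e)

@[simp] theorem ddl_nil (g : PS → ℝ) : ddl [] g = g := rfl
@[simp] theorem ddl_cons (e : R3) (l : List R3) (g : PS → ℝ) :
    ddl (e :: l) g = dxt 0 e (ddl l g) := rfl
@[simp] theorem ddx_nil (u : ℝ × R3 → ℝ) : ddx [] u = u := rfl
@[simp] theorem ddx_cons (e : R3) (l : List R3) (u : ℝ × R3 → ℝ) :
    ddx (e :: l) u = fun p => fderiv ℝ (ddx l u) p (0, e) := rfl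

theorem two_le_inf : (2 : WithTop ℕ∞) ≤ ∞ := by
  have : ((2 : ℕ∞) : WithTop ℕ∞) ≤ ((⊤ : ℕ∞) : WithTop ℕ∞) := by exact_mod_cast le_top
  exact this

/-! ### symmetric second derivatives -/

section sym
variable {W V : Type*} [NormedAddCommGroup W] [NormedSpace ℝ W]
  [NormedAddCommGroup V] [NormedSpace ℝ V]

theorem sym2 {F : W → V} {p : W} (hF : ContDiffAt ℝ 2 F p) (a b : W) :
    fderiv ℝ (fun q => fderiv ℝ F q a) p b = fderiv ℝ (fun q => fderiv ℝ F q b) p a := by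
  have h2 : DifferentiableAt ℝ (fderiv ℝ F) p := by
    have := hF.fderiv_right (m := 1) (by norm_num)
    exact this.differentiableAt (by norm_num)
  have key : ∀ c d : W, fderiv ℝ (fun q => fderiv ℝ F q d) p c = (fderiv ℝ (fderiv ℝ F) p c) d := by
    intro c d
    rw [fderiv_clm_apply h2 (differentiableAt_const d)]
    simp
  rw [key, key]
  have hs : IsSymmSndFDerivAt ℝ F p := hF.isSymmSndFDerivAt (by simp)
  exact hs b a

/-- derivative of a first-order operator with coefficients not moving in the direction `b` -/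
theorem sym2' {F : W → V} {p : W} (hF : ContDiffAt ℝ 2 F p) {A : W → W}
    (hA : DifferentiableAt ℝ A p) (b : W) (hAb : fderiv ℝ A p b = 0) :
    fderiv ℝ (fun q => fderiv ℝ F q (A q)) p b = fderiv ℝ (fun q => fderiv ℝ F q b) p (A p) := by
  have h2 : DifferentiableAt ℝ (fderiv ℝ F) p := by
    have := hF.fderiv_right (m := 1) (by norm_num)
    exact this.differentiableAt (by norm_num)
  have hs : IsSymmSndFDerivAt ℝ F p := hF.isSymmSndFDerivAt (by simp)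
  rw [fderiv_clm_apply h2 hA, fderiv_clm_apply h2 (differentiableAt_const b)]
  simp only [add_apply, ContinuousLinearMap.coe_comp, Function.comp_apply,
    ContinuousLinearMap.flip_apply, hAb, map_zero, zero_add, fderiv_fun_const, Pi.zero_apply,
    zero_apply]
  exact hs b (A p)

end sym

/-! ### phase space-time -/

section ps
variable {J : Set ℝ}

theorem openJ (hJ : IsOpen J) : IsOpen (J ×ˢ (univ : Set (R3 × R3))) := hJ.prod isOpen_univ

theorem nhdsJ (hJ : IsOpen J) {s : ℝ} (hs : s ∈ J) (y v : R3) :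
    J ×ˢ (univ : Set (R3 × R3)) ∈ 𝓝 ((s, y, v) : PS) := (openJ hJ).mem_nhds ⟨hs, mem_univ _⟩

theorem cdAt (hJ : IsOpen J) {n : WithTop ℕ∞} {g : PS → ℝ} (hg : ContDiffOn ℝ n g (J ×ˢ univ))
    {s : ℝ} (hs : s ∈ J) (y v : R3) : ContDiffAt ℝ n g (s, y, v) :=
  hg.contDiffAt (nhdsJ hJ hs y v)

theorem dxt_smooth (hJ : IsOpen J) {g : PS → ℝ} (hg : ContDiffOn ℝ ∞ g (J ×ˢ univ)) (a : ℝ)
    (b : R3) : ContDiffOn ℝ ∞ (dxt a b g) (J ×ˢ univ) := by
  have h1 : ContDiffOn ℝ ∞ (fun p => fderiv ℝ g p) (J ×ˢ univ) :=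
    hg.fderiv_of_isOpen (openJ hJ) (by simp)
  exact h1.clm_apply contDiffOn_const

theorem ddl_smooth (hJ : IsOpen J) {g : PS → ℝ} (hg : ContDiffOn ℝ ∞ g (J ×ˢ univ)) (l : List R3) :
    ContDiffOn ℝ ∞ (ddl l g) (J ×ˢ univ) := by
  induction l with
  | nil => exact hg
  | cons e l ih => exact dxt_smooth hJ ih 0 e

theorem contDiff_relVel : ContDiff ℝ ∞ relVel := Gs2.relVel_smooth

theorem Tr_smooth (hJ : IsOpen J) {g : PS → ℝ} (hg : ContDiffOn ℝ ∞ g (J ×ˢ univ)) :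
    ContDiffOn ℝ ∞ (Tr g) (J ×ˢ univ) := by
  have h1 : ContDiffOn ℝ ∞ (fun p => fderiv ℝ g p) (J ×ˢ univ) :=
    hg.fderiv_of_isOpen (openJ hJ) (by simp)
  refine h1.clm_apply ?_
  refine ContDiff.contDiffOn ?_
  exact contDiff_const.prodMk ((contDiff_relVel.comp (contDiff_snd.comp contDiff_snd)).prodMk
    contDiff_const)

theorem divv_smooth (hJ : IsOpen J) {G : Fin 3 → PS → ℝ}
    (hG : ∀ i, ContDiffOn ℝ ∞ (G i) (J ×ˢ univ)) : ContDiffOn ℝ ∞ (divv G) (J ×ˢ univ) := by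
  unfold divv
  refine ContDiffOn.sum fun i _ => ?_
  have h1 : ContDiffOn ℝ ∞ (fun p => fderiv ℝ (G i) p) (J ×ˢ univ) :=
    (hG i).fderiv_of_isOpen (openJ hJ) (by simp)
  exact h1.clm_apply contDiffOn_const

theorem dxt_congr (hJ : IsOpen J) {g g' : PS → ℝ}
    (h : ∀ s ∈ J, ∀ y v : R3, g (s, y, v) = g' (s, y, v)) (a : ℝ) (b : R3) :
    ∀ s ∈ J, ∀ y v : R3, dxt a b g (s, y, v) = dxt a b g' (s, y, v) := by
  intro s hs y v
  have : g =ᶠ[𝓝 ((s, y, v) : PS)] g' := by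
    filter_upwards [nhdsJ hJ hs y v] with p hp
    exact h p.1 hp.1 p.2.1 p.2.2
  unfold dxt
  rw [this.fderiv_eq]

theorem ddl_congr (hJ : IsOpen J) {g g' : PS → ℝ}
    (h : ∀ s ∈ J, ∀ y v : R3, g (s, y, v) = g' (s, y, v)) (l : List R3) :
    ∀ s ∈ J, ∀ y v : R3, ddl l g (s, y, v) = ddl l g' (s, y, v) := by
  induction l with
  | nil => exact h
  | cons e l ih => exact dxt_congr hJ ih 0 e

theorem Tr_congr (hJ : IsOpen J) {g g' : PS → ℝ}
    (h : ∀ s ∈ J, ∀ y v : R3, g (s, y, v) = g' (s, y, v)) :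
    ∀ s ∈ J, ∀ y v : R3, Tr g (s, y, v) = Tr g' (s, y, v) := by
  intro s hs y v
  have : g =ᶠ[𝓝 ((s, y, v) : PS)] g' := by
    filter_upwards [nhdsJ hJ hs y v] with p hp
    exact h p.1 hp.1 p.2.1 p.2.2
  unfold Tr
  rw [this.fderiv_eq]

theorem ddl_add (hJ : IsOpen J) {g g' : PS → ℝ} (hg : ContDiffOn ℝ ∞ g (J ×ˢ univ))
    (hg' : ContDiffOn ℝ ∞ g' (J ×ˢ univ)) (l : List R3) :
    ∀ s ∈ J, ∀ y v : R3, ddl l (fun p => g p + g' p) (s, y, v)
      = ddl l g (s, y, v) + ddl l g' (s, y, v) := by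
  induction l with
  | nil => intro s _ y v; rfl
  | cons e l ih =>
    intro s hs y v
    show dxt 0 e (ddl l fun p => g p + g' p) (s, y, v) = dxt 0 e (ddl l g) (s, y, v)
      + dxt 0 e (ddl l g') (s, y, v)
    rw [dxt_congr hJ (g' := fun p => ddl l g p + ddl l g' p) (fun s hs y v => ih s hs y v) 0 e s hs
      y v]
    unfold dxt
    rw [fderiv_fun_add]
    · rfl
    · exact (cdAt hJ (ddl_smooth hJ hg l) hs y v).differentiableAt (by simp)
    · exact (cdAt hJ (ddl_smooth hJ hg' l) hs y v).differentiableAt (by simp)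

theorem dxt_sum (hJ : IsOpen J) {ι : Type*} (S : Finset ι) {g : ι → PS → ℝ}
    (hg : ∀ i ∈ S, ContDiffOn ℝ ∞ (g i) (J ×ˢ univ)) (a : ℝ) (b : R3) :
    ∀ s ∈ J, ∀ y v : R3, dxt a b (fun p => ∑ i ∈ S, g i p) (s, y, v)
      = ∑ i ∈ S, dxt a b (g i) (s, y, v) := by
  intro s hs y v
  unfold dxt
  rw [fderiv_fun_sum]
  · simp
  · exact fun i hi => (cdAt hJ (hg i hi) hs y v).differentiableAt (by simp)

/-- `dxt` commutes with `dxt` -/
theorem dxt_dxt (hJ : IsOpen J) {g : PS → ℝ} (hg : ContDiffOn ℝ ∞ g (J ×ˢ univ)) (a c : ℝ)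
    (b d : R3) : ∀ s ∈ J, ∀ y v : R3,
      dxt a b (dxt c d g) (s, y, v) = dxt c d (dxt a b g) (s, y, v) := by
  intro s hs y v
  have h2 : ContDiffAt ℝ 2 g (s, y, v) := (cdAt hJ hg hs y v).of_le two_le_inf
  exact sym2 h2 _ _

theorem Tr_dxt (hJ : IsOpen J) {g : PS → ℝ} (hg : ContDiffOn ℝ ∞ g (J ×ˢ univ)) (a : ℝ) (b : R3) :
    ∀ s ∈ J, ∀ y v : R3, Tr (dxt a b g) (s, y, v) = dxt a b (Tr g) (s, y, v) := by
  intro s hs y v
  have h2 : ContDiffAt ℝ 2 g (s, y, v) := (cdAt hJ hg hs y v).of_le two_le_inf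
  have hA : HasFDerivAt (fun q : PS => ((1 : ℝ), relVel q.2.2, (0 : R3)))
      ((0 : PS →L[ℝ] ℝ).prod (((fderiv ℝ relVel v).comp ((ContinuousLinearMap.snd ℝ R3 R3).comp
        (ContinuousLinearMap.snd ℝ ℝ (R3 × R3)))).prod 0)) ((s, y, v) : PS) := by
    refine (hasFDerivAt_const _ _).prodMk (HasFDerivAt.prodMk ?_ (hasFDerivAt_const _ _))
    have h1 : HasFDerivAt relVel (fderiv ℝ relVel v) v :=
      (contDiff_relVel.differentiable (by simp) v).hasFDerivAt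
    exact h1.comp (s, y, v) ((ContinuousLinearMap.snd ℝ R3 R3).comp
        (ContinuousLinearMap.snd ℝ ℝ (R3 × R3))).hasFDerivAt
  have := sym2' h2 hA.differentiableAt (a, b, 0) (by rw [hA.fderiv]; simp)
  exact this.symm

theorem Tr_ddl (hJ : IsOpen J) {g : PS → ℝ} (hg : ContDiffOn ℝ ∞ g (J ×ˢ univ)) (l : List R3) :
    ∀ s ∈ J, ∀ y v : R3, Tr (ddl l g) (s, y, v) = ddl l (Tr g) (s, y, v) := by
  induction l with
  | nil => intro s _ y v; rfl
  | cons e l ih =>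
    intro s hs y v
    show Tr (dxt 0 e (ddl l g)) (s, y, v) = dxt 0 e (ddl l (Tr g)) (s, y, v)
    rw [Tr_dxt hJ (ddl_smooth hJ hg l) 0 e s hs y v]
    exact dxt_congr hJ ih 0 e s hs y v

theorem dxt_ddl (hJ : IsOpen J) {g : PS → ℝ} (hg : ContDiffOn ℝ ∞ g (J ×ˢ univ)) (a : ℝ) (b : R3)
    (l : List R3) : ∀ s ∈ J, ∀ y v : R3,
      dxt a b (ddl l g) (s, y, v) = ddl l (dxt a b g) (s, y, v) := by
  induction l with
  | nil => intro s _ y v; rfl
  | cons e l ih =>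
    intro s hs y v
    show dxt a b (dxt 0 e (ddl l g)) (s, y, v) = dxt 0 e (ddl l (dxt a b g)) (s, y, v)
    rw [dxt_dxt hJ (ddl_smooth hJ hg l) a 0 b e s hs y v]
    exact dxt_congr hJ ih 0 e s hs y v

theorem fdv_ddl (hJ : IsOpen J) {g : PS → ℝ} (hg : ContDiffOn ℝ ∞ g (J ×ˢ univ)) (w : PS)
    (l : List R3) : ∀ s ∈ J, ∀ y v : R3,
      fderiv ℝ (ddl l g) (s, y, v) w = ddl l (fun p => fderiv ℝ g p w) (s, y, v) := by
  induction l with
  | nil => intro s _ y v; rfl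
  | cons e l ih =>
    intro s hs y v
    have h2 : ContDiffAt ℝ 2 (ddl l g) (s, y, v) :=
      (cdAt hJ (ddl_smooth hJ hg l) hs y v).of_le two_le_inf
    have h3 := sym2 h2 (0, e, 0) w
    show fderiv ℝ (fun q => fderiv ℝ (ddl l g) q (0, e, 0)) (s, y, v) w
      = dxt 0 e (ddl l (fun p => fderiv ℝ g p w)) (s, y, v)
    rw [h3]
    exact dxt_congr hJ (g := fun q => fderiv ℝ (ddl l g) q w) ih 0 e s hs y v

theorem fdv_smooth (hJ : IsOpen J) {g : PS → ℝ} (hg : ContDiffOn ℝ ∞ g (J ×ˢ univ)) (w : PS) :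
    ContDiffOn ℝ ∞ (fun p => fderiv ℝ g p w) (J ×ˢ univ) := by
  have h1 : ContDiffOn ℝ ∞ (fun p => fderiv ℝ g p) (J ×ˢ univ) :=
    hg.fderiv_of_isOpen (openJ hJ) (by simp)
  exact h1.clm_apply contDiffOn_const

theorem ddl_sum (hJ : IsOpen J) {ι : Type*} (S : Finset ι) {g : ι → PS → ℝ}
    (hg : ∀ i ∈ S, ContDiffOn ℝ ∞ (g i) (J ×ˢ univ)) (l : List R3) :
    ∀ s ∈ J, ∀ y v : R3, ddl l (fun p => ∑ i ∈ S, g i p) (s, y, v)
      = ∑ i ∈ S, ddl l (g i) (s, y, v) := by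
  induction l with
  | nil => intro s _ y v; rfl
  | cons e l ih =>
    intro s hs y v
    show dxt 0 e (ddl l fun p => ∑ i ∈ S, g i p) (s, y, v) = ∑ i ∈ S, dxt 0 e (ddl l (g i)) (s, y, v)
    rw [dxt_congr hJ (g' := fun p => ∑ i ∈ S, ddl l (g i) p) (fun s hs y v => ih s hs y v) 0 e s hs
      y v]
    exact dxt_sum hJ S (fun i hi => ddl_smooth hJ (hg i hi) l) 0 e s hs y v

theorem divv_ddl (hJ : IsOpen J) {G : Fin 3 → PS → ℝ}
    (hG : ∀ i, ContDiffOn ℝ ∞ (G i) (J ×ˢ univ)) (l : List R3) :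
    ∀ s ∈ J, ∀ y v : R3, divv (fun i => ddl l (G i)) (s, y, v) = ddl l (divv G) (s, y, v) := by
  intro s hs y v
  have h1 := ddl_sum hJ Finset.univ (g := fun i p => fderiv ℝ (G i) p (ev i))
    (fun i _ => fdv_smooth hJ (hG i) (ev i)) l s hs y v
  show ∑ i, fderiv ℝ (ddl l (G i)) (s, y, v) (ev i) = ddl l (fun p => ∑ i, fderiv ℝ (G i) p (ev i))
    (s, y, v)
  rw [h1]
  exact Finset.sum_congr rfl fun i _ => fdv_ddl hJ (hG i) (ev i) l s hs y v

/-! supports -/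

theorem dxt_vsupp (hJ : IsOpen J) {g : PS → ℝ} {P : ℝ}
    (h : ∀ s ∈ J, ∀ y v : R3, P < ‖v‖ → g (s, y, v) = 0) (a : ℝ) (b : R3) :
    ∀ s ∈ J, ∀ y v : R3, P < ‖v‖ → dxt a b g (s, y, v) = 0 := by
  intro s hs y v hv
  have : g =ᶠ[𝓝 ((s, y, v) : PS)] fun _ => 0 := by
    have hc : Tendsto (fun p : PS => ‖p.2.2‖) (𝓝 ((s, y, v) : PS)) (𝓝 ‖v‖) :=
      (continuous_norm.comp (continuous_snd.comp continuous_snd)).continuousAt
    filter_upwards [nhdsJ hJ hs y v, hc.eventually (lt_mem_nhds hv)] with p hp hp2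
    exact h p.1 hp.1 p.2.1 p.2.2 hp2
  unfold dxt
  rw [this.fderiv_eq]
  simp

theorem ddl_vsupp (hJ : IsOpen J) {g : PS → ℝ} {P : ℝ}
    (h : ∀ s ∈ J, ∀ y v : R3, P < ‖v‖ → g (s, y, v) = 0) (l : List R3) :
    ∀ s ∈ J, ∀ y v : R3, P < ‖v‖ → ddl l g (s, y, v) = 0 := by
  induction l with
  | nil => exact h
  | cons e l ih => exact dxt_vsupp hJ ih 0 e

/-- slices -/
theorem hasFDerivAt_slice (hJ : IsOpen J) {g : PS → ℝ} (hg : ContDiffOn ℝ ∞ g (J ×ˢ univ))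
    {s : ℝ} (hs : s ∈ J) (y v : R3) :
    HasFDerivAt (fun z : R3 => g (s, z, v)) ((fderiv ℝ g (s, y, v)).comp
      ((0 : R3 →L[ℝ] ℝ).prod ((ContinuousLinearMap.id ℝ R3).prod 0))) y := by
  have h1 : HasFDerivAt g (fderiv ℝ g (s, y, v)) (s, y, v) :=
    ((cdAt hJ hg hs y v).differentiableAt (by simp)).hasFDerivAt
  have h2 : HasFDerivAt (fun z : R3 => ((s, z, v) : PS))
      ((0 : R3 →L[ℝ] ℝ).prod ((ContinuousLinearMap.id ℝ R3).prod 0)) y :=
    (hasFDerivAt_const _ _).prodMk ((hasFDerivAt_id y).prodMk (hasFDerivAt_const _ _))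
  exact h1.comp y h2

theorem slice_fderiv (hJ : IsOpen J) {g : PS → ℝ} (hg : ContDiffOn ℝ ∞ g (J ×ˢ univ))
    {s : ℝ} (hs : s ∈ J) (y v e : R3) :
    fderiv ℝ (fun z : R3 => g (s, z, v)) y e = dxt 0 e g (s, y, v) := by
  rw [(hasFDerivAt_slice hJ hg hs y v).fderiv]
  rfl

theorem slice_smooth (hJ : IsOpen J) {g : PS → ℝ} (hg : ContDiffOn ℝ ∞ g (J ×ˢ univ))
    {s : ℝ} (hs : s ∈ J) (v : R3) : ContDiff ℝ ∞ (fun z : R3 => g (s, z, v)) := by
  rw [← contDiffOn_univ]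
  refine hg.comp (contDiff_const.prodMk (contDiff_id.prodMk contDiff_const)).contDiffOn ?_
  exact fun z _ => ⟨hs, mem_univ _⟩

/-- x-support at one time -/
theorem ddl_xsupp (hJ : IsOpen J) {g : PS → ℝ} (hg : ContDiffOn ℝ ∞ g (J ×ˢ univ)) {s : ℝ}
    (hs : s ∈ J) {R : ℝ} (h : ∀ y v : R3, R < ‖y‖ → g (s, y, v) = 0) (l : List R3) :
    ∀ y v : R3, R < ‖y‖ → ddl l g (s, y, v) = 0 := by
  induction l with
  | nil => exact h
  | cons e l ih =>
    intro y v hy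
    show dxt 0 e (ddl l g) (s, y, v) = 0
    rw [← slice_fderiv hJ (ddl_smooth hJ hg l) hs y v e]
    have : (fun z : R3 => ddl l g (s, z, v)) =ᶠ[𝓝 y] fun _ => 0 := by
      filter_upwards [continuous_norm.continuousAt.eventually (lt_mem_nhds hy)] with z hz
      exact ih z v hz
    rw [this.fderiv_eq]
    simp

/-- iterated directional derivatives are the values of `iteratedFDeriv` of the slice -/
theorem iter_slice {F : R3 → ℝ} (hF : ContDiff ℝ ∞ F) (e : R3) (n : ℕ) (m : Fin n → R3) (y : R3) :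
    fderiv ℝ (fun z => iteratedFDeriv ℝ n F z m) y e
      = iteratedFDeriv ℝ (n + 1) F y (Fin.cons e m) := by
  rw [iteratedFDeriv_succ_apply_left]
  have h1 : DifferentiableAt ℝ (iteratedFDeriv ℝ n F) y :=
    (hF.differentiable_iteratedFDeriv (m := n) (by exact_mod_cast WithTop.coe_lt_top n)) y
  have h2 : HasFDerivAt (fun z => iteratedFDeriv ℝ n F z m)
      ((ContinuousMultilinearMap.apply ℝ (fun _ : Fin n => R3) ℝ m).comp
        (fderiv ℝ (iteratedFDeriv ℝ n F) y)) y :=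
    (ContinuousMultilinearMap.apply ℝ (fun _ : Fin n => R3) ℝ m).hasFDerivAt.comp y h1.hasFDerivAt
  rw [h2.fderiv]
  rfl

theorem ddl_eq (hJ : IsOpen J) {g : PS → ℝ} (hg : ContDiffOn ℝ ∞ g (J ×ˢ univ)) {s : ℝ}
    (hs : s ∈ J) (v : R3) (l : List R3) : ∀ y : R3,
    ddl l g (s, y, v) = iteratedFDeriv ℝ l.length (fun z : R3 => g (s, z, v)) y l.get := by
  induction l with
  | nil => intro y; simp
  | cons e l ih =>
    intro y
    show dxt 0 e (ddl l g) (s, y, v) = _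
    rw [← slice_fderiv hJ (ddl_smooth hJ hg l) hs y v e, show (fun z : R3 => ddl l g (s, z, v))
      = fun z => iteratedFDeriv ℝ l.length (fun z : R3 => g (s, z, v)) z l.get from funext ih,
      iter_slice (slice_smooth hJ hg hs v) e l.length l.get y]
    congr 1
    funext i
    refine Fin.cases ?_ (fun j => ?_) i
    · rfl
    · rfl

theorem abs_ddl_le (hJ : IsOpen J) {g : PS → ℝ} (hg : ContDiffOn ℝ ∞ g (J ×ˢ univ)) {s : ℝ}
    (hs : s ∈ J) (v : R3) (l : List (Fin 3)) (y : R3) :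
    |ddl (l.map eb) g (s, y, v)|
      ≤ ‖iteratedFDeriv ℝ l.length (fun z : R3 => g (s, z, v)) y‖ := by
  have key : ∀ (l' : List R3), (∀ e ∈ l', ‖e‖ ≤ 1) → |ddl l' g (s, y, v)|
      ≤ ‖iteratedFDeriv ℝ l'.length (fun z : R3 => g (s, z, v)) y‖ := by
    intro l' hl
    rw [ddl_eq hJ hg hs v l' y, ← Real.norm_eq_abs]
    refine (ContinuousMultilinearMap.le_opNorm _ _).trans ?_
    refine mul_le_of_le_one_right (norm_nonneg _) ?_
    exact Finset.prod_le_one (fun i _ => norm_nonneg _) fun i _ => hl _ (List.get_mem _ _)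
  have h := key (l.map eb) (by
    intro e he
    obtain ⟨i, -, rfl⟩ := List.mem_map.1 he
    simp [eb])
  rwa [List.length_map] at h

end ps

/-! ### norm of a multilinear map on basis vectors -/

theorem norm_le_of_basis {V : Type*} [NormedAddCommGroup V] [NormedSpace ℝ V] {k : ℕ}
    (M : ContinuousMultilinearMap ℝ (fun _ : Fin k => R3) V) {C : ℝ} (hC : 0 ≤ C)
    (h : ∀ c : Fin k → Fin 3, ‖M fun j => eb (c j)‖ ≤ C) : ‖M‖ ≤ 3 ^ k * C := by
  refine ContinuousMultilinearMap.opNorm_le_bound (by positivity) fun v => ?_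
  have e1 : v = fun j => ∑ i : Fin 3, v j i • eb i := by
    funext j
    have := (EuclideanSpace.basisFun (Fin 3) ℝ).sum_repr (v j)
    simpa [eb] using this.symm
  have e2 : M v = ∑ c : Fin k → Fin 3, (∏ j, v j (c j)) • M fun j => eb (c j) := by
    conv_lhs => rw [e1]
    rw [M.map_sum]
    refine Finset.sum_congr rfl fun c _ => ?_
    exact M.map_smul_univ (fun j => v j (c j)) (fun j => eb (c j))
  rw [e2]
  refine (norm_sum_le _ _).trans ?_
  have e3 : ∀ c ∈ (Finset.univ : Finset (Fin k → Fin 3)),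
      ‖(∏ j, v j (c j)) • M fun j => eb (c j)‖ ≤ (∏ j, ‖v j‖) * C := by
    intro c _
    rw [norm_smul, Real.norm_eq_abs, Finset.abs_prod]
    refine mul_le_mul ?_ (h c) (norm_nonneg _) (Finset.prod_nonneg fun j _ => norm_nonneg _)
    refine Finset.prod_le_prod (fun j _ => abs_nonneg _) fun j _ => ?_
    have := EuclideanSpace.norm_eq (v j)
    have h2 : |v j (c j)| ^ 2 ≤ ‖v j‖ ^ 2 := by
      rw [EuclideanSpace.norm_sq_eq, ]
      have := Finset.single_le_sum (f := fun i => ‖v j i‖ ^ 2) (fun i _ => sq_nonneg _)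
        (Finset.mem_univ (c j))
      simpa using this
    exact abs_le_of_sq_le_sq' h2 (norm_nonneg _) |>.2 |> fun h => by
      simpa using h
  refine (Finset.sum_le_card_nsmul _ _ _ e3).trans ?_
  simp only [Finset.card_univ, Fintype.card_fun, Fintype.card_fin, nsmul_eq_mul]
  push_cast
  exact le_of_eq (by ring)

/-! ### space-time -/

section st
variable {J : Set ℝ}

theorem openJ3 (hJ : IsOpen J) : IsOpen (J ×ˢ (univ : Set R3)) := hJ.prod isOpen_univ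

theorem nhdsJ3 (hJ : IsOpen J) {s : ℝ} (hs : s ∈ J) (y : R3) :
    J ×ˢ (univ : Set R3) ∈ 𝓝 ((s, y) : ℝ × R3) := (openJ3 hJ).mem_nhds ⟨hs, mem_univ _⟩

theorem cdAt3 (hJ : IsOpen J) {n : WithTop ℕ∞} {u : ℝ × R3 → ℝ} (hu : ContDiffOn ℝ n u (J ×ˢ univ))
    {s : ℝ} (hs : s ∈ J) (y : R3) : ContDiffAt ℝ n u (s, y) :=
  hu.contDiffAt (nhdsJ3 hJ hs y)

theorem fd_smooth (hJ : IsOpen J) {u : ℝ × R3 → ℝ} (hu : ContDiffOn ℝ ∞ u (J ×ˢ univ))
    (w : ℝ × R3) : ContDiffOn ℝ ∞ (fun p => fderiv ℝ u p w) (J ×ˢ univ) := by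
  have h1 : ContDiffOn ℝ ∞ (fun p => fderiv ℝ u p) (J ×ˢ univ) :=
    hu.fderiv_of_isOpen (openJ3 hJ) (by simp)
  exact h1.clm_apply contDiffOn_const

theorem ddx_smooth (hJ : IsOpen J) {u : ℝ × R3 → ℝ} (hu : ContDiffOn ℝ ∞ u (J ×ˢ univ))
    (l : List R3) : ContDiffOn ℝ ∞ (ddx l u) (J ×ˢ univ) := by
  induction l with
  | nil => exact hu
  | cons e l ih => exact fd_smooth hJ ih (0, e)

theorem fd_congr (hJ : IsOpen J) {u u' : ℝ × R3 → ℝ}
    (h : ∀ s ∈ J, ∀ y : R3, u (s, y) = u' (s, y)) (w : ℝ × R3) :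
    ∀ s ∈ J, ∀ y : R3, fderiv ℝ u (s, y) w = fderiv ℝ u' (s, y) w := by
  intro s hs y
  have : u =ᶠ[𝓝 ((s, y) : ℝ × R3)] u' := by
    filter_upwards [nhdsJ3 hJ hs y] with p hp
    exact h p.1 hp.1 p.2
  rw [this.fderiv_eq]

theorem ddx_congr (hJ : IsOpen J) {u u' : ℝ × R3 → ℝ}
    (h : ∀ s ∈ J, ∀ y : R3, u (s, y) = u' (s, y)) (l : List R3) :
    ∀ s ∈ J, ∀ y : R3, ddx l u (s, y) = ddx l u' (s, y) := by
  induction l with
  | nil => exact h
  | cons e l ih => exact fd_congr hJ ih (0, e)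

/-- every derivative commutes with the iterated spatial derivatives -/
theorem fd_ddx (hJ : IsOpen J) {u : ℝ × R3 → ℝ} (hu : ContDiffOn ℝ ∞ u (J ×ˢ univ)) (w : ℝ × R3)
    (l : List R3) : ∀ s ∈ J, ∀ y : R3,
      fderiv ℝ (ddx l u) (s, y) w = ddx l (fun p => fderiv ℝ u p w) (s, y) := by
  induction l with
  | nil => intro s _ y; rfl
  | cons e l ih =>
    intro s hs y
    have h2 : ContDiffAt ℝ 2 (ddx l u) (s, y) :=
      (cdAt3 hJ (ddx_smooth hJ hu l) hs y).of_le two_le_inf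
    have h3 := sym2 h2 (0, e) w
    show fderiv ℝ (fun q => fderiv ℝ (ddx l u) q (0, e)) (s, y) w
      = fderiv ℝ (ddx l (fun p => fderiv ℝ u p w)) (s, y) (0, e)
    rw [h3]
    exact fd_congr hJ (u := fun q => fderiv ℝ (ddx l u) q w) ih (0, e) s hs y

theorem ddx_add (hJ : IsOpen J) {u u' : ℝ × R3 → ℝ} (hu : ContDiffOn ℝ ∞ u (J ×ˢ univ))
    (hu' : ContDiffOn ℝ ∞ u' (J ×ˢ univ)) (l : List R3) :
    ∀ s ∈ J, ∀ y : R3, ddx l (fun p => u p + u' p) (s, y) = ddx l u (s, y) + ddx l u' (s, y) := by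
  induction l with
  | nil => intro s _ y; rfl
  | cons e l ih =>
    intro s hs y
    show fderiv ℝ (ddx l fun p => u p + u' p) (s, y) (0, e) = fderiv ℝ (ddx l u) (s, y) (0, e)
      + fderiv ℝ (ddx l u') (s, y) (0, e)
    rw [fd_congr hJ (u' := fun p => ddx l u p + ddx l u' p) (fun s hs y => ih s hs y) (0, e) s hs y,
      fderiv_fun_add ((cdAt3 hJ (ddx_smooth hJ hu l) hs y).differentiableAt (by simp))
        ((cdAt3 hJ (ddx_smooth hJ hu' l) hs y).differentiableAt (by simp))]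
    rfl

theorem ddx_neg (hJ : IsOpen J) {u : ℝ × R3 → ℝ} (l : List R3) :
    ∀ s ∈ J, ∀ y : R3, ddx l (fun p => - u p) (s, y) = - ddx l u (s, y) := by
  induction l with
  | nil => intro s _ y; rfl
  | cons e l ih =>
    intro s hs y
    show fderiv ℝ (ddx l fun p => - u p) (s, y) (0, e) = - fderiv ℝ (ddx l u) (s, y) (0, e)
    rw [fd_congr hJ (u' := fun p => - ddx l u p) (fun s hs y => ih s hs y) (0, e) s hs y,
      fderiv_fun_neg]
    rfl

theorem ddx_sub (hJ : IsOpen J) {u u' : ℝ × R3 → ℝ} (hu : ContDiffOn ℝ ∞ u (J ×ˢ univ))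
    (hu' : ContDiffOn ℝ ∞ u' (J ×ˢ univ)) (l : List R3) :
    ∀ s ∈ J, ∀ y : R3, ddx l (fun p => u p - u' p) (s, y) = ddx l u (s, y) - ddx l u' (s, y) := by
  intro s hs y
  have h1 := ddx_add hJ hu hu'.neg l s hs y
  have h2 := ddx_neg (u := u') hJ l s hs y
  have h3 : (fun p => u p - u' p) = fun p => u p + - u' p := by
    funext p
    ring
  rw [h3]
  refine h1.trans ?_
  rw [sub_eq_add_neg]
  congr 1

theorem ddx_sum (hJ : IsOpen J) {ι : Type*} (S : Finset ι) {u : ι → ℝ × R3 → ℝ}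
    (hu : ∀ i ∈ S, ContDiffOn ℝ ∞ (u i) (J ×ˢ univ)) (l : List R3) :
    ∀ s ∈ J, ∀ y : R3, ddx l (fun p => ∑ i ∈ S, u i p) (s, y) = ∑ i ∈ S, ddx l (u i) (s, y) := by
  induction l with
  | nil => intro s _ y; rfl
  | cons e l ih =>
    intro s hs y
    show fderiv ℝ (ddx l fun p => ∑ i ∈ S, u i p) (s, y) (0, e)
      = ∑ i ∈ S, fderiv ℝ (ddx l (u i)) (s, y) (0, e)
    rw [fd_congr hJ (u' := fun p => ∑ i ∈ S, ddx l (u i) p) (fun s hs y => ih s hs y) (0, e) s hs y,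
      fderiv_fun_sum]
    · simp
    · exact fun i hi => (cdAt3 hJ (ddx_smooth hJ (hu i hi) l) hs y).differentiableAt (by simp)

theorem hasFDerivAt_slice3 (hJ : IsOpen J) {u : ℝ × R3 → ℝ} (hu : ContDiffOn ℝ ∞ u (J ×ˢ univ))
    {s : ℝ} (hs : s ∈ J) (y : R3) :
    HasFDerivAt (fun z : R3 => u (s, z)) ((fderiv ℝ u (s, y)).comp
      ((0 : R3 →L[ℝ] ℝ).prod (ContinuousLinearMap.id ℝ R3))) y := by
  have h1 : HasFDerivAt u (fderiv ℝ u (s, y)) (s, y) :=
    ((cdAt3 hJ hu hs y).differentiableAt (by simp)).hasFDerivAt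
  have h2 : HasFDerivAt (fun z : R3 => ((s, z) : ℝ × R3))
      ((0 : R3 →L[ℝ] ℝ).prod (ContinuousLinearMap.id ℝ R3)) y :=
    (hasFDerivAt_const _ _).prodMk (hasFDerivAt_id y)
  exact h1.comp y h2

theorem slice3_fderiv (hJ : IsOpen J) {u : ℝ × R3 → ℝ} (hu : ContDiffOn ℝ ∞ u (J ×ˢ univ))
    {s : ℝ} (hs : s ∈ J) (y e : R3) :
    fderiv ℝ (fun z : R3 => u (s, z)) y e = fderiv ℝ u (s, y) (0, e) := by
  rw [(hasFDerivAt_slice3 hJ hu hs y).fderiv]
  rfl

theorem slice3_smooth {u : ℝ × R3 → ℝ} (hu : ContDiffOn ℝ ∞ u (J ×ˢ univ))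
    {s : ℝ} (hs : s ∈ J) : ContDiff ℝ ∞ (fun z : R3 => u (s, z)) := by
  rw [← contDiffOn_univ]
  refine hu.comp (contDiff_const.prodMk contDiff_id).contDiffOn ?_
  exact fun z _ => ⟨hs, mem_univ _⟩

theorem ddx_eq (hJ : IsOpen J) {u : ℝ × R3 → ℝ} (hu : ContDiffOn ℝ ∞ u (J ×ˢ univ)) {s : ℝ}
    (hs : s ∈ J) (l : List R3) : ∀ y : R3,
    ddx l u (s, y) = iteratedFDeriv ℝ l.length (fun z : R3 => u (s, z)) y l.get := by
  induction l with
  | nil => intro y; simp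
  | cons e l ih =>
    intro y
    show fderiv ℝ (ddx l u) (s, y) (0, e) = _
    rw [← slice3_fderiv hJ (ddx_smooth hJ hu l) hs y e, show (fun z : R3 => ddx l u (s, z))
      = fun z => iteratedFDeriv ℝ l.length (fun z : R3 => u (s, z)) z l.get from funext ih,
      iter_slice (slice3_smooth hu hs) e l.length l.get y]
    congr 1
    funext i
    refine Fin.cases ?_ (fun j => ?_) i
    · rfl
    · rfl

theorem abs_ddx_le (hJ : IsOpen J) {u : ℝ × R3 → ℝ} (hu : ContDiffOn ℝ ∞ u (J ×ˢ univ)) {s : ℝ}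
    (hs : s ∈ J) (l : List (Fin 3)) (y : R3) :
    |ddx (l.map eb) u (s, y)| ≤ ‖iteratedFDeriv ℝ l.length (fun z : R3 => u (s, z)) y‖ := by
  have key : ∀ (l' : List R3), (∀ e ∈ l', ‖e‖ ≤ 1) → |ddx l' u (s, y)|
      ≤ ‖iteratedFDeriv ℝ l'.length (fun z : R3 => u (s, z)) y‖ := by
    intro l' hl
    rw [ddx_eq hJ hu hs l' y, ← Real.norm_eq_abs]
    refine (ContinuousMultilinearMap.le_opNorm _ _).trans ?_
    refine mul_le_of_le_one_right (norm_nonneg _) ?_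
    exact Finset.prod_le_one (fun i _ => norm_nonneg _) fun i _ => hl _ (List.get_mem _ _)
  have h := key (l.map eb) (by
    intro e he
    obtain ⟨i, -, rfl⟩ := List.mem_map.1 he
    simp [eb])
  rwa [List.length_map] at h

/-- bound of the full derivative of a scalar function by the derivatives along basis vectors -/
theorem norm_iter_le (hJ : IsOpen J) {u : ℝ × R3 → ℝ} (hu : ContDiffOn ℝ ∞ u (J ×ˢ univ)) {s : ℝ}
    (hs : s ∈ J) (y : R3) {k : ℕ} {C : ℝ}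
    (h : ∀ l : List (Fin 3), l.length = k → |ddx (l.map eb) u (s, y)| ≤ C) :
    ‖iteratedFDeriv ℝ k (fun z : R3 => u (s, z)) y‖ ≤ 3 ^ k * C := by
  have hC : 0 ≤ C := (abs_nonneg _).trans (h (List.replicate k 0) (by simp))
  refine norm_le_of_basis _ hC fun c => ?_
  have h1 := h (List.ofFn c) (by simp)
  rw [ddx_eq hJ hu hs _ y] at h1
  have key : ∀ (l' : List R3) (hl : l'.length = k) (hl2 : ∀ j : Fin k, l'.get (j.cast hl.symm)
      = eb (c j)), iteratedFDeriv ℝ l'.length (fun z : R3 => u (s, z)) y l'.get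
      = iteratedFDeriv ℝ k (fun z : R3 => u (s, z)) y fun j => eb (c j) := by
    intro l' hl hl2
    subst hl
    congr 1
    funext j
    exact hl2 j
  rw [key ((List.ofFn c).map eb) (by simp) (by
    intro j
    simp)] at h1
  rw [Real.norm_eq_abs]
  exact h1

end st

/-- components of a vector field -/
theorem norm_iter_vec_le {F : R3 → R3} (hF : ContDiff ℝ ∞ F) (y : R3) {k : ℕ} {C : ℝ}
    (h : ∀ i : Fin 3, ‖iteratedFDeriv ℝ k (fun z => F z i) y‖ ≤ C) :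
    ‖iteratedFDeriv ℝ k F y‖ ≤ 3 * C := by
  have hC : 0 ≤ C := (norm_nonneg _).trans (h 0)
  refine ContinuousMultilinearMap.opNorm_le_bound (by positivity) fun m => ?_
  have hcomp : ∀ i : Fin 3, (iteratedFDeriv ℝ k F y m) i
      = iteratedFDeriv ℝ k (fun z => F z i) y m := by
    intro i
    have h1 := (EuclideanSpace.proj (𝕜 := ℝ) i : R3 →L[ℝ] ℝ).iteratedFDeriv_comp_left
      (f := F) (x := y) (i := k) (n := ∞) hF.contDiffAt (by exact_mod_cast le_top)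
    have h2 : (⇑(EuclideanSpace.proj (𝕜 := ℝ) i : R3 →L[ℝ] ℝ) ∘ F) = fun z => F z i := rfl
    rw [h2] at h1
    rw [h1]
    rfl
  have hn : ∀ w : R3, ‖w‖ ≤ ∑ i, ‖w i‖ := by
    intro w
    have := (EuclideanSpace.basisFun (Fin 3) ℝ).sum_repr w
    calc ‖w‖ = ‖∑ i, w i • eb i‖ := by
          congr 1
          simpa [eb] using this.symm
      _ ≤ ∑ i, ‖w i • eb i‖ := norm_sum_le _ _
      _ = ∑ i, ‖w i‖ := by
          refine Finset.sum_congr rfl fun i _ => ?_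
          rw [norm_smul]
          simp [eb]
  refine (hn _).trans ?_
  have h3 : ∀ i ∈ (Finset.univ : Finset (Fin 3)), ‖(iteratedFDeriv ℝ k F y m) i‖
      ≤ C * ∏ j, ‖m j‖ := by
    intro i _
    rw [hcomp i]
    refine (ContinuousMultilinearMap.le_opNorm _ _).trans ?_
    exact mul_le_mul_of_nonneg_right (h i) (Finset.prod_nonneg fun j _ => norm_nonneg _)
  refine (Finset.sum_le_card_nsmul _ _ _ h3).trans ?_
  simp only [Finset.card_univ, Fintype.card_fin, nsmul_eq_mul]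
  push_cast
  exact le_of_eq (by ring)

theorem norm_iter_comp_le {F : R3 → R3} (hF : ContDiff ℝ ∞ F) (y : R3) (k : ℕ) (i : Fin 3) :
    ‖iteratedFDeriv ℝ k (fun z => F z i) y‖ ≤ ‖iteratedFDeriv ℝ k F y‖ := by
  refine ContinuousMultilinearMap.opNorm_le_bound (norm_nonneg _) fun m => ?_
  have h1 := (EuclideanSpace.proj (𝕜 := ℝ) i : R3 →L[ℝ] ℝ).iteratedFDeriv_comp_left
    (f := F) (x := y) (i := k) (n := ∞) hF.contDiffAt (by exact_mod_cast le_top)
  have h2 : (⇑(EuclideanSpace.proj (𝕜 := ℝ) i : R3 →L[ℝ] ℝ) ∘ F) = fun z => F z i := rfl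
  rw [h2] at h1
  rw [h1]
  show ‖(iteratedFDeriv ℝ k F y m) i‖ ≤ _
  refine le_trans ?_ (ContinuousMultilinearMap.le_opNorm _ _)
  exact PiLp.norm_apply_le _ i

end Crest.Agent.R106.FieldDir
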