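import Crest.Agent.R106.FieldIface

/-!
# Row 106 (helper835): global-in-time version (`J = univ`) of `GSLog`; enough for the standard part
(797's `Std.FBlog`), where everything is smooth on all of `ℝ × ..`.
-/

set_option autoImplicit false
open MeasureTheory Set
open scoped ContDiff InnerProductSpace
open Crest.AnalysisR.VecCalc3 Crest.AnalysisR.PDE.RVM

noncomputable section

namespace Crest.Agent.R106.Field

open Crest.Agent.R106.Gs2 (PS Tr divv dxt mom Wv)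

/-- **GSLogU**: `GSLog` for functions that are smooth on all of `ℝ × ..` and solve the equations at
all times (`J = univ`). -/
def GSLogU : Prop :=
  ∀ (P T : ℝ), 0 < T → ∀ (f₀ : R3 → R3 → ℝ) (E₀ B₀ : R3 → R3),
    ∃ C : ℝ, 0 ≤ C ∧ ∀ (f : ℝ → R3 → R3 → ℝ) (G H : Fin 3 → PS → ℝ)
      (K : Fin 3 → Fin 3 → PS → ℝ) (E B : ℝ → R3 → R3), LinSol P T f₀ E₀ B₀ univ f G E B →
      (∀ i, Continuous (H i)) → (∀ i j, ContDiff ℝ 1 (K i j)) →
      (∀ s : ℝ, ∀ y v : R3, P < ‖v‖ → ∀ i, H i (s, y, v) = 0 ∧ ∀ j, K i j (s, y, v) = 0) →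
      (∀ s : ℝ, ∀ i, ∀ y v : R3,
        Tr (G i) (s, y, v) = H i (s, y, v) + divv (K i) (s, y, v)) →
      ∀ t ∈ Icc 0 T, ∀ (b0 n0 n1 : ℝ) (NG NH : ℝ → ℝ),
        (∀ i, ∀ y v : R3, |G i (0, y, v)| ≤ b0) →
        (∀ s ∈ Icc 0 t, ∀ y v : R3, |f s y v| ≤ n0 ∧ ‖fderiv ℝ (fun z => f s z v) y‖ ≤ n1) →
        (∀ s ∈ Icc 0 t, ∀ i, ∀ y v : R3, |G i (s, y, v)| ≤ NG s) →
        (∀ s ∈ Icc 0 t, ∀ i, ∀ y v : R3, |H i (s, y, v)| ≤ NH s ∧ ∀ j, |K i j (s, y, v)| ≤ NH s) →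
        IntervalIntegrable NG volume 0 t → IntervalIntegrable NH volume 0 t →
        ∀ x : R3, ‖fderiv ℝ (E t) x‖ ≤
            C * (1 + b0 + n0 * Real.log (2 + n1) + (∫ s in (0:ℝ)..t, NG s) +
              ∫ s in (0:ℝ)..t, (t - s) * NH s) ∧
          ‖fderiv ℝ (B t) x‖ ≤
            C * (1 + b0 + n0 * Real.log (2 + n1) + (∫ s in (0:ℝ)..t, NG s) +
              ∫ s in (0:ℝ)..t, (t - s) * NH s)

end Crest.Agent.R106.Field
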