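import Crest.Agent.R106.Gs2Defs

/-!
# Row 106 (helper330): derivatives of the retarded potentials of momentum moments

`Wv (mom m g) t` is differentiable in `x` and the derivative is the retarded potential of the
derivative; higher space derivatives; `SupEst` for higher space derivatives.
-/

set_option autoImplicit false
set_option linter.unusedSectionVars false
set_option maxHeartbeats 4000000
open MeasureTheory Set Filter
open scoped ContDiff Topology
open Crest.AnalysisR.VecCalc3 Crest.AnalysisR.PDE.RVM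

namespace Crest.Agent.R106.FieldK

open Gs2

/-- inclusion of space directions -/
noncomputable def inx : R3 →L[ℝ] PS :=
  (ContinuousLinearMap.inr ℝ ℝ (R3 × R3)).comp (ContinuousLinearMap.inl ℝ R3 R3)

theorem inx_apply (e : R3) : inx e = (0, e, 0) := rfl

theorem dxt_eq (e : R3) (g : PS → ℝ) (p : PS) : dxt 0 e g p = fderiv ℝ g p (inx e) := rfl

/-- `1/|z|` is integrable on balls -/
theorem integrableOn_inv_norm (t : ℝ) :
    IntegrableOn (fun z : R3 => ‖z‖⁻¹) (Metric.ball (0 : R3) t) volume := by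
  have h := integrableOn_fun_norm_addHaar (volume : Measure R3) (f := fun r : ℝ => r⁻¹) (r := t)
  have hd : Module.finrank ℝ R3 = 3 := by simp
  rw [hd] at h
  have h2 : IntegrableOn (fun y : ℝ => y ^ (3 - 1) • y⁻¹) (Ioo 0 t) volume := by
    refine (continuousOn_id.integrableOn_Icc (μ := volume) (a := (0 : ℝ)) (b := t)).mono_set
      Ioo_subset_Icc_self |>.congr_fun (fun y hy => ?_) measurableSet_Ioo
    have : y ≠ 0 := hy.1.ne'
    simp only [id, smul_eq_mul]
    field_simp
  exact h.2 h2

/-- the integration region -/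
def SS (t P : ℝ) : Set (R3 × R3) := Metric.ball 0 t ×ˢ Metric.closedBall 0 P

theorem measurableSet_SS (t P : ℝ) : MeasurableSet (SS t P) :=
  measurableSet_ball.prod measurableSet_closedBall

/-- the weight -/
noncomputable def wt (q : R3 × R3) : ℝ := (4 * Real.pi * ‖q.1‖)⁻¹

theorem wt_nonneg (q : R3 × R3) : 0 ≤ wt q := by unfold wt; positivity

theorem measurable_wt : Measurable wt := by unfold wt; fun_prop

theorem restrict_SS (t P : ℝ) : (volume : Measure (R3 × R3)).restrict (SS t P) =
    ((volume : Measure R3).restrict (Metric.ball 0 t)).prod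
      ((volume : Measure R3).restrict (Metric.closedBall 0 P)) := by
  rw [Measure.prod_restrict]; rfl

instance fin_cb (P : ℝ) :
    IsFiniteMeasure ((volume : Measure R3).restrict (Metric.closedBall 0 P)) :=
  ⟨by rw [Measure.restrict_apply_univ]; exact measure_closedBall_lt_top⟩

theorem integrable_wt (t P : ℝ) : Integrable wt (volume.restrict (SS t P)) := by
  rw [restrict_SS]
  have h1 : Integrable (fun z : R3 => (4 * Real.pi)⁻¹ * ‖z‖⁻¹)
      ((volume : Measure R3).restrict (Metric.ball 0 t)) := (integrableOn_inv_norm t).const_mul _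
  have h2 : Integrable (fun _ : R3 => (1 : ℝ))
      ((volume : Measure R3).restrict (Metric.closedBall 0 P)) := integrable_const _
  refine (h1.mul_prod h2).congr (Filter.Eventually.of_forall fun q => ?_)
  simp only [wt, mul_one, mul_inv]

variable {Y : Type} [NormedAddCommGroup Y] [NormedSpace ℝ Y]

theorem integrable_wt_smul {t P : ℝ} {φ : R3 × R3 → Y} {M : ℝ}
    (hφ : AEStronglyMeasurable φ (volume.restrict (SS t P))) (hM : ∀ q ∈ SS t P, ‖φ q‖ ≤ M) :
    Integrable (fun q => wt q • φ q) (volume.restrict (SS t P)) := by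
  refine ((integrable_wt t P).mul_const M).mono'
    (measurable_wt.aestronglyMeasurable.smul hφ) ?_
  filter_upwards [ae_restrict_mem (measurableSet_SS t P)] with q hq
  rw [norm_smul, Real.norm_of_nonneg (wt_nonneg q)]
  exact mul_le_mul_of_nonneg_left (hM q hq) (wt_nonneg q)

/-- the backward cone point -/
noncomputable def cp (t : ℝ) (x : R3) (q : R3 × R3) : PS := (t - ‖q.1‖, x + q.1, q.2)

theorem continuous_cp (t : ℝ) : Continuous fun p : R3 × (R3 × R3) => cp t p.1 p.2 := by
  unfold cp; fun_prop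

/-- compact set containing the cone points -/
def KK (t P : ℝ) (x : R3) : Set PS :=
  Icc 0 t ×ˢ (Metric.closedBall x (1 + t) ×ˢ Metric.closedBall 0 P)

theorem isCompact_KK (t P : ℝ) (x : R3) : IsCompact (KK t P x) :=
  isCompact_Icc.prod ((isCompact_closedBall _ _).prod (isCompact_closedBall _ _))

theorem cp_mem {t P : ℝ} {x y : R3} (hy : y ∈ Metric.ball x 1) {q : R3 × R3} (hq : q ∈ SS t P) :
    cp t y q ∈ KK t P x := by
  obtain ⟨h1, h2⟩ := hq
  rw [mem_ball_zero_iff] at h1
  refine ⟨⟨by simpa [cp] using h1.le, by simp [cp]⟩, ?_, h2⟩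
  rw [mem_ball_iff_norm] at hy
  rw [mem_closedBall_iff_norm]
  calc ‖y + q.1 - x‖ = ‖(y - x) + q.1‖ := by congr 1; abel
    _ ≤ ‖y - x‖ + ‖q.1‖ := norm_add_le _ _
    _ ≤ 1 + t := by linarith

theorem KK_subset {J : Set ℝ} {t : ℝ} (h : Icc 0 t ⊆ J) (P : ℝ) (x : R3) :
    KK t P x ⊆ J ×ˢ univ := fun _ hp => ⟨h hp.1, trivial⟩

/-- measurability along the cone -/
theorem aesm_cp {J : Set ℝ} {t P : ℝ} (h : Icc 0 t ⊆ J) {φ : PS → Y}
    (hφ : ContinuousOn φ (J ×ˢ univ)) (x : R3) :
    AEStronglyMeasurable (fun q => φ (cp t x q)) (volume.restrict (SS t P)) := by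
  refine ContinuousOn.aestronglyMeasurable ?_ (measurableSet_SS t P)
  refine hφ.comp (f := fun q => cp t x q) (by unfold cp; fun_prop) fun q hq => ?_
  exact KK_subset h P x (cp_mem (Metric.mem_ball_self one_pos) hq)

/-- the potential of a moment as one integral over `SS` -/
theorem Wv_mom_eq {m : R3 → ℝ} (hm : Continuous m) {J : Set ℝ} {t P : ℝ} (h : Icc 0 t ⊆ J)
    {g : PS → ℝ} (hg : ContinuousOn g (J ×ˢ univ))
    (hs : ∀ s ∈ J, ∀ y v : R3, P < ‖v‖ → g (s, y, v) = 0) (x : R3) :
    Wv (mom m g) t x = ∫ q in SS t P, wt q • (m q.2 * g (cp t x q)) := by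
  have hmg : ContinuousOn (fun p : PS => m p.2.2 * g p) (J ×ˢ univ) :=
    (hm.comp (by fun_prop)).continuousOn.mul hg
  obtain ⟨M, hM⟩ := (isCompact_KK t P x).exists_bound_of_continuousOn
    (hmg.mono (KK_subset h P x))
  have hint : Integrable (fun q => wt q • (m q.2 * g (cp t x q)))
      (volume.restrict (SS t P)) :=
    integrable_wt_smul (aesm_cp h hmg x)
      (fun q hq => hM _ (cp_mem (Metric.mem_ball_self one_pos) hq))
  rw [restrict_SS] at hint ⊢
  rw [integral_prod _ hint]
  unfold Wv mom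
  refine setIntegral_congr_fun measurableSet_ball fun z hz => ?_
  have hz' : t - ‖z‖ ∈ J := by
    rw [mem_ball_zero_iff] at hz
    exact h ⟨by linarith, by linarith [norm_nonneg z]⟩
  simp only [wt, cp, smul_eq_mul]
  rw [integral_const_mul, div_eq_inv_mul]
  congr 1
  rw [setIntegral_eq_integral_of_forall_compl_eq_zero]
  intro v hv
  rw [mem_closedBall_zero_iff, not_le] at hv
  rw [hs _ hz' _ _ hv, mul_zero]

/-- **the space derivative of the potential of a moment** -/
theorem hasFDerivAt_Wv {m : R3 → ℝ} (hm : Continuous m) {J : Set ℝ} (hJ : IsOpen J) {t P : ℝ}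
    (h : Icc 0 t ⊆ J) {g : PS → ℝ} (hg : ContDiffOn ℝ 1 g (J ×ˢ univ))
    (hs : ∀ s ∈ J, ∀ y v : R3, P < ‖v‖ → g (s, y, v) = 0) (x : R3) :
    HasFDerivAt (fun x => Wv (mom m g) t x)
      (∫ q in SS t P, wt q • (m q.2 • (fderiv ℝ g (cp t x q)).comp inx)) x := by
  have hO : IsOpen (J ×ˢ (univ : Set (R3 × R3))) := hJ.prod isOpen_univ
  have hg' : ContinuousOn (fderiv ℝ g) (J ×ˢ univ) := hg.continuousOn_fderiv_of_isOpen hO le_rfl
  have hF' : ContinuousOn (fun p : PS => m p.2.2 • (fderiv ℝ g p).comp inx) (J ×ˢ univ) := by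
    refine ContinuousOn.smul (hm.comp (by fun_prop)).continuousOn ?_
    exact (ContinuousLinearMap.compL ℝ R3 PS ℝ).flip inx |>.continuous.comp_continuousOn hg'
  obtain ⟨M, hM⟩ := (isCompact_KK t P x).exists_bound_of_continuousOn
    (hF'.mono (KK_subset h P x))
  have hmg : ContinuousOn (fun p : PS => m p.2.2 * g p) (J ×ˢ univ) :=
    (hm.comp (by fun_prop)).continuousOn.mul hg.continuousOn
  obtain ⟨M', hM'⟩ := (isCompact_KK t P x).exists_bound_of_continuousOn
    (hmg.mono (KK_subset h P x))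
  have key := hasFDerivAt_integral_of_dominated_of_fderiv_le (𝕜 := ℝ)
    (μ := volume.restrict (SS t P)) (F := fun y q => wt q • (m q.2 * g (cp t y q)))
    (F' := fun y q => wt q • (m q.2 • (fderiv ℝ g (cp t y q)).comp inx))
    (x₀ := x) (s := Metric.ball x 1) (bound := fun q => wt q * M)
    (Metric.ball_mem_nhds x one_pos)
    (Filter.Eventually.of_forall fun y =>
      measurable_wt.aestronglyMeasurable.smul (aesm_cp h hmg y))
    (integrable_wt_smul (aesm_cp h hmg x)
      (fun q hq => hM' _ (cp_mem (Metric.mem_ball_self one_pos) hq)))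
    (measurable_wt.aestronglyMeasurable.smul (aesm_cp h hF' x)) ?_
    ((integrable_wt t P).mul_const M) ?_
  · refine key.congr_of_eventuallyEq (Filter.Eventually.of_forall fun y => ?_)
    exact Wv_mom_eq hm h hg.continuousOn hs y
  · filter_upwards [ae_restrict_mem (measurableSet_SS t P)] with q hq y hy
    rw [norm_smul, Real.norm_of_nonneg (wt_nonneg q)]
    exact mul_le_mul_of_nonneg_left (hM _ (cp_mem hy hq)) (wt_nonneg q)
  · filter_upwards [ae_restrict_mem (measurableSet_SS t P)] with q hq y hy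
    have hmem : cp t y q ∈ J ×ˢ (univ : Set (R3 × R3)) := KK_subset h P x (cp_mem hy hq)
    have hgd : HasFDerivAt g (fderiv ℝ g (cp t y q)) (cp t y q) :=
      ((hg.differentiableOn one_ne_zero).differentiableAt (hO.mem_nhds hmem)).hasFDerivAt
    have hcp : HasFDerivAt (fun y : R3 => cp t y q) inx y := by
      have : HasFDerivAt (fun y : R3 => inx y + ((t - ‖q.1‖, q.1, q.2) : PS)) inx y :=
        (inx.hasFDerivAt).add_const _
      refine this.congr_of_eventuallyEq (Filter.Eventually.of_forall fun z => ?_)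
      show ((t - ‖q.1‖, z + q.1, q.2) : PS) = inx z + ((t - ‖q.1‖, q.1, q.2) : PS)
      rw [inx_apply]
      simp only [Prod.mk_add_mk, zero_add]
    exact ((hgd.comp y hcp).const_smul (m q.2)).const_smul (wt q)

/-- directional form -/
theorem fderiv_Wv {m : R3 → ℝ} (hm : Continuous m) {J : Set ℝ} (hJ : IsOpen J) {t P : ℝ}
    (h : Icc 0 t ⊆ J) {g : PS → ℝ} (hg : ContDiffOn ℝ 1 g (J ×ˢ univ))
    (hs : ∀ s ∈ J, ∀ y v : R3, P < ‖v‖ → g (s, y, v) = 0) (x e : R3) :
    fderiv ℝ (fun x => Wv (mom m g) t x) x e = Wv (mom m (dxt 0 e g)) t x := by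
  have hO : IsOpen (J ×ˢ (univ : Set (R3 × R3))) := hJ.prod isOpen_univ
  have hg' : ContinuousOn (fderiv ℝ g) (J ×ˢ univ) := hg.continuousOn_fderiv_of_isOpen hO le_rfl
  have hF' : ContinuousOn (fun p : PS => m p.2.2 • (fderiv ℝ g p).comp inx) (J ×ˢ univ) := by
    refine ContinuousOn.smul (hm.comp (by fun_prop)).continuousOn ?_
    exact (ContinuousLinearMap.compL ℝ R3 PS ℝ).flip inx |>.continuous.comp_continuousOn hg'
  obtain ⟨M, hM⟩ := (isCompact_KK t P x).exists_bound_of_continuousOn
    (hF'.mono (KK_subset h P x))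
  have hi : Integrable (fun q => wt q • (m q.2 • (fderiv ℝ g (cp t x q)).comp inx))
      (volume.restrict (SS t P)) :=
    integrable_wt_smul (aesm_cp h hF' x)
      (fun q hq => hM _ (cp_mem (Metric.mem_ball_self one_pos) hq))
  rw [(hasFDerivAt_Wv hm hJ h hg hs x).fderiv, ContinuousLinearMap.integral_apply hi]
  have hc : ContinuousOn (dxt 0 e g) (J ×ˢ univ) := by
    have := hg'.clm_apply (continuousOn_const (c := inx e))
    exact this
  have hs' : ∀ s ∈ J, ∀ y v : R3, P < ‖v‖ → dxt 0 e g (s, y, v) = 0 := by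
    intro s hsJ y v hv
    have hO2 : IsOpen {p : PS | p.1 ∈ J ∧ P < ‖p.2.2‖} :=
      (hJ.preimage continuous_fst).inter
        (isOpen_lt continuous_const (continuous_norm.comp (continuous_snd.comp continuous_snd)))
    have he : g =ᶠ[𝓝 ((s, y, v) : PS)] fun _ => 0 := by
      filter_upwards [hO2.mem_nhds ⟨hsJ, hv⟩] with p hp
      exact hs p.1 hp.1 p.2.1 p.2.2 hp.2
    unfold dxt
    rw [he.fderiv_eq]
    simp
  rw [Wv_mom_eq hm h hc hs' x]
  rfl

end Crest.Agent.R106.FieldK
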