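import Crest.Agent.R106.FieldWave
import Crest.Agent.R106.FieldIfaceU
import Crest.Agent.R106.Src2

/-!
# Row 106 (helper835): from `LinSol` to wave equations for the components and their derivatives.
-/

set_option autoImplicit false
open MeasureTheory Set Filter Topology
open scoped ContDiff InnerProductSpace
open Crest.AnalysisR.VecCalc3 Crest.AnalysisR.PDE.RVM

noncomputable section

namespace Crest.Agent.R106.Field

open Crest.Agent.R106.GSR (pt px box cmp unc)
open Crest.Agent.R106.Gs2 (PS Tr divv dxt mom Wv ev)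

/-! ### components -/

section comp

variable {U : ℝ → R3 → R3} {J : Set ℝ}

theorem sm_cmp (hU : ContDiffOn ℝ ∞ (fun p : ℝ × R3 => U p.1 p.2) (J ×ˢ univ)) (i : Fin 3) :
    ContDiffOn ℝ ∞ (cmp U i) (J ×ˢ univ) :=
  (EuclideanSpace.proj i : R3 →L[ℝ] ℝ).contDiff.comp_contDiffOn hU

theorem deriv_eq_pt {u : ℝ × R3 → ℝ} {s : ℝ} {x : R3} (hu : DifferentiableAt ℝ u (s, x)) :
    deriv (fun r => u (r, x)) s = pt u (s, x) := by
  have hc : HasDerivAt (fun r : ℝ => ((r, x) : ℝ × R3)) (1, 0) s :=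
    (hasDerivAt_id s).prodMk (hasDerivAt_const s x)
  have := hu.hasFDerivAt.comp_hasDerivAt s hc
  exact this.deriv

theorem fderiv_slice {u : ℝ × R3 → ℝ} {s : ℝ} {x : R3} (hu : DifferentiableAt ℝ u (s, x)) (b : R3) :
    fderiv ℝ (fun y => u (s, y)) x b = fderiv ℝ u (s, x) (0, b) := by
  have hc : HasFDerivAt (fun y : R3 => ((s, y) : ℝ × R3)) (ContinuousLinearMap.inr ℝ ℝ R3) x :=
    (hasFDerivAt_const s x).prodMk (hasFDerivAt_id x)
  have := hu.hasFDerivAt.comp x hc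
  rw [show (fun y => u (s, y)) = u ∘ (fun y : R3 => ((s, y) : ℝ × R3)) from rfl, this.fderiv]
  simp

theorem pderiv_eq_px {u : ℝ × R3 → ℝ} {s : ℝ} {x : R3} (hu : DifferentiableAt ℝ u (s, x))
    (k : Fin 3) : pderiv (fun y => u (s, y)) k x = px k u (s, x) :=
  fderiv_slice hu _

theorem curl3_apply (F : R3 → R3) (x : R3) (i : Fin 3) :
    curl3 F x i = pderiv (fun y => F y (i + 2)) (i + 1) x - pderiv (fun y => F y (i + 1)) (i + 2) x := by
  fin_cases i <;> simp [curl3]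

theorem curl3_eq (hJ : IsOpen J)
    (hU : ContDiffOn ℝ ∞ (fun p : ℝ × R3 => U p.1 p.2) (J ×ˢ univ)) {q : ℝ × R3}
    (hq : q ∈ J ×ˢ (univ : Set R3)) (i : Fin 3) : curl3 (U q.1) q.2 i = curlc (cmp U) i q := by
  have hd : ∀ k, DifferentiableAt ℝ (cmp U k) (q.1, q.2) := fun k =>
    diffAt (hJ.prod isOpen_univ) (sm_cmp hU k) hq
  rw [curl3_apply]
  unfold curlc
  rw [← pderiv_eq_px (hd (i + 2)) (i + 1), ← pderiv_eq_px (hd (i + 1)) (i + 2)]
  rfl

end comp

/-! ### phase space functions and moments -/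

/-- smooth phase space function with momentum support in the ball of radius `P` -/
structure SmV (P : ℝ) (J : Set ℝ) (g : PS → ℝ) : Prop where
  isOpen : IsOpen J
  sm : ContDiffOn ℝ ∞ g (J ×ˢ univ)
  supp : ∀ s ∈ J, ∀ y v : R3, P < ‖v‖ → g (s, y, v) = 0

/-- moment as a function on space-time -/
def momq (m : R3 → ℝ) (g : PS → ℝ) (q : ℝ × R3) : ℝ := mom m g q.1 q.2

section moments

variable {P : ℝ} {J : Set ℝ} {g : PS → ℝ} {m : R3 → ℝ}

theorem SmV.vsupp (h : SmV P J g) : Src.VSupp (fun t x v => g (t, x, v)) J :=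
  fun t ht => ⟨J, h.isOpen.mem_nhds ht, P, fun t' ht' x v hv => h.supp t' ht' x v hv⟩

theorem SmV.dir (h : SmV P J g) (a : PS) : SmV P J (dd a g) := by
  refine ⟨h.isOpen, contDiffOn_dd (h.isOpen.prod isOpen_univ) h.sm a, ?_⟩
  intro s hs y v hv
  have hU : {p : PS | p.1 ∈ J ∧ P < ‖p.2.2‖} ∈ 𝓝 ((s, y, v) : PS) := by
    refine IsOpen.mem_nhds ?_ ⟨hs, hv⟩
    exact (h.isOpen.preimage continuous_fst).inter
      (isOpen_lt continuous_const (continuous_norm.comp (continuous_snd.comp continuous_snd)))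
  have h0 : g =ᶠ[𝓝 ((s, y, v) : PS)] fun _ => (0 : ℝ) := by
    filter_upwards [hU] with p hp
    exact h.supp p.1 hp.1 p.2.1 p.2.2 hp.2
  show fderiv ℝ g _ a = 0
  rw [h0.fderiv_eq]
  simp

theorem SmV.dx (h : SmV P J g) (a : ℝ) (b : R3) : SmV P J (Gs2.dxt a b g) := h.dir (a, b, 0)

theorem SmV.sm_mom (h : SmV P J g) (hm : ContDiff ℝ ∞ m) :
    ContDiffOn ℝ ∞ (momq m g) (J ×ˢ univ) :=
  Src.contDiffOn_mom hm h.isOpen h.sm h.vsupp

theorem SmV.dd_mom (h : SmV P J g) (hm : ContDiff ℝ ∞ m) (a : ℝ) (b : R3) {q : ℝ × R3}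
    (hq : q ∈ J ×ˢ (univ : Set R3)) : dd (a, b) (momq m g) q = momq m (dxt a b g) q :=
  Src.fderiv_mom (hm.of_le (by simp)) h.isOpen (h.sm.of_le (by simp)) h.vsupp hq.1 q.2 a b

end moments

/-- weight of the current density -/
def wj (i : Fin 3) (v : R3) : ℝ := relVel v i

theorem contDiff_wj (i : Fin 3) : ContDiff ℝ ∞ (wj i) :=
  (EuclideanSpace.proj i : R3 →L[ℝ] ℝ).contDiff.comp Src.contDiff_relVel

/-- weight of the charge density -/
def w1 (_ : R3) : ℝ := 1

theorem contDiff_w1 : ContDiff ℝ ∞ w1 := contDiff_const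

/-! ### commutation of `box` -/

section box

variable {J : Set ℝ} {u w : ℝ × R3 → ℝ}

theorem box_dd (hJ : IsOpen J) (hu : ContDiffOn ℝ ∞ u (J ×ˢ univ)) (a : ℝ × R3) {q : ℝ × R3}
    (hq : q ∈ J ×ˢ (univ : Set R3)) : box (dd a u) q = dd a (box u) q := by
  have hΩ := hJ.prod (isOpen_univ (X := R3))
  have key : ∀ b : ℝ × R3, dd b (dd b (dd a u)) q = dd a (dd b (dd b u)) q := by
    intro b
    have e1 : dd b (dd b (dd a u)) q = dd b (dd a (dd b u)) q :=
      dd_congr hΩ (fun p hp => dd_comm hΩ hu b a hp) b hq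
    rw [e1, dd_comm hΩ (contDiffOn_dd hΩ hu b) b a hq]
  have hs : ∀ b : ℝ × R3, ContDiffOn ℝ ∞ (dd b (dd b u)) (J ×ˢ univ) := fun b =>
    contDiffOn_dd hΩ (contDiffOn_dd hΩ hu b) b
  have h2 : dd a (box u) q = dd a (pt (pt u)) q - ∑ j, dd a (px j (px j u)) q := by
    have : dd a (box u) q = dd a (fun p => pt (pt u) p - ∑ j, px j (px j u) p) q := rfl
    have d1 : DifferentiableAt ℝ (pt (pt u)) q := diffAt hΩ (hs (1, 0)) hq
    have d2 : ∀ j, DifferentiableAt ℝ (px j (px j u)) q := fun j =>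
      diffAt hΩ (hs (0, EuclideanSpace.single j 1)) hq
    have d3 : DifferentiableAt ℝ (fun p => ∑ j, px j (px j u) p) q :=
      DifferentiableAt.fun_sum fun j _ => d2 j
    rw [this, dd_sub d1 d3, dd_sum _ (fun j _ => d2 j)]
  rw [h2]
  unfold box
  congr 1
  · exact key (1, 0)
  · exact Finset.sum_congr rfl fun j _ => key (0, EuclideanSpace.single j 1)

end box

namespace LinSol

variable {P T : ℝ} {f₀ : R3 → R3 → ℝ} {E₀ B₀ : R3 → R3} {J : Set ℝ}
  {f : ℝ → R3 → R3 → ℝ} {G : Fin 3 → PS → ℝ} {E B : ℝ → R3 → R3}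

theorem smV (h : LinSol P T f₀ E₀ B₀ J f G E B) : SmV P J (unc f) := ⟨h.isOpen, h.smf, h.suppf⟩

theorem smVG (h : LinSol P T f₀ E₀ B₀ J f G E B) (i : Fin 3) : SmV P J (G i) :=
  ⟨h.isOpen, h.smG i, fun s hs y v hv => h.suppG s hs y v hv i⟩

theorem charge_eq (f : ℝ → R3 → R3 → ℝ) (t : ℝ) (x : R3) :
    chargeDensity f t x = momq w1 (unc f) (t, x) := by
  simp [chargeDensity, momq, mom, w1, unc]

theorem continuous_slice (h : SmV P J (unc f)) {t : ℝ} (ht : t ∈ J) (x : R3) :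
    Continuous (fun v => f t x v) := by
  have h1 := h.sm.continuousOn
  have : ContinuousOn (fun v : R3 => unc f (t, x, v)) univ :=
    h1.comp (by fun_prop) (fun v _ => ⟨ht, trivial⟩)
  exact continuousOn_univ.1 this

theorem hasCompactSupport_slice (h : SmV P J (unc f)) {t : ℝ} (ht : t ∈ J) (x : R3) :
    HasCompactSupport (fun v => f t x v) := by
  refine HasCompactSupport.intro (isCompact_closedBall (0 : R3) P) ?_
  intro v hv
  rw [mem_closedBall_zero_iff, not_le] at hv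
  exact h.supp t ht x v hv

theorem current_eq (h : SmV P J (unc f)) {t : ℝ} (ht : t ∈ J) (x : R3) (i : Fin 3) :
    currentDensity f t x i = momq (wj i) (unc f) (t, x) := by
  have hint : Integrable (fun v => f t x v • relVel v) :=
    Continuous.integrable_of_hasCompactSupport
      ((continuous_slice h ht x).smul (Src.contDiff_relVel (n := 0)).continuous)
      ((hasCompactSupport_slice h ht x).smul_right)
  have h1 : (EuclideanSpace.proj i : R3 →L[ℝ] ℝ) (∫ v, f t x v • relVel v) =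
      ∫ v, (EuclideanSpace.proj i : R3 →L[ℝ] ℝ) (f t x v • relVel v) :=
    (ContinuousLinearMap.integral_comp_comm _ hint).symm
  show (EuclideanSpace.proj i : R3 →L[ℝ] ℝ) (∫ v, f t x v • relVel v) = _
  rw [h1]
  simp [momq, mom, wj, unc, mul_comm]

theorem maxC (h : LinSol P T f₀ E₀ B₀ J f G E B) :
    MaxC J (cmp E) (cmp B) (momq w1 (unc f)) (fun i => momq (wj i) (unc f)) where
  isOpen := h.isOpen
  smE := sm_cmp h.smE
  smB := sm_cmp h.smB
  smρ := h.smV.sm_mom contDiff_w1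
  smj := fun i => h.smV.sm_mom (contDiff_wj i)
  amp := by
    intro i q hq
    have hΩ := h.isOpen.prod (isOpen_univ (X := R3))
    have h1 := h.ampere q.1 hq.1 q.2 i
    rw [curl3_eq h.isOpen h.smB hq, current_eq h.smV hq.1] at h1
    have h2 : deriv (fun r => E r q.2 i) q.1 = pt (cmp E i) q :=
      deriv_eq_pt (u := cmp E i) (diffAt hΩ (sm_cmp h.smE i) hq)
    rw [h2] at h1
    linarith
  far := by
    intro i q hq
    have hΩ := h.isOpen.prod (isOpen_univ (X := R3))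
    have h1 := h.faraday q.1 hq.1 q.2 i
    rw [curl3_eq h.isOpen h.smE hq] at h1
    have h2 : deriv (fun r => B r q.2 i) q.1 = pt (cmp B i) q :=
      deriv_eq_pt (u := cmp B i) (diffAt hΩ (sm_cmp h.smB i) hq)
    rw [h2] at h1
    linarith
  gau := by
    intro q hq
    have hΩ := h.isOpen.prod (isOpen_univ (X := R3))
    have h1 := h.gauss q.1 hq.1 q.2
    rw [charge_eq] at h1
    rw [← h1]
    exact Finset.sum_congr rfl fun i _ =>
      (pderiv_eq_px (u := cmp E i) (diffAt hΩ (sm_cmp h.smE i) hq) i).symm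
  gauB := by
    intro q hq
    have hΩ := h.isOpen.prod (isOpen_univ (X := R3))
    have h1 := h.gaussB q.1 hq.1 q.2
    rw [← h1]
    exact Finset.sum_congr rfl fun i _ =>
      (pderiv_eq_px (u := cmp B i) (diffAt hΩ (sm_cmp h.smB i) hq) i).symm

end LinSol

/-- the `i`-th basis vector -/
abbrev eb (i : Fin 3) : R3 := EuclideanSpace.single i (1 : ℝ)

section wave

variable {P : ℝ} {J : Set ℝ} {F : PS → ℝ} {E B : Fin 3 → ℝ × R3 → ℝ}

/-- wave equation for the derivative of `E_i` in the space direction `e` -/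
theorem box_ddE (hF : SmV P J F) (h : MaxC J E B (momq w1 F) (fun i => momq (wj i) F)) (e : R3)
    (i : Fin 3) {q : ℝ × R3} (hq : q ∈ J ×ˢ (univ : Set R3)) :
    box (dd (0, e) (E i)) q =
      - momq w1 (dxt 0 (eb i) (dxt 0 e F)) q - momq (wj i) (dxt 1 0 (dxt 0 e F)) q := by
  have hJ := h.isOpen
  have hΩ := hJ.prod (isOpen_univ (X := R3))
  rw [box_dd hJ (h.smE i) _ hq]
  have h1 : dd (0, e) (box (E i)) q =
      dd (0, e) (fun p => - px i (momq w1 F) p - pt (momq (wj i) F) p) q :=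
    dd_congr hΩ (fun p hp => h.boxE i hp) _ hq
  have d1 : DifferentiableAt ℝ (px i (momq w1 F)) q := diffAt hΩ (sm_px hJ h.smρ i) hq
  have d2 : DifferentiableAt ℝ (pt (momq (wj i) F)) q := diffAt hΩ (sm_pt hJ (h.smj i)) hq
  have h2 : dd (0, e) (px i (momq w1 F)) q = momq w1 (dxt 0 (eb i) (dxt 0 e F)) q := by
    have e1 : dd (0, e) (px i (momq w1 F)) q = px i (dd (0, e) (momq w1 F)) q :=
      dd_comm hΩ h.smρ _ _ hq
    have e2 : px i (dd (0, e) (momq w1 F)) q = px i (momq w1 (dxt 0 e F)) q :=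
      dd_congr hΩ (fun p hp => hF.dd_mom contDiff_w1 0 e hp) _ hq
    rw [e1, e2]
    exact (hF.dx 0 e).dd_mom contDiff_w1 0 (eb i) hq
  have h3 : dd (0, e) (pt (momq (wj i) F)) q = momq (wj i) (dxt 1 0 (dxt 0 e F)) q := by
    have e1 : dd (0, e) (pt (momq (wj i) F)) q = pt (dd (0, e) (momq (wj i) F)) q :=
      dd_comm hΩ (h.smj i) _ _ hq
    have e2 : pt (dd (0, e) (momq (wj i) F)) q = pt (momq (wj i) (dxt 0 e F)) q :=
      dd_congr hΩ (fun p hp => hF.dd_mom (contDiff_wj i) 0 e hp) _ hq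
    rw [e1, e2]
    exact (hF.dx 0 e).dd_mom (contDiff_wj i) 1 0 hq
  rw [h1, dd_sub (u := fun p => - px i (momq w1 F) p) d1.neg d2, dd_neg, h2, h3]

/-- wave equation for the derivative of `B_i` in the space direction `e` -/
theorem box_ddB (hF : SmV P J F) (h : MaxC J E B (momq w1 F) (fun i => momq (wj i) F)) (e : R3)
    (i : Fin 3) {q : ℝ × R3} (hq : q ∈ J ×ˢ (univ : Set R3)) :
    box (dd (0, e) (B i)) q =
      momq (wj (i + 2)) (dxt 0 (eb (i + 1)) (dxt 0 e F)) q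
        - momq (wj (i + 1)) (dxt 0 (eb (i + 2)) (dxt 0 e F)) q := by
  have hJ := h.isOpen
  have hΩ := hJ.prod (isOpen_univ (X := R3))
  rw [box_dd hJ (h.smB i) _ hq]
  have h1 : dd (0, e) (box (B i)) q = dd (0, e) (curlc (fun i => momq (wj i) F) i) q :=
    dd_congr hΩ (fun p hp => h.boxB i hp) _ hq
  rw [h1, dd_curlc hJ h.smj i _ hq]
  have h2 : ∀ k l : Fin 3, px l (dd (0, e) (momq (wj k) F)) q =
      momq (wj k) (dxt 0 (eb l) (dxt 0 e F)) q := by
    intro k l
    have e2 : px l (dd (0, e) (momq (wj k) F)) q = px l (momq (wj k) (dxt 0 e F)) q :=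
      dd_congr hΩ (fun p hp => hF.dd_mom (contDiff_wj k) 0 e hp) _ hq
    rw [e2]
    exact (hF.dx 0 e).dd_mom (contDiff_wj k) 0 (eb l) hq
  unfold curlc
  rw [h2, h2]

end wave

end Crest.Agent.R106.Field
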