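import Crest.Agent.R106.FieldLin
import Crest.Agent.R106.KirRep
import Crest.Agent.R106.KirSm

/-!
# Row 106 (helper835): `GSLogU` from `Gs2.GradEst` and Kirchhoff's formula.
-/

set_option autoImplicit false
open MeasureTheory Set Filter Topology
open scoped ContDiff InnerProductSpace
open Crest.AnalysisR.VecCalc3 Crest.AnalysisR.PDE.RVM

noncomputable section

namespace Crest.Agent.R106.Field

open Crest.Agent.R106.GSR (pt px box cmp unc)
open Crest.Agent.R106.Gs2 (PS Tr divv dxt mom Wv ev)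

/-- A continuous function on phase space-time, with bounded support on `[0,T]`, which is bounded by
`c` at time `0`, is bounded by `c + 1` for a short time. -/
theorem short_time {h : PS → ℝ} (hh : Continuous h) {T R P c : ℝ} (hc : 0 ≤ c)
    (hs : ∀ s ∈ Icc 0 T, ∀ y v : R3, R < ‖y‖ ∨ P < ‖v‖ → h (s, y, v) = 0)
    (h0 : ∀ y v : R3, |h (0, y, v)| ≤ c) :
    ∃ δ : ℝ, 0 < δ ∧ ∀ s ∈ Icc 0 (min T δ), ∀ y v : R3, |h (s, y, v)| ≤ c + 1 := by
  set n : Set (ℝ × (R3 × R3)) := {p | |h p| < c + 1} with hn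
  have hno : IsOpen n := isOpen_lt (hh.abs) continuous_const
  have hsub : ({0} : Set ℝ) ×ˢ (Metric.closedBall (0 : R3) R ×ˢ Metric.closedBall (0 : R3) P) ⊆ n := by
    rintro ⟨s, y, v⟩ ⟨hs0, -⟩
    have : s = 0 := hs0
    subst this
    exact (h0 y v).trans_lt (by linarith)
  obtain ⟨u, w, hu, -, h0u, hKw, huw⟩ := generalized_tube_lemma isCompact_singleton
    ((isCompact_closedBall (0 : R3) R).prod (isCompact_closedBall (0 : R3) P)) hno hsub
  have h0u' : (0 : ℝ) ∈ u := h0u rfl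
  obtain ⟨δ, hδ, hδu⟩ := Metric.isOpen_iff.1 hu 0 h0u'
  refine ⟨δ / 2, by positivity, ?_⟩
  intro s hs' y v
  have hs1 : s ∈ Icc 0 T := ⟨hs'.1, hs'.2.trans (min_le_left _ _)⟩
  have hs2 : s ≤ δ / 2 := hs'.2.trans (min_le_right _ _)
  by_cases hyv : R < ‖y‖ ∨ P < ‖v‖
  · rw [hs s hs1 y v hyv, abs_zero]; linarith
  · push Not at hyv
    have hsu : s ∈ u := hδu (by
      rw [Metric.mem_ball, Real.dist_eq, sub_zero, abs_of_nonneg hs'.1]; linarith)
    have : (s, y, v) ∈ n := huw ⟨hsu, hKw ⟨by simpa using hyv.1, by simpa using hyv.2⟩⟩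
    exact le_of_lt this

/-- All hypotheses on the densities in `GSLogU`, with bounds at time `0`. -/
structure LogHyp (P T A0 A1 : ℝ) (F : PS → ℝ) (G H : Fin 3 → PS → ℝ)
    (K : Fin 3 → Fin 3 → PS → ℝ) (t b0 n0 n1 : ℝ) (NG NH : ℝ → ℝ) : Prop where
  smF : ContDiff ℝ ∞ F
  smG : ∀ i, ContDiff ℝ ∞ (G i)
  cH : ∀ i, Continuous (H i)
  smK : ∀ i j, ContDiff ℝ 1 (K i j)
  supp : ∀ s : ℝ, ∀ y v : R3, P < ‖v‖ → F (s, y, v) = 0 ∧
    ∀ i, G i (s, y, v) = 0 ∧ H i (s, y, v) = 0 ∧ ∀ j, K i j (s, y, v) = 0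
  cpt : ∃ R : ℝ, ∀ s ∈ Icc 0 T, ∀ y v : R3, R < ‖y‖ → F (s, y, v) = 0 ∧ ∀ i, G i (s, y, v) = 0
  tr : ∀ s : ℝ, ∀ y v : R3, Tr F (s, y, v) = divv G (s, y, v)
  trG : ∀ s : ℝ, ∀ i, ∀ y v : R3, Tr (G i) (s, y, v) = H i (s, y, v) + divv (K i) (s, y, v)
  A0 : ∀ y v : R3, |F (0, y, v)| ≤ A0
  A1 : ∀ y v : R3, ‖fderiv ℝ (fun z => F (0, z, v)) y‖ ≤ A1
  mem : t ∈ Icc 0 T
  b0 : ∀ i, ∀ y v : R3, |G i (0, y, v)| ≤ b0
  n0 : ∀ s ∈ Icc 0 t, ∀ y v : R3, |F (s, y, v)| ≤ n0 ∧ ‖fderiv ℝ (fun z => F (s, z, v)) y‖ ≤ n1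
  nG : ∀ s ∈ Icc 0 t, ∀ i, ∀ y v : R3, |G i (s, y, v)| ≤ NG s
  nH : ∀ s ∈ Icc 0 t, ∀ i, ∀ y v : R3, |H i (s, y, v)| ≤ NH s ∧ ∀ j, |K i j (s, y, v)| ≤ NH s
  iG : IntervalIntegrable NG volume 0 t
  iH : IntervalIntegrable NH volume 0 t

/-- the right-hand side -/
def SR (t b0 n0 n1 : ℝ) (NG NH : ℝ → ℝ) : ℝ :=
  1 + b0 + n0 * Real.log (2 + n1) + (∫ s in (0:ℝ)..t, NG s) + ∫ s in (0:ℝ)..t, (t - s) * NH s

namespace LogHyp

variable {P T A0 A1 : ℝ} {F : PS → ℝ} {G H : Fin 3 → PS → ℝ}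
    {K : Fin 3 → Fin 3 → PS → ℝ} {t b0 n0 n1 : ℝ} {NG NH : ℝ → ℝ}

theorem b0_nonneg (h : LogHyp P T A0 A1 F G H K t b0 n0 n1 NG NH) : 0 ≤ b0 :=
  (abs_nonneg _).trans (h.b0 0 0 0)

theorem A0_nonneg (h : LogHyp P T A0 A1 F G H K t b0 n0 n1 NG NH) : 0 ≤ A0 :=
  (abs_nonneg _).trans (h.A0 0 0)

theorem A1_nonneg (h : LogHyp P T A0 A1 F G H K t b0 n0 n1 NG NH) : 0 ≤ A1 :=
  (norm_nonneg _).trans (h.A1 0 0)

theorem n0_nonneg (h : LogHyp P T A0 A1 F G H K t b0 n0 n1 NG NH) : 0 ≤ n0 :=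
  (abs_nonneg _).trans (h.n0 0 ⟨le_rfl, h.mem.1⟩ 0 0).1

theorem n1_nonneg (h : LogHyp P T A0 A1 F G H K t b0 n0 n1 NG NH) : 0 ≤ n1 :=
  (norm_nonneg _).trans (h.n0 0 ⟨le_rfl, h.mem.1⟩ 0 0).2

theorem intG_nonneg (h : LogHyp P T A0 A1 F G H K t b0 n0 n1 NG NH) :
    0 ≤ ∫ s in (0:ℝ)..t, NG s :=
  intervalIntegral.integral_nonneg h.mem.1 fun s hs => (abs_nonneg _).trans (h.nG s hs 0 0 0)

theorem intH_nonneg (h : LogHyp P T A0 A1 F G H K t b0 n0 n1 NG NH) :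
    0 ≤ ∫ s in (0:ℝ)..t, (t - s) * NH s :=
  intervalIntegral.integral_nonneg h.mem.1 fun s hs =>
    mul_nonneg (by linarith [hs.2]) ((abs_nonneg _).trans (h.nH s hs 0 0 0).1)

theorem log_pos' (h : LogHyp P T A0 A1 F G H K t b0 n0 n1 NG NH) :
    Real.log 2 ≤ Real.log (2 + n1) :=
  Real.log_le_log (by norm_num) (by linarith [h.n1_nonneg])

theorem SR_ge_one (h : LogHyp P T A0 A1 F G H K t b0 n0 n1 NG NH) :
    1 ≤ SR t b0 n0 n1 NG NH := by
  have h1 := h.b0_nonneg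
  have h2 : 0 ≤ n0 * Real.log (2 + n1) :=
    mul_nonneg h.n0_nonneg ((Real.log_nonneg (by norm_num)).trans h.log_pos')
  have h3 := h.intG_nonneg
  have h4 := h.intH_nonneg
  unfold SR
  linarith

theorem dxt_slice (h : LogHyp P T A0 A1 F G H K t b0 n0 n1 NG NH) (e : R3) (s : ℝ) (y v : R3) :
    dxt 0 e F (s, y, v) = fderiv ℝ (fun z => F (s, z, v)) y e := by
  have hF : DifferentiableAt ℝ F (s, y, v) := (h.smF.differentiable (by simp)) _
  have hc : HasFDerivAt (fun z : R3 => ((s, z, v) : PS))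
      ((0 : R3 →L[ℝ] ℝ).prod ((ContinuousLinearMap.id ℝ R3).prod (0 : R3 →L[ℝ] R3))) y :=
    (hasFDerivAt_const s y).prodMk ((hasFDerivAt_id y).prodMk (hasFDerivAt_const v y))
  have := hF.hasFDerivAt.comp y hc
  rw [show (fun z => F (s, z, v)) = F ∘ (fun z : R3 => ((s, z, v) : PS)) from rfl, this.fderiv]
  simp [dxt]

theorem norm_dxt_le (h : LogHyp P T A0 A1 F G H K t b0 n0 n1 NG NH) {e : R3} (he : ‖e‖ ≤ 1)
    (s : ℝ) (y v : R3) {c : ℝ} (hc : ‖fderiv ℝ (fun z => F (s, z, v)) y‖ ≤ c) :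
    |dxt 0 e F (s, y, v)| ≤ c := by
  rw [h.dxt_slice e s y v, ← Real.norm_eq_abs]
  refine ((fderiv ℝ (fun z => F (s, z, v)) y).le_opNorm e).trans ?_
  refine (mul_le_mul_of_nonneg_left he (norm_nonneg _)).trans ?_
  rwa [mul_one]

theorem dxt_zero (h : LogHyp P T A0 A1 F G H K t b0 n0 n1 NG NH) (e : R3) {R : ℝ}
    (hR : ∀ s ∈ Icc 0 T, ∀ y v : R3, R < ‖y‖ → F (s, y, v) = 0) :
    ∀ s ∈ Icc 0 T, ∀ y v : R3, R < ‖y‖ ∨ P < ‖v‖ → dxt 0 e F (s, y, v) = 0 := by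
  intro s hs y v hyv
  rw [h.dxt_slice e s y v]
  have h0 : (fun z => F (s, z, v)) =ᶠ[𝓝 y] fun _ => (0 : ℝ) := by
    rcases hyv with hy | hv
    · have : {z : R3 | R < ‖z‖} ∈ 𝓝 y :=
        (isOpen_lt continuous_const continuous_norm).mem_nhds hy
      filter_upwards [this] with z hz
      exact hR s hs z v hz
    · exact Eventually.of_forall fun z => (h.supp s z v hv).1
  rw [h0.fderiv_eq]
  simp

end LogHyp

theorem wv_core (hGE : Gs2.GradEst) (P T A0 A1 : ℝ) (m : R3 → ℝ) (hm : ContDiff ℝ ∞ m) (a : ℝ)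
    (b e : R3) (he : ‖e‖ ≤ 1) : ∃ C : ℝ, 0 ≤ C ∧
      ∀ (F : PS → ℝ) (G H : Fin 3 → PS → ℝ) (K : Fin 3 → Fin 3 → PS → ℝ) (t b0 n0 n1 : ℝ)
        (NG NH : ℝ → ℝ), LogHyp P T A0 A1 F G H K t b0 n0 n1 NG NH → ∀ x : R3,
        |Wv (mom m (dxt a b (dxt 0 e F))) t x| ≤ C * SR t b0 n0 n1 NG NH := by
  obtain ⟨C, hC, hmain⟩ := hGE P m hm a b e
  have hlog2 : 0 < Real.log 2 := Real.log_pos (by norm_num)
  have hlT : 0 ≤ Real.log (1 + |T|) := Real.log_nonneg (by linarith [abs_nonneg T])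
  set M : ℝ := |T| * (|A1| + 1) + (|A0| + 1) + |T| + (1 + Real.log (1 + |T|)) / Real.log 2 + 2
    with hM
  have hq : 0 ≤ (1 + Real.log (1 + |T|)) / Real.log 2 := by positivity
  have hM0 : 0 ≤ M := by positivity
  refine ⟨C * M, by positivity, ?_⟩
  intro F G H K t b0 n0 n1 NG NH h x
  have hSR := h.SR_ge_one
  rcases eq_or_lt_of_le h.mem.1 with ht | ht
  · have : Wv (mom m (dxt a b (dxt 0 e F))) t x = 0 := by
      unfold Wv
      rw [← ht, Metric.ball_zero]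
      simp
    rw [this, abs_zero]
    positivity
  -- short time bounds
  obtain ⟨R, hR⟩ := h.cpt
  obtain ⟨δ0, hδ0, hb0⟩ := short_time (h := F) (T := T) (R := R) (P := P) h.smF.continuous
    h.A0_nonneg (fun s hs y v hyv => hyv.elim (fun hy => (hR s hs y v hy).1)
      (fun hv => (h.supp s y v hv).1)) h.A0
  have hcd : Continuous (dxt 0 e F) := (h.smF.continuous_fderiv (by simp)).clm_apply continuous_const
  obtain ⟨δ1, hδ1, hb1⟩ := short_time (h := dxt 0 e F) (T := T) (R := R) (P := P) hcd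
    h.A1_nonneg (h.dxt_zero e (fun s hs y v hy => (hR s hs y v hy).1))
    (fun y v => h.norm_dxt_le he 0 y v (h.A1 y v))
  have hbG : ∀ i, ∃ δ : ℝ, 0 < δ ∧ ∀ s ∈ Icc 0 (min T δ), ∀ y v : R3, |G i (s, y, v)| ≤ b0 + 1 :=
    fun i => short_time (h := G i) (T := T) (R := R) (P := P) (h.smG i).continuous
      h.b0_nonneg (fun s hs y v hyv => hyv.elim (fun hy => (hR s hs y v hy).2 i)
      (fun hv => ((h.supp s y v hv).2 i).1)) (h.b0 i)
  choose δG hδG hbG using hbG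
  set δ : ℝ := min (min δ0 δ1) (min (δG 0) (min (δG 1) (δG 2))) with hδ
  have hδp : 0 < δ := by
    simp only [hδ, lt_min_iff]
    exact ⟨⟨hδ0, hδ1⟩, hδG 0, hδG 1, hδG 2⟩
  have hd0 : δ ≤ δ0 := (min_le_left _ _).trans (min_le_left _ _)
  have hd1 : δ ≤ δ1 := (min_le_left _ _).trans (min_le_right _ _)
  have hdG : ∀ i, δ ≤ δG i := by
    intro i
    fin_cases i
    · exact (min_le_right _ _).trans (min_le_left _ _)
    · exact (min_le_right _ _).trans ((min_le_right _ _).trans (min_le_left _ _))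
    · exact (min_le_right _ _).trans ((min_le_right _ _).trans (min_le_right _ _))
  have hn1 := h.n1_nonneg
  have hn0 := h.n0_nonneg
  have hb0n := h.b0_nonneg
  set ε : ℝ := min t (1 / (1 + n1)) with hε
  have hεp : 0 < ε := lt_min ht (by positivity)
  have hεt : ε ≤ t := min_le_left _ _
  have hTt : t ≤ |T| := h.mem.2.trans (le_abs_self T)
  have key := hmain univ t δ ε x F G H K (A0 + 1) (A1 + 1) (b0 + 1) n0 n1 NG NH isOpen_univ
    (subset_univ _) ht hδp hεp hεt (h.smF.of_le two_le_inf).contDiffOn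
    (fun i => ((h.smG i).of_le two_le_inf).contDiffOn)
    (fun i => (h.cH i).continuousOn) (fun i j => (h.smK i j).contDiffOn)
    (fun s _ y v hv => h.supp s y v hv) (fun s _ y v => h.tr s y v)
    (fun s _ i y v => h.trG s i y v) ?_ ?_ h.nG h.nH h.iG h.iH
  · -- numerics
    refine key.trans ?_
    rw [mul_assoc]
    refine mul_le_mul_of_nonneg_left ?_ hC
    have hεn : ε * n1 ≤ 1 := by
      have h1 : ε * n1 ≤ 1 / (1 + n1) * n1 := mul_le_mul_of_nonneg_right (min_le_right _ _) hn1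
      have h2 : 1 / (1 + n1) * n1 ≤ 1 := by
        rw [one_div, inv_mul_le_iff₀ (by positivity)]; linarith
      exact h1.trans h2
    have htε : t / ε ≤ (1 + |T|) * (2 + n1) := by
      rw [div_le_iff₀ hεp]
      rcases min_choice t (1 / (1 + n1)) with h1 | h1
      · rw [hε, h1]
        nlinarith [abs_nonneg T, mul_nonneg (abs_nonneg T) hn1]
      · rw [hε, h1]
        have : (1 + |T|) * (2 + n1) * (1 / (1 + n1)) ≥ (1 + |T|) := by
          rw [mul_one_div, ge_iff_le, le_div_iff₀ (by positivity)]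
          nlinarith [abs_nonneg T]
        linarith
    have hlog : Real.log (t / ε) ≤ Real.log (1 + |T|) + Real.log (2 + n1) := by
      rw [← Real.log_mul (by positivity) (by positivity)]
      exact Real.log_le_log (by positivity) htε
    have hL := h.log_pos'
    have h4 : n0 * (1 + Real.log (t / ε)) ≤
        ((1 + Real.log (1 + |T|)) / Real.log 2 + 1) * (n0 * Real.log (2 + n1)) := by
      have e1 : 1 + Real.log (1 + |T|) ≤
          (1 + Real.log (1 + |T|)) / Real.log 2 * Real.log (2 + n1) := by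
        rw [div_mul_eq_mul_div, le_div_iff₀ hlog2]
        exact mul_le_mul_of_nonneg_left hL (by positivity)
      have e2 : 1 + Real.log (t / ε) ≤
          ((1 + Real.log (1 + |T|)) / Real.log 2 + 1) * Real.log (2 + n1) := by
        rw [add_mul, one_mul]; linarith
      calc n0 * (1 + Real.log (t / ε)) ≤
          n0 * (((1 + Real.log (1 + |T|)) / Real.log 2 + 1) * Real.log (2 + n1)) :=
            mul_le_mul_of_nonneg_left e2 hn0
        _ = _ := by ring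
    have hX : 0 ≤ n0 * Real.log (2 + n1) := mul_nonneg hn0 (hlog2.le.trans hL)
    have hIG := h.intG_nonneg
    have hIH := h.intH_nonneg
    have hA0 : A0 ≤ |A0| := le_abs_self _
    have hA1 : A1 ≤ |A1| := le_abs_self _
    have h1 : t * (A1 + 1) ≤ |T| * (|A1| + 1) :=
      mul_le_mul hTt (by linarith) (by linarith [h.A1_nonneg]) (abs_nonneg _)
    have h3 : t * (b0 + 1) ≤ |T| * (b0 + 1) := mul_le_mul_of_nonneg_right hTt (by linarith)
    have hq1 : 0 ≤ |T| * (|A1| + 1) := by positivity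
    have hq2 : 0 ≤ |A0| := abs_nonneg _
    have hq3 : 0 ≤ |T| := abs_nonneg _
    unfold SR
    set X := n0 * Real.log (2 + n1)
    set Y := ∫ s in (0:ℝ)..t, NG s
    set Z := ∫ s in (0:ℝ)..t, (t - s) * NH s
    set Q := (1 + Real.log (1 + |T|)) / Real.log 2
    set q1 := |T| * (|A1| + 1)
    have m1 : (q1 + (|A0| + 1) + |T| + 1) * 1 ≤ M * 1 := by rw [hM]; linarith
    have m2 : |T| * b0 ≤ M * b0 := mul_le_mul_of_nonneg_right (by rw [hM]; linarith) hb0n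
    have m3 : (Q + 1) * X ≤ M * X := mul_le_mul_of_nonneg_right (by rw [hM]; linarith) hX
    have m4 : 1 * Y ≤ M * Y := mul_le_mul_of_nonneg_right (by rw [hM]; linarith) hIG
    have m5 : 1 * Z ≤ M * Z := mul_le_mul_of_nonneg_right (by rw [hM]; linarith) hIH
    have : M * (1 + b0 + X + Y + Z) = M * 1 + M * b0 + M * X + M * Y + M * Z := by ring
    rw [this]
    linarith
  · intro s hs y v
    have hs0 : ∀ d, δ ≤ d → s ∈ Icc 0 (min T d) := fun d hd =>
      ⟨hs.1, le_min (hs.2.trans ((min_le_left _ _).trans h.mem.2))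
        (hs.2.trans ((min_le_right _ _).trans hd))⟩
    exact ⟨hb0 s (hs0 _ hd0) y v, hb1 s (hs0 _ hd1) y v, fun i => hbG i s (hs0 _ (hdG i)) y v⟩
  · intro s hs y v
    exact ⟨(h.n0 s hs y v).1, h.norm_dxt_le he s y v (h.n0 s hs y v).2⟩

/-! ### linearity of `Wv` -/

theorem integrableOn_Wv {h : ℝ → R3 → ℝ} (hc : Continuous (fun p : ℝ × R3 => h p.1 p.2)) (t : ℝ)
    (x : R3) : IntegrableOn (fun z : R3 => h (t - ‖z‖) (x + z) / (4 * Real.pi * ‖z‖))
      (Metric.ball (0 : R3) t) := by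
  have h1 := (Kir.integrableOn_vol (h := h) (t := t) hc.continuousOn x).const_mul (4 * Real.pi)⁻¹
  refine IntegrableOn.congr_fun h1 (fun z _ => ?_) measurableSet_ball
  simp only [div_eq_mul_inv, mul_inv]
  ring

theorem Wv_lin {h1 h2 : ℝ → R3 → ℝ} (hc1 : Continuous (fun p : ℝ × R3 => h1 p.1 p.2))
    (hc2 : Continuous (fun p : ℝ × R3 => h2 p.1 p.2)) (c1 c2 t : ℝ) (x : R3) :
    Wv (fun s y => c1 * h1 s y + c2 * h2 s y) t x = c1 * Wv h1 t x + c2 * Wv h2 t x := by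
  unfold Wv
  rw [← integral_const_mul, ← integral_const_mul, ← integral_add
    ((integrableOn_Wv hc1 t x).const_mul c1) ((integrableOn_Wv hc2 t x).const_mul c2)]
  refine integral_congr_ae (Eventually.of_forall fun z => ?_)
  simp only []
  ring

theorem abs_Wv_lin_le {h1 h2 : ℝ → R3 → ℝ} (hc1 : Continuous (fun p : ℝ × R3 => h1 p.1 p.2))
    (hc2 : Continuous (fun p : ℝ × R3 => h2 p.1 p.2)) {c1 c2 t : ℝ} (e1 : |c1| ≤ 1) (e2 : |c2| ≤ 1)
    (x : R3) : |Wv (fun s y => c1 * h1 s y + c2 * h2 s y) t x| ≤ |Wv h1 t x| + |Wv h2 t x| := by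
  rw [Wv_lin hc1 hc2]
  refine (abs_add_le _ _).trans (add_le_add ?_ ?_)
  · rw [abs_mul]; exact mul_le_of_le_one_left (abs_nonneg _) e1
  · rw [abs_mul]; exact mul_le_of_le_one_left (abs_nonneg _) e2

/-! ### the datum -/

theorem bd_of_compact {φ : R3 → ℝ} (h : ContDiff ℝ ∞ φ) (hc : HasCompactSupport φ) : Kir.Bd φ := by
  refine ⟨h, fun k => ?_⟩
  obtain ⟨C, hC⟩ := (hc.iteratedFDeriv (𝕜 := ℝ) k).exists_bound_of_continuous
    (h.continuous_iteratedFDeriv (m := k) (by exact_mod_cast le_top))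
  exact ⟨C, hC⟩

section datum

variable {f₀ : R3 → R3 → ℝ}

/-- time-independent extension of the initial density -/
def f0q (f₀ : R3 → R3 → ℝ) : PS → ℝ := fun p => f₀ p.2.1 p.2.2

theorem exists_radius (hc : HasCompactSupport (Function.uncurry f₀)) :
    ∃ R : ℝ, ∀ y v : R3, R < ‖y‖ ∨ R < ‖v‖ → f₀ y v = 0 := by
  obtain ⟨R, hR⟩ := hc.isCompact.isBounded.exists_norm_le
  refine ⟨R, fun y v hyv => ?_⟩
  by_contra hne
  have h1 : ((y, v) : R3 × R3) ∈ tsupport (Function.uncurry f₀) :=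
    subset_tsupport _ (by simpa [Function.mem_support, Function.uncurry] using hne)
  have h2 := hR _ h1
  rw [Prod.norm_mk] at h2
  rcases hyv with h | h
  · exact absurd ((le_max_left _ _).trans h2) (not_le.2 h)
  · exact absurd ((le_max_right _ _).trans h2) (not_le.2 h)

/-- the moment of the initial density -/
def mom0 (m : R3 → ℝ) (f₀ : R3 → R3 → ℝ) (y : R3) : ℝ := ∫ v, m v * f₀ y v

theorem bd_mom0 (hs : ContDiff ℝ ∞ (Function.uncurry f₀))
    (hc : HasCompactSupport (Function.uncurry f₀)) {m : R3 → ℝ} (hm : ContDiff ℝ ∞ m) :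
    Kir.Bd (mom0 m f₀) := by
  obtain ⟨R, hR⟩ := exists_radius hc
  have hV : SmV R univ (f0q f₀) := by
    refine ⟨isOpen_univ, ?_, fun s _ y v hv => hR y v (Or.inr hv)⟩
    exact (hs.comp (contDiff_fst.comp contDiff_snd |>.prodMk (contDiff_snd.comp contDiff_snd))).contDiffOn
  have h1 := hV.sm_mom hm
  rw [univ_prod_univ, contDiffOn_univ] at h1
  have h2 : ContDiff ℝ ∞ (mom0 m f₀) := by
    have : mom0 m f₀ = (momq m (f0q f₀)) ∘ (fun y : R3 => ((0 : ℝ), y)) := by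
      funext y; rfl
    rw [this]
    exact h1.comp (by fun_prop)
  refine bd_of_compact h2 (HasCompactSupport.intro (isCompact_closedBall (0 : R3) R) ?_)
  intro y hy
  rw [mem_closedBall_zero_iff, not_le] at hy
  unfold mom0
  have : ∀ v, m v * f₀ y v = 0 := fun v => by rw [hR y v (Or.inl hy), mul_zero]
  simp [this]

theorem datum_f0 (hs : ContDiff ℝ ∞ (Function.uncurry f₀))
    (hc : HasCompactSupport (Function.uncurry f₀)) :
    ∃ A0 A1 : ℝ, ∀ y v : R3, |f₀ y v| ≤ A0 ∧ ‖fderiv ℝ (fun z => f₀ z v) y‖ ≤ A1 := by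
  obtain ⟨A0, hA0⟩ := hc.exists_bound_of_continuous hs.continuous
  obtain ⟨A1, hA1⟩ := (hc.fderiv (𝕜 := ℝ)).exists_bound_of_continuous
    (hs.continuous_fderiv (by simp))
  refine ⟨A0, A1, fun y v => ⟨hA0 (y, v), ?_⟩⟩
  have hF : DifferentiableAt ℝ (Function.uncurry f₀) (y, v) := (hs.differentiable (by simp)) _
  have hcc : HasFDerivAt (fun z : R3 => ((z, v) : R3 × R3)) (ContinuousLinearMap.inl ℝ R3 R3) y :=
    (hasFDerivAt_id y).prodMk (hasFDerivAt_const v y)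
  have h1 := hF.hasFDerivAt.comp y hcc
  rw [show (fun z => f₀ z v) = Function.uncurry f₀ ∘ (fun z : R3 => ((z, v) : R3 × R3)) from rfl,
    h1.fderiv]
  refine (ContinuousLinearMap.opNorm_comp_le _ _).trans ?_
  refine (mul_le_mul (hA1 (y, v)) ?_ (norm_nonneg _) ((norm_nonneg _).trans (hA1 (y, v)))).trans
    (mul_one _).le
  exact ContinuousLinearMap.norm_inl_le_one ℝ R3 R3

end datum

end Crest.Agent.R106.Field
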