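import Crest.Agent.R106.FieldLog

/-!
# Row 106 (helper835): `gslogU : Gs2.GradEst → GSLogU`.
-/

set_option autoImplicit false
open MeasureTheory Set Filter Topology
open scoped ContDiff InnerProductSpace
open Crest.AnalysisR.VecCalc3 Crest.AnalysisR.PDE.RVM

noncomputable section

namespace Crest.Agent.R106.Field

open Crest.Agent.R106.GSR (pt px box cmp unc)
open Crest.Agent.R106.Gs2 (PS Tr divv dxt mom Wv ev)

variable {P T : ℝ} {f₀ : R3 → R3 → ℝ} {E₀ B₀ : R3 → R3}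
  {f : ℝ → R3 → R3 → ℝ} {G H : Fin 3 → PS → ℝ} {K : Fin 3 → Fin 3 → PS → ℝ} {E B : ℝ → R3 → R3}

theorem glob {X Y : Type*} [NormedAddCommGroup X] [NormedSpace ℝ X] [NormedAddCommGroup Y]
    [NormedSpace ℝ Y] {u : ℝ × X → Y} (h : ContDiffOn ℝ ∞ u (univ ×ˢ univ)) : ContDiff ℝ ∞ u := by
  rwa [univ_prod_univ, contDiffOn_univ] at h

theorem memU (q : ℝ × R3) : q ∈ (univ : Set ℝ) ×ˢ (univ : Set R3) := ⟨trivial, trivial⟩

/-- time derivative at `0` of `D_j E_i` -/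
theorem pt_ddE (h : LinSol P T f₀ E₀ B₀ univ f G E B) (i j : Fin 3) (y : R3) :
    pt (dd (0, eb j) (cmp E i)) (0, y) =
      pderiv (fun z => curl3 B₀ z i - mom0 (wj i) f₀ z) j y := by
  have hm := h.maxC
  have hΩ := (isOpen_univ (X := ℝ)).prod (isOpen_univ (X := R3))
  have e1 : pt (dd (0, eb j) (cmp E i)) (0, y) = dd (0, eb j) (pt (cmp E i)) (0, y) :=
    dd_comm hΩ (hm.smE i) _ _ (memU _)
  have e2 : dd (0, eb j) (pt (cmp E i)) (0, y) =
      dd (0, eb j) (fun p => curlc (cmp B) i p - momq (wj i) (unc f) p) (0, y) :=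
    dd_congr hΩ (hm.amp i) _ (memU _)
  have hd : DifferentiableAt ℝ (fun p => curlc (cmp B) i p - momq (wj i) (unc f) p) (0, y) :=
    diffAt hΩ ((sm_curlc isOpen_univ hm.smB i).sub (hm.smj i)) (memU _)
  have e3 := pderiv_eq_px hd j
  have e4 : (fun z : R3 => curlc (cmp B) i (0, z) - momq (wj i) (unc f) (0, z)) =
      fun z => curl3 B₀ z i - mom0 (wj i) f₀ z := by
    funext z
    rw [← curl3_eq isOpen_univ h.smB (memU (0, z)) i]
    simp only [h.B0]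
    congr 1
    unfold momq mom mom0 unc
    simp only [h.f0]
  rw [e1, e2, ← e4]
  exact e3.symm

/-- time derivative at `0` of `D_j B_i` -/
theorem pt_ddB (h : LinSol P T f₀ E₀ B₀ univ f G E B) (i j : Fin 3) (y : R3) :
    pt (dd (0, eb j) (cmp B i)) (0, y) = pderiv (fun z => - curl3 E₀ z i) j y := by
  have hm := h.maxC
  have hΩ := (isOpen_univ (X := ℝ)).prod (isOpen_univ (X := R3))
  have e1 : pt (dd (0, eb j) (cmp B i)) (0, y) = dd (0, eb j) (pt (cmp B i)) (0, y) :=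
    dd_comm hΩ (hm.smB i) _ _ (memU _)
  have e2 : dd (0, eb j) (pt (cmp B i)) (0, y) =
      dd (0, eb j) (fun p => - curlc (cmp E) i p) (0, y) :=
    dd_congr hΩ (hm.far i) _ (memU _)
  have hd : DifferentiableAt ℝ (fun p => - curlc (cmp E) i p) (0, y) :=
    diffAt hΩ (sm_curlc isOpen_univ hm.smE i).neg (memU _)
  have e3 := pderiv_eq_px hd j
  have e4 : (fun z : R3 => - curlc (cmp E) i (0, z)) = fun z => - curl3 E₀ z i := by
    funext z
    rw [← curl3_eq isOpen_univ h.smE (memU (0, z)) i]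
    simp only [h.E0]
  rw [e1, e2, ← e4]
  exact e3.symm

/-- value at `0` of `D_j U_i` -/
theorem dd_slice0 {U : ℝ → R3 → R3} {U₀ : R3 → R3}
    (hU : ContDiffOn ℝ ∞ (fun p : ℝ × R3 => U p.1 p.2) (univ ×ˢ univ)) (h0 : U 0 = U₀)
    (i j : Fin 3) (y : R3) :
    dd (0, eb j) (cmp U i) (0, y) = pderiv (fun z => U₀ z i) j y := by
  have hΩ := (isOpen_univ (X := ℝ)).prod (isOpen_univ (X := R3))
  have e := pderiv_eq_px (diffAt hΩ (sm_cmp hU i) (memU (0, y))) j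
  have e4 : (fun z : R3 => cmp U i (0, z)) = fun z => U₀ z i := by
    funext z; simp [GSR.cmp, h0]
  rw [← e4]
  exact e.symm

/-- generic bound of `D_j` of a component from Kirchhoff's formula; all constants from `Bd` -/
theorem comp_bound {u : ℝ × R3 → ℝ} (hu : ContDiff ℝ ∞ u) {φ ψ : R3 → ℝ} {C0 C1 D : ℝ}
    (h0 : ∀ y, u (0, y) = φ y) (h1 : ∀ y, pt u (0, y) = ψ y) (b0 : ∀ y, |φ y| ≤ C0)
    (bD : ∀ y, ‖fderiv ℝ φ y‖ ≤ D) (b1 : ∀ y, |ψ y| ≤ C1) {t T : ℝ} (ht : t ∈ Icc 0 T) (x : R3) :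
    |u (t, x)| ≤ |Wv (fun s y => box u (s, y)) t x| + (T * C1 + (C0 + T * D)) := by
  have h := Kir.kir_bound hu ht.1 x (C0 := C0) (C1 := C1) (D := D)
    (fun y => by rw [h0]; exact b0 y) (fun y => by rw [h1]; exact b1 y)
    (fun y => by
      have : (fun z : R3 => u (0, z)) = φ := funext h0
      rw [this]; exact bD y)
  have hC1 : 0 ≤ C1 := (abs_nonneg _).trans (b1 0)
  have hD : 0 ≤ D := (norm_nonneg _).trans (bD 0)
  have k1 := mul_le_mul_of_nonneg_right ht.2 hC1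
  have k2 := mul_le_mul_of_nonneg_right ht.2 hD
  linarith

theorem Bd.consts {φ : R3 → ℝ} (h : Kir.Bd φ) :
    ∃ C0 D : ℝ, (∀ y, |φ y| ≤ C0) ∧ ∀ y, ‖fderiv ℝ φ y‖ ≤ D := by
  obtain ⟨C0, h0⟩ := h.2 0
  obtain ⟨D, hD⟩ := h.2 1
  refine ⟨C0, D, fun y => ?_, fun y => ?_⟩
  · have := h0 y; rwa [norm_iteratedFDeriv_zero] at this
  · have := hD y; rwa [norm_iteratedFDeriv_one] at this

/-- the norm of a linear map into `ℝ³` from its matrix -/
theorem norm_le_matrix (L : R3 →L[ℝ] R3) : ‖L‖ ≤ ∑ j : Fin 3, ∑ i : Fin 3, |L (eb j) i| := by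
  refine L.opNorm_le_bound (Finset.sum_nonneg fun _ _ => Finset.sum_nonneg fun _ _ => abs_nonneg _) ?_
  intro v
  have hv : v = ∑ j : Fin 3, v j • eb j := by
    ext i
    fin_cases i <;> simp [Fin.sum_univ_three, eb]
  have hn : ∀ w : R3, ‖w‖ ≤ ∑ i : Fin 3, |w i| := by
    intro w
    have hw : w = ∑ j : Fin 3, w j • eb j := by
      ext i
      fin_cases i <;> simp [Fin.sum_univ_three, eb]
    calc ‖w‖ = ‖∑ j : Fin 3, w j • eb j‖ := by rw [← hw]
      _ ≤ ∑ j : Fin 3, ‖w j • eb j‖ := norm_sum_le _ _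
      _ = ∑ j : Fin 3, |w j| := by
        refine Finset.sum_congr rfl fun j _ => ?_
        rw [norm_smul, Real.norm_eq_abs]; simp [eb]
  have hj : ∀ j : Fin 3, |v j| ≤ ‖v‖ := fun j => PiLp.norm_apply_le v j
  calc ‖L v‖ = ‖∑ j : Fin 3, v j • L (eb j)‖ := by
        conv_lhs => rw [hv]
        rw [map_sum]; simp
    _ ≤ ∑ j : Fin 3, ‖v j • L (eb j)‖ := norm_sum_le _ _
    _ ≤ ∑ j : Fin 3, ‖v‖ * ∑ i : Fin 3, |L (eb j) i| := by
        refine Finset.sum_le_sum fun j _ => ?_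
        rw [norm_smul, Real.norm_eq_abs]
        exact mul_le_mul (hj j) (hn _) (norm_nonneg _) (norm_nonneg _)
    _ = (∑ j : Fin 3, ∑ i : Fin 3, |L (eb j) i|) * ‖v‖ := by
        rw [← Finset.mul_sum, mul_comm]

theorem fderiv_field {U : ℝ → R3 → R3}
    (hU : ContDiffOn ℝ ∞ (fun p : ℝ × R3 => U p.1 p.2) (univ ×ˢ univ)) (t : ℝ) (x : R3)
    (i j : Fin 3) : fderiv ℝ (U t) x (eb j) i = dd (0, eb j) (cmp U i) (t, x) := by
  have hΩ := (isOpen_univ (X := ℝ)).prod (isOpen_univ (X := R3))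
  have e := fderiv_slice (diffAt hΩ (sm_cmp hU i) (memU (t, x))) (eb j)
  have hd : DifferentiableAt ℝ (U t) x := by
    have h1 : Differentiable ℝ (fun p : ℝ × R3 => U p.1 p.2) := (glob hU).differentiable (by simp)
    exact (h1.comp (f := fun y : R3 => ((t, y) : ℝ × R3)) (by fun_prop)) x
  have h2 : HasFDerivAt (fun y => cmp U i (t, y))
      ((EuclideanSpace.proj i : R3 →L[ℝ] ℝ).comp (fderiv ℝ (U t) x)) x :=
    (EuclideanSpace.proj i : R3 →L[ℝ] ℝ).hasFDerivAt.comp x hd.hasFDerivAt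
  rw [h2.fderiv] at e
  exact e

theorem cont_momq {F : PS → ℝ} (hF : SmV P univ F) {m : R3 → ℝ} (hm : ContDiff ℝ ∞ m) :
    Continuous (fun p : ℝ × R3 => mom m F p.1 p.2) :=
  (glob (hF.sm_mom hm)).continuous

theorem norm_eb (j : Fin 3) : ‖eb j‖ ≤ 1 := by simp [eb]

theorem logHyp_of (h : LinSol P T f₀ E₀ B₀ univ f G E B) {A0 A1 : ℝ}
    (hA : ∀ y v : R3, |f₀ y v| ≤ A0 ∧ ‖fderiv ℝ (fun z => f₀ z v) y‖ ≤ A1)
    (hH : ∀ i, Continuous (H i)) (hK : ∀ i j, ContDiff ℝ 1 (K i j))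
    (hs : ∀ s : ℝ, ∀ y v : R3, P < ‖v‖ → ∀ i, H i (s, y, v) = 0 ∧ ∀ j, K i j (s, y, v) = 0)
    (hT : ∀ s : ℝ, ∀ i, ∀ y v : R3, Tr (G i) (s, y, v) = H i (s, y, v) + divv (K i) (s, y, v))
    {t : ℝ} (ht : t ∈ Icc 0 T) {b0 n0 n1 : ℝ} {NG NH : ℝ → ℝ}
    (hb0 : ∀ i, ∀ y v : R3, |G i (0, y, v)| ≤ b0)
    (hn : ∀ s ∈ Icc 0 t, ∀ y v : R3, |f s y v| ≤ n0 ∧ ‖fderiv ℝ (fun z => f s z v) y‖ ≤ n1)
    (hG : ∀ s ∈ Icc 0 t, ∀ i, ∀ y v : R3, |G i (s, y, v)| ≤ NG s)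
    (hHK : ∀ s ∈ Icc 0 t, ∀ i, ∀ y v : R3, |H i (s, y, v)| ≤ NH s ∧ ∀ j, |K i j (s, y, v)| ≤ NH s)
    (iG : IntervalIntegrable NG volume 0 t) (iH : IntervalIntegrable NH volume 0 t) :
    LogHyp P T A0 A1 (unc f) G H K t b0 n0 n1 NG NH where
  smF := glob h.smf
  smG := fun i => glob (h.smG i)
  cH := hH
  smK := hK
  supp := fun s y v hv => ⟨h.suppf s trivial y v hv, fun i => ⟨h.suppG s trivial y v hv i,
    (hs s y v hv i).1, (hs s y v hv i).2⟩⟩
  cpt := h.cpt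
  tr := fun s y v => h.tr s trivial y v
  trG := hT
  A0 := fun y v => by
    show |f 0 y v| ≤ A0
    rw [h.f0]; exact (hA y v).1
  A1 := fun y v => by
    show ‖fderiv ℝ (fun z => f 0 z v) y‖ ≤ A1
    rw [h.f0]; exact (hA y v).2
  mem := ht
  b0 := hb0
  n0 := hn
  nG := hG
  nH := hHK
  iG := iG
  iH := iH

theorem gslogU (hGE : Gs2.GradEst) : GSLogU := by
  intro P T hT f₀ E₀ B₀
  by_cases hadm : IsAdmissibleDatum f₀ E₀ B₀
  swap
  · exact ⟨0, le_rfl, fun f G H K E B h => absurd h.adm hadm⟩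
  obtain ⟨-, hs0, hc0, hE0, hB0, hEB, -, -, -, -⟩ := hadm
  obtain ⟨A0, A1, hA⟩ := datum_f0 hs0 hc0
  have hEb : ∀ n : ℕ, ∃ C : ℝ, ∀ x, ‖iteratedFDeriv ℝ n E₀ x‖ ≤ C := fun n => by
    obtain ⟨C, hC⟩ := hEB n; exact ⟨C, fun x => (hC x).1⟩
  have hBb : ∀ n : ℕ, ∃ C : ℝ, ∀ x, ‖iteratedFDeriv ℝ n B₀ x‖ ≤ C := fun n => by
    obtain ⟨C, hC⟩ := hEB n; exact ⟨C, fun x => (hC x).2⟩
  -- datum functions
  have dE := fun i j : Fin 3 => Bd.consts ((Kir.bd_coord hE0 hEb i).pderiv j)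
  have dB := fun i j : Fin 3 => Bd.consts ((Kir.bd_coord hB0 hBb i).pderiv j)
  have dE' := fun i j : Fin 3 => Bd.consts
    (((Kir.bd_curl hB0 hBb i).sub (bd_mom0 hs0 hc0 (contDiff_wj i))).pderiv j)
  have dB' := fun i j : Fin 3 => Bd.consts ((Kir.bd_curl hE0 hEb i).neg.pderiv j)
  choose CE DE hCE hDE using dE
  choose CB DB hCB hDB using dB
  choose CE' DE' hCE' hDE' using dE'
  choose CB' DB' hCB' hDB' using dB'
  -- Wv constants
  have w1c := fun i j : Fin 3 => wv_core hGE P T A0 A1 w1 contDiff_w1 0 (eb i) (eb j) (norm_eb j)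
  have w2c := fun i j : Fin 3 => wv_core hGE P T A0 A1 (wj i) (contDiff_wj i) 1 0 (eb j) (norm_eb j)
  have w3c := fun k l j : Fin 3 =>
    wv_core hGE P T A0 A1 (wj k) (contDiff_wj k) 0 (eb l) (eb j) (norm_eb j)
  choose a1 ha1 hw1 using w1c
  choose a2 ha2 hw2 using w2c
  choose a3 ha3 hw3 using w3c
  have hCE0 : ∀ i j, 0 ≤ CE i j := fun i j => (abs_nonneg _).trans (hCE i j 0)
  have hDE0 : ∀ i j, 0 ≤ DE i j := fun i j => (norm_nonneg _).trans (hDE i j 0)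
  have hCE0' : ∀ i j, 0 ≤ CE' i j := fun i j => (abs_nonneg _).trans (hCE' i j 0)
  have hCB0 : ∀ i j, 0 ≤ CB i j := fun i j => (abs_nonneg _).trans (hCB i j 0)
  have hDB0 : ∀ i j, 0 ≤ DB i j := fun i j => (norm_nonneg _).trans (hDB i j 0)
  have hCB0' : ∀ i j, 0 ≤ CB' i j := fun i j => (abs_nonneg _).trans (hCB' i j 0)
  set ME : Fin 3 → Fin 3 → ℝ := fun j i =>
    a1 i j + a2 i j + (T * CE' i j + (CE i j + T * DE i j)) with hME
  set MB : Fin 3 → Fin 3 → ℝ := fun j i =>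
    a3 (i + 2) (i + 1) j + a3 (i + 1) (i + 2) j + (T * CB' i j + (CB i j + T * DB i j)) with hMB
  have hME0 : ∀ j i, 0 ≤ ME j i := fun j i => by
    have := ha1 i j; have := ha2 i j; have := hCE0 i j
    have := mul_nonneg hT.le (hCE0' i j); have := mul_nonneg hT.le (hDE0 i j)
    rw [hME]; simp only []; linarith
  have hMB0 : ∀ j i, 0 ≤ MB j i := fun j i => by
    have := ha3 (i + 2) (i + 1) j; have := ha3 (i + 1) (i + 2) j; have := hCB0 i j
    have := mul_nonneg hT.le (hCB0' i j); have := mul_nonneg hT.le (hDB0 i j)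
    rw [hMB]; simp only []; linarith
  refine ⟨(∑ j, ∑ i, ME j i) + ∑ j, ∑ i, MB j i, add_nonneg
    (Finset.sum_nonneg fun j _ => Finset.sum_nonneg fun i _ => hME0 j i)
    (Finset.sum_nonneg fun j _ => Finset.sum_nonneg fun i _ => hMB0 j i), ?_⟩
  intro f G H K E B h hH hK hsup hTr t ht b0 n0 n1 NG NH hb0 hn hNG hNH iG iH x
  have hL := logHyp_of h hA hH hK hsup hTr ht hb0 hn hNG hNH iG iH
  have hSR := hL.SR_ge_one
  have hV := h.smV
  have hm := h.maxC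
  set S := SR t b0 n0 n1 NG NH with hSdef
  have hΩ := (isOpen_univ (X := ℝ)).prod (isOpen_univ (X := R3))
  -- component bounds
  have hE : ∀ j i : Fin 3, |fderiv ℝ (E t) x (eb j) i| ≤ ME j i * S := by
    intro j i
    rw [fderiv_field h.smE]
    have hu : ContDiff ℝ ∞ (dd (0, eb j) (cmp E i)) := glob (contDiffOn_dd hΩ (hm.smE i) _)
    have k1 := comp_bound hu (fun y => dd_slice0 h.smE h.E0 i j y) (fun y => pt_ddE h i j y)
      (hCE i j) (hDE i j) (hCE' i j) ht x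
    have k2 : (fun (s : ℝ) (y : R3) => box (dd (0, eb j) (cmp E i)) (s, y)) =
        fun s y => (-1) * mom w1 (dxt 0 (eb i) (dxt 0 (eb j) (unc f))) s y +
          (-1) * mom (wj i) (dxt 1 0 (dxt 0 (eb j) (unc f))) s y := by
      funext s y
      rw [box_ddE hV hm (eb j) i (memU (s, y))]
      simp only [momq]
      ring
    have k3 := abs_Wv_lin_le (c1 := -1) (c2 := -1) (t := t)
      (cont_momq ((hV.dx 0 (eb j)).dx 0 (eb i)) contDiff_w1)
      (cont_momq ((hV.dx 0 (eb j)).dx 1 0) (contDiff_wj i)) (by norm_num) (by norm_num) x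
    rw [k2] at k1
    have k4 := hw1 i j (unc f) G H K t b0 n0 n1 NG NH hL x
    have k5 := hw2 i j (unc f) G H K t b0 n0 n1 NG NH hL x
    have k6 : (T * CE' i j + (CE i j + T * DE i j)) * 1 ≤
        (T * CE' i j + (CE i j + T * DE i j)) * S := by
      refine mul_le_mul_of_nonneg_left hSR ?_
      have := hCE0 i j
      have := mul_nonneg hT.le (hCE0' i j); have := mul_nonneg hT.le (hDE0 i j)
      linarith
    rw [hME]
    simp only []
    rw [add_mul, add_mul]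
    linarith
  have hB : ∀ j i : Fin 3, |fderiv ℝ (B t) x (eb j) i| ≤ MB j i * S := by
    intro j i
    rw [fderiv_field h.smB]
    have hu : ContDiff ℝ ∞ (dd (0, eb j) (cmp B i)) := glob (contDiffOn_dd hΩ (hm.smB i) _)
    have k1 := comp_bound hu (fun y => dd_slice0 h.smB h.B0 i j y) (fun y => pt_ddB h i j y)
      (hCB i j) (hDB i j) (hCB' i j) ht x
    have k2 : (fun (s : ℝ) (y : R3) => box (dd (0, eb j) (cmp B i)) (s, y)) =
        fun s y => 1 * mom (wj (i + 2)) (dxt 0 (eb (i + 1)) (dxt 0 (eb j) (unc f))) s y +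
          (-1) * mom (wj (i + 1)) (dxt 0 (eb (i + 2)) (dxt 0 (eb j) (unc f))) s y := by
      funext s y
      rw [box_ddB hV hm (eb j) i (memU (s, y))]
      simp only [momq]
      ring
    have k3 := abs_Wv_lin_le (c1 := 1) (c2 := -1) (t := t)
      (cont_momq ((hV.dx 0 (eb j)).dx 0 (eb (i + 1))) (contDiff_wj (i + 2)))
      (cont_momq ((hV.dx 0 (eb j)).dx 0 (eb (i + 2))) (contDiff_wj (i + 1)))
      (by norm_num) (by norm_num) x
    rw [k2] at k1
    have k4 := hw3 (i + 2) (i + 1) j (unc f) G H K t b0 n0 n1 NG NH hL x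
    have k5 := hw3 (i + 1) (i + 2) j (unc f) G H K t b0 n0 n1 NG NH hL x
    have k6 : (T * CB' i j + (CB i j + T * DB i j)) * 1 ≤
        (T * CB' i j + (CB i j + T * DB i j)) * S := by
      refine mul_le_mul_of_nonneg_left hSR ?_
      have := hCB0 i j
      have := mul_nonneg hT.le (hCB0' i j); have := mul_nonneg hT.le (hDB0 i j)
      linarith
    rw [hMB]
    simp only []
    rw [add_mul, add_mul]
    linarith
  have sE : ‖fderiv ℝ (E t) x‖ ≤ (∑ j, ∑ i, ME j i) * S := by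
    refine (norm_le_matrix _).trans ?_
    rw [Finset.sum_mul]
    refine Finset.sum_le_sum fun j _ => ?_
    rw [Finset.sum_mul]
    exact Finset.sum_le_sum fun i _ => hE j i
  have sB : ‖fderiv ℝ (B t) x‖ ≤ (∑ j, ∑ i, MB j i) * S := by
    refine (norm_le_matrix _).trans ?_
    rw [Finset.sum_mul]
    refine Finset.sum_le_sum fun j _ => ?_
    rw [Finset.sum_mul]
    exact Finset.sum_le_sum fun i _ => hB j i
  have hS0 : 0 ≤ S := zero_le_one.trans hSR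
  have pE : 0 ≤ (∑ j, ∑ i, ME j i) * S := mul_nonneg
    (Finset.sum_nonneg fun j _ => Finset.sum_nonneg fun i _ => hME0 j i) hS0
  have pB : 0 ≤ (∑ j, ∑ i, MB j i) * S := mul_nonneg
    (Finset.sum_nonneg fun j _ => Finset.sum_nonneg fun i _ => hMB0 j i) hS0
  have hfin : ((∑ j, ∑ i, ME j i) + ∑ j, ∑ i, MB j i) * S =
      (∑ j, ∑ i, ME j i) * S + (∑ j, ∑ i, MB j i) * S := add_mul _ _ _
  constructor
  · show ‖fderiv ℝ (E t) x‖ ≤ ((∑ j, ∑ i, ME j i) + ∑ j, ∑ i, MB j i) * S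
    rw [hfin]; linarith
  · show ‖fderiv ℝ (B t) x‖ ≤ ((∑ j, ∑ i, ME j i) + ∑ j, ∑ i, MB j i) * S
    rw [hfin]; linarith

end Crest.Agent.R106.Field
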