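import Crest.Agent.R106.FieldIfaceU
import Crest.Agent.R106.StdIface

/-!
# Row 106 (helper2): `FBlogpos` (logarithmic bound of one Picard step, `t ≥ 0`) from `GSLogU`.
-/

set_option autoImplicit false
open MeasureTheory Set Filter Topology
open scoped ContDiff InnerProductSpace
open Crest.AnalysisR.VecCalc3 Crest.AnalysisR.PDE.RVM

noncomputable section

namespace Crest.Agent.R106.FieldStd

open Crest.Agent.R106.Std
open Crest.Agent.R106.Field (LinSol GSLogU)
open Crest.Agent.R106.Gs2 (PS Tr divv dxt mom Wv ev)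

variable {P : ℝ} {G : R3 → (R3 × R3) →L[ℝ] R3} {E B : ℝ → R3 → R3} {f : ℝ → R3 → R3 → ℝ}

/-! ### elementary facts -/

lemma norm_relVel_le (v : R3) : ‖relVel v‖ ≤ 1 := by
  unfold relVel
  rw [norm_smul, norm_inv, Real.norm_eq_abs, abs_of_nonneg (Real.sqrt_nonneg _)]
  have h1 : ‖v‖ ≤ √(1 + ‖v‖ ^ 2) := Real.le_sqrt_of_sq_le (by linarith)
  have h2 : 0 < √(1 + ‖v‖ ^ 2) := Real.sqrt_pos.2 (by positivity)
  rw [inv_mul_le_iff₀ h2, mul_one]
  exact h1

lemma abs_coord_le (w : R3) (i : Fin 3) : |w i| ≤ ‖w‖ :=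
  (Real.norm_eq_abs _) ▸ (PiLp.norm_apply_le w i)

lemma norm_le_three {w : R3} {c : ℝ} (h : ∀ i, |w i| ≤ c) : ‖w‖ ≤ 3 * c := by
  have hc : 0 ≤ c := (abs_nonneg _).trans (h 0)
  rw [EuclideanSpace.norm_eq]
  apply Real.sqrt_le_iff.2
  refine ⟨by positivity, ?_⟩
  rw [Fin.sum_univ_three]
  have h0 : ‖w 0‖ ^ 2 ≤ c ^ 2 := by
    rw [Real.norm_eq_abs]; exact pow_le_pow_left₀ (abs_nonneg _) (h 0) 2
  have h1 : ‖w 1‖ ^ 2 ≤ c ^ 2 := by
    rw [Real.norm_eq_abs]; exact pow_le_pow_left₀ (abs_nonneg _) (h 1) 2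
  have h2 : ‖w 2‖ ^ 2 ≤ c ^ 2 := by
    rw [Real.norm_eq_abs]; exact pow_le_pow_left₀ (abs_nonneg _) (h 2) 2
  nlinarith

theorem contDiff_coord {X : Type*} [NormedAddCommGroup X] [NormedSpace ℝ X] {F : X → R3}
    {n : WithTop ℕ∞} (hF : ContDiff ℝ n F) (i : Fin 3) : ContDiff ℝ n (fun x => F x i) :=
  (EuclideanSpace.proj (𝕜 := ℝ) i : R3 →L[ℝ] ℝ).contDiff.comp hF

theorem hasFDerivAt_coord {X : Type*} [NormedAddCommGroup X] [NormedSpace ℝ X] {F : X → R3}
    {F' : X →L[ℝ] R3} {x : X} (hF : HasFDerivAt F F' x) (i : Fin 3) :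
    HasFDerivAt (fun x => F x i) ((EuclideanSpace.proj (𝕜 := ℝ) i : R3 →L[ℝ] ℝ).comp F') x :=
  (EuclideanSpace.proj (𝕜 := ℝ) i : R3 →L[ℝ] ℝ).hasFDerivAt.comp x hF

theorem fderiv_coord {X : Type*} [NormedAddCommGroup X] [NormedSpace ℝ X] {F : X → R3}
    {x : X} (hF : DifferentiableAt ℝ F x) (i : Fin 3) (w : X) :
    fderiv ℝ (fun x => F x i) x w = fderiv ℝ F x w i := by
  rw [(hasFDerivAt_coord hF.hasFDerivAt i).fderiv]
  rfl

/-! ### the source terms -/

/-- the force on phase space-time -/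
def frc (G : R3 → (R3 × R3) →L[ℝ] R3) (E B : ℝ → R3 → R3) (p : PS) : R3 :=
  G p.2.2 (E p.1 p.2.1, B p.1 p.2.1)

/-- first source: `- G_i f` -/
def src (G : R3 → (R3 × R3) →L[ℝ] R3) (E B : ℝ → R3 → R3) (f : ℝ → R3 → R3 → ℝ) (i : Fin 3)
    (p : PS) : ℝ := -(frc G E B p i * f p.1 p.2.1 p.2.2)

/-- second source: `G_i G_j f` -/
def kk (G : R3 → (R3 × R3) →L[ℝ] R3) (E B : ℝ → R3 → R3) (f : ℝ → R3 → R3 → ℝ) (i j : Fin 3)
    (p : PS) : ℝ := frc G E B p i * frc G E B p j * f p.1 p.2.1 p.2.2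

/-- remainder -/
def hr (G : R3 → (R3 × R3) →L[ℝ] R3) (E B : ℝ → R3 → R3) (f : ℝ → R3 → R3 → ℝ) (i : Fin 3)
    (p : PS) : ℝ := Tr (src G E B f i) p - divv (kk G E B f i) p

theorem contDiff_frc (hG : IsTrunc P G) (hE : SF E) (hB : SF B) :
    ContDiff ℝ ∞ (frc G E B) := by
  have h1 : ContDiff ℝ ∞ (fun p : ℝ × R3 × R3 => G p.2.2) :=
    hG.smooth.comp (contDiff_snd.comp contDiff_snd)
  have h2 : ContDiff ℝ ∞ (fun p : ℝ × R3 × R3 => E p.1 p.2.1) :=
    hE.1.comp (contDiff_fst.prodMk (contDiff_fst.comp contDiff_snd))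
  have h3 : ContDiff ℝ ∞ (fun p : ℝ × R3 × R3 => B p.1 p.2.1) :=
    hB.1.comp (contDiff_fst.prodMk (contDiff_fst.comp contDiff_snd))
  exact h1.clm_apply (h2.prodMk h3)

theorem contDiff_src (hG : IsTrunc P G) (hE : SF E) (hB : SF B) (hf : PC f) (i : Fin 3) :
    ContDiff ℝ ∞ (src G E B f i) :=
  ((contDiff_coord (contDiff_frc hG hE hB) i).mul hf.1).neg

theorem contDiff_kk (hG : IsTrunc P G) (hE : SF E) (hB : SF B) (hf : PC f) (i j : Fin 3) :
    ContDiff ℝ ∞ (kk G E B f i j) :=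
  ((contDiff_coord (contDiff_frc hG hE hB) i).mul (contDiff_coord (contDiff_frc hG hE hB) j)).mul
    hf.1

lemma continuous_relVel : Continuous relVel := by
  unfold relVel
  have h : Continuous (fun v : R3 => √(1 + ‖v‖ ^ 2)) := by fun_prop
  exact (h.inv₀ (fun v => (Real.sqrt_pos.2 (by positivity)).ne')).smul continuous_id

theorem continuous_hr (hG : IsTrunc P G) (hE : SF E) (hB : SF B) (hf : PC f) (i : Fin 3) :
    Continuous (hr G E B f i) := by
  unfold hr Tr divv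
  have h1 : Continuous (fun p : PS => fderiv ℝ (src G E B f i) p) :=
    (contDiff_src hG hE hB hf i).continuous_fderiv (by simp)
  have h2 : Continuous (fun p : PS => ((1, relVel p.2.2, 0) : PS)) :=
    continuous_const.prodMk ((continuous_relVel.comp (continuous_snd.comp continuous_snd)).prodMk
      continuous_const)
  refine (h1.clm_apply h2).sub (continuous_finsetSum _ fun j _ => ?_)
  have h3 : Continuous (fun p : PS => fderiv ℝ (kk G E B f i j) p) :=
    (contDiff_kk hG hE hB hf i j).continuous_fderiv (by simp)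
  exact h3.clm_apply continuous_const

/-- joint derivative of the fields in the direction `(1, u(v))` -/
def te (E : ℝ → R3 → R3) (p : PS) : R3 :=
  fderiv ℝ (fun q : ℝ × R3 => E q.1 q.2) (p.1, p.2.1) (1, relVel p.2.2)

/-- momentum derivative of the force -/
def dv (G : R3 → (R3 × R3) →L[ℝ] R3) (E B : ℝ → R3 → R3) (p : PS) (j : Fin 3) : R3 :=
  (fderiv ℝ G p.2.2 (EuclideanSpace.single j 1)) (E p.1 p.2.1, B p.1 p.2.1)

theorem fderiv_frc (hG : IsTrunc P G) (hE : SF E) (hB : SF B) (p : PS) (a : ℝ) (b c : R3) :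
    fderiv ℝ (frc G E B) p (a, b, c) =
      (fderiv ℝ G p.2.2 c) (E p.1 p.2.1, B p.1 p.2.1) +
      G p.2.2 (fderiv ℝ (fun q : ℝ × R3 => E q.1 q.2) (p.1, p.2.1) (a, b),
        fderiv ℝ (fun q : ℝ × R3 => B q.1 q.2) (p.1, p.2.1) (a, b)) := by
  have hpr : HasFDerivAt (fun p : PS => ((p.1, p.2.1) : ℝ × R3))
      ((ContinuousLinearMap.fst ℝ ℝ (R3 × R3)).prod
        ((ContinuousLinearMap.fst ℝ R3 R3).comp (ContinuousLinearMap.snd ℝ ℝ (R3 × R3)))) p :=
    ContinuousLinearMap.hasFDerivAt ((ContinuousLinearMap.fst ℝ ℝ (R3 × R3)).prod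
        ((ContinuousLinearMap.fst ℝ R3 R3).comp (ContinuousLinearMap.snd ℝ ℝ (R3 × R3))))
  have hv : HasFDerivAt (fun p : PS => p.2.2)
      ((ContinuousLinearMap.snd ℝ R3 R3).comp (ContinuousLinearMap.snd ℝ ℝ (R3 × R3))) p :=
    ContinuousLinearMap.hasFDerivAt
      ((ContinuousLinearMap.snd ℝ R3 R3).comp (ContinuousLinearMap.snd ℝ ℝ (R3 × R3)))
  have h1 : HasFDerivAt (fun p : PS => G p.2.2) _ p :=
    ((hG.smooth.differentiable (by simp)) p.2.2).hasFDerivAt.comp p hv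
  have h2 : HasFDerivAt (fun p : PS => E p.1 p.2.1) _ p :=
    HasFDerivAt.comp (g := fun q : ℝ × R3 => E q.1 q.2) (f := fun p : PS => ((p.1, p.2.1) : ℝ × R3))
      p ((hE.1.differentiable (by simp)) (p.1, p.2.1)).hasFDerivAt hpr
  have h3 : HasFDerivAt (fun p : PS => B p.1 p.2.1) _ p :=
    HasFDerivAt.comp (g := fun q : ℝ × R3 => B q.1 q.2) (f := fun p : PS => ((p.1, p.2.1) : ℝ × R3))
      p ((hB.1.differentiable (by simp)) (p.1, p.2.1)).hasFDerivAt hpr
  have h4 := h1.clm_apply (h2.prodMk h3)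
  have h5 : fderiv ℝ (frc G E B) p = _ := h4.fderiv
  rw [h5]
  simp
  rw [add_comm]

theorem tr_frc (hG : IsTrunc P G) (hE : SF E) (hB : SF B) (p : PS) (i : Fin 3) :
    Tr (fun p => frc G E B p i) p = G p.2.2 (te E p, te B p) i := by
  unfold Tr
  rw [fderiv_coord (((contDiff_frc hG hE hB).differentiable (by simp)) p) i,
    fderiv_frc hG hE hB]
  simp [te]

theorem dv_frc (hG : IsTrunc P G) (hE : SF E) (hB : SF B) (p : PS) (i j : Fin 3) :
    fderiv ℝ (fun p => frc G E B p i) p (ev j) = dv G E B p j i := by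
  unfold ev
  rw [fderiv_coord (((contDiff_frc hG hE hB).differentiable (by simp)) p) i,
    fderiv_frc hG hE hB]
  have e0 : ((0, 0) : ℝ × R3) = 0 := rfl
  have e1 : ((0, 0) : R3 × R3) = 0 := rfl
  rw [e0, map_zero, map_zero, e1, map_zero, add_zero]
  rfl

/-- the force is divergence free in `v` -/
theorem sum_dv (hG : IsTrunc P G) (E B : ℝ → R3 → R3) (p : PS) :
    ∑ i : Fin 3, dv G E B p i i = 0 := by
  have h := hG.divfree (E p.1 p.2.1, B p.1 p.2.1) p.2.2
  unfold div3 at h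
  rw [← h]
  refine Finset.sum_congr rfl fun i _ => ?_
  unfold pderiv dv
  have h1 : HasFDerivAt (fun w => G w (E p.1 p.2.1, B p.1 p.2.1)) _ p.2.2 :=
    ((hG.smooth.differentiable (by simp)) p.2.2).hasFDerivAt.clm_apply
      (hasFDerivAt_const (E p.1 p.2.1, B p.1 p.2.1) p.2.2)
  have h2 : HasFDerivAt (fun w => (G w (E p.1 p.2.1, B p.1 p.2.1)) i) _ p.2.2 :=
    hasFDerivAt_coord h1 i
  rw [h2.fderiv]
  simp

/-- momentum derivative of `f` -/
def fv (f : ℝ → R3 → R3 → ℝ) (p : PS) (j : Fin 3) : ℝ :=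
  fderiv ℝ (fun p : PS => f p.1 p.2.1 p.2.2) p (ev j)

theorem fv_eq (hf : PC f) (s : ℝ) (y v : R3) (j : Fin 3) :
    fv f (s, y, v) j = pderiv (fun w => f s y w) j v := by
  unfold fv pderiv ev
  have h1 : HasFDerivAt (fun w : R3 => ((s, y, w) : PS))
      ((0 : R3 →L[ℝ] ℝ).prod ((0 : R3 →L[ℝ] R3).prod (ContinuousLinearMap.id ℝ R3))) v :=
    (hasFDerivAt_const s v).prodMk ((hasFDerivAt_const y v).prodMk (hasFDerivAt_id v))
  have h2 : HasFDerivAt (fun w : R3 => f s y w) _ v :=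
    HasFDerivAt.comp (g := fun p : PS => f p.1 p.2.1 p.2.2) (f := fun w : R3 => ((s, y, w) : PS))
      v ((hf.1.differentiable (by simp)) (s, y, v)).hasFDerivAt h1
  rw [h2.fderiv]
  simp

theorem tr_f (hf : PC f) (s : ℝ) (y v : R3) :
    Tr (fun p : PS => f p.1 p.2.1 p.2.2) (s, y, v) = Tfree f s y v := by
  unfold Tr Tfree pderiv
  have hd := ((hf.1.differentiable (by simp)) (s, y, v)).hasFDerivAt
  have ht : HasDerivAt (fun r => f r y v)
      (fderiv ℝ (fun p : PS => f p.1 p.2.1 p.2.2) (s, y, v) (1, 0, 0)) s := by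
    have h1 : HasDerivAt (fun r : ℝ => ((r, y, v) : PS)) (1, 0, 0) s :=
      (hasDerivAt_id s).prodMk ((hasDerivAt_const s y).prodMk (hasDerivAt_const s v))
    have h2 : HasFDerivAt (fun p : PS => f p.1 p.2.1 p.2.2)
        (fderiv ℝ (fun p : PS => f p.1 p.2.1 p.2.2) (s, y, v))
        ((fun r : ℝ => ((r, y, v) : PS)) s) := hd
    exact h2.comp_hasDerivAt s h1
  have hx : HasFDerivAt (fun z : R3 => f s z v)
      ((fderiv ℝ (fun p : PS => f p.1 p.2.1 p.2.2) (s, y, v)).comp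
        ((0 : R3 →L[ℝ] ℝ).prod ((ContinuousLinearMap.id ℝ R3).prod (0 : R3 →L[ℝ] R3)))) y := by
    have h1 : HasFDerivAt (fun z : R3 => ((s, z, v) : PS))
        ((0 : R3 →L[ℝ] ℝ).prod ((ContinuousLinearMap.id ℝ R3).prod (0 : R3 →L[ℝ] R3))) y :=
      (hasFDerivAt_const s y).prodMk ((hasFDerivAt_id y).prodMk (hasFDerivAt_const v y))
    exact HasFDerivAt.comp (g := fun p : PS => f p.1 p.2.1 p.2.2)
      (f := fun z : R3 => ((s, z, v) : PS)) y hd h1
  rw [ht.deriv, hx.fderiv]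
  have e : ((1, relVel v, 0) : PS) = (1, 0, 0) + ∑ i : Fin 3, relVel v i • ((0, EuclideanSpace.single i 1, 0) : PS) := by
    have e1 : relVel v = ∑ i : Fin 3, relVel v i • (EuclideanSpace.single i (1:ℝ) : R3) := by
      ext k
      simp [Finset.sum_apply, Pi.single_apply]
    refine Prod.ext ?_ (Prod.ext ?_ ?_)
    · simp [Fin.sum_univ_three]
    · rw [Fin.sum_univ_three]
      simp only [Prod.snd_add, Prod.fst_add, Prod.smul_snd, Prod.smul_fst, zero_add]
      rw [Fin.sum_univ_three] at e1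
      exact e1
    · simp [Fin.sum_univ_three]
  have e2 := congrArg (fderiv ℝ (fun p : PS => f p.1 p.2.1 p.2.2) (s, y, v)) e
  rw [e2, map_add, map_sum]
  congr 1
  refine Finset.sum_congr rfl fun i _ => ?_
  rw [map_smul, smul_eq_mul]
  simp

/-! ### the two transport identities -/

theorem tr_f_eq (hf : PC f)
    (htr : ∀ (t : ℝ) (x v : R3), TransEq G E B f t x v) (p : PS) :
    Tr (fun p : PS => f p.1 p.2.1 p.2.2) p = - ∑ j : Fin 3, frc G E B p j * fv f p j := by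
  obtain ⟨s, y, v⟩ := p
  have h := htr s y v
  unfold TransEq Gv at h
  rw [tr_f hf]
  have h2 : ∀ j : Fin 3, frc G E B (s, y, v) j * fv f (s, y, v) j
      = (G v (E s y, B s y)) j * pderiv (fun w => f s y w) j v := by
    intro j
    rw [fv_eq hf]
    rfl
  rw [Finset.sum_congr rfl fun j _ => h2 j]
  linarith

section diffs
variable (hG : IsTrunc P G) (hE : SF E) (hB : SF B) (hf : PC f)
include hG hE hB

theorem diff_frc (p : PS) (i : Fin 3) : DifferentiableAt ℝ (fun p => frc G E B p i) p :=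
  ((contDiff_coord (contDiff_frc hG hE hB) i).differentiable (by simp)) p

omit hG hE hB in
include hf in
theorem diff_f (p : PS) : DifferentiableAt ℝ (fun p : PS => f p.1 p.2.1 p.2.2) p :=
  (hf.1.differentiable (by simp)) p

include hf

theorem fderiv_src (p w : PS) (i : Fin 3) :
    fderiv ℝ (src G E B f i) p w = -(frc G E B p i * fderiv ℝ (fun p : PS => f p.1 p.2.1 p.2.2) p w
      + f p.1 p.2.1 p.2.2 * fderiv ℝ (fun p => frc G E B p i) p w) := by
  have h1 := ((diff_frc hG hE hB p i).hasFDerivAt.mul (diff_f hf p).hasFDerivAt).neg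
  have h2 : fderiv ℝ (src G E B f i) p = _ := h1.fderiv
  rw [h2]
  simp

theorem fderiv_kk (p w : PS) (i j : Fin 3) :
    fderiv ℝ (kk G E B f i j) p w =
      frc G E B p i * frc G E B p j * fderiv ℝ (fun p : PS => f p.1 p.2.1 p.2.2) p w
      + f p.1 p.2.1 p.2.2 * (frc G E B p i * fderiv ℝ (fun p => frc G E B p j) p w
        + frc G E B p j * fderiv ℝ (fun p => frc G E B p i) p w) := by
  have h1 := (((diff_frc hG hE hB p i).hasFDerivAt.mul (diff_frc hG hE hB p j).hasFDerivAt).mul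
    (diff_f hf p).hasFDerivAt)
  have h2 : fderiv ℝ (kk G E B f i j) p = _ := h1.fderiv
  rw [h2]
  simp
  ring

/-- `T f = div_v (src)` -/
theorem tr_eq_divv (htr : ∀ (t : ℝ) (x v : R3), TransEq G E B f t x v) (p : PS) :
    Tr (fun p : PS => f p.1 p.2.1 p.2.2) p = divv (src G E B f) p := by
  rw [tr_f_eq hf htr]
  unfold divv
  have h : ∀ i : Fin 3, fderiv ℝ (src G E B f i) p (ev i)
      = -(frc G E B p i * fv f p i) + -(f p.1 p.2.1 p.2.2 * dv G E B p i i) := by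
    intro i
    rw [fderiv_src hG hE hB hf, dv_frc hG hE hB]
    unfold fv
    ring
  rw [Finset.sum_congr rfl fun i _ => h i, Finset.sum_add_distrib, Finset.sum_neg_distrib,
    Finset.sum_neg_distrib, ← Finset.mul_sum, sum_dv hG]
  ring

/-- the remainder does not contain derivatives of `f` -/
theorem hr_eq (htr : ∀ (t : ℝ) (x v : R3), TransEq G E B f t x v) (p : PS) (i : Fin 3) :
    hr G E B f i p = -(G p.2.2 (te E p, te B p) i * f p.1 p.2.1 p.2.2)
      - (∑ j : Fin 3, frc G E B p j * dv G E B p j i) * f p.1 p.2.1 p.2.2 := by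
  unfold hr divv
  have h1 : Tr (src G E B f i) p = -(frc G E B p i * Tr (fun p : PS => f p.1 p.2.1 p.2.2) p
      + f p.1 p.2.1 p.2.2 * Tr (fun p => frc G E B p i) p) := by
    unfold Tr
    exact fderiv_src hG hE hB hf p _ i
  have h2 : ∀ j : Fin 3, fderiv ℝ (kk G E B f i j) p (ev j)
      = frc G E B p i * (frc G E B p j * fv f p j)
        + (f p.1 p.2.1 p.2.2 * frc G E B p i) * dv G E B p j j
        + f p.1 p.2.1 p.2.2 * (frc G E B p j * dv G E B p j i) := by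
    intro j
    rw [fderiv_kk hG hE hB hf, dv_frc hG hE hB, dv_frc hG hE hB]
    unfold fv
    ring
  rw [h1, tr_frc hG hE hB, tr_f_eq hf htr, Finset.sum_congr rfl fun j _ => h2 j,
    Finset.sum_add_distrib, Finset.sum_add_distrib, ← Finset.mul_sum, ← Finset.mul_sum,
    ← Finset.mul_sum, sum_dv hG]
  ring

end diffs

/-! ### bounds -/

theorem IsTrunc.bdd' (hG : IsTrunc P G) :
    ∃ C : ℝ, 0 ≤ C ∧ (∀ v, ‖G v‖ ≤ C) ∧
      ∀ v (j : Fin 3), ‖fderiv ℝ G v (EuclideanSpace.single j 1)‖ ≤ C := by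
  have hK : IsCompact (Metric.closedBall (0 : R3) (2 * P)) := isCompact_closedBall _ _
  have h0 : Function.support G ⊆ Metric.closedBall (0 : R3) (2 * P) := by
    intro v hv
    rw [mem_closedBall_zero_iff]
    by_contra h
    exact hv (hG.supp v (not_le.1 h).le)
  have h1 : HasCompactSupport G := HasCompactSupport.of_support_subset_isCompact hK h0
  obtain ⟨C, hC⟩ := h1.exists_bound_of_continuous hG.smooth.continuous
  have h2 : ∀ j : Fin 3, ∃ C' : ℝ, ∀ v, ‖fderiv ℝ G v (EuclideanSpace.single j 1)‖ ≤ C' := fun j =>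
    (h1.fderiv_apply (𝕜 := ℝ) (EuclideanSpace.single j 1)).exists_bound_of_continuous
      ((hG.smooth.continuous_fderiv (by simp)).clm_apply continuous_const)
  choose C' hC' using h2
  refine ⟨C + ∑ j : Fin 3, |C' j|, ?_, fun v => ?_, fun v j => ?_⟩
  · have := (norm_nonneg _).trans (hC 0)
    positivity
  · have : 0 ≤ ∑ j : Fin 3, |C' j| := by positivity
    linarith [hC v]
  · have h3 : |C' j| ≤ ∑ j : Fin 3, |C' j| :=
      Finset.single_le_sum (f := fun j => |C' j|) (fun _ _ => abs_nonneg _) (Finset.mem_univ j)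
    have h4 := (norm_nonneg _).trans (hC 0)
    linarith [hC' j v, le_abs_self (C' j)]

theorem frc_le {CG A : ℝ} (hCG : ∀ v, ‖G v‖ ≤ CG) {p : PS} (hE : ‖E p.1 p.2.1‖ ≤ A)
    (hB : ‖B p.1 p.2.1‖ ≤ A) : ‖frc G E B p‖ ≤ CG * A := by
  have h0 : 0 ≤ CG := (norm_nonneg _).trans (hCG 0)
  unfold frc
  refine ((G p.2.2).le_opNorm _).trans (mul_le_mul (hCG _) ?_ (norm_nonneg _) h0)
  rw [Prod.norm_mk]
  exact max_le hE hB

theorem dv_le {CG A : ℝ}
    (hCG : ∀ v (j : Fin 3), ‖fderiv ℝ G v (EuclideanSpace.single j 1)‖ ≤ CG) {p : PS}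
    (hE : ‖E p.1 p.2.1‖ ≤ A) (hB : ‖B p.1 p.2.1‖ ≤ A) (j : Fin 3) :
    ‖dv G E B p j‖ ≤ CG * A := by
  have h1 : ‖fderiv ℝ G p.2.2 (EuclideanSpace.single j 1)‖ ≤ CG := hCG _ j
  have h0 : 0 ≤ CG := (norm_nonneg _).trans h1
  unfold dv
  refine ((fderiv ℝ G p.2.2 (EuclideanSpace.single j 1)).le_opNorm _).trans
    (mul_le_mul h1 ?_ (norm_nonneg _) h0)
  rw [Prod.norm_mk]
  exact max_le hE hB

theorem te_le {E : ℝ → R3 → R3} (hE : ContDiff ℝ ∞ (fun p : ℝ × R3 => E p.1 p.2)) {φ : ℝ}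
    (p : PS) (h1 : ‖iteratedFDeriv ℝ 1 (E p.1) p.2.1‖ ≤ φ)
    (h2 : ‖deriv (fun s => E s p.2.1) p.1‖ ≤ φ) : ‖te E p‖ ≤ 2 * φ := by
  have hφ : 0 ≤ φ := (norm_nonneg _).trans h2
  have hd := ((hE.differentiable (by simp)) (p.1, p.2.1)).hasFDerivAt
  have ht : HasDerivAt (fun r => E r p.2.1)
      (fderiv ℝ (fun q : ℝ × R3 => E q.1 q.2) (p.1, p.2.1) (1, 0)) p.1 := by
    have h3 : HasDerivAt (fun r : ℝ => ((r, p.2.1) : ℝ × R3)) (1, 0) p.1 :=
      (hasDerivAt_id _).prodMk (hasDerivAt_const _ _)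
    have h4 : HasFDerivAt (fun q : ℝ × R3 => E q.1 q.2)
        (fderiv ℝ (fun q : ℝ × R3 => E q.1 q.2) (p.1, p.2.1))
        ((fun r : ℝ => ((r, p.2.1) : ℝ × R3)) p.1) := hd
    exact h4.comp_hasDerivAt p.1 h3
  have hx : HasFDerivAt (E p.1)
      ((fderiv ℝ (fun q : ℝ × R3 => E q.1 q.2) (p.1, p.2.1)).comp
        ((0 : R3 →L[ℝ] ℝ).prod (ContinuousLinearMap.id ℝ R3))) p.2.1 := by
    have h3 : HasFDerivAt (fun z : R3 => ((p.1, z) : ℝ × R3))
        ((0 : R3 →L[ℝ] ℝ).prod (ContinuousLinearMap.id ℝ R3)) p.2.1 :=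
      (hasFDerivAt_const p.1 p.2.1).prodMk (hasFDerivAt_id p.2.1)
    exact HasFDerivAt.comp (g := fun q : ℝ × R3 => E q.1 q.2)
      (f := fun z : R3 => ((p.1, z) : ℝ × R3)) p.2.1 hd h3
  have e : te E p = deriv (fun s => E s p.2.1) p.1 + fderiv ℝ (E p.1) p.2.1 (relVel p.2.2) := by
    rw [ht.deriv, hx.fderiv]
    unfold te
    have e1 : ((1, relVel p.2.2) : ℝ × R3) = (1, 0) + (0, relVel p.2.2) := by simp
    rw [e1, map_add]
    simp
  have h5 : ‖fderiv ℝ (E p.1) p.2.1 (relVel p.2.2)‖ ≤ φ := by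
    rw [norm_iteratedFDeriv_one] at h1
    calc ‖fderiv ℝ (E p.1) p.2.1 (relVel p.2.2)‖
        ≤ ‖fderiv ℝ (E p.1) p.2.1‖ * ‖relVel p.2.2‖ := ContinuousLinearMap.le_opNorm _ _
      _ ≤ φ * 1 := mul_le_mul h1 (norm_relVel_le _) (norm_nonneg _) hφ
      _ = φ := mul_one _
  rw [e]
  calc _ ≤ ‖deriv (fun s => E s p.2.1) p.1‖ + ‖fderiv ℝ (E p.1) p.2.1 (relVel p.2.2)‖ :=
        norm_add_le _ _
    _ ≤ 2 * φ := by linarith

/-- bound of the remainder -/
theorem hr_le {CG A F0 φ : ℝ} (hG : IsTrunc P G) (hE : SF E) (hB : SF B) (hf : PC f)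
    (htr : ∀ (t : ℝ) (x v : R3), TransEq G E B f t x v)
    (hCG : ∀ v, ‖G v‖ ≤ CG)
    (hCG' : ∀ v (j : Fin 3), ‖fderiv ℝ G v (EuclideanSpace.single j 1)‖ ≤ CG) (p : PS)
    (hEA : ‖E p.1 p.2.1‖ ≤ A) (hBA : ‖B p.1 p.2.1‖ ≤ A)
    (h1 : ‖iteratedFDeriv ℝ 1 (E p.1) p.2.1‖ ≤ φ ∧ ‖iteratedFDeriv ℝ 1 (B p.1) p.2.1‖ ≤ φ)
    (h2 : ‖deriv (fun s => E s p.2.1) p.1‖ ≤ φ ∧ ‖deriv (fun s => B s p.2.1) p.1‖ ≤ φ)
    (hF : |f p.1 p.2.1 p.2.2| ≤ F0) (i : Fin 3) :
    |hr G E B f i p| ≤ 2 * CG * F0 * φ + 3 * (CG * A) ^ 2 * F0 := by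
  have h0 : 0 ≤ CG := (norm_nonneg _).trans (hCG 0)
  have hφ : 0 ≤ φ := (norm_nonneg _).trans h2.1
  have hA : 0 ≤ A := (norm_nonneg _).trans hEA
  have hF0 : 0 ≤ F0 := (abs_nonneg _).trans hF
  rw [hr_eq hG hE hB hf htr]
  have e1 : |G p.2.2 (te E p, te B p) i| ≤ CG * (2 * φ) := by
    refine (abs_coord_le _ _).trans (((G p.2.2).le_opNorm _).trans
      (mul_le_mul (hCG _) ?_ (norm_nonneg _) h0))
    rw [Prod.norm_mk]
    exact max_le (te_le hE.1 p h1.1 h2.1) (te_le hB.1 p h1.2 h2.2)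
  have e2 : |∑ j : Fin 3, frc G E B p j * dv G E B p j i| ≤ 3 * (CG * A) ^ 2 := by
    refine (Finset.abs_sum_le_sum_abs _ _).trans ?_
    have e3 : ∀ j ∈ (Finset.univ : Finset (Fin 3)),
        |frc G E B p j * dv G E B p j i| ≤ (CG * A) ^ 2 := by
      intro j _
      rw [abs_mul, sq]
      exact mul_le_mul ((abs_coord_le _ _).trans (frc_le hCG hEA hBA))
        ((abs_coord_le _ _).trans (dv_le hCG' hEA hBA j)) (abs_nonneg _) (by positivity)
    refine (Finset.sum_le_sum e3).trans ?_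
    simp
  calc |-(G p.2.2 (te E p, te B p) i * f p.1 p.2.1 p.2.2)
      - (∑ j : Fin 3, frc G E B p j * dv G E B p j i) * f p.1 p.2.1 p.2.2|
      ≤ |G p.2.2 (te E p, te B p) i * f p.1 p.2.1 p.2.2|
        + |(∑ j : Fin 3, frc G E B p j * dv G E B p j i) * f p.1 p.2.1 p.2.2| := by
        refine (abs_sub _ _).trans ?_
        rw [abs_neg]
    _ ≤ CG * (2 * φ) * F0 + 3 * (CG * A) ^ 2 * F0 := by
        rw [abs_mul, abs_mul]
        gcongr
    _ = 2 * CG * F0 * φ + 3 * (CG * A) ^ 2 * F0 := by ring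

/-- bound of the current density -/
theorem current_le {F0 R : ℝ} (t : ℝ) (x : R3) (hF : ∀ v, |f t x v| ≤ F0)
    (hs : ∀ v : R3, R < ‖v‖ → f t x v = 0) (i : Fin 3) :
    |currentDensity f t x i| ≤ F0 * (volume.real (Metric.closedBall (0 : R3) R)) := by
  refine (abs_coord_le _ _).trans ?_
  unfold currentDensity
  have h1 : ∫ v, f t x v • relVel v = ∫ v in Metric.closedBall (0 : R3) R, f t x v • relVel v := by
    refine (setIntegral_eq_integral_of_forall_compl_eq_zero fun v hv => ?_).symm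
    rw [mem_closedBall_zero_iff, not_le] at hv
    rw [hs v hv, zero_smul]
  rw [h1]
  refine norm_setIntegral_le_of_norm_le_const (isCompact_closedBall _ _).measure_lt_top ?_
  intro v _
  rw [norm_smul, Real.norm_eq_abs]
  calc |f t x v| * ‖relVel v‖ ≤ F0 * 1 :=
        mul_le_mul (hF v) (norm_relVel_le v) (norm_nonneg _) ((abs_nonneg _).trans (hF v))
    _ = F0 := mul_one _

theorem abs_pderiv_le {F : R3 → R3} {x : R3} (hF : DifferentiableAt ℝ F x) (i k : Fin 3) :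
    |pderiv (fun y => F y i) k x| ≤ ‖fderiv ℝ F x‖ := by
  unfold pderiv
  rw [fderiv_coord hF]
  refine (abs_coord_le _ _).trans ?_
  have := (fderiv ℝ F x).le_opNorm (EuclideanSpace.single k 1)
  simpa using this

theorem abs_curl_le {F : R3 → R3} {x : R3} (hF : DifferentiableAt ℝ F x) (i : Fin 3) :
    |curl3 F x i| ≤ 2 * ‖fderiv ℝ F x‖ := by
  have h := fun i k : Fin 3 => abs_le.1 (abs_pderiv_le hF i k)
  fin_cases i
  · simp only [curl3]
    have h1 := h 2 1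
    have h2 := h 1 2
    simp only [Fin.zero_eta, Fin.isValue, Matrix.cons_val_zero]
    rw [abs_le]
    constructor <;> linarith [h1.1, h1.2, h2.1, h2.2]
  · simp only [curl3]
    have h1 := h 0 2
    have h2 := h 2 0
    simp only [Fin.mk_one, Fin.isValue, Matrix.cons_val_one, Matrix.cons_val_zero]
    rw [abs_le]
    constructor <;> linarith [h1.1, h1.2, h2.1, h2.2]
  · simp only [curl3]
    have h1 := h 1 0
    have h2 := h 0 1
    simp only [Fin.reduceFinMk, Fin.isValue, Matrix.cons_val]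
    rw [abs_le]
    constructor <;> linarith [h1.1, h1.2, h2.1, h2.2]

theorem deriv_coord {E : ℝ → R3 → R3} (hE : ContDiff ℝ ∞ (fun p : ℝ × R3 => E p.1 p.2))
    (t : ℝ) (x : R3) (i : Fin 3) :
    deriv (fun s => E s x i) t = deriv (fun s => E s x) t i := by
  have h1 : ContDiff ℝ ∞ (fun s => E s x) := hE.comp (contDiff_id.prodMk contDiff_const)
  have h2 : HasDerivAt (fun s => E s x) (deriv (fun s => E s x) t) t :=
    ((h1.differentiable (by simp)) t).hasDerivAt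
  have h3 := (EuclideanSpace.proj (𝕜 := ℝ) i : R3 →L[ℝ] ℝ).hasFDerivAt.comp_hasDerivAt t h2
  exact h3.deriv

theorem slice_le {f : ℝ → R3 → R3 → ℝ} (hf : PC f) {s c : ℝ} (h : fBd 1 f s c) (y v : R3) :
    ‖fderiv ℝ (fun z => f s z v) y‖ ≤ c := by
  have hc : 0 ≤ c := (norm_nonneg _).trans (h 0)
  have h1 : ContDiff ℝ ∞ (fun z : R3 × R3 => f s z.1 z.2) :=
    hf.1.comp (contDiff_const.prodMk (contDiff_fst.prodMk contDiff_snd))
  have h2 := h (y, v)
  rw [norm_iteratedFDeriv_one] at h2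
  have h3 : HasFDerivAt (fun z : R3 => ((z, v) : R3 × R3))
      ((ContinuousLinearMap.id ℝ R3).prod (0 : R3 →L[ℝ] R3)) y :=
    (hasFDerivAt_id y).prodMk (hasFDerivAt_const v y)
  have h4 : HasFDerivAt (fun z : R3 => f s z v)
      ((fderiv ℝ (fun z : R3 × R3 => f s z.1 z.2) (y, v)).comp
        ((ContinuousLinearMap.id ℝ R3).prod (0 : R3 →L[ℝ] R3))) y :=
    HasFDerivAt.comp (g := fun z : R3 × R3 => f s z.1 z.2) (f := fun z : R3 => ((z, v) : R3 × R3)) y
      ((h1.differentiable (by simp)) (y, v)).hasFDerivAt h3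
  rw [h4.fderiv]
  refine ContinuousLinearMap.opNorm_le_bound _ hc fun w => ?_
  have h5 : ((fderiv ℝ (fun z : R3 × R3 => f s z.1 z.2) (y, v)).comp
        ((ContinuousLinearMap.id ℝ R3).prod (0 : R3 →L[ℝ] R3))) w
      = fderiv ℝ (fun z : R3 × R3 => f s z.1 z.2) (y, v) (w, 0) := by simp
  rw [h5]
  refine (ContinuousLinearMap.le_opNorm _ _).trans ?_
  have h6 : ‖((w, 0) : R3 × R3)‖ = ‖w‖ := by simp [Prod.norm_mk]
  rw [h6]
  exact mul_le_mul_of_nonneg_right h2 (norm_nonneg _)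

/-! ### the theorem -/

/-- verbatim copy of `Std.FBlogpos` of `Rev.lean` -/
def FBlogposS : Prop :=
  ∀ (P : ℝ) (G : R3 → (R3 × R3) →L[ℝ] R3), IsTrunc P G →
    ∀ (f₀ : R3 → R3 → ℝ) (E₀ B₀ : R3 → R3), IsAdmissibleDatum f₀ E₀ B₀ → ∀ T A : ℝ,
    ∃ C : ℝ, 0 ≤ C ∧ ∀ (E B : ℝ → R3 → R3) (f : ℝ → R3 → R3 → ℝ) (E' B' : ℝ → R3 → R3)
      (φ : ℝ → ℝ) (τ L : ℝ),
      Step P G f₀ E₀ B₀ E B f E' B' → 0 ≤ τ → τ ≤ T → 0 ≤ L → Continuous φ →
      (∀ s : ℝ, |s| ≤ T → FBd 0 E B s A) →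
      (∀ s : ℝ, |s| ≤ T → FBd 1 E B s (φ s) ∧ FBt E B s (φ s)) →
      (∀ s ∈ uIcc 0 τ, fBd 1 f s (Real.exp L)) →
      FBd 1 E' B' τ (C * (1 + L + |∫ s in (0:ℝ)..τ, φ s|)) ∧
      FBt E' B' τ (C * (1 + L + |∫ s in (0:ℝ)..τ, φ s|))

lemma log_le {L : ℝ} (hL : 0 ≤ L) : Real.log (2 + Real.exp L) ≤ 2 + L := by
  have h1 : 1 ≤ Real.exp L := Real.one_le_exp hL
  have h2 : (3 : ℝ) ≤ Real.exp 2 := by
    have := Real.add_one_le_exp (2 : ℝ)
    linarith
  have h3 : 2 + Real.exp L ≤ Real.exp (2 + L) := by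
    rw [Real.exp_add]
    nlinarith [Real.exp_pos L]
  calc Real.log (2 + Real.exp L) ≤ Real.log (Real.exp (2 + L)) :=
        Real.log_le_log (by positivity) h3
    _ = 2 + L := Real.log_exp _

theorem fblogpos (hL : GSLogU) : FBlogposS := by
  intro P G hG f₀ E₀ B₀ had T A
  have had' := had
  obtain ⟨hpos, hsm, hcs, hEs, hBs, hbd, -, -, -, -⟩ := had'
  obtain ⟨R0, hR0⟩ := hcs.isCompact.isBounded.subset_closedBall (0 : R3 × R3)
  have hR0' : ∀ x v : R3, R0 < ‖v‖ → f₀ x v = 0 := by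
    intro x v hv
    by_contra hne
    have h1 : (x, v) ∈ tsupport (Function.uncurry f₀) := subset_tsupport _ hne
    have h2 := hR0 h1
    rw [mem_closedBall_zero_iff] at h2
    exact absurd ((norm_snd_le (x, v)).trans h2) (not_le.2 hv)
  set P' : ℝ := max (2 * P) R0 with hP'
  obtain ⟨F0, hF0⟩ := hcs.exists_bound_of_continuous hsm.continuous
  have hF0n : 0 ≤ F0 := (norm_nonneg _).trans (hF0 0)
  obtain ⟨CG, hCG0, hCG, hCG'⟩ := IsTrunc.bdd' hG
  set T' : ℝ := max T 1 with hT'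
  have hT'0 : 0 < T' := lt_of_lt_of_le one_pos (le_max_right _ _)
  obtain ⟨C1, hC1, H⟩ := hL P' T' hT'0 f₀ E₀ B₀
  set b0 : ℝ := CG * |A| * F0 with hb0
  have hb0n : 0 ≤ b0 := by positivity
  set VB : ℝ := F0 * (volume.real (Metric.closedBall (0 : R3) P')) with hVB
  have hVBn : 0 ≤ VB := by positivity
  set c3 : ℝ := 3 * (CG * |A|) ^ 2 * F0 with hc3
  have hc3n : 0 ≤ c3 := by positivity
  set a3 : ℝ := 2 * CG * F0 with ha3
  have ha3n : 0 ≤ a3 := by positivity
  set K : ℝ := C1 * (1 + b0 + F0 * 2 + F0 + |T| * b0 + |T| * a3 + |T| * (c3 * |T|)) with hK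
  have hKn : 0 ≤ K := by positivity
  refine ⟨3 * (2 * K + VB), by positivity, ?_⟩
  intro E B f E' B' φ τ L hst hτ0 hτT hL0 hφ hA hφb hf1
  have hT0 : 0 ≤ T := hτ0.trans hτT
  have habs : ∀ s ∈ Icc 0 τ, |s| ≤ T := fun s hs => by
    rw [abs_of_nonneg hs.1]; exact hs.2.trans hτT
  have hφn : ∀ s ∈ Icc 0 τ, 0 ≤ φ s := fun s hs =>
    (norm_nonneg _).trans (((hφb s (habs s hs)).1) 0).1
  have hAE : ∀ s ∈ Icc 0 τ, ∀ y : R3, ‖E s y‖ ≤ |A| ∧ ‖B s y‖ ≤ |A| := by
    intro s hs y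
    have h := hA s (habs s hs) y
    rw [norm_iteratedFDeriv_zero, norm_iteratedFDeriv_zero] at h
    exact ⟨h.1.trans (le_abs_self A), h.2.trans (le_abs_self A)⟩
  have hfF : ∀ s y v, |f s y v| ≤ F0 := by
    intro s y v
    obtain ⟨y', w, hyw⟩ := hst.values s y v
    rw [hyw]
    exact hF0 (y', w)
  have hsup : ∀ s, ∀ y v : R3, P' < ‖v‖ → f s y v = 0 := fun s y v hv =>
    hst.suppv P' (le_max_left _ _)
      (fun x v hv => hR0' x v (lt_of_le_of_lt (le_max_right _ _) hv)) s y v hv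
  have hfrc : ∀ s ∈ Icc 0 τ, ∀ y v : R3, ‖frc G E B (s, y, v)‖ ≤ CG * |A| := fun s hs y v =>
    frc_le hCG (p := ((s, y, v) : PS)) (hAE s hs y).1 (hAE s hs y).2
  have hsrc : ∀ s ∈ Icc 0 τ, ∀ i, ∀ y v : R3, |src G E B f i (s, y, v)| ≤ b0 := by
    intro s hs i y v
    unfold src
    rw [abs_neg, abs_mul]
    exact mul_le_mul ((abs_coord_le _ _).trans (hfrc s hs y v)) (hfF s y v) (abs_nonneg _)
      (by positivity)
  -- the linear solution
  have hlin : LinSol P' T' f₀ E₀ B₀ univ f (src G E B f) E' B' := by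
    refine
      { adm := had
        isOpen := isOpen_univ
        subset := subset_univ _
        smf := hst.pc.1.contDiffOn
        smG := fun i => (contDiff_src hG hst.inE hst.inB hst.pc i).contDiffOn
        smE := hst.outE.1.contDiffOn
        smB := hst.outB.1.contDiffOn
        suppf := fun s _ y v hv => hsup s y v hv
        suppG := fun s _ y v hv i => by simp [src, hsup s y v hv]
        cpt := ?_
        f0 := hst.init
        E0 := hst.initE
        B0 := hst.initB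
        tr := fun s _ y v => tr_eq_divv hG hst.inE hst.inB hst.pc hst.trans (s, y, v)
        ampere := fun s _ x i => (hst.maxwell s x).1 i
        faraday := fun s _ x i => (hst.maxwell s x).2.1 i
        gauss := fun s _ x => (hst.maxwell s x).2.2.1
        gaussB := fun s _ x => (hst.maxwell s x).2.2.2 }
    obtain ⟨R, hR⟩ := hst.pc.2 T'
    refine ⟨R, fun s hs y v hy => ?_⟩
    have h0 : f s y v = 0 := hR s (by rw [abs_of_nonneg hs.1]; exact hs.2) y v (Or.inl hy)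
    exact ⟨h0, fun i => by simp [src, h0]⟩
  have key := H f (src G E B f) (hr G E B f) (kk G E B f) E' B' hlin
    (fun i => continuous_hr hG hst.inE hst.inB hst.pc i)
    (fun i j => (contDiff_kk hG hst.inE hst.inB hst.pc i j).of_le (by simp))
    (fun s y v hv i => ⟨by
      rw [hr_eq hG hst.inE hst.inB hst.pc hst.trans]
      simp [hsup s y v hv], fun j => by simp [kk, hsup s y v hv]⟩)
    (fun s i y v => by unfold hr; ring)
    τ ⟨hτ0, hτT.trans (le_max_left _ _)⟩ b0 F0 (Real.exp L) (fun _ => b0)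
    (fun s => a3 * φ s + c3)
    (fun i y v => hsrc 0 ⟨le_rfl, hτ0⟩ i y v)
    (fun s hs y v => ⟨hfF s y v, slice_le hst.pc (hf1 s (by rwa [uIcc_of_le hτ0])) y v⟩)
    hsrc
    (fun s hs i y v => ⟨hr_le hG hst.inE hst.inB hst.pc hst.trans hCG hCG' ((s, y, v) : PS)
        (hAE s hs y).1 (hAE s hs y).2 ((hφb s (habs s hs)).1 y) ((hφb s (habs s hs)).2 y)
        (hfF s y v) i, fun j => by
          have h1 : |kk G E B f i j (s, y, v)| ≤ (CG * |A|) * (CG * |A|) * F0 := by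
            unfold kk
            rw [abs_mul, abs_mul]
            exact mul_le_mul (mul_le_mul ((abs_coord_le _ _).trans (hfrc s hs y v))
              ((abs_coord_le _ _).trans (hfrc s hs y v)) (abs_nonneg _) (by positivity))
              (hfF s y v) (abs_nonneg _) (by positivity)
          have h2 : 0 ≤ a3 * φ s := mul_nonneg ha3n (hφn s hs)
          have h3 : (CG * |A|) * (CG * |A|) * F0 ≤ c3 := by
            rw [hc3]
            have : 0 ≤ (CG * |A|) ^ 2 * F0 := by positivity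
            nlinarith
          linarith⟩)
    intervalIntegrable_const
    ((by fun_prop : Continuous fun s => a3 * φ s + c3).intervalIntegrable _ _)
  set I : ℝ := |∫ s in (0:ℝ)..τ, φ s| with hI
  have hIn : 0 ≤ I := abs_nonneg _
  have hτabs : τ ≤ |T| := hτT.trans (le_abs_self T)
  -- estimate of the right-hand side
  have hint1 : ∫ _s in (0:ℝ)..τ, b0 ≤ |T| * b0 := by
    rw [intervalIntegral.integral_const, smul_eq_mul, sub_zero]
    exact mul_le_mul_of_nonneg_right hτabs hb0n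
  have hint2 : ∫ s in (0:ℝ)..τ, (τ - s) * (a3 * φ s + c3) ≤ |T| * (a3 * I + c3 * |T|) := by
    have h1 : ∫ s in (0:ℝ)..τ, (τ - s) * (a3 * φ s + c3) ≤
        ∫ s in (0:ℝ)..τ, |T| * (a3 * φ s + c3) := by
      refine intervalIntegral.integral_mono_on hτ0
        ((by fun_prop : Continuous fun s => (τ - s) * (a3 * φ s + c3)).intervalIntegrable _ _)
        ((by fun_prop : Continuous fun s => |T| * (a3 * φ s + c3)).intervalIntegrable _ _)
        fun s hs => ?_
      have h2 : 0 ≤ a3 * φ s + c3 := add_nonneg (mul_nonneg ha3n (hφn s hs)) hc3n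
      exact mul_le_mul_of_nonneg_right (by linarith [hs.1]) h2
    refine h1.trans ?_
    rw [intervalIntegral.integral_const_mul, intervalIntegral.integral_add
      ((by fun_prop : Continuous fun s => a3 * φ s).intervalIntegrable _ _)
      intervalIntegrable_const, intervalIntegral.integral_const_mul,
      intervalIntegral.integral_const, smul_eq_mul, sub_zero]
    apply mul_le_mul_of_nonneg_left _ (abs_nonneg T)
    have h3 : ∫ s in (0:ℝ)..τ, φ s ≤ I := le_abs_self _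
    have h4 : τ * c3 ≤ c3 * |T| := by rw [mul_comm]; exact mul_le_mul_of_nonneg_left hτabs hc3n
    have h5 := mul_le_mul_of_nonneg_left h3 ha3n
    linarith
  have hfin : C1 * (1 + b0 + F0 * Real.log (2 + Real.exp L) + (∫ _s in (0:ℝ)..τ, b0) +
      ∫ s in (0:ℝ)..τ, (τ - s) * (a3 * φ s + c3)) ≤ K * (1 + L + I) := by
    have h1 := mul_le_mul_of_nonneg_left (log_le hL0) hF0n
    have h2 : C1 * (1 + b0 + F0 * Real.log (2 + Real.exp L) + (∫ _s in (0:ℝ)..τ, b0) +
      ∫ s in (0:ℝ)..τ, (τ - s) * (a3 * φ s + c3)) ≤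
        C1 * (1 + b0 + F0 * (2 + L) + |T| * b0 + |T| * (a3 * I + c3 * |T|)) :=
      mul_le_mul_of_nonneg_left (by linarith) hC1
    refine h2.trans ?_
    rw [hK, mul_assoc C1]
    apply mul_le_mul_of_nonneg_left _ hC1
    have e1 : 0 ≤ |T| * b0 := by positivity
    have e2 : 0 ≤ |T| * a3 := by positivity
    have e3 : 0 ≤ |T| * (c3 * |T|) := by positivity
    have e4 : 0 ≤ L + I := by positivity
    have e5 : (1 + b0 + F0 * (2 + L) + |T| * b0 + |T| * (a3 * I + c3 * |T|))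
        = (1 + b0 + F0 * 2 + |T| * b0 + |T| * (c3 * |T|)) + F0 * L + |T| * a3 * I := by ring
    have e6 : (1 + b0 + F0 * 2 + F0 + |T| * b0 + |T| * a3 + |T| * (c3 * |T|)) * (1 + L + I)
        = (1 + b0 + F0 * 2 + |T| * b0 + |T| * (c3 * |T|)) * (1 + (L + I))
          + (F0 * L + |T| * a3 * I) + (F0 * (1 + I) + |T| * a3 * (1 + L)) := by ring
    rw [e5, e6]
    have e7 : 0 ≤ (1 + b0 + F0 * 2 + |T| * b0 + |T| * (c3 * |T|)) * (L + I) := by positivity
    have e8 : 0 ≤ F0 * (1 + I) + |T| * a3 * (1 + L) := by positivity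
    linarith
  have hX : 0 ≤ 1 + L + I := by positivity
  have hD : ∀ x : R3, ‖fderiv ℝ (E' τ) x‖ ≤ K * (1 + L + I) ∧
      ‖fderiv ℝ (B' τ) x‖ ≤ K * (1 + L + I) := fun x =>
    ⟨((key x).1).trans hfin, ((key x).2).trans hfin⟩
  have hKle : K * (1 + L + I) ≤ 3 * (2 * K + VB) * (1 + L + I) :=
    mul_le_mul_of_nonneg_right (by linarith) hX
  refine ⟨fun x => ?_, fun x => ?_⟩
  · rw [norm_iteratedFDeriv_one, norm_iteratedFDeriv_one]
    exact ⟨(hD x).1.trans hKle, (hD x).2.trans hKle⟩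
  · have hdE : DifferentiableAt ℝ (E' τ) x := by
      have h1 : ContDiff ℝ ∞ (E' τ) := hst.outE.1.comp (contDiff_const.prodMk contDiff_id)
      exact (h1.differentiable (by simp)) x
    have hdB : DifferentiableAt ℝ (B' τ) x := by
      have h1 : ContDiff ℝ ∞ (B' τ) := hst.outB.1.comp (contDiff_const.prodMk contDiff_id)
      exact (h1.differentiable (by simp)) x
    have hM : (2 * K + VB) * (1 + L + I) = 2 * (K * (1 + L + I)) + VB * (1 + L + I) := by ring
    have hVX : VB ≤ VB * (1 + L + I) := by nlinarith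
    have hVX' : 0 ≤ VB * (1 + L + I) := by positivity
    constructor
    · rw [mul_assoc]
      refine norm_le_three fun i => ?_
      rw [← deriv_coord hst.outE.1]
      have h1 := (hst.maxwell τ x).1 i
      have h2 : deriv (fun s => E' s x i) τ = curl3 (B' τ) x i - currentDensity f τ x i := by
        linarith
      rw [h2]
      have h3 := abs_curl_le hdB i
      have h4 := current_le (f := f) τ x (hfF τ x) (fun v hv => hsup τ x v hv) i
      have h5 := abs_sub (curl3 (B' τ) x i) (currentDensity f τ x i)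
      rw [hM]
      linarith [(hD x).2]
    · rw [mul_assoc]
      refine norm_le_three fun i => ?_
      rw [← deriv_coord hst.outB.1]
      have h1 := (hst.maxwell τ x).2.1 i
      have h2 : deriv (fun s => B' s x i) τ = -curl3 (E' τ) x i := by linarith
      rw [h2, abs_neg]
      have h3 := abs_curl_le hdE i
      rw [hM]
      linarith [(hD x).1]

end Crest.Agent.R106.FieldStd
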