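/- Row 106, node GS2 (helper375): `supEst : SupEst`. -/
import Crest.Agent.R106.Gs2Sup
import Crest.Agent.R106.Gs2Wrap

namespace Crest.Agent.R106.Gs2

theorem supEst : SupEst := supEst_of_core coreSup

end Crest.Agent.R106.Gs2
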