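import Crest.Agent.R106.FBlogTop
import Crest.Agent.R106.FBDir
import Crest.Agent.R106.Gs2SupEst

/-! Row 106 (helper835): the three field nodes of the standard part, unconditional. -/

namespace Crest.Agent.R106.Std

theorem fb' : FB := FBDir.fb Gs2.supEst

theorem fbz' : FBz := FBDir.fbz Gs2.supEst

theorem fblog' : FBlog := fbLog

end Crest.Agent.R106.Std
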