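import Crest.Agent.R106.FlowGen
import Crest.Prelude.Def_VlasovMaxwell

/-!
Row 106, module FLOW: characteristics of the relativistic Vlasov-Maxwell transport equation on an
open time interval, linear Vlasov solver `vf`.
-/

set_option autoImplicit false
set_option linter.unusedSectionVars false

open Set Filter Topology
open scoped ContDiff
open Crest.AnalysisR.VecCalc3 Crest.AnalysisR.PDE.RVM

noncomputable section

namespace Crest.Agent.R106.Flow

/-! ### relativistic velocity and cross product -/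

lemma one_add_sq_pos (v : R3) : 0 < 1 + ‖v‖ ^ 2 := by positivity

lemma contDiff_relVel {n : WithTop ℕ∞} : ContDiff ℝ n relVel := by
  have h1 : ContDiff ℝ n (fun v : R3 => Real.sqrt (1 + ‖v‖ ^ 2)) :=
    ContDiff.sqrt (contDiff_const.add (contDiff_norm_sq ℝ)) (fun v => (one_add_sq_pos v).ne')
  have h2 : ContDiff ℝ n (fun v : R3 => (Real.sqrt (1 + ‖v‖ ^ 2))⁻¹) :=
    h1.inv (fun v => (Real.sqrt_pos.2 (one_add_sq_pos v)).ne')
  exact h2.smul contDiff_id

lemma norm_relVel (v : R3) : ‖relVel v‖ = ‖v‖ / Real.sqrt (1 + ‖v‖ ^ 2) := by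
  unfold relVel
  rw [norm_smul, norm_inv, Real.norm_of_nonneg (Real.sqrt_nonneg _)]
  field_simp

lemma norm_relVel_lt (v : R3) : ‖relVel v‖ < 1 := by
  rw [norm_relVel, div_lt_one (Real.sqrt_pos.2 (one_add_sq_pos v))]
  apply Real.lt_sqrt_of_sq_lt
  linarith

lemma norm_relVel_le (v : R3) : ‖relVel v‖ ≤ 1 := (norm_relVel_lt v).le

lemma norm_sq_R3 (a : R3) : ‖a‖ ^ 2 = a 0 ^ 2 + a 1 ^ 2 + a 2 ^ 2 := by
  rw [EuclideanSpace.norm_sq_eq, Fin.sum_univ_three]
  simp [Real.norm_eq_abs, sq_abs]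

@[simp] lemma cross3_zero' (a b : R3) : cross3 a b 0 = a 1 * b 2 - a 2 * b 1 := rfl
@[simp] lemma cross3_one' (a b : R3) : cross3 a b 1 = a 2 * b 0 - a 0 * b 2 := rfl
@[simp] lemma cross3_two' (a b : R3) : cross3 a b 2 = a 0 * b 1 - a 1 * b 0 := rfl

lemma norm_cross3_le (a b : R3) : ‖cross3 a b‖ ≤ ‖a‖ * ‖b‖ := by
  apply le_of_sq_le_sq _ (by positivity)
  rw [mul_pow, norm_sq_R3, norm_sq_R3, norm_sq_R3]
  simp only [cross3_zero', cross3_one', cross3_two']
  nlinarith [sq_nonneg (a 0 * b 0 + a 1 * b 1 + a 2 * b 2)]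

lemma contDiff_cross3 {n : WithTop ℕ∞} : ContDiff ℝ n (fun p : R3 × R3 => cross3 p.1 p.2) := by
  rw [contDiff_euclidean]
  intro i
  have h1 : ∀ j : Fin 3, ContDiff ℝ n (fun p : R3 × R3 => p.1 j) := fun j =>
    (EuclideanSpace.proj (𝕜 := ℝ) j).contDiff.comp contDiff_fst
  have h2 : ∀ j : Fin 3, ContDiff ℝ n (fun p : R3 × R3 => p.2 j) := fun j =>
    (EuclideanSpace.proj (𝕜 := ℝ) j).contDiff.comp contDiff_snd
  fin_cases i
  · exact ((h1 1).mul (h2 2)).sub ((h1 2).mul (h2 1))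
  · exact ((h1 2).mul (h2 0)).sub ((h1 0).mul (h2 2))
  · exact ((h1 0).mul (h2 1)).sub ((h1 1).mul (h2 0))

/-! ### the characteristic vector field -/

/-- Lorentz force `E + u(v) × B`. -/
def force (E B : ℝ → R3 → R3) (t : ℝ) (z : R3 × R3) : R3 :=
  E t z.1 + cross3 (relVel z.2) (B t z.1)

/-- The characteristic vector field. -/
def VM (E B : ℝ → R3 → R3) (t : ℝ) (z : R3 × R3) : R3 × R3 :=
  (relVel z.2, force E B t z)

/-- Fields `C^n` on `(a,b) × R3`, bounded on compact time intervals. -/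
structure GoodF (n : ℕ∞) (E B : ℝ → R3 → R3) (a b : ℝ) : Prop where
  smE : ContDiffOn ℝ n (fun p : ℝ × R3 => E p.1 p.2) (Ioo a b ×ˢ (univ : Set R3))
  smB : ContDiffOn ℝ n (fun p : ℝ × R3 => B p.1 p.2) (Ioo a b ×ˢ (univ : Set R3))
  bdd : ∀ c d, a < c → d < b → ∃ C : ℝ, ∀ t ∈ Icc c d, ∀ x, ‖E t x‖ ≤ C ∧ ‖B t x‖ ≤ C

lemma GoodF.mono {n m : ℕ∞} {E B : ℝ → R3 → R3} {a b : ℝ} (h : GoodF n E B a b) (hm : m ≤ n) :
    GoodF m E B a b :=
  ⟨h.smE.of_le (by exact_mod_cast hm), h.smB.of_le (by exact_mod_cast hm), h.bdd⟩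

lemma norm_force_le (E B : ℝ → R3 → R3) (t : ℝ) (z : R3 × R3) :
    ‖force E B t z‖ ≤ ‖E t z.1‖ + ‖B t z.1‖ := by
  unfold force
  refine (norm_add_le _ _).trans (add_le_add le_rfl ?_)
  refine (norm_cross3_le _ _).trans ?_
  exact mul_le_of_le_one_left (norm_nonneg _) (norm_relVel_le _)

lemma contDiffOn_VM {n : ℕ∞} {E B : ℝ → R3 → R3} {a b : ℝ} (h : GoodF n E B a b) :
    ContDiffOn ℝ n (fun p : ℝ × (R3 × R3) => VM E B p.1 p.2)
      (Ioo a b ×ˢ (univ : Set (R3 × R3))) := by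
  have hproj : ContDiff ℝ n (fun p : ℝ × (R3 × R3) => ((p.1, p.2.1) : ℝ × R3)) := by fun_prop
  have hmaps : MapsTo (fun p : ℝ × (R3 × R3) => ((p.1, p.2.1) : ℝ × R3))
      (Ioo a b ×ˢ (univ : Set (R3 × R3))) (Ioo a b ×ˢ (univ : Set R3)) :=
    fun p hp => ⟨hp.1, mem_univ _⟩
  have hE := h.smE.comp hproj.contDiffOn hmaps
  have hB := h.smB.comp hproj.contDiffOn hmaps
  have hu : ContDiff ℝ n (fun p : ℝ × (R3 × R3) => relVel p.2.2) :=
    contDiff_relVel.comp (by fun_prop)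
  refine hu.contDiffOn.prodMk ?_
  refine hE.add ?_
  exact contDiff_cross3.comp_contDiffOn (hu.contDiffOn.prodMk hB)

lemma good_VM {n : ℕ∞} {E B : ℝ → R3 → R3} {a b : ℝ} (h : GoodF n E B a b) :
    Good n (VM E B) a b := by
  refine ⟨contDiffOn_VM h, ?_⟩
  intro c d hc hd
  obtain ⟨C, hC⟩ := h.bdd c d hc hd
  refine ⟨max 1 (C + C), fun t ht z => ?_⟩
  rw [VM, Prod.norm_def]
  refine max_le_max (norm_relVel_le _) ?_
  exact (norm_force_le E B t z).trans (add_le_add (hC t ht z.1).1 (hC t ht z.1).2)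

/-! ### partial derivatives and the transport operator -/

/-- Uncurried density. -/
def unc (f : ℝ → R3 → R3 → ℝ) : ℝ × R3 × R3 → ℝ := fun p => f p.1 p.2.1 p.2.2

lemma sum_single (u : R3) : ∑ i : Fin 3, u i • (EuclideanSpace.single i (1 : ℝ) : R3) = u := by
  ext j
  rw [Fin.sum_univ_three]
  fin_cases j <;> simp [PiLp.add_apply, PiLp.smul_apply]

lemma deriv_time {f : ℝ → R3 → R3 → ℝ} {t : ℝ} {x v : R3}
    (h : DifferentiableAt ℝ (unc f) (t, x, v)) :
    deriv (fun s => f s x v) t = fderiv ℝ (unc f) (t, x, v) (1, 0, 0) := by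
  have h1 : HasDerivAt (fun s : ℝ => ((s, x, v) : ℝ × R3 × R3)) ((1 : ℝ), (0 : R3), (0 : R3)) t :=
    (hasDerivAt_id t).prodMk (hasDerivAt_const t (x, v))
  have h2 := h.hasFDerivAt.comp_hasDerivAt t h1
  exact h2.deriv

lemma pderiv_x {f : ℝ → R3 → R3 → ℝ} {t : ℝ} {x v : R3}
    (h : DifferentiableAt ℝ (unc f) (t, x, v)) (i : Fin 3) :
    pderiv (fun y => f t y v) i x =
      fderiv ℝ (unc f) (t, x, v) (0, EuclideanSpace.single i 1, 0) := by
  have h1 : HasFDerivAt (fun y : R3 => ((t, y, v) : ℝ × R3 × R3))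
      ((0 : R3 →L[ℝ] ℝ).prod ((ContinuousLinearMap.id ℝ R3).prod (0 : R3 →L[ℝ] R3))) x :=
    (hasFDerivAt_const t x).prodMk ((hasFDerivAt_id x).prodMk (hasFDerivAt_const v x))
  have h2 := HasFDerivAt.comp (g := unc f) (f := fun y : R3 => ((t, y, v) : ℝ × R3 × R3)) x
    h.hasFDerivAt h1
  have h3 : HasFDerivAt (fun y => f t y v) _ x := h2
  rw [pderiv, h3.fderiv]
  simp

lemma pderiv_v {f : ℝ → R3 → R3 → ℝ} {t : ℝ} {x v : R3}
    (h : DifferentiableAt ℝ (unc f) (t, x, v)) (i : Fin 3) :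
    pderiv (fun w => f t x w) i v =
      fderiv ℝ (unc f) (t, x, v) (0, 0, EuclideanSpace.single i 1) := by
  have h1 : HasFDerivAt (fun w : R3 => ((t, x, w) : ℝ × R3 × R3))
      ((0 : R3 →L[ℝ] ℝ).prod ((0 : R3 →L[ℝ] R3).prod (ContinuousLinearMap.id ℝ R3))) v :=
    (hasFDerivAt_const t v).prodMk ((hasFDerivAt_const x v).prodMk (hasFDerivAt_id v))
  have h2 := HasFDerivAt.comp (g := unc f) (f := fun w : R3 => ((t, x, w) : ℝ × R3 × R3)) v
    h.hasFDerivAt h1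
  have h3 : HasFDerivAt (fun w => f t x w) _ v := h2
  rw [pderiv, h3.fderiv]
  simp

/-- The transport operator in terms of the total derivative. -/
theorem transport_eq {f : ℝ → R3 → R3 → ℝ} {t : ℝ} {x v : R3}
    (h : DifferentiableAt ℝ (unc f) (t, x, v)) (u F : R3) :
    deriv (fun s => f s x v) t + ∑ i : Fin 3, u i * pderiv (fun y => f t y v) i x
      + ∑ i : Fin 3, F i * pderiv (fun w => f t x w) i v
      = fderiv ℝ (unc f) (t, x, v) (1, u, F) := by
  rw [deriv_time h]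
  simp_rw [pderiv_x h, pderiv_v h]
  have e1 : ∑ i : Fin 3, u i * fderiv ℝ (unc f) (t, x, v) (0, EuclideanSpace.single i 1, 0)
      = fderiv ℝ (unc f) (t, x, v) (0, u, 0) := by
    have : ((0 : ℝ), u, (0 : R3)) =
        ∑ i : Fin 3, u i • ((0 : ℝ), (EuclideanSpace.single i (1 : ℝ) : R3), (0 : R3)) := by
      refine Prod.ext ?_ (Prod.ext ?_ ?_)
      · simp [Prod.fst_sum]
      · simp only [Prod.snd_sum, Prod.fst_sum, Prod.smul_snd, Prod.smul_fst]
        exact (sum_single u).symm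
      · simp [Prod.snd_sum]
    rw [this, map_sum]
    exact Finset.sum_congr rfl (fun i _ => by rw [map_smul, smul_eq_mul])
  have e2 : ∑ i : Fin 3, F i * fderiv ℝ (unc f) (t, x, v) (0, 0, EuclideanSpace.single i 1)
      = fderiv ℝ (unc f) (t, x, v) (0, 0, F) := by
    have : ((0 : ℝ), (0 : R3), F) =
        ∑ i : Fin 3, F i • ((0 : ℝ), (0 : R3), (EuclideanSpace.single i (1 : ℝ) : R3)) := by
      refine Prod.ext ?_ (Prod.ext ?_ ?_)
      · simp [Prod.fst_sum]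
      · simp [Prod.snd_sum, Prod.fst_sum]
      · simp only [Prod.snd_sum, Prod.smul_snd]
        exact (sum_single F).symm
    rw [this, map_sum]
    exact Finset.sum_congr rfl (fun i _ => by rw [map_smul, smul_eq_mul])
  rw [e1, e2, ← map_add, ← map_add]
  simp

/-- Derivative of a density along a curve in phase space. -/
theorem hasDerivAt_along {f : ℝ → R3 → R3 → ℝ} {c : ℝ → R3 × R3} {c' : R3 × R3} {t : ℝ}
    (h : DifferentiableAt ℝ (unc f) (t, c t)) (hc : HasDerivAt c c' t) :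
    HasDerivAt (fun s => f s (c s).1 (c s).2) (fderiv ℝ (unc f) (t, c t) (1, c')) t := by
  have h1 : HasDerivAt (fun s : ℝ => ((s, c s) : ℝ × (R3 × R3))) ((1 : ℝ), c') t :=
    (hasDerivAt_id t).prodMk hc
  exact h.hasFDerivAt.comp_hasDerivAt t h1

/-! ### characteristics -/

section VMflow

variable {n : ℕ∞} {E B : ℝ → R3 → R3} {a b : ℝ}

/-- Characteristic map: state at time `s` of the characteristic through `z` at time `t`. -/
def ch (E B : ℝ → R3 → R3) (a b : ℝ) (s t : ℝ) (z : R3 × R3) : R3 × R3 := Φ (VM E B) a b s t z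

lemma uIcc_subset_Ioo {s t : ℝ} (hs : s ∈ Ioo a b) (ht : t ∈ Ioo a b) : uIcc t s ⊆ Ioo a b :=
  (convex_Ioo a b).ordConnected.uIcc_subset ht hs

lemma hasDerivAt_ch (h : GoodF 1 E B a b) {s t : ℝ} (hs : s ∈ Ioo a b) (ht : t ∈ Ioo a b)
    (z : R3 × R3) : HasDerivAt (fun r => ch E B a b r t z) (VM E B s (ch E B a b s t z)) s :=
  hasDerivAt_Φ (good_VM h) hs ht z

lemma hasDerivAt_ch_fst (h : GoodF 1 E B a b) {s t : ℝ} (hs : s ∈ Ioo a b) (ht : t ∈ Ioo a b)
    (z : R3 × R3) :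
    HasDerivAt (fun r => (ch E B a b r t z).1) (relVel (ch E B a b s t z).2) s :=
  (ContinuousLinearMap.fst ℝ R3 R3).hasFDerivAt.comp_hasDerivAt s (hasDerivAt_ch h hs ht z)

lemma hasDerivAt_ch_snd (h : GoodF 1 E B a b) {s t : ℝ} (hs : s ∈ Ioo a b) (ht : t ∈ Ioo a b)
    (z : R3 × R3) :
    HasDerivAt (fun r => (ch E B a b r t z).2) (force E B s (ch E B a b s t z)) s :=
  (ContinuousLinearMap.snd ℝ R3 R3).hasFDerivAt.comp_hasDerivAt s (hasDerivAt_ch h hs ht z)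

lemma ch_self (h : GoodF 1 E B a b) {t : ℝ} (ht : t ∈ Ioo a b) (z : R3 × R3) :
    ch E B a b t t z = z := Φ_self (good_VM h) ht z

lemma ch_ch (h : GoodF 1 E B a b) {r s t : ℝ} (hr : r ∈ Ioo a b) (hs : s ∈ Ioo a b)
    (ht : t ∈ Ioo a b) (z : R3 × R3) :
    ch E B a b r s (ch E B a b s t z) = ch E B a b r t z := Φ_Φ (good_VM h) hr hs ht z

/-- Speed less than one. -/
lemma norm_ch_fst_sub_le (h : GoodF 1 E B a b) {s t : ℝ} (hs : s ∈ Ioo a b) (ht : t ∈ Ioo a b)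
    (z : R3 × R3) : ‖(ch E B a b s t z).1 - z.1‖ ≤ |s - t| := by
  have hI := uIcc_subset_Ioo hs ht
  have h4 := (convex_uIcc t s).norm_image_sub_le_of_norm_hasDerivWithin_le (C := 1)
    (f := fun r => (ch E B a b r t z).1)
    (fun r hr => (hasDerivAt_ch_fst h (hI hr) ht z).hasDerivWithinAt)
    (fun r _ => norm_relVel_le _) left_mem_uIcc right_mem_uIcc
  simpa [ch_self h ht] using h4

/-- Momentum bound. -/
lemma norm_ch_snd_sub_le (h : GoodF 1 E B a b) {s t C : ℝ} (hs : s ∈ Ioo a b) (ht : t ∈ Ioo a b)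
    (hC : ∀ r ∈ uIcc t s, ∀ x, ‖E r x‖ + ‖B r x‖ ≤ C) (z : R3 × R3) :
    ‖(ch E B a b s t z).2 - z.2‖ ≤ C * |s - t| := by
  have hI := uIcc_subset_Ioo hs ht
  have h4 := (convex_uIcc t s).norm_image_sub_le_of_norm_hasDerivWithin_le (C := C)
    (f := fun r => (ch E B a b r t z).2)
    (fun r hr => (hasDerivAt_ch_snd h (hI hr) ht z).hasDerivWithinAt)
    (fun r hr => (norm_force_le _ _ _ _).trans (hC r hr _)) left_mem_uIcc right_mem_uIcc
  simpa [ch_self h ht] using h4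

lemma contDiffOn_ch (hn : 1 ≤ n) (h : GoodF n E B a b) :
    ContDiffOn ℝ n (fun q : ℝ × ℝ × (R3 × R3) => ch E B a b q.1 q.2.1 q.2.2)
      (Ioo a b ×ˢ Ioo a b ×ˢ (univ : Set (R3 × R3))) := contDiffOn_Φ hn (good_VM h)

lemma contDiff_ch (hn : 1 ≤ n) (h : GoodF n E B a b) {s t : ℝ} (hs : s ∈ Ioo a b)
    (ht : t ∈ Ioo a b) : ContDiff ℝ n (ch E B a b s t) := contDiff_Φ hn (good_VM h) hs ht

lemma continuous_ch (h : GoodF 1 E B a b) {s t : ℝ} (hs : s ∈ Ioo a b)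
    (ht : t ∈ Ioo a b) : Continuous (ch E B a b s t) := continuous_Φ (good_VM h) hs ht

/-- The characteristic map as a homeomorphism of phase space. -/
def homeoCh (h : GoodF 1 E B a b) {s t : ℝ} (hs : s ∈ Ioo a b) (ht : t ∈ Ioo a b) :
    (R3 × R3) ≃ₜ (R3 × R3) := homeoΦ (good_VM h) hs ht

/-! ### linear Vlasov solver -/

/-- The solution of the linear Vlasov equation with datum `f₀` at time `0`. -/
def vf (E B : ℝ → R3 → R3) (a b : ℝ) (f₀ : R3 → R3 → ℝ) (t : ℝ) (x v : R3) : ℝ :=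
  f₀ (ch E B a b 0 t (x, v)).1 (ch E B a b 0 t (x, v)).2

variable {f₀ : R3 → R3 → ℝ}

lemma vf_zero (h : GoodF 1 E B a b) (h0 : (0 : ℝ) ∈ Ioo a b) : vf E B a b f₀ 0 = f₀ := by
  funext x v
  simp [vf, ch_self h h0]

theorem contDiffOn_vf (hn : 1 ≤ n) (h : GoodF n E B a b) (h0 : (0 : ℝ) ∈ Ioo a b)
    (hf : ContDiff ℝ n (Function.uncurry f₀)) :
    ContDiffOn ℝ n (fun p : ℝ × R3 × R3 => vf E B a b f₀ p.1 p.2.1 p.2.2)
      (Ioo a b ×ˢ (univ : Set (R3 × R3))) := by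
  have h1 := contDiffOn_ch hn h
  have h2 : ContDiff ℝ n (fun p : ℝ × R3 × R3 => (((0 : ℝ), p.1, p.2) : ℝ × ℝ × (R3 × R3))) := by
    fun_prop
  have h3 := h1.comp h2.contDiffOn (s := Ioo a b ×ˢ (univ : Set (R3 × R3)))
    (fun p hp => ⟨h0, hp.1, mem_univ _⟩)
  exact hf.comp_contDiffOn h3

/-- Constancy along characteristics. -/
lemma vf_ch (h : GoodF 1 E B a b) (h0 : (0 : ℝ) ∈ Ioo a b) {s t : ℝ} (hs : s ∈ Ioo a b)
    (ht : t ∈ Ioo a b) (z : R3 × R3) :
    vf E B a b f₀ s (ch E B a b s t z).1 (ch E B a b s t z).2 = vf E B a b f₀ t z.1 z.2 := by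
  unfold vf
  simp only [Prod.mk.eta]
  rw [ch_ch h h0 hs ht]

/-- The transport equation in the exact form of `EquationsHoldAt`. -/
theorem vf_transport (h : GoodF 1 E B a b) (h0 : (0 : ℝ) ∈ Ioo a b)
    (hf : ContDiff ℝ 1 (Function.uncurry f₀)) {t : ℝ} (ht : t ∈ Ioo a b) (x v : R3) :
    deriv (fun s => vf E B a b f₀ s x v) t
      + ∑ i : Fin 3, relVel v i * pderiv (fun y => vf E B a b f₀ t y v) i x
      + ∑ i : Fin 3, (E t x i + cross3 (relVel v) (B t x) i)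
          * pderiv (fun w => vf E B a b f₀ t x w) i v = 0 := by
  have hd : DifferentiableAt ℝ (unc (vf E B a b f₀)) (t, x, v) :=
    ((contDiffOn_vf (n := 1) le_rfl h h0 hf).differentiableOn one_ne_zero).differentiableAt
      ((isOpen_Ioo.prod isOpen_univ).mem_nhds ⟨ht, mem_univ _⟩)
  have h1 := transport_eq hd (relVel v) (force E B t (x, v))
  have h2 : ∀ i : Fin 3, force E B t (x, v) i = E t x i + cross3 (relVel v) (B t x) i :=
    fun i => rfl
  simp_rw [h2] at h1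
  rw [h1]
  have hc := hasDerivAt_ch h ht ht (x, v)
  have hd' : DifferentiableAt ℝ (unc (vf E B a b f₀)) (t, ch E B a b t t (x, v)) := by
    rw [ch_self h ht]; exact hd
  have h3 := hasDerivAt_along hd' hc
  rw [ch_self h ht] at h3
  have h4 : (fun s => vf E B a b f₀ s (ch E B a b s t (x, v)).1 (ch E B a b s t (x, v)).2)
      =ᶠ[𝓝 t] fun _ => vf E B a b f₀ t x v := by
    filter_upwards [isOpen_Ioo.mem_nhds ht] with s hs
    exact vf_ch h h0 hs ht (x, v)
  have h5 := (h3.congr_of_eventuallyEq h4.symm).unique (hasDerivAt_const t _)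
  exact h5

/-- Converse: a differentiable density solving the transport equation on a subinterval is constant
along the characteristics. -/
theorem const_of_transport (h : GoodF 1 E B a b) {f : ℝ → R3 → R3 → ℝ} {c d : ℝ}
    (hcd : Icc c d ⊆ Ioo a b) (hcont : ContinuousOn (unc f) (Icc c d ×ˢ (univ : Set (R3 × R3))))
    (hd : ∀ t ∈ Ioo c d, ∀ x v, DifferentiableAt ℝ (unc f) (t, x, v))
    (heq : ∀ t ∈ Ioo c d, ∀ x v : R3, deriv (fun s => f s x v) t
      + ∑ i : Fin 3, relVel v i * pderiv (fun y => f t y v) i x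
      + ∑ i : Fin 3, (E t x i + cross3 (relVel v) (B t x) i)
          * pderiv (fun w => f t x w) i v = 0)
    {s t : ℝ} (hs : s ∈ Icc c d) (ht : t ∈ Icc c d) (z : R3 × R3) :
    f s (ch E B a b s t z).1 (ch E B a b s t z).2 = f t z.1 z.2 := by
  set g : ℝ → ℝ := fun r => f r (ch E B a b r t z).1 (ch E B a b r t z).2 with hg
  have hgc : ContinuousOn g (Icc c d) := by
    have h1 : ContinuousOn (fun r : ℝ => ((r, ch E B a b r t z) : ℝ × (R3 × R3))) (Icc c d) := by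
      intro r hr
      exact (continuousAt_id.prodMk
        (hasDerivAt_ch h (hcd hr) (hcd ht) z).continuousAt).continuousWithinAt
    exact hcont.comp h1 (fun r hr => ⟨hr, mem_univ _⟩)
  have hgd : ∀ r ∈ Ioo c d, HasDerivAt g 0 r := by
    intro r hr
    have h1 := hasDerivAt_along (hd r hr (ch E B a b r t z).1 (ch E B a b r t z).2)
      (c := fun r => ch E B a b r t z) (hasDerivAt_ch h (hcd (Ioo_subset_Icc_self hr)) (hcd ht) z)
    have h2 := transport_eq (hd r hr (ch E B a b r t z).1 (ch E B a b r t z).2)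
      (relVel (ch E B a b r t z).2) (force E B r (ch E B a b r t z))
    have h3 := heq r hr (ch E B a b r t z).1 (ch E B a b r t z).2
    have h4 : ∀ i : Fin 3, force E B r (ch E B a b r t z) i =
      E r (ch E B a b r t z).1 i + cross3 (relVel (ch E B a b r t z).2)
        (B r (ch E B a b r t z).1) i := fun i => rfl
    simp_rw [h4] at h2
    rw [h3] at h2
    have h5 : fderiv ℝ (unc f) (r, ch E B a b r t z) (1, VM E B r (ch E B a b r t z)) = 0 := by
      exact h2.symm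
    rw [h5] at h1
    exact h1
  have hconst : ∀ p ∈ Icc c d, ∀ q ∈ Icc c d, p ≤ q → g p = g q := by
    intro p hp q hq hpq
    rcases hpq.eq_or_lt with rfl | hlt
    · rfl
    · obtain ⟨ξ, hξ, he⟩ := exists_hasDerivAt_eq_slope g (fun _ => 0) hlt
        (hgc.mono (Icc_subset_Icc hp.1 hq.2))
        (fun r hr => hgd r ⟨hp.1.trans_lt hr.1, hr.2.trans_le hq.2⟩)
      have : q - p ≠ 0 := (sub_pos.2 hlt).ne'
      field_simp at he
      linarith
  have h1 : g s = g t := by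
    rcases le_total s t with hst | hst
    · exact hconst s hs t ht hst
    · exact (hconst t ht s hs hst).symm
  simpa [hg, ch_self h (hcd ht)] using h1

lemma vf_nonneg (hf : ∀ x v, 0 ≤ f₀ x v) (t : ℝ) (x v : R3) : 0 ≤ vf E B a b f₀ t x v := hf _ _

lemma vf_le {M : ℝ} (hf : ∀ x v, f₀ x v ≤ M) (t : ℝ) (x v : R3) : vf E B a b f₀ t x v ≤ M :=
  hf _ _

/-- Support of the solution. -/
theorem vf_support (h : GoodF 1 E B a b) (h0 : (0 : ℝ) ∈ Ioo a b) {R Q : ℝ}
    (hR : ∀ x v : R3, f₀ x v ≠ 0 → ‖x‖ ≤ R ∧ ‖v‖ ≤ Q) {t C : ℝ} (ht : t ∈ Ioo a b)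
    (hC : ∀ r ∈ uIcc t 0, ∀ x, ‖E r x‖ + ‖B r x‖ ≤ C) {x v : R3}
    (hne : vf E B a b f₀ t x v ≠ 0) : ‖x‖ ≤ R + |t| ∧ ‖v‖ ≤ Q + C * |t| := by
  obtain ⟨h1, h2⟩ := hR _ _ hne
  have h3 := norm_ch_fst_sub_le h h0 ht (x, v)
  have h4 := norm_ch_snd_sub_le h h0 ht hC (x, v)
  rw [zero_sub, abs_neg] at h3 h4
  constructor
  · have := norm_sub_norm_le (x, v).1 (ch E B a b 0 t (x, v)).1
    rw [norm_sub_rev] at this
    simp only at this h3
    linarith
  · have := norm_sub_norm_le (x, v).2 (ch E B a b 0 t (x, v)).2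
    rw [norm_sub_rev] at this
    simp only at this h4
    linarith

end VMflow

end Crest.Agent.R106.Flow
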