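import Crest.Agent.R106.FlowR
import Crest.Agent.R106.FlowVM

/-!
Row 106, module FLOW: characteristics for a general force `F t x v` on all of `ℝ`, the linear
Vlasov equation `∂ₜ f + u(v)·∇ₓ f + F(t,x,v)·∇ᵥ f = h`.
-/

set_option autoImplicit false
set_option linter.unusedSectionVars false

open Set Filter Topology
open scoped ContDiff
open Crest.AnalysisR.VecCalc3 Crest.AnalysisR.PDE.RVM

noncomputable section

namespace Crest.Agent.R106.Flow

/-- The characteristic vector field of the force `F`. -/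
def CF (F : ℝ → R3 → R3 → R3) (t : ℝ) (z : R3 × R3) : R3 × R3 := (relVel z.2, F t z.1 z.2)

/-- The force is `C^n` on `ℝ × R3 × R3` and bounded on compact time intervals. -/
structure GoodForce (n : ℕ∞) (F : ℝ → R3 → R3 → R3) : Prop where
  smooth : ContDiff ℝ n (fun p : ℝ × R3 × R3 => F p.1 p.2.1 p.2.2)
  bdd : ∀ T : ℝ, ∃ C : ℝ, ∀ t ∈ Icc (-T) T, ∀ x v, ‖F t x v‖ ≤ C

lemma GoodForce.mono {n m : ℕ∞} {F : ℝ → R3 → R3 → R3} (h : GoodForce n F) (hm : m ≤ n) :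
    GoodForce m F := ⟨h.smooth.of_le (by exact_mod_cast hm), h.bdd⟩

lemma goodR_CF {n : ℕ∞} {F : ℝ → R3 → R3 → R3} (h : GoodForce n F) : GoodR n (CF F) := by
  refine ⟨?_, ?_⟩
  · have hu : ContDiff ℝ n (fun p : ℝ × (R3 × R3) => relVel p.2.2) :=
      contDiff_relVel.comp (contDiff_snd.comp contDiff_snd)
    exact hu.prodMk h.smooth
  · intro T
    obtain ⟨C, hC⟩ := h.bdd T
    refine ⟨max 1 C, fun t ht z => ?_⟩
    rw [CF, Prod.norm_def]
    exact max_le_max (norm_relVel_le _) (hC t ht z.1 z.2)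

/-- Characteristic map of the force `F`: state at time `s` of the characteristic which is at `z` at
time `t`. -/
def Ξ (F : ℝ → R3 → R3 → R3) (s t : ℝ) (z : R3 × R3) : R3 × R3 := Ψ (CF F) s t z

variable {n : ℕ∞} {F : ℝ → R3 → R3 → R3}

lemma hasDerivAt_Ξ (h : GoodForce 1 F) (s t : ℝ) (z : R3 × R3) :
    HasDerivAt (fun r => Ξ F r t z) (relVel (Ξ F s t z).2, F s (Ξ F s t z).1 (Ξ F s t z).2) s :=
  hasDerivAt_Ψ (goodR_CF h) s t z

lemma hasDerivAt_Ξ_fst (h : GoodForce 1 F) (s t : ℝ) (z : R3 × R3) :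
    HasDerivAt (fun r => (Ξ F r t z).1) (relVel (Ξ F s t z).2) s :=
  (ContinuousLinearMap.fst ℝ R3 R3).hasFDerivAt.comp_hasDerivAt s (hasDerivAt_Ξ h s t z)

lemma hasDerivAt_Ξ_snd (h : GoodForce 1 F) (s t : ℝ) (z : R3 × R3) :
    HasDerivAt (fun r => (Ξ F r t z).2) (F s (Ξ F s t z).1 (Ξ F s t z).2) s :=
  (ContinuousLinearMap.snd ℝ R3 R3).hasFDerivAt.comp_hasDerivAt s (hasDerivAt_Ξ h s t z)

@[simp] lemma Ξ_self (h : GoodForce 1 F) (t : ℝ) (z : R3 × R3) : Ξ F t t z = z :=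
  Ψ_self (goodR_CF h) t z

lemma Ξ_Ξ (h : GoodForce 1 F) (r s t : ℝ) (z : R3 × R3) : Ξ F r s (Ξ F s t z) = Ξ F r t z :=
  Ψ_Ψ (goodR_CF h) r s t z

/-- Uniqueness of characteristics. -/
lemma eq_Ξ (h : GoodForce 1 F) {X V : ℝ → R3} {s t : ℝ}
    (hX : ∀ r ∈ uIcc t s, HasDerivWithinAt X (relVel (V r)) (uIcc t s) r)
    (hV : ∀ r ∈ uIcc t s, HasDerivWithinAt V (F r (X r) (V r)) (uIcc t s) r) :
    (X s, V s) = Ξ F s t (X t, V t) :=
  eq_Ψ (goodR_CF h) (c := fun r => (X r, V r)) (fun r hr => (hX r hr).prodMk (hV r hr))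

lemma contDiff_Ξ_joint (hn : 1 ≤ n) (h : GoodForce n F) :
    ContDiff ℝ n (fun q : ℝ × ℝ × (R3 × R3) => Ξ F q.1 q.2.1 q.2.2) :=
  contDiff_Ψ_joint hn (goodR_CF h)

lemma contDiff_Ξ (hn : 1 ≤ n) (h : GoodForce n F) (s t : ℝ) : ContDiff ℝ n (Ξ F s t) :=
  contDiff_Ψ hn (goodR_CF h) s t

lemma continuous_Ξ (h : GoodForce 1 F) (s t : ℝ) : Continuous (Ξ F s t) :=
  continuous_Ψ (goodR_CF h) s t

/-- The characteristic map as a homeomorphism of phase space. -/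
def homeoΞ (h : GoodForce 1 F) (s t : ℝ) : (R3 × R3) ≃ₜ (R3 × R3) := homeoΨ (goodR_CF h) s t

@[simp] lemma homeoΞ_apply (h : GoodForce 1 F) (s t : ℝ) (z : R3 × R3) :
    homeoΞ h s t z = Ξ F s t z := rfl

@[simp] lemma homeoΞ_symm_apply (h : GoodForce 1 F) (s t : ℝ) (z : R3 × R3) :
    (homeoΞ h s t).symm z = Ξ F t s z := rfl

/-- Speed less than one. -/
lemma norm_Ξ_fst_sub_le (h : GoodForce 1 F) (s t : ℝ) (z : R3 × R3) :
    ‖(Ξ F s t z).1 - z.1‖ ≤ |s - t| := by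
  have h4 := (convex_uIcc t s).norm_image_sub_le_of_norm_hasDerivWithin_le (C := 1)
    (f := fun r => (Ξ F r t z).1)
    (fun r _ => (hasDerivAt_Ξ_fst h r t z).hasDerivWithinAt)
    (fun r _ => norm_relVel_le _) left_mem_uIcc right_mem_uIcc
  simpa [Ξ_self h] using h4

/-- Momentum bound. -/
lemma norm_Ξ_snd_sub_le (h : GoodForce 1 F) {s t C : ℝ}
    (hC : ∀ r ∈ uIcc t s, ∀ x v, ‖F r x v‖ ≤ C) (z : R3 × R3) :
    ‖(Ξ F s t z).2 - z.2‖ ≤ C * |s - t| := by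
  have h4 := (convex_uIcc t s).norm_image_sub_le_of_norm_hasDerivWithin_le (C := C)
    (f := fun r => (Ξ F r t z).2)
    (fun r _ => (hasDerivAt_Ξ_snd h r t z).hasDerivWithinAt)
    (fun r hr => hC r hr _ _) left_mem_uIcc right_mem_uIcc
  simpa [Ξ_self h] using h4

/-- Free motion where the force vanishes. -/
lemma Ξ_free (h : GoodForce 1 F) {P : ℝ} (hP : ∀ t x v, P ≤ ‖v‖ → F t x v = 0) (s t : ℝ)
    {x v : R3} (hv : P ≤ ‖v‖) : Ξ F s t (x, v) = (x + (s - t) • relVel v, v) := by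
  have hX : ∀ r ∈ uIcc t s, HasDerivWithinAt (fun r : ℝ => x + (r - t) • relVel v)
      (relVel v) (uIcc t s) r := by
    intro r _
    have h1 : HasDerivAt (fun r : ℝ => (r - t) • relVel v) ((1 : ℝ) • relVel v) r :=
      ((hasDerivAt_id r).sub_const t).smul_const _
    rw [one_smul] at h1
    exact (h1.const_add x).hasDerivWithinAt
  have hV : ∀ r ∈ uIcc t s, HasDerivWithinAt (fun _ : ℝ => v)
      (F r (x + (r - t) • relVel v) v) (uIcc t s) r := by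
    intro r _
    rw [hP r _ v hv]
    exact hasDerivWithinAt_const _ _ _
  have h1 := eq_Ξ h hX hV
  simp only [sub_self, zero_smul, add_zero] at h1
  exact h1.symm

/-- The momentum ball outside which the force vanishes is invariant. -/
lemma norm_Ξ_snd_lt (h : GoodForce 1 F) {P : ℝ} (hP : ∀ t x v, P ≤ ‖v‖ → F t x v = 0) (s t : ℝ)
    {z : R3 × R3} (hz : ‖z.2‖ < P) : ‖(Ξ F s t z).2‖ < P := by
  by_contra hcon
  rw [not_lt] at hcon
  have h1 := Ξ_free h hP t s (x := (Ξ F s t z).1) hcon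
  rw [Prod.mk.eta, Ξ_Ξ h, Ξ_self h] at h1
  have h2 : (Ξ F s t z).2 = z.2 := (congrArg Prod.snd h1).symm
  rw [h2] at hcon
  linarith

lemma norm_Ξ_snd_lt_iff (h : GoodForce 1 F) {P : ℝ} (hP : ∀ t x v, P ≤ ‖v‖ → F t x v = 0)
    (s t : ℝ) {z : R3 × R3} : ‖(Ξ F s t z).2‖ < P ↔ ‖z.2‖ < P := by
  refine ⟨fun h1 => ?_, norm_Ξ_snd_lt h hP s t⟩
  have h2 := norm_Ξ_snd_lt h hP t s h1
  rwa [Ξ_Ξ h, Ξ_self h] at h2

/-! ### linear Vlasov equation -/

/-- The solution of `∂ₜ f + u·∇ₓ f + F·∇ᵥ f = 0` with datum `f₀` at time `0`. -/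
def lv (F : ℝ → R3 → R3 → R3) (f₀ : R3 → R3 → ℝ) (t : ℝ) (x v : R3) : ℝ :=
  f₀ (Ξ F 0 t (x, v)).1 (Ξ F 0 t (x, v)).2

variable {f₀ : R3 → R3 → ℝ}

lemma lv_zero (h : GoodForce 1 F) : lv F f₀ 0 = f₀ := by
  funext x v
  simp [lv, Ξ_self h]

theorem contDiff_lv (hn : 1 ≤ n) (h : GoodForce n F) (hf : ContDiff ℝ n (Function.uncurry f₀)) :
    ContDiff ℝ n (fun p : ℝ × R3 × R3 => lv F f₀ p.1 p.2.1 p.2.2) := by
  have h1 := contDiff_Ξ_joint hn h
  have h2 : ContDiff ℝ n (fun p : ℝ × R3 × R3 => (((0 : ℝ), p.1, p.2) : ℝ × ℝ × (R3 × R3))) :=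
    contDiff_const.prodMk (contDiff_fst.prodMk contDiff_snd)
  have h3 := h1.comp h2
  have h4 := hf.comp h3
  exact h4

/-- Constancy along characteristics. -/
lemma lv_Ξ (h : GoodForce 1 F) (s t : ℝ) (z : R3 × R3) :
    lv F f₀ s (Ξ F s t z).1 (Ξ F s t z).2 = lv F f₀ t z.1 z.2 := by
  unfold lv
  simp only [Prod.mk.eta]
  rw [Ξ_Ξ h]

/-- The derivative of a differentiable density along a characteristic is the transport operator. -/
theorem hasDerivAt_char (h : GoodForce 1 F) {g : ℝ → R3 → R3 → ℝ} {s t : ℝ} {z : R3 × R3}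
    (hd : DifferentiableAt ℝ (unc g) (s, Ξ F s t z)) :
    HasDerivAt (fun r => g r (Ξ F r t z).1 (Ξ F r t z).2)
      (deriv (fun r => g r (Ξ F s t z).1 (Ξ F s t z).2) s
        + ∑ i : Fin 3, relVel (Ξ F s t z).2 i * pderiv (fun y => g s y (Ξ F s t z).2) i
          (Ξ F s t z).1
        + ∑ i : Fin 3, F s (Ξ F s t z).1 (Ξ F s t z).2 i * pderiv (fun w => g s (Ξ F s t z).1 w) i
          (Ξ F s t z).2) s := by
  have h1 := hasDerivAt_along hd (c := fun r => Ξ F r t z) (hasDerivAt_Ξ h s t z)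
  have hd' : DifferentiableAt ℝ (unc g) (s, (Ξ F s t z).1, (Ξ F s t z).2) := hd
  have h2 := transport_eq hd' (relVel (Ξ F s t z).2) (F s (Ξ F s t z).1 (Ξ F s t z).2)
  rw [h2]
  exact h1

/-- The transport equation. -/
theorem lv_transport (h : GoodForce 1 F) (hf : ContDiff ℝ 1 (Function.uncurry f₀)) (t : ℝ)
    (x v : R3) :
    deriv (fun s => lv F f₀ s x v) t
      + ∑ i : Fin 3, relVel v i * pderiv (fun y => lv F f₀ t y v) i x
      + ∑ i : Fin 3, F t x v i * pderiv (fun w => lv F f₀ t x w) i v = 0 := by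
  have hd : DifferentiableAt ℝ (unc (lv F f₀)) (t, Ξ F t t (x, v)) :=
    ((contDiff_lv (n := 1) le_rfl h hf).differentiable one_ne_zero).differentiableAt
  have h3 := hasDerivAt_char h hd
  have h4 : (fun s => lv F f₀ s (Ξ F s t (x, v)).1 (Ξ F s t (x, v)).2) =
      fun _ => lv F f₀ t x v := by
    funext s
    exact lv_Ξ h s t (x, v)
  rw [h4] at h3
  have h5 := h3.unique (hasDerivAt_const t _)
  rw [Ξ_self h] at h5
  exact h5

/-- Duhamel: a density with `∂ₜ g + u·∇ₓ g + F·∇ᵥ g = q` on `(c,d)`, continuous on `[c,d]`. -/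
theorem duhamel (h : GoodForce 1 F) {g q : ℝ → R3 → R3 → ℝ} {c d : ℝ}
    (hcont : ContinuousOn (unc g) (Icc c d ×ˢ (univ : Set (R3 × R3))))
    (hq : ContinuousOn (unc q) (Icc c d ×ˢ (univ : Set (R3 × R3))))
    (hd : ∀ t ∈ Ioo c d, ∀ x v, DifferentiableAt ℝ (unc g) (t, x, v))
    (heq : ∀ t ∈ Ioo c d, ∀ x v : R3, deriv (fun s => g s x v) t
      + ∑ i : Fin 3, relVel v i * pderiv (fun y => g t y v) i x
      + ∑ i : Fin 3, F t x v i * pderiv (fun w => g t x w) i v = q t x v)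
    {s t : ℝ} (hs : s ∈ Icc c d) (ht : t ∈ Icc c d) (r : ℝ) (z : R3 × R3) :
    g t (Ξ F t r z).1 (Ξ F t r z).2 = g s (Ξ F s r z).1 (Ξ F s r z).2
      + ∫ τ in s..t, q τ (Ξ F τ r z).1 (Ξ F τ r z).2 := by
  have hpath : Continuous (fun τ : ℝ => ((τ, Ξ F τ r z) : ℝ × (R3 × R3))) := by
    rw [continuous_iff_continuousAt]
    intro τ
    exact continuousAt_id.prodMk (hasDerivAt_Ξ h τ r z).continuousAt
  have hgc : ContinuousOn (fun τ => g τ (Ξ F τ r z).1 (Ξ F τ r z).2) (Icc c d) :=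
    hcont.comp hpath.continuousOn (fun τ hτ => ⟨hτ, mem_univ _⟩)
  have hqc : ContinuousOn (fun τ => q τ (Ξ F τ r z).1 (Ξ F τ r z).2) (Icc c d) :=
    hq.comp hpath.continuousOn (fun τ hτ => ⟨hτ, mem_univ _⟩)
  have hgd : ∀ τ ∈ Ioo c d, HasDerivAt (fun τ => g τ (Ξ F τ r z).1 (Ξ F τ r z).2)
      (q τ (Ξ F τ r z).1 (Ξ F τ r z).2) τ := by
    intro τ hτ
    have h1 := hasDerivAt_char h (hd τ hτ (Ξ F τ r z).1 (Ξ F τ r z).2) (t := r) (z := z)
    rw [heq τ hτ] at h1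
    exact h1
  have key : ∀ p ∈ Icc c d, ∀ p' ∈ Icc c d, p ≤ p' →
      ∫ τ in p..p', q τ (Ξ F τ r z).1 (Ξ F τ r z).2 =
        g p' (Ξ F p' r z).1 (Ξ F p' r z).2 - g p (Ξ F p r z).1 (Ξ F p r z).2 := by
    intro p hp p' hp' hpp
    have hsub : Icc p p' ⊆ Icc c d := Icc_subset_Icc hp.1 hp'.2
    apply intervalIntegral.integral_eq_sub_of_hasDerivAt_of_le hpp (hgc.mono hsub)
    · intro τ hτ
      exact hgd τ ⟨hp.1.trans_lt hτ.1, hτ.2.trans_le hp'.2⟩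
    · apply ContinuousOn.intervalIntegrable
      rw [uIcc_of_le hpp]
      exact hqc.mono hsub
  rcases le_total s t with hst | hst
  · rw [key s hs t ht hst]; ring
  · rw [intervalIntegral.integral_symm, key t ht s hs hst]; ring

/-- Uniqueness for the linear Vlasov equation: solutions are constant along characteristics. -/
theorem const_of_transportF (h : GoodForce 1 F) {g : ℝ → R3 → R3 → ℝ} {c d : ℝ}
    (hcont : ContinuousOn (unc g) (Icc c d ×ˢ (univ : Set (R3 × R3))))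
    (hd : ∀ t ∈ Ioo c d, ∀ x v, DifferentiableAt ℝ (unc g) (t, x, v))
    (heq : ∀ t ∈ Ioo c d, ∀ x v : R3, deriv (fun s => g s x v) t
      + ∑ i : Fin 3, relVel v i * pderiv (fun y => g t y v) i x
      + ∑ i : Fin 3, F t x v i * pderiv (fun w => g t x w) i v = 0)
    {s t : ℝ} (hs : s ∈ Icc c d) (ht : t ∈ Icc c d) (r : ℝ) (z : R3 × R3) :
    g t (Ξ F t r z).1 (Ξ F t r z).2 = g s (Ξ F s r z).1 (Ξ F s r z).2 := by
  have h1 := duhamel h (q := fun _ _ _ => 0) hcont continuousOn_const hd heq hs ht r z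
  simpa using h1

/-- `lv` is the only differentiable solution on `ℝ`. -/
theorem eq_lv (h : GoodForce 1 F) {g : ℝ → R3 → R3 → ℝ}
    (hd : Differentiable ℝ (unc g)) (h0 : ∀ x v, g 0 x v = f₀ x v)
    (heq : ∀ t, ∀ x v : R3, deriv (fun s => g s x v) t
      + ∑ i : Fin 3, relVel v i * pderiv (fun y => g t y v) i x
      + ∑ i : Fin 3, F t x v i * pderiv (fun w => g t x w) i v = 0) (t : ℝ) (x v : R3) :
    g t x v = lv F f₀ t x v := by
  have h1 := const_of_transportF h (c := -|t|) (d := |t|) hd.continuous.continuousOn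
    (fun s _ x v => hd _) (fun s _ x v => heq s x v) (s := 0) (t := t)
    ⟨by linarith [abs_nonneg t], abs_nonneg t⟩ ⟨neg_abs_le t, le_abs_self t⟩ t (x, v)
  rw [Ξ_self h, h0] at h1
  exact h1

lemma lv_nonneg (hf : ∀ x v, 0 ≤ f₀ x v) (t : ℝ) (x v : R3) : 0 ≤ lv F f₀ t x v := hf _ _

lemma lv_le {M : ℝ} (hf : ∀ x v, f₀ x v ≤ M) (t : ℝ) (x v : R3) : lv F f₀ t x v ≤ M := hf _ _

lemma abs_lv_le {M : ℝ} (hf : ∀ x v, |f₀ x v| ≤ M) (t : ℝ) (x v : R3) : |lv F f₀ t x v| ≤ M :=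
  hf _ _

/-- The position support grows with speed at most one. -/
theorem lv_support_x (h : GoodForce 1 F) {R : ℝ} (hR : ∀ x v : R3, f₀ x v ≠ 0 → ‖x‖ ≤ R) {t : ℝ}
    {x v : R3} (hne : lv F f₀ t x v ≠ 0) : ‖x‖ ≤ R + |t| := by
  have h1 := hR _ _ hne
  have h3 := norm_Ξ_fst_sub_le h 0 t (x, v)
  rw [zero_sub, abs_neg] at h3
  have := norm_sub_norm_le (x, v).1 (Ξ F 0 t (x, v)).1
  rw [norm_sub_rev] at this
  simp only at this h3
  linarith

/-- The momentum support stays in the ball outside of which the force vanishes. -/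
theorem lv_support_v (h : GoodForce 1 F) {P : ℝ} (hP : ∀ t x v, P ≤ ‖v‖ → F t x v = 0)
    (hf : ∀ x v : R3, f₀ x v ≠ 0 → ‖v‖ < P) {t : ℝ} {x v : R3} (hne : lv F f₀ t x v ≠ 0) :
    ‖v‖ < P := by
  have h1 : ‖(Ξ F 0 t (x, v)).2‖ < P := hf _ _ hne
  exact (norm_Ξ_snd_lt_iff h hP 0 t (z := (x, v))).1 h1

/-- Growth of the momentum support between two times. -/
theorem lv_support_growth (h : GoodForce 1 F) {s t C Q : ℝ}
    (hC : ∀ r ∈ uIcc t s, ∀ x v, ‖F r x v‖ ≤ C)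
    (hQ : ∀ x v : R3, lv F f₀ s x v ≠ 0 → ‖v‖ ≤ Q) {x v : R3} (hne : lv F f₀ t x v ≠ 0) :
    ‖v‖ ≤ Q + C * |t - s| := by
  rw [← lv_Ξ h s t (x, v)] at hne
  have h1 := hQ _ _ hne
  have h4 := norm_Ξ_snd_sub_le h hC (x, v)
  have h5 := norm_sub_norm_le (x, v).2 (Ξ F s t (x, v)).2
  rw [norm_sub_rev] at h5
  rw [abs_sub_comm t s]
  simp only at h5 h4
  linarith

/-- Growth of the momentum support with a force bound only on the support. -/
theorem lv_compactSupport (h : GoodForce 1 F) {R Q : ℝ}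
    (hR : ∀ x v : R3, f₀ x v ≠ 0 → ‖x‖ ≤ R ∧ ‖v‖ ≤ Q) (T : ℝ) :
    ∃ M : ℝ, ∀ t ∈ Icc (-T) T, ∀ x v, lv F f₀ t x v ≠ 0 → ‖x‖ ≤ M ∧ ‖v‖ ≤ M := by
  obtain ⟨C, hC⟩ := h.bdd T
  refine ⟨max (R + |T|) (Q + max C 0 * |T|), fun t ht x v hne => ⟨?_, ?_⟩⟩
  · refine (lv_support_x h (fun x v hx => (hR x v hx).1) hne).trans
      (le_trans ?_ (le_max_left _ _))
    have : |t| ≤ |T| := by
      rw [abs_le]
      have := le_abs_self T
      exact ⟨by linarith [ht.1], by linarith [ht.2]⟩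
    linarith
  · have h0T : (0 : ℝ) ∈ Icc (-T) T := ⟨by linarith [ht.1, ht.2], by linarith [ht.1, ht.2]⟩
    have h1 : ∀ r ∈ uIcc t 0, ∀ x v, ‖F r x v‖ ≤ max C 0 := fun r hr x v =>
      (hC r (ordConnected_Icc.uIcc_subset ht h0T hr) x v).trans (le_max_left _ _)
    have h2 : ∀ x v : R3, lv F f₀ 0 x v ≠ 0 → ‖v‖ ≤ Q := by
      intro x v hx
      rw [lv_zero h] at hx
      exact (hR x v hx).2
    refine (lv_support_growth h h1 h2 hne).trans (le_trans ?_ (le_max_right _ _))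
    have : |t| ≤ |T| := by
      rw [abs_le]
      have := le_abs_self T
      exact ⟨by linarith [ht.1], by linarith [ht.2]⟩
    have h3 : max C 0 * |t| ≤ max C 0 * |T| := by gcongr
    simpa using h3

end Crest.Agent.R106.Flow
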