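import Crest.Agent.R106.StdIface
import Crest.Agent.R106.FlowF

/-!
Row 106, node ITER-A (helper201): the frozen Props `Flow` and `Grow` from helper332's `FlowF`.
-/

set_option autoImplicit false

open Set Filter Topology MeasureTheory
open scoped ContDiff
open Crest.AnalysisR.VecCalc3 Crest.AnalysisR.PDE.RVM
open Crest.Agent.R106.Flow

noncomputable section

namespace Crest.Agent.R106.Std

theorem SF.norm_le {K : ℝ → R3 → R3} (h : SF K) (T : ℝ) :
    ∃ C : ℝ, 0 ≤ C ∧ ∀ t : ℝ, |t| ≤ T → ∀ x : R3, ‖K t x‖ ≤ C := by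
  obtain ⟨C, hC⟩ := h.2 T 0
  refine ⟨max C 0, le_max_right _ _, fun t ht x => ?_⟩
  have := hC t ht x
  rw [norm_iteratedFDeriv_zero] at this
  exact this.trans (le_max_left _ _)

/-- A truncated force is bounded. -/
theorem IsTrunc.bound {P : ℝ} {G : R3 → (R3 × R3) →L[ℝ] R3} (h : IsTrunc P G) :
    ∃ C : ℝ, 0 ≤ C ∧ ∀ v : R3, ‖G v‖ ≤ C := by
  have hc : IsCompact (Metric.closedBall (0 : R3) (2 * P)) := isCompact_closedBall _ _
  obtain ⟨C, hC⟩ := (hc.image (h.smooth.continuous.norm)).bddAbove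
  refine ⟨max C 0, le_max_right _ _, fun v => ?_⟩
  by_cases hv : ‖v‖ ≤ 2 * P
  · exact (hC ⟨v, by simpa using hv, rfl⟩).trans (le_max_left _ _)
  · rw [h.supp v (not_le.1 hv).le]
    simp

/-- The force field of the fields `E, B`. -/
def TFo (G : R3 → (R3 × R3) →L[ℝ] R3) (E B : ℝ → R3 → R3) (t : ℝ) (x v : R3) : R3 :=
  G v (E t x, B t x)

theorem goodForce_TFo {P : ℝ} {G : R3 → (R3 × R3) →L[ℝ] R3} (hG : IsTrunc P G)
    {E B : ℝ → R3 → R3} (hE : SF E) (hB : SF B) : GoodForce ⊤ (TFo G E B) := by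
  refine ⟨?_, fun T => ?_⟩
  · have hE' : ContDiff ℝ ∞ (fun p : ℝ × R3 × R3 => E p.1 p.2.1) :=
      hE.1.comp (contDiff_fst.prodMk (contDiff_fst.comp contDiff_snd))
    have hB' : ContDiff ℝ ∞ (fun p : ℝ × R3 × R3 => B p.1 p.2.1) :=
      hB.1.comp (contDiff_fst.prodMk (contDiff_fst.comp contDiff_snd))
    have hG' : ContDiff ℝ ∞ (fun p : ℝ × R3 × R3 => G p.2.2) :=
      hG.smooth.comp (contDiff_snd.comp contDiff_snd)
    exact hG'.clm_apply (hE'.prodMk hB')
  · obtain ⟨C, hC0, hC⟩ := hG.bound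
    obtain ⟨CE, hCE0, hCE⟩ := hE.norm_le T
    obtain ⟨CB, hCB0, hCB⟩ := hB.norm_le T
    refine ⟨C * (CE + CB), fun t ht x v => ?_⟩
    have ht' : |t| ≤ T := abs_le.2 ht
    have h1 : ‖TFo G E B t x v‖ ≤ ‖G v‖ * ‖(E t x, B t x)‖ := (G v).le_opNorm _
    refine h1.trans ?_
    have h2 : ‖(E t x, B t x)‖ ≤ CE + CB := by
      rw [Prod.norm_def]
      exact max_le ((hCE t ht' x).trans (by linarith)) ((hCB t ht' x).trans (by linarith))
    exact mul_le_mul (hC v) h2 (norm_nonneg _) hC0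

/-- Closed-ball version of the invariance of the momentum ball. -/
theorem lv_support_v_le {F : ℝ → R3 → R3 → R3} (h : GoodForce 1 F) {f₀ : R3 → R3 → ℝ} {R : ℝ}
    (hP : ∀ t x v, R ≤ ‖v‖ → F t x v = 0)
    (hf : ∀ x v : R3, R < ‖v‖ → f₀ x v = 0) {t : ℝ} {x v : R3} (hv : R < ‖v‖) :
    lv F f₀ t x v = 0 := by
  by_contra hne
  have h1 : ¬ (R < ‖(Ξ F 0 t (x, v)).2‖) := fun h2 => hne (hf _ _ h2)
  push Not at h1
  -- the ball `‖·‖ < R'` is invariant for every `R' > R`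
  have h3 : ‖(Ξ F 0 t (x, v)).2‖ < ‖v‖ := h1.trans_lt hv
  have h4 := (norm_Ξ_snd_lt_iff h (P := ‖v‖) (fun t x w hw => hP t x w (hv.le.trans hw)) 0 t
    (z := (x, v))).1 h3
  exact lt_irrefl _ h4

theorem flow : Std.Flow := by
  intro P G hG f₀ hf hc E B hE hB
  have hGF := goodForce_TFo hG hE hB
  have hG1 : GoodForce 1 (TFo G E B) := hGF.mono le_top
  have hf1 : ContDiff ℝ 1 (Function.uncurry f₀) := hf.of_le (by exact_mod_cast le_top)
  have hs : ContDiff ℝ ∞ (fun p : ℝ × R3 × R3 => lv (TFo G E B) f₀ p.1 p.2.1 p.2.2) :=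
    contDiff_lv (n := ⊤) le_top hGF hf
  obtain ⟨R0, hR0⟩ := hc.isCompact.isBounded.exists_norm_le
  have hR : ∀ x v : R3, f₀ x v ≠ 0 → ‖x‖ ≤ R0 ∧ ‖v‖ ≤ R0 := by
    intro x v h
    have h1 := hR0 (x, v) (subset_tsupport _ h)
    rw [Prod.norm_def] at h1
    exact ⟨(le_max_left _ _).trans h1, (le_max_right _ _).trans h1⟩
  refine ⟨lv (TFo G E B) f₀, ⟨hs, fun T => ?_⟩, lv_zero hG1, ?_, fun t x v => ⟨_, _, rfl⟩, ?_, ?_⟩
  · obtain ⟨M, hM⟩ := lv_compactSupport hG1 hR T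
    refine ⟨M, fun t ht x v h => ?_⟩
    by_contra hne
    have := hM t (abs_le.1 ht) x v hne
    rcases h with h | h
    · exact absurd this.1 (not_le.2 h)
    · exact absurd this.2 (not_le.2 h)
  · intro t x v
    exact lv_transport hG1 hf1 t x v
  · intro R hPR hR' t x v hv
    refine lv_support_v_le hG1 (fun t x w hw => ?_) hR' hv
    rw [TFo, hG.supp w (hPR.trans hw)]
    simp
  · intro R hR' t x v hx
    by_contra hne
    have := lv_support_x hG1 (R := R) (fun x v h => by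
      by_contra h2
      exact h (hR' x v (not_le.1 h2))) hne
    exact absurd this (not_le.2 hx)

theorem grow : Std.Grow := by
  intro P G hG E B hE hB f hf htr T
  have hGF := goodForce_TFo hG hE hB
  have hG1 : GoodForce 1 (TFo G E B) := hGF.mono le_top
  obtain ⟨C, hC⟩ := hG1.bdd T
  have hd : Differentiable ℝ (unc f) := hf.1.differentiable (by simp)
  refine ⟨max C 0, fun s t m hs hst ht hm x v hv => ?_⟩
  have h1 := const_of_transportF hG1 (g := f) (c := s) (d := t) hd.continuous.continuousOn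
    (fun r _ x v => hd _) (fun r _ x v => htr r x v) (s := s) (t := t)
    (left_mem_Icc.2 hst) (right_mem_Icc.2 hst) t (x, v)
  rw [Ξ_self hG1] at h1
  rw [h1]
  apply hm
  have h2 := norm_Ξ_snd_sub_le hG1 (s := s) (t := t) (C := max C 0) (fun r hr x v => by
    rw [uIcc_of_ge hst] at hr
    exact (hC r ⟨by linarith [hr.1, hr.2], hr.2.trans ht⟩ x v).trans (le_max_left _ _)) (x, v)
  have h3 := norm_sub_norm_le (x, v).2 (Ξ (TFo G E B) s t (x, v)).2
  rw [norm_sub_rev] at h3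
  have h4 : |s - t| = t - s := by rw [abs_sub_comm]; exact abs_of_nonneg (by linarith)
  rw [h4] at h2
  simp only at h2 h3
  linarith

end Crest.Agent.R106.Std
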