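import Crest.Agent.R106.FlowF

/-!
Row 106, module FLOW: Liouville's theorem. For a divergence free vector field the flow has
Jacobian one and preserves every Haar measure.
-/

set_option autoImplicit false
set_option linter.unusedSectionVars false

open Set Filter Topology MeasureTheory
open scoped ContDiff
open Crest.AnalysisR.VecCalc3 Crest.AnalysisR.PDE.RVM

noncomputable section

namespace Crest.Agent.R106.Flow

section det

variable {Z : Type} [NormedAddCommGroup Z] [NormedSpace ℝ Z] [FiniteDimensional ℝ Z]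

lemma clm_det_eq {ι : Type} [Fintype ι] [DecidableEq ι] (b : Module.Basis ι ℝ Z)
    (s : Z →L[ℝ] Z) : s.det = (LinearMap.toMatrix b b (s : Z →ₗ[ℝ] Z)).det := by
  rw [LinearMap.det_toMatrix]

lemma differentiable_clm_det : Differentiable ℝ (fun s : Z →L[ℝ] Z => s.det) := by
  set b := Module.finBasis ℝ Z with hb
  have h : (fun s : Z →L[ℝ] Z => s.det) = fun s =>
      ∑ σ : Equiv.Perm (Fin (Module.finrank ℝ Z)),
      ((Equiv.Perm.sign σ : ℤ) : ℝ) * ∏ i, (LinearMap.toContinuousLinearMap (b.coord (σ i)))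
        (s (b i)) := by
    ext s
    rw [clm_det_eq b, Matrix.det_apply']
    simp [LinearMap.toMatrix_apply]
  rw [h]
  fun_prop

/-- Derivative of the determinant at the identity. -/
theorem hasDerivAt_det_of_one {A : ℝ → Z →L[ℝ] Z} {A' : Z →L[ℝ] Z} {s : ℝ}
    (hA : HasDerivAt A A' s) (h1 : A s = 1) :
    HasDerivAt (fun r => (A r).det) (LinearMap.trace ℝ Z (A' : Z →ₗ[ℝ] Z)) s := by
  have hd := (differentiable_clm_det (Z := Z) (A s)).hasFDerivAt
  have h2 := hd.comp_hasDerivAt s hA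
  refine h2.congr_deriv ?_
  have h3 : HasDerivAt (fun t : ℝ => 1 + t • A') A' 0 := by
    simpa using ((hasDerivAt_id (0 : ℝ)).smul_const A').const_add (1 : Z →L[ℝ] Z)
  have h4 : HasFDerivAt (fun s : Z →L[ℝ] Z => s.det)
      (fderiv ℝ (fun s : Z →L[ℝ] Z => s.det) (A s)) (1 + (0 : ℝ) • A') := by
    rw [zero_smul, add_zero, ← h1]; exact hd
  have h5 := h4.comp_hasDerivAt (0 : ℝ) h3
  set b := Module.finBasis ℝ Z
  set M := LinearMap.toMatrix b b (A' : Z →ₗ[ℝ] Z) with hM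
  have h6 : ∀ t : ℝ, (1 + t • A' : Z →L[ℝ] Z).det = 1 + M.trace * t +
      (Matrix.det (1 + (Polynomial.X : Polynomial ℝ) • M.map Polynomial.C)).divX.divX.eval t
        * t ^ 2 := by
    intro t
    rw [clm_det_eq b, ← Matrix.det_one_add_smul]
    congr 1
    simp [hM, LinearMap.toMatrix_one]
  have h7 : HasDerivAt (fun t : ℝ => (1 + t • A' : Z →L[ℝ] Z).det) M.trace 0 := by
    have hp := ((Matrix.det (1 + (Polynomial.X : Polynomial ℝ) • M.map Polynomial.C)).divX.divX).hasDerivAt (0 : ℝ)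
    have h8 := (((hasDerivAt_id (0 : ℝ)).const_mul M.trace).const_add 1).add
      (hp.mul ((hasDerivAt_id (0:ℝ)).pow 2))
    refine (h8.congr_deriv (by simp)).congr_of_eventuallyEq (Eventually.of_forall fun t => ?_)
    simp [h6 t]
  rw [h5.unique h7, LinearMap.trace_eq_matrix_trace ℝ b]

end det

section liou

variable {Z : Type} [NormedAddCommGroup Z] [NormedSpace ℝ Z] [FiniteDimensional ℝ Z]
  [CompleteSpace Z] [ProperSpace Z] {V : ℝ → Z → Z}

/-- The linearised flow at the starting time. -/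
theorem hasDerivAt_fderiv_Ψ_self (h : GoodR 2 V) (s : ℝ) (w : Z) :
    HasDerivAt (fun r => fderiv ℝ (Ψ V r s) w) (fderiv ℝ (V s) w) s := by
  have h1 : GoodR 1 V := h.mono (by norm_num)
  set G : ℝ × Z → Z := fun p => Ψ V p.1 s p.2 with hG
  have hG2 : ContDiff ℝ 2 G := by
    have h2 := contDiff_Ψ_joint (n := 2) (by norm_num) h
    have h3 : ContDiff ℝ 2 (fun p : ℝ × Z => ((p.1, s, p.2) : ℝ × ℝ × Z)) :=
      contDiff_fst.prodMk (contDiff_const.prodMk contDiff_snd)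
    have h4 := ContDiff.comp (g := fun q : ℝ × ℝ × Z => Ψ V q.1 q.2.1 q.2.2)
      (f := fun p : ℝ × Z => ((p.1, s, p.2) : ℝ × ℝ × Z)) h2 h3
    exact h4
  have hGd : Differentiable ℝ G := hG2.differentiable (by norm_num)
  have hG1 : ContDiff ℝ 1 (fderiv ℝ G) := hG2.fderiv_right (by norm_num)
  have hG1d : Differentiable ℝ (fderiv ℝ G) := hG1.differentiable (by norm_num)
  -- the partial derivative in `z`
  have hpz : ∀ r z, fderiv ℝ (Ψ V r s) z =
      (fderiv ℝ G (r, z)).comp (ContinuousLinearMap.inr ℝ ℝ Z) := by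
    intro r z
    have h3 : HasFDerivAt (fun z : Z => ((r, z) : ℝ × Z)) (ContinuousLinearMap.inr ℝ ℝ Z) z :=
      hasFDerivAt_prodMk_right r z
    exact ((hGd (r, z)).hasFDerivAt.comp z h3).fderiv
  -- the partial derivative in time
  have hpt : ∀ r z, fderiv ℝ G (r, z) (1, 0) = V r (Ψ V r s z) := by
    intro r z
    have h3 : HasDerivAt (fun r : ℝ => ((r, z) : ℝ × Z)) (1, 0) r :=
      (hasDerivAt_id r).prodMk (hasDerivAt_const r z)
    have h4 := (hGd (r, z)).hasFDerivAt.comp_hasDerivAt r h3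
    exact h4.unique (hasDerivAt_Ψ h1 r s z)
  have h5 : HasDerivAt (fun r : ℝ => fderiv ℝ G (r, w)) (fderiv ℝ (fderiv ℝ G) (s, w) (1, 0)) s := by
    have h3 : HasDerivAt (fun r : ℝ => ((r, w) : ℝ × Z)) (1, 0) s :=
      (hasDerivAt_id s).prodMk (hasDerivAt_const s w)
    exact (hG1d (s, w)).hasFDerivAt.comp_hasDerivAt s h3
  have h6 : HasDerivAt (fun r => fderiv ℝ (Ψ V r s) w)
      ((fderiv ℝ (fderiv ℝ G) (s, w) (1, 0)).comp (ContinuousLinearMap.inr ℝ ℝ Z)) s := by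
    have h7 := h5.clm_comp (hasDerivAt_const s (ContinuousLinearMap.inr ℝ ℝ Z))
    have e1 : (fun r => fderiv ℝ (Ψ V r s) w) =
        fun r => (fderiv ℝ G (r, w)).comp (ContinuousLinearMap.inr ℝ ℝ Z) := by
      funext r; exact hpz r w
    rw [e1]
    simpa using h7
  refine h6.congr_deriv ?_
  ext ζ
  simp only [ContinuousLinearMap.comp_apply, ContinuousLinearMap.inr_apply]
  have hsym : fderiv ℝ (fderiv ℝ G) (s, w) (1, 0) (0, ζ) =
      fderiv ℝ (fderiv ℝ G) (s, w) (0, ζ) (1, 0) :=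
    (hG2.contDiffAt.isSymmSndFDerivAt (by simp)).eq _ _
  rw [hsym]
  -- differentiate `z ↦ fderiv G (s,z) (1,0) = V s z`
  have h8 : HasFDerivAt (fun z : Z => fderiv ℝ G (s, z) (1, 0))
      (((ContinuousLinearMap.apply ℝ Z ((1 : ℝ), (0 : Z))).comp
        (fderiv ℝ (fderiv ℝ G) (s, w))).comp (ContinuousLinearMap.inr ℝ ℝ Z)) w := by
    have h3 : HasFDerivAt (fun z : Z => ((s, z) : ℝ × Z)) (ContinuousLinearMap.inr ℝ ℝ Z) w :=
      hasFDerivAt_prodMk_right s w
    have h9 : HasFDerivAt (fun p : ℝ × Z => fderiv ℝ G p (1, 0))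
        ((ContinuousLinearMap.apply ℝ Z ((1 : ℝ), (0 : Z))).comp
          (fderiv ℝ (fderiv ℝ G) (s, w))) (s, w) :=
      (ContinuousLinearMap.apply ℝ Z ((1 : ℝ), (0 : Z))).hasFDerivAt.comp (s, w)
        (hG1d (s, w)).hasFDerivAt
    exact h9.comp w h3
  have h10 : (fun z : Z => fderiv ℝ G (s, z) (1, 0)) = V s := by
    funext z
    rw [hpt, Ψ_self h1]
  rw [h10] at h8
  rw [h8.fderiv]
  rfl

theorem fderiv_Ψ_self (h : GoodR 1 V) (s : ℝ) (w : Z) : fderiv ℝ (Ψ V s s) w = 1 := by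
  have h1 : Ψ V s s = id := by
    funext z; exact Ψ_self h s z
  rw [h1, fderiv_id]
  rfl

lemma fderiv_Ψ_comp (h : GoodR 1 V) (r s t : ℝ) (z : Z) :
    fderiv ℝ (Ψ V r t) z = (fderiv ℝ (Ψ V r s) (Ψ V s t z)).comp (fderiv ℝ (Ψ V s t) z) := by
  have h1 : Ψ V r t = Ψ V r s ∘ Ψ V s t := by
    funext z; exact (Ψ_Ψ h r s t z).symm
  rw [h1]
  exact fderiv_comp z (((contDiff_Ψ le_rfl h r s).differentiable (by norm_num)) _)
    (((contDiff_Ψ le_rfl h s t).differentiable (by norm_num)) _)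

/-- The linearised equation. -/
theorem hasDerivAt_fderiv_Ψ (h : GoodR 2 V) (s t : ℝ) (z : Z) :
    HasDerivAt (fun r => fderiv ℝ (Ψ V r t) z)
      ((fderiv ℝ (V s) (Ψ V s t z)).comp (fderiv ℝ (Ψ V s t) z)) s := by
  have h1 : GoodR 1 V := h.mono (by norm_num)
  have h2 := (hasDerivAt_fderiv_Ψ_self h s (Ψ V s t z)).clm_comp
    (hasDerivAt_const s (fderiv ℝ (Ψ V s t) z))
  have e1 : (fun r => fderiv ℝ (Ψ V r t) z) =
      fun r => (fderiv ℝ (Ψ V r s) (Ψ V s t z)).comp (fderiv ℝ (Ψ V s t) z) := by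
    funext r; exact fderiv_Ψ_comp h1 r s t z
  rw [e1]
  simpa using h2

/-- Liouville: the derivative of the Jacobian. -/
theorem hasDerivAt_det_Ψ (h : GoodR 2 V) (s t : ℝ) (z : Z) :
    HasDerivAt (fun r => (fderiv ℝ (Ψ V r t) z).det)
      (LinearMap.trace ℝ Z (fderiv ℝ (V s) (Ψ V s t z) : Z →ₗ[ℝ] Z)
        * (fderiv ℝ (Ψ V s t) z).det) s := by
  have h1 : GoodR 1 V := h.mono (by norm_num)
  have h2 := (hasDerivAt_det_of_one (hasDerivAt_fderiv_Ψ_self h s (Ψ V s t z))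
    (fderiv_Ψ_self h1 s _)).mul_const (fderiv ℝ (Ψ V s t) z).det
  have e1 : (fun r => (fderiv ℝ (Ψ V r t) z).det) =
      fun r => (fderiv ℝ (Ψ V r s) (Ψ V s t z)).det * (fderiv ℝ (Ψ V s t) z).det := by
    funext r
    rw [fderiv_Ψ_comp h1 r s t z]
    simp [ContinuousLinearMap.det, LinearMap.det_comp]
  rw [e1]
  exact h2

/-- Liouville: a divergence free field has a flow with Jacobian one. -/
theorem det_Ψ (h : GoodR 2 V)
    (hdiv : ∀ t z, LinearMap.trace ℝ Z (fderiv ℝ (V t) z : Z →ₗ[ℝ] Z) = 0) (s t : ℝ) (z : Z) :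
    (fderiv ℝ (Ψ V s t) z).det = 1 := by
  have h1 : GoodR 1 V := h.mono (by norm_num)
  have h2 : ∀ r, HasDerivAt (fun r => (fderiv ℝ (Ψ V r t) z).det) 0 r := by
    intro r
    have h3 := hasDerivAt_det_Ψ h r t z
    rwa [hdiv, zero_mul] at h3
  have h4 : (fun r => (fderiv ℝ (Ψ V r t) z).det) s = (fun r => (fderiv ℝ (Ψ V r t) z).det) t :=
    is_const_of_deriv_eq_zero (fun r => (h2 r).differentiableAt) (fun r => (h2 r).deriv) s t
  simp only at h4
  rw [h4, fderiv_Ψ_self h1]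
  simp [ContinuousLinearMap.det]

end liou

section mp

variable {Z : Type} [NormedAddCommGroup Z] [NormedSpace ℝ Z] [FiniteDimensional ℝ Z]
  [MeasurableSpace Z] [BorelSpace Z]

/-- A differentiable bijection with `|det| = 1` whose inverse is also such preserves Haar
measure. -/
theorem measurePreserving_of_det_one (μ : Measure Z) [μ.IsAddHaarMeasure] (e : Z ≃ₜ Z)
    (hd : ∀ z, DifferentiableAt ℝ e z) (hdet : ∀ z, |(fderiv ℝ e z).det| = 1) :
    MeasurePreserving e μ μ := by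
  have himg : ∀ A : Set Z, MeasurableSet A → μ (e '' A) = μ A := by
    intro A hA
    rw [← lintegral_abs_det_fderiv_eq_addHaar_image μ hA
      (fun z _ => (hd z).hasFDerivAt.hasFDerivWithinAt) e.injective.injOn]
    simp [hdet]
  refine ⟨e.continuous.measurable, ?_⟩
  ext A hA
  rw [Measure.map_apply e.continuous.measurable hA]
  have h1 := himg (e ⁻¹' A) (e.continuous.measurable hA)
  rw [← h1, image_preimage_eq _ e.surjective]

end mp

section mpΨ

variable {Z : Type} [NormedAddCommGroup Z] [NormedSpace ℝ Z] [FiniteDimensional ℝ Z]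
  [CompleteSpace Z] [ProperSpace Z] {V : ℝ → Z → Z} [MeasurableSpace Z] [BorelSpace Z]

/-- Liouville: measure preservation. -/
theorem measurePreserving_Ψ (μ : Measure Z) [μ.IsAddHaarMeasure] (h : GoodR 2 V)
    (hdiv : ∀ t z, LinearMap.trace ℝ Z (fderiv ℝ (V t) z : Z →ₗ[ℝ] Z) = 0) (s t : ℝ) :
    MeasurePreserving (Ψ V s t) μ μ := by
  have h1 : GoodR 1 V := h.mono (by norm_num)
  refine measurePreserving_of_det_one μ (homeoΨ h1 s t)
    (fun z => (contDiff_Ψ le_rfl h1 s t).differentiable (by norm_num) z) (fun z => ?_)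
  have : fderiv ℝ (homeoΨ h1 s t) z = fderiv ℝ (Ψ V s t) z := rfl
  rw [this, det_Ψ h hdiv, abs_one]

end mpΨ

/-! ### phase space -/

/-- Trace of an operator on a product. -/
lemma trace_prod {X Y : Type} [NormedAddCommGroup X] [NormedSpace ℝ X] [NormedAddCommGroup Y]
    [NormedSpace ℝ Y] {ι κ : Type} [Fintype ι] [Fintype κ] [DecidableEq ι] [DecidableEq κ]
    (b : Module.Basis ι ℝ X) (c : Module.Basis κ ℝ Y) (L : (X × Y) →ₗ[ℝ] (X × Y)) :
    LinearMap.trace ℝ (X × Y) L = ∑ i, b.repr (L (b i, 0)).1 i + ∑ j, c.repr (L (0, c j)).2 j := by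
  rw [LinearMap.trace_eq_matrix_trace ℝ (b.prod c)]
  simp [Matrix.trace, LinearMap.toMatrix_apply, Fintype.sum_sum_type]

lemma trace_CF {F : ℝ → R3 → R3 → R3} (h : GoodForce 1 F) (t : ℝ) (z : R3 × R3) :
    LinearMap.trace ℝ (R3 × R3) (fderiv ℝ (CF F t) z : R3 × R3 →ₗ[ℝ] R3 × R3) =
      div3 (F t z.1) z.2 := by
  obtain ⟨x, v⟩ := z
  set b := (EuclideanSpace.basisFun (Fin 3) ℝ).toBasis with hb
  rw [trace_prod b b]
  have hFd : Differentiable ℝ (fun p : ℝ × R3 × R3 => F p.1 p.2.1 p.2.2) :=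
    h.smooth.differentiable (by norm_num)
  have hud : Differentiable ℝ relVel := (contDiff_relVel (n := 1)).differentiable (by norm_num)
  have hF2 : HasFDerivAt (fun z : R3 × R3 => F t z.1 z.2)
      ((fderiv ℝ (fun p : ℝ × R3 × R3 => F p.1 p.2.1 p.2.2) (t, x, v)).comp
        (ContinuousLinearMap.inr ℝ ℝ (R3 × R3))) (x, v) :=
    HasFDerivAt.comp (g := fun p : ℝ × R3 × R3 => F p.1 p.2.1 p.2.2)
      (f := fun z : R3 × R3 => ((t, z) : ℝ × R3 × R3)) (x, v) (hFd (t, x, v)).hasFDerivAt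
      (hasFDerivAt_prodMk_right t (x, v))
  have hu2 : HasFDerivAt (fun z : R3 × R3 => relVel z.2)
      ((fderiv ℝ relVel v).comp (ContinuousLinearMap.snd ℝ R3 R3)) (x, v) :=
    HasFDerivAt.comp (g := relVel) (f := fun z : R3 × R3 => z.2) (x, v) (hud v).hasFDerivAt
      hasFDerivAt_snd
  have hCF : HasFDerivAt (CF F t) (((fderiv ℝ relVel v).comp
      (ContinuousLinearMap.snd ℝ R3 R3)).prod
      ((fderiv ℝ (fun p : ℝ × R3 × R3 => F p.1 p.2.1 p.2.2) (t, x, v)).comp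
        (ContinuousLinearMap.inr ℝ ℝ (R3 × R3)))) (x, v) := hu2.prodMk hF2
  have hFv : HasFDerivAt (F t x)
      (((fderiv ℝ (fun p : ℝ × R3 × R3 => F p.1 p.2.1 p.2.2) (t, x, v)).comp
        (ContinuousLinearMap.inr ℝ ℝ (R3 × R3))).comp (ContinuousLinearMap.inr ℝ R3 R3)) v :=
    HasFDerivAt.comp (g := fun z : R3 × R3 => F t z.1 z.2)
      (f := fun w : R3 => ((x, w) : R3 × R3)) v hF2 (hasFDerivAt_prodMk_right x v)
  rw [hCF.fderiv]
  have e1 : ∀ i : Fin 3, pderiv (fun y => F t x y i) i v =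
      (fderiv ℝ (fun p : ℝ × R3 × R3 => F p.1 p.2.1 p.2.2) (t, x, v)
        (0, 0, EuclideanSpace.single i 1)) i := by
    intro i
    have h2 : HasFDerivAt (fun y => F t x y i) _ v :=
      (EuclideanSpace.proj (𝕜 := ℝ) i : R3 →L[ℝ] ℝ).hasFDerivAt.comp v hFv
    rw [pderiv, h2.fderiv]
    simp
  simp only [div3, e1]
  simp [hb]

instance isAddHaarMeasure_volume_R3_prod : (volume : Measure (R3 × R3)).IsAddHaarMeasure := by
  rw [Measure.volume_eq_prod]; infer_instance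

/-- Liouville for characteristics of a force with `div_v F = 0`. -/
theorem det_Ξ {F : ℝ → R3 → R3 → R3} (h : GoodForce 2 F) (hdiv : ∀ t x v, div3 (F t x) v = 0)
    (s t : ℝ) (z : R3 × R3) : (fderiv ℝ (Ξ F s t) z).det = 1 :=
  det_Ψ (goodR_CF h) (fun t z => by rw [trace_CF (h.mono (by norm_num)), hdiv]) s t z

theorem measurePreserving_Ξ {F : ℝ → R3 → R3 → R3} (h : GoodForce 2 F)
    (hdiv : ∀ t x v, div3 (F t x) v = 0) (s t : ℝ) :
    MeasurePreserving (Ξ F s t) (volume : Measure (R3 × R3)) volume :=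
  measurePreserving_Ψ volume (goodR_CF h)
    (fun t z => by rw [trace_CF (h.mono (by norm_num)), hdiv]) s t

/-- Conservation of every integral of the density. -/
theorem integral_lv {F : ℝ → R3 → R3 → R3} (h : GoodForce 2 F)
    (hdiv : ∀ t x v, div3 (F t x) v = 0) {f₀ : R3 → R3 → ℝ} {X : Type} [NormedAddCommGroup X]
    [NormedSpace ℝ X] (φ : ℝ → X) (t : ℝ) :
    ∫ z : R3 × R3, φ (lv F f₀ t z.1 z.2) = ∫ z : R3 × R3, φ (f₀ z.1 z.2) := by
  have h1 : GoodForce 1 F := h.mono (by norm_num)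
  have h2 := (measurePreserving_Ξ h hdiv 0 t).integral_comp
    (homeoΞ h1 0 t).measurableEmbedding (fun z : R3 × R3 => φ (f₀ z.1 z.2))
  exact h2

theorem lintegral_lv {F : ℝ → R3 → R3 → R3} (h : GoodForce 2 F)
    (hdiv : ∀ t x v, div3 (F t x) v = 0) {f₀ : R3 → R3 → ℝ} (φ : ℝ → ENNReal) (t : ℝ) :
    ∫⁻ z : R3 × R3, φ (lv F f₀ t z.1 z.2) = ∫⁻ z : R3 × R3, φ (f₀ z.1 z.2) := by
  have h1 : GoodForce 1 F := h.mono (by norm_num)
  have h2 := (measurePreserving_Ξ h hdiv 0 t).lintegral_comp_emb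
    (homeoΞ h1 0 t).measurableEmbedding (fun z : R3 × R3 => φ (f₀ z.1 z.2))
  exact h2

end Crest.Agent.R106.Flow
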