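import Crest.Agent.R106.FlowTo

/-!
Row 106, module FLOW: sign, sup bound, support and mass of a solution of the class `SolTo`.
-/

set_option autoImplicit false

open Set Filter Topology MeasureTheory
open scoped ContDiff
open Crest.AnalysisR.VecCalc3 Crest.AnalysisR.PDE.RVM

noncomputable section

namespace Crest.Agent.R106.SolTo

open Crest.Agent.R106.FlowTo Crest.Agent.R106.Flow

variable {T : ℝ} {f₀ : R3 → R3 → ℝ} {E₀ B₀ : R3 → R3} {f : ℝ → R3 → R3 → ℝ} {E B : ℝ → R3 → R3}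

/-- Every value of `f t` is a value of the datum (at the label). -/
theorem eq_label (h : SolTo T f₀ E₀ B₀ f E B) {t : ℝ} (ht : t ∈ Ico 0 T) (x v : R3) :
    f t x v = f₀ (Zi E B T t (x, v)).1 (Zi E B T t (x, v)).2 := by
  have hT : 0 < T := ht.1.trans_lt ht.2
  have h3 := FlowTo.const_char h (s := 0) ⟨le_rfl, hT⟩ ht ht.2 (x, v)
  rw [Ξt_self h.hE h.hB ht.2, h.f_zero] at h3
  exact h3

theorem nonneg (h : SolTo T f₀ E₀ B₀ f E B) (h0 : ∀ x v, 0 ≤ f₀ x v) {t : ℝ}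
    (ht : t ∈ Ico 0 T) (x v : R3) : 0 ≤ f t x v := by
  rw [h.eq_label ht]; exact h0 _ _

theorem le_sup (h : SolTo T f₀ E₀ B₀ f E B) {M : ℝ} (h0 : ∀ x v, f₀ x v ≤ M) {t : ℝ}
    (ht : t ∈ Ico 0 T) (x v : R3) : f t x v ≤ M := by
  rw [h.eq_label ht]; exact h0 _ _

/-- Bounded datum: one constant for all times. -/
theorem exists_sup (h : SolTo T f₀ E₀ B₀ f E B) (hd : IsAdmissibleDatum f₀ E₀ B₀) :
    ∃ M : ℝ, 0 ≤ M ∧ ∀ t ∈ Ico 0 T, ∀ x v : R3, 0 ≤ f t x v ∧ f t x v ≤ M := by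
  obtain ⟨M, hM⟩ := hd.2.2.1.exists_bound_of_continuous hd.2.1.continuous
  have hM0 : 0 ≤ M := (norm_nonneg _).trans (hM (0, 0))
  refine ⟨M, hM0, fun t ht x v => ⟨h.nonneg hd.1 ht x v, h.le_sup (fun x v => ?_) ht x v⟩⟩
  exact (Real.le_norm_self _).trans (hM (x, v))

/-- The position support grows with speed at most one. -/
theorem supp_x (h : SolTo T f₀ E₀ B₀ f E B) {R : ℝ} (hR : ∀ x v : R3, f₀ x v ≠ 0 → ‖x‖ ≤ R)
    {t : ℝ} (ht : t ∈ Ico 0 T) {x v : R3} (hne : f t x v ≠ 0) : ‖x‖ ≤ R + t := by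
  have hT : 0 < T := ht.1.trans_lt ht.2
  rw [h.eq_label ht] at hne
  have h1 := hR _ _ hne
  have h2 := norm_Ξt_fst_sub_le h.hE h.hB hT ht.2 (x, v)
  rw [zero_sub, abs_neg, abs_of_nonneg ht.1] at h2
  have h3 := norm_sub_norm_le (x, v).1 (Ξt E B T 0 t (x, v)).1
  rw [norm_sub_rev] at h3
  simp only at h2 h3
  have h4 : ‖(Zi E B T t (x, v)).1‖ = ‖(Ξt E B T 0 t (x, v)).1‖ := rfl
  linarith

/-- Conservation of integrals of functions of `f`. -/
theorem integral_comp (h : SolTo T f₀ E₀ B₀ f E B) {X : Type} [NormedAddCommGroup X]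
    [NormedSpace ℝ X] (φ : ℝ → X) {t : ℝ} (ht : t ∈ Ico 0 T) :
    ∫ z : R3 × R3, φ (f t z.1 z.2) = ∫ z : R3 × R3, φ (f₀ z.1 z.2) := by
  have hT : 0 < T := ht.1.trans_lt ht.2
  have hm := measurePreserving_Ξt h.hE h.hB hT ht.2
  have he : MeasurableEmbedding (Ξt E B T 0 t) :=
    (homeoΞu (locForce1_Fc h.hE h.hB (mid_lt hT ht.2)) 0 t).measurableEmbedding
  have h2 := hm.integral_comp he (fun z : R3 × R3 => φ (f₀ z.1 z.2))
  rw [← h2]
  refine integral_congr_ae (Eventually.of_forall fun z => ?_)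
  simp only
  rw [h.eq_label ht z.1 z.2]
  rfl

theorem lintegral_comp (h : SolTo T f₀ E₀ B₀ f E B) (φ : ℝ → ENNReal) {t : ℝ}
    (ht : t ∈ Ico 0 T) :
    ∫⁻ z : R3 × R3, φ (f t z.1 z.2) = ∫⁻ z : R3 × R3, φ (f₀ z.1 z.2) := by
  have hT : 0 < T := ht.1.trans_lt ht.2
  have hm := measurePreserving_Ξt h.hE h.hB hT ht.2
  have he : MeasurableEmbedding (Ξt E B T 0 t) :=
    (homeoΞu (locForce1_Fc h.hE h.hB (mid_lt hT ht.2)) 0 t).measurableEmbedding
  have h2 := hm.lintegral_comp_emb he (fun z : R3 × R3 => φ (f₀ z.1 z.2))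
  rw [← h2]
  refine lintegral_congr fun z => ?_
  rw [h.eq_label ht z.1 z.2]
  rfl

end Crest.Agent.R106.SolTo
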