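import Crest.Agent.R106.FlowGen

/-!
Row 106, module FLOW: the flow of a time dependent vector field on all of `ℝ`.

`V : ℝ → Z → Z` jointly `C^n` on `ℝ × Z`, bounded on compact time intervals. `Ψ V s t z` = state at
time `s` of the solution that is at `z` at time `t`.
-/

set_option autoImplicit false
set_option linter.unusedSectionVars false

open Set Filter Topology
open scoped ContDiff

noncomputable section

namespace Crest.Agent.R106.Flow

variable {Z : Type} [NormedAddCommGroup Z] [NormedSpace ℝ Z]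

/-- `V` is `C^n` on `ℝ × Z` and bounded on compact time intervals. -/
structure GoodR (n : ℕ∞) (V : ℝ → Z → Z) : Prop where
  smooth : ContDiff ℝ n (fun p : ℝ × Z => V p.1 p.2)
  bdd : ∀ T : ℝ, ∃ C : ℝ, ∀ t ∈ Icc (-T) T, ∀ z, ‖V t z‖ ≤ C

lemma GoodR.mono {n m : ℕ∞} {V : ℝ → Z → Z} (h : GoodR n V) (hm : m ≤ n) : GoodR m V :=
  ⟨h.smooth.of_le (by exact_mod_cast hm), h.bdd⟩

lemma GoodR.good {n : ℕ∞} {V : ℝ → Z → Z} (h : GoodR n V) (a b : ℝ) : Good n V a b := by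
  refine ⟨h.smooth.contDiffOn, fun c d _ _ => ?_⟩
  obtain ⟨C, hC⟩ := h.bdd (max (-c) d)
  refine ⟨C, fun t ht z => hC t ⟨?_, ?_⟩ z⟩
  · have := le_max_left (-c) d
    linarith [ht.1]
  · exact ht.2.trans (le_max_right _ _)

/-- The flow on all of `ℝ`. -/
def Ψ (V : ℝ → Z → Z) [CompleteSpace Z] (s t : ℝ) (z : Z) : Z :=
  Φ V (-(|s| + |t| + 1)) (|s| + |t| + 1) s t z

variable [CompleteSpace Z] [ProperSpace Z] {V : ℝ → Z → Z}

lemma mem_big_left (s t : ℝ) : s ∈ Ioo (-(|s| + |t| + 1)) (|s| + |t| + 1) := by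
  constructor
  · have := neg_abs_le s
    have := abs_nonneg t
    linarith
  · have := le_abs_self s
    have := abs_nonneg t
    linarith

lemma mem_big_right (s t : ℝ) : t ∈ Ioo (-(|s| + |t| + 1)) (|s| + |t| + 1) := by
  constructor
  · have := neg_abs_le t
    have := abs_nonneg s
    linarith
  · have := le_abs_self t
    have := abs_nonneg s
    linarith

lemma uIcc_sub_Ioo {a b s t : ℝ} (hs : s ∈ Ioo a b) (ht : t ∈ Ioo a b) : uIcc t s ⊆ Ioo a b :=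
  (convex_Ioo a b).ordConnected.uIcc_subset ht hs

/-- `Ψ` agrees with `Φ` on every interval. -/
lemma Ψ_eq (h : GoodR 1 V) {a b s t : ℝ} (hs : s ∈ Ioo a b) (ht : t ∈ Ioo a b) (z : Z) :
    Ψ V s t z = Φ V a b s t z := by
  have h1 := eq_Φ (h.good (-(|s| + |t| + 1)) (|s| + |t| + 1)) (mem_big_left s t)
    (mem_big_right s t) (c := fun r => Φ V a b r t z)
    (fun r hr => (hasDerivAt_Φ (h.good a b) (uIcc_sub_Ioo hs ht hr) ht z).hasDerivWithinAt)
  rw [Φ_self (h.good a b) ht] at h1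
  exact h1.symm

theorem hasDerivAt_Ψ (h : GoodR 1 V) (s t : ℝ) (z : Z) :
    HasDerivAt (fun r => Ψ V r t z) (V s (Ψ V s t z)) s := by
  have h1 := hasDerivAt_Φ (h.good (-(|s| + |t| + 1)) (|s| + |t| + 1)) (mem_big_left s t)
    (mem_big_right s t) z
  refine h1.congr_of_eventuallyEq ?_
  filter_upwards [isOpen_Ioo.mem_nhds (mem_big_left s t)] with r hr
  exact Ψ_eq h hr (mem_big_right s t) z

@[simp] theorem Ψ_self (h : GoodR 1 V) (t : ℝ) (z : Z) : Ψ V t t z = z :=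
  Φ_self (h.good _ _) (mem_big_left t t) z

/-- Group law. -/
theorem Ψ_Ψ (h : GoodR 1 V) (r s t : ℝ) (z : Z) : Ψ V r s (Ψ V s t z) = Ψ V r t z := by
  set R := |r| + |s| + |t| + 1 with hR
  have hr : r ∈ Ioo (-R) R := by
    constructor <;> [have := neg_abs_le r; have := le_abs_self r] <;>
      linarith [abs_nonneg s, abs_nonneg t]
  have hs : s ∈ Ioo (-R) R := by
    constructor <;> [have := neg_abs_le s; have := le_abs_self s] <;>
      linarith [abs_nonneg r, abs_nonneg t]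
  have ht : t ∈ Ioo (-R) R := by
    constructor <;> [have := neg_abs_le t; have := le_abs_self t] <;>
      linarith [abs_nonneg s, abs_nonneg r]
  rw [Ψ_eq h hr hs, Ψ_eq h hs ht, Ψ_eq h hr ht, Φ_Φ (h.good _ _) hr hs ht]

/-- Uniqueness. -/
theorem eq_Ψ (h : GoodR 1 V) {c : ℝ → Z} {s t : ℝ}
    (hc : ∀ r ∈ uIcc t s, HasDerivWithinAt c (V r (c r)) (uIcc t s) r) :
    c s = Ψ V s t (c t) :=
  eq_Φ (h.good _ _) (mem_big_left s t) (mem_big_right s t) hc

/-- Joint smoothness in (target time, initial time, point). -/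
theorem contDiff_Ψ_joint {n : ℕ∞} (hn : 1 ≤ n) (h : GoodR n V) :
    ContDiff ℝ n (fun q : ℝ × ℝ × Z => Ψ V q.1 q.2.1 q.2.2) := by
  rw [contDiff_iff_contDiffAt]
  rintro ⟨s, t, z⟩
  set a := -(|s| + |t| + 1) with ha
  set b := |s| + |t| + 1 with hb
  have hopen : IsOpen (Ioo a b ×ˢ Ioo a b ×ˢ (univ : Set Z)) :=
    isOpen_Ioo.prod (isOpen_Ioo.prod isOpen_univ)
  have hmem : ((s, t, z) : ℝ × ℝ × Z) ∈ Ioo a b ×ˢ Ioo a b ×ˢ (univ : Set Z) :=
    ⟨mem_big_left s t, mem_big_right s t, mem_univ _⟩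
  have h1 := (contDiffOn_Φ hn (h.good a b)).contDiffAt (hopen.mem_nhds hmem)
  refine h1.congr_of_eventuallyEq ?_
  filter_upwards [hopen.mem_nhds hmem] with q hq
  exact Ψ_eq (h.mono hn) hq.1 hq.2.1 q.2.2

theorem contDiff_Ψ {n : ℕ∞} (hn : 1 ≤ n) (h : GoodR n V) (s t : ℝ) : ContDiff ℝ n (Ψ V s t) := by
  have h2 : ContDiff ℝ n (fun z : Z => ((s, t, z) : ℝ × ℝ × Z)) :=
    contDiff_const.prodMk (contDiff_const.prodMk contDiff_id)
  have h3 := (contDiff_Ψ_joint hn h).comp h2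
  exact h3

theorem continuous_Ψ_joint (h : GoodR 1 V) :
    Continuous (fun q : ℝ × ℝ × Z => Ψ V q.1 q.2.1 q.2.2) :=
  (contDiff_Ψ_joint (n := 1) le_rfl h).continuous

theorem continuous_Ψ (h : GoodR 1 V) (s t : ℝ) : Continuous (Ψ V s t) :=
  (contDiff_Ψ (n := 1) le_rfl h s t).continuous

/-- `z ↦ Ψ s t z` is a homeomorphism with inverse `Ψ t s`. -/
def homeoΨ (h : GoodR 1 V) (s t : ℝ) : Z ≃ₜ Z where
  toFun := Ψ V s t
  invFun := Ψ V t s
  left_inv z := by rw [Ψ_Ψ h, Ψ_self h]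
  right_inv z := by rw [Ψ_Ψ h, Ψ_self h]
  continuous_toFun := continuous_Ψ h s t
  continuous_invFun := continuous_Ψ h t s

@[simp] lemma homeoΨ_apply (h : GoodR 1 V) (s t : ℝ) (z : Z) : homeoΨ h s t z = Ψ V s t z := rfl

@[simp] lemma homeoΨ_symm_apply (h : GoodR 1 V) (s t : ℝ) (z : Z) :
    (homeoΨ h s t).symm z = Ψ V t s z := rfl

theorem norm_Ψ_sub_le (h : GoodR 1 V) {s t C : ℝ} (hC : ∀ r ∈ uIcc t s, ∀ z, ‖V r z‖ ≤ C)
    (z : Z) : ‖Ψ V s t z - z‖ ≤ C * |s - t| :=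
  norm_Φ_sub_le (h.good _ _) (mem_big_left s t) (mem_big_right s t) hC z

/-- On compact time sets the flow maps bounded sets to bounded sets. -/
theorem norm_Ψ_le (h : GoodR 1 V) (T : ℝ) : ∃ C : ℝ, 0 ≤ C ∧ ∀ s ∈ Icc (-T) T, ∀ t ∈ Icc (-T) T,
    ∀ z, ‖Ψ V s t z - z‖ ≤ C := by
  obtain ⟨C, hC⟩ := h.bdd T
  refine ⟨max C 0 * (2 * |T|), by positivity, fun s hs t ht z => ?_⟩
  have h1 : ∀ r ∈ uIcc t s, ∀ z, ‖V r z‖ ≤ max C 0 := fun r hr z =>
    (hC r ((ordConnected_Icc.uIcc_subset ht hs) hr) z).trans (le_max_left _ _)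
  refine (norm_Ψ_sub_le h h1 z).trans ?_
  gcongr
  rw [abs_le]
  have := le_abs_self T
  constructor <;> linarith [hs.1, hs.2, ht.1, ht.2]

end Crest.Agent.R106.Flow
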