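import Mathlib
import Crest.Prelude.Def_VecCalc3
import Crest.Prelude.Def_VlasovMaxwell

/-!
Row 106, standard part: the truncated Lorentz force (775's architecture 12365, module TRUNC).

`G P v e b = ψ(|v|²)(e + u(v) × b) + ψ'(|v|²)(|v|² e - ⟨v,e⟩ v) + 2 ψ'(|v|²) H(v) v × b`
with `ψ r = smoothTransition ((4 P² - r) / (3 P²))`, `H v = √(1+|v|²)`.  It is
`curl_v [ψ(|v|²) (½ e × v + H(v) b)]`, hence divergence free in `v`, linear in `(e,b)`, smooth,
equal to `e + u(v) × b` for `|v| ≤ P` and `0` for `|v| ≥ 2P`.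
-/

set_option autoImplicit false
noncomputable section
open Crest.AnalysisR.VecCalc3 Crest.AnalysisR.PDE.RVM
open scoped ContDiff

namespace Crest.Agent.R106.Trunc

/-- cut-off as a function of r = |v|² -/
def psi (P r : ℝ) : ℝ := Real.smoothTransition ((4 * P ^ 2 - r) / (3 * P ^ 2))

lemma psi_contDiff (P : ℝ) : ContDiff ℝ ∞ (psi P) := by
  unfold psi
  exact Real.smoothTransition.contDiff.comp ((contDiff_const.sub contDiff_id).div_const _)

/-- derivative of the cut-off -/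
def dpsi (P r : ℝ) : ℝ := deriv (psi P) r

lemma dpsi_contDiff (P : ℝ) : ContDiff ℝ ∞ (dpsi P) := by
  have := (psi_contDiff P)
  rw [contDiff_infty_iff_deriv] at this
  exact this.2

lemma hasDerivAt_psi (P r : ℝ) : HasDerivAt (psi P) (dpsi P r) r :=
  (((psi_contDiff P).differentiable (by simp)) r).hasDerivAt

lemma psi_eq_one {P r : ℝ} (hP : 0 < P) (hr : r ≤ P ^ 2) : psi P r = 1 := by
  unfold psi
  apply Real.smoothTransition.one_of_one_le
  rw [le_div_iff₀ (by positivity)]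
  linarith

lemma psi_eq_zero {P r : ℝ} (hP : 0 < P) (hr : 4 * P ^ 2 ≤ r) : psi P r = 0 := by
  unfold psi
  apply Real.smoothTransition.zero_of_nonpos
  have hP' := hP
  apply div_nonpos_of_nonpos_of_nonneg <;> nlinarith [sq_nonneg P]

lemma dpsi_eq_zero_of_lt {P r : ℝ} (hP : 0 < P) (hr : r < P ^ 2) : dpsi P r = 0 := by
  unfold dpsi
  have : psi P =ᶠ[nhds r] fun _ => (1:ℝ) := by
    filter_upwards [Iio_mem_nhds hr] with s hs
    exact psi_eq_one hP (le_of_lt hs)
  rw [this.deriv_eq]; simp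

lemma dpsi_eq_zero_of_gt {P r : ℝ} (hP : 0 < P) (hr : 4 * P ^ 2 < r) : dpsi P r = 0 := by
  unfold dpsi
  have : psi P =ᶠ[nhds r] fun _ => (0:ℝ) := by
    filter_upwards [Ioi_mem_nhds hr] with s hs
    exact psi_eq_zero hP (le_of_lt hs)
  rw [this.deriv_eq]; simp

lemma dpsi_eq_zero_of_le {P r : ℝ} (hP : 0 < P) (hr : r ≤ P ^ 2) : dpsi P r = 0 := by
  have hc : Continuous (dpsi P) := (dpsi_contDiff P).continuous
  have h1 : Set.EqOn (dpsi P) (fun _ => 0) (closure (Set.Iio (P ^ 2))) :=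
    Set.EqOn.closure (fun s hs => dpsi_eq_zero_of_lt hP hs) hc continuous_const
  rw [closure_Iio] at h1
  exact h1 hr

lemma dpsi_eq_zero_of_ge {P r : ℝ} (hP : 0 < P) (hr : 4 * P ^ 2 ≤ r) : dpsi P r = 0 := by
  have hc : Continuous (dpsi P) := (dpsi_contDiff P).continuous
  have h1 : Set.EqOn (dpsi P) (fun _ => 0) (closure (Set.Ioi (4 * P ^ 2))) :=
    Set.EqOn.closure (fun s hs => dpsi_eq_zero_of_gt hP hs) hc continuous_const
  rw [closure_Ioi] at h1
  exact h1 hr

/-- the energy √(1+|v|²) -/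
def gam (v : R3) : ℝ := Real.sqrt (1 + ‖v‖ ^ 2)

lemma gam_pos (v : R3) : 0 < gam v := Real.sqrt_pos.2 (by positivity)
lemma one_le_gam (v : R3) : 1 ≤ gam v := by
  unfold gam; rw [Real.one_le_sqrt]; nlinarith [sq_nonneg ‖v‖]

lemma gam_contDiff : ContDiff ℝ ∞ gam := by
  unfold gam
  apply ContDiff.sqrt
  · exact contDiff_const.add (contDiff_norm_sq ℝ)
  · intro v; positivity

lemma relVel_eq (v : R3) : relVel v = (gam v)⁻¹ • v := rfl

lemma relVel_contDiff : ContDiff ℝ ∞ relVel := by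
  have : relVel = fun v => (gam v)⁻¹ • v := rfl
  rw [this]
  exact (gam_contDiff.inv (fun v => (gam_pos v).ne')).smul contDiff_id

/-! ### the cross product as a continuous bilinear map -/

lemma cross3_apply (a b : R3) (i : Fin 3) : cross3 a b i =
    ![a 1 * b 2 - a 2 * b 1, a 2 * b 0 - a 0 * b 2, a 0 * b 1 - a 1 * b 0] i := rfl

lemma cross3_zero' (a b : R3) : cross3 a b 0 = a 1 * b 2 - a 2 * b 1 := rfl
lemma cross3_one' (a b : R3) : cross3 a b 1 = a 2 * b 0 - a 0 * b 2 := rfl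
lemma cross3_two' (a b : R3) : cross3 a b 2 = a 0 * b 1 - a 1 * b 0 := rfl

lemma r3_ext {a b : R3} (h0 : a 0 = b 0) (h1 : a 1 = b 1) (h2 : a 2 = b 2) : a = b := by
  ext i; fin_cases i <;> assumption

/-- the cross product as a linear map in both variables -/
def crossLin : R3 →ₗ[ℝ] R3 →ₗ[ℝ] R3 :=
  LinearMap.mk₂ ℝ cross3
    (fun a a' b => by
      apply r3_ext <;> simp [cross3_zero', cross3_one', cross3_two'] <;> ring)
    (fun c a b => by
      apply r3_ext <;> simp [cross3_zero', cross3_one', cross3_two'] <;> ring)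
    (fun a b b' => by
      apply r3_ext <;> simp [cross3_zero', cross3_one', cross3_two'] <;> ring)
    (fun c a b => by
      apply r3_ext <;> simp [cross3_zero', cross3_one', cross3_two'] <;> ring)

/-- the cross product as a continuous bilinear map -/
def crossL : R3 →L[ℝ] R3 →L[ℝ] R3 :=
  LinearMap.toContinuousLinearMap
    ((LinearMap.toContinuousLinearMap : (R3 →ₗ[ℝ] R3) ≃ₗ[ℝ] (R3 →L[ℝ] R3)).toLinearMap.comp
      crossLin)

@[simp] lemma crossL_apply (a b : R3) : crossL a b = cross3 a b := rfl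

/-! ### the truncated force -/

/-- The truncated Lorentz force as a linear map in the field `(e, b)`. -/
def Gop (P : ℝ) (v : R3) : (R3 × R3) →L[ℝ] R3 :=
  psi P (‖v‖ ^ 2) • (ContinuousLinearMap.fst ℝ R3 R3
      + (crossL (relVel v)).comp (ContinuousLinearMap.snd ℝ R3 R3))
    - dpsi P (‖v‖ ^ 2) • ((crossL v).comp ((crossL v).comp (ContinuousLinearMap.fst ℝ R3 R3)))
    + (2 * dpsi P (‖v‖ ^ 2) * gam v) • ((crossL v).comp (ContinuousLinearMap.snd ℝ R3 R3))

/-- The truncated Lorentz force. -/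
def G (P : ℝ) (v e b : R3) : R3 := Gop P v (e, b)

lemma G_eq (P : ℝ) (v e b : R3) : G P v e b =
    psi P (‖v‖ ^ 2) • (e + cross3 (relVel v) b) - dpsi P (‖v‖ ^ 2) • cross3 v (cross3 v e)
      + (2 * dpsi P (‖v‖ ^ 2) * gam v) • cross3 v b := by
  simp [G, Gop]

lemma Gop_contDiff (P : ℝ) : ContDiff ℝ ∞ (Gop P) := by
  have hn : ContDiff ℝ ∞ (fun v : R3 => ‖v‖ ^ 2) := contDiff_norm_sq ℝ
  have h1 : ContDiff ℝ ∞ (fun v : R3 => psi P (‖v‖ ^ 2)) := (psi_contDiff P).comp hn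
  have h2 : ContDiff ℝ ∞ (fun v : R3 => dpsi P (‖v‖ ^ 2)) := (dpsi_contDiff P).comp hn
  have hc : ContDiff ℝ ∞ (fun v : R3 => crossL v) := crossL.contDiff
  have hu : ContDiff ℝ ∞ (fun v : R3 => crossL (relVel v)) := crossL.contDiff.comp relVel_contDiff
  unfold Gop
  refine ((h1.smul (contDiff_const.add (hu.clm_comp contDiff_const))).sub
    (h2.smul (hc.clm_comp (hc.clm_comp contDiff_const)))).add
    (((contDiff_const.mul h2).mul gam_contDiff).smul (hc.clm_comp contDiff_const))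

lemma Gop_eq_zero {P : ℝ} (hP : 0 < P) {v : R3} (hv : 2 * P ≤ ‖v‖) : Gop P v = 0 := by
  have h4 : 4 * P ^ 2 ≤ ‖v‖ ^ 2 := by nlinarith
  refine ContinuousLinearMap.ext fun x => ?_
  change G P v x.1 x.2 = 0
  rw [G_eq, psi_eq_zero hP h4, dpsi_eq_zero_of_ge hP h4]
  simp

lemma G_eq_zero {P : ℝ} (hP : 0 < P) {v : R3} (hv : 2 * P ≤ ‖v‖) (e b : R3) : G P v e b = 0 := by
  unfold G; rw [Gop_eq_zero hP hv]; rfl

lemma G_eq_lorentz {P : ℝ} (hP : 0 < P) {v : R3} (hv : ‖v‖ ≤ P) (e b : R3) :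
    G P v e b = e + cross3 (relVel v) b := by
  have h4 : ‖v‖ ^ 2 ≤ P ^ 2 := by gcongr
  rw [G_eq, psi_eq_one hP h4, dpsi_eq_zero_of_le hP h4]
  simp

lemma Gop_hasCompactSupport {P : ℝ} (hP : 0 < P) : HasCompactSupport (Gop P) := by
  apply HasCompactSupport.intro (isCompact_closedBall (0 : R3) (2 * P))
  intro v hv
  apply Gop_eq_zero hP
  simp at hv
  exact hv.le

/-- All derivatives of the truncated force (as a function of `v`) are bounded. -/
lemma Gop_bounded {P : ℝ} (hP : 0 < P) (k : ℕ) :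
    ∃ C : ℝ, 0 ≤ C ∧ ∀ v : R3, ‖iteratedFDeriv ℝ k (Gop P) v‖ ≤ C := by
  have hc : Continuous (iteratedFDeriv ℝ k (Gop P)) :=
    (Gop_contDiff P).continuous_iteratedFDeriv (by exact_mod_cast le_top)
  have hs : HasCompactSupport (iteratedFDeriv ℝ k (Gop P)) :=
    (Gop_hasCompactSupport hP).iteratedFDeriv k
  obtain ⟨C, hC⟩ := hc.bounded_above_of_compact_support hs
  exact ⟨max C 0, le_max_right _ _, fun v => (hC v).trans (le_max_left _ _)⟩

/-- Joint smoothness of the force. -/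
lemma G_contDiff (P : ℝ) : ContDiff ℝ ∞ (fun p : R3 × R3 × R3 => G P p.1 p.2.1 p.2.2) := by
  unfold G
  exact ((Gop_contDiff P).comp contDiff_fst).clm_apply contDiff_snd

lemma G_bound {P : ℝ} (hP : 0 < P) : ∃ C : ℝ, 0 ≤ C ∧ ∀ v e b : R3,
    ‖G P v e b‖ ≤ C * (‖e‖ + ‖b‖) := by
  obtain ⟨C, hC0, hC⟩ := Gop_bounded hP 0
  refine ⟨C, hC0, fun v e b => ?_⟩
  have h1 : ‖Gop P v‖ ≤ C := by simpa using hC v
  calc ‖G P v e b‖ ≤ ‖Gop P v‖ * ‖(e, b)‖ := (Gop P v).le_opNorm _
    _ ≤ C * (‖e‖ + ‖b‖) := by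
        gcongr
        rw [Prod.norm_mk]
        exact max_le (by linarith [norm_nonneg b]) (by linarith [norm_nonneg e])

/-! ### divergence -/

/-- second derivative of the cut-off -/
def ddpsi (P r : ℝ) : ℝ := deriv (dpsi P) r

lemma hasDerivAt_dpsi (P r : ℝ) : HasDerivAt (dpsi P) (ddpsi P r) r :=
  (((dpsi_contDiff P).differentiable (by simp)) r).hasDerivAt

/-- radial profile of the coefficient of `v × b` -/
def bet (P r : ℝ) : ℝ := psi P r * (Real.sqrt (1 + r))⁻¹ + 2 * dpsi P r * Real.sqrt (1 + r)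

lemma bet_diff (P : ℝ) {r : ℝ} (hr : 0 ≤ r) : DifferentiableAt ℝ (bet P) r := by
  have h1 : DifferentiableAt ℝ (fun r : ℝ => Real.sqrt (1 + r)) r := by
    apply DifferentiableAt.sqrt
    · fun_prop
    · positivity
  have h2 : Real.sqrt (1 + r) ≠ 0 := (Real.sqrt_pos.2 (by linarith)).ne'
  unfold bet
  exact ((hasDerivAt_psi P r).differentiableAt.mul (h1.inv h2)).add
    (((hasDerivAt_dpsi P r).differentiableAt.const_mul 2).mul h1)

lemma G_apply (P : ℝ) (v e b : R3) (i : Fin 3) : G P v e b i =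
    psi P (‖v‖ ^ 2) * e i + bet P (‖v‖ ^ 2) * cross3 v b i
      - dpsi P (‖v‖ ^ 2) * cross3 v (cross3 v e) i := by
  rw [G_eq]
  have : cross3 (relVel v) b = (gam v)⁻¹ • cross3 v b := by
    rw [relVel_eq]
    apply r3_ext <;> simp [cross3_zero', cross3_one', cross3_two'] <;> ring
  rw [this]
  simp only [PiLp.add_apply, PiLp.sub_apply, PiLp.smul_apply, smul_eq_mul, bet, gam]
  ring

lemma hasFDerivAt_comp_normSq {f : ℝ → ℝ} {f' : ℝ} {v : R3} (hf : HasDerivAt f f' (‖v‖ ^ 2)) :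
    HasFDerivAt (fun w : R3 => f (‖w‖ ^ 2)) (f' • (2 • innerSL ℝ v)) v := by
  have h := (hasStrictFDerivAt_norm_sq v).hasFDerivAt
  exact hf.comp_hasFDerivAt v h

lemma pderiv_comp_normSq {f : ℝ → ℝ} {f' : ℝ} {v : R3} (hf : HasDerivAt f f' (‖v‖ ^ 2))
    (i : Fin 3) : pderiv (fun w : R3 => f (‖w‖ ^ 2)) i v = 2 * f' * v i := by
  unfold pderiv
  rw [(hasFDerivAt_comp_normSq hf).fderiv]
  simp [EuclideanSpace.inner_single_right]
  ring

lemma pderiv_mul {f g : R3 → ℝ} {v : R3} (hf : DifferentiableAt ℝ f v)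
    (hg : DifferentiableAt ℝ g v) (i : Fin 3) :
    pderiv (fun w => f w * g w) i v = pderiv f i v * g v + f v * pderiv g i v := by
  unfold pderiv
  rw [fderiv_fun_mul hf hg]
  simp
  ring

lemma pderiv_add {f g : R3 → ℝ} {v : R3} (hf : DifferentiableAt ℝ f v)
    (hg : DifferentiableAt ℝ g v) (i : Fin 3) :
    pderiv (fun w => f w + g w) i v = pderiv f i v + pderiv g i v := by
  unfold pderiv
  rw [fderiv_fun_add hf hg]
  simp

lemma pderiv_sub {f g : R3 → ℝ} {v : R3} (hf : DifferentiableAt ℝ f v)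
    (hg : DifferentiableAt ℝ g v) (i : Fin 3) :
    pderiv (fun w => f w - g w) i v = pderiv f i v - pderiv g i v := by
  unfold pderiv
  rw [fderiv_fun_sub hf hg]
  simp

lemma pderiv_coord (v : R3) (i j : Fin 3) :
    pderiv (fun w : R3 => w j) i v = if i = j then 1 else 0 := by
  unfold pderiv
  have : HasFDerivAt (fun w : R3 => w j) (EuclideanSpace.proj j : R3 →L[ℝ] ℝ) v :=
    (EuclideanSpace.proj j : R3 →L[ℝ] ℝ).hasFDerivAt
  rw [this.fderiv]
  simp [Pi.single_apply, eq_comm]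

lemma diff_coord (v : R3) (j : Fin 3) : DifferentiableAt ℝ (fun w : R3 => w j) v :=
  (EuclideanSpace.proj j : R3 →L[ℝ] ℝ).differentiableAt

lemma pderiv_const (c : ℝ) (i : Fin 3) (v : R3) : pderiv (fun _ => c) i v = 0 := by
  unfold pderiv; simp

/-- The truncated force is divergence free in the momentum variable. -/
theorem div3_G (P : ℝ) (e b v : R3) : div3 (fun w => G P w e b) v = 0 := by
  have hn : (0:ℝ) ≤ ‖v‖ ^ 2 := by positivity
  have hpsi := hasDerivAt_psi P (‖v‖ ^ 2)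
  have hdpsi := hasDerivAt_dpsi P (‖v‖ ^ 2)
  have hbet := (bet_diff P hn).hasDerivAt
  have d1 := (hasFDerivAt_comp_normSq hpsi).differentiableAt
  have d2 := (hasFDerivAt_comp_normSq hdpsi).differentiableAt
  have d3 := (hasFDerivAt_comp_normSq hbet).differentiableAt
  have dc : ∀ j : Fin 3, DifferentiableAt ℝ (fun w : R3 => w j) v := diff_coord v
  have c1 : ∀ (c : R3) (i : Fin 3), DifferentiableAt ℝ (fun w : R3 => cross3 w c i) v := by
    intro c i
    fin_cases i <;> simp only [cross3_apply] <;> simp <;> fun_prop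
  have c2 : ∀ (i : Fin 3), DifferentiableAt ℝ (fun w : R3 => cross3 w (cross3 w e) i) v := by
    intro i
    fin_cases i <;> simp only [cross3_apply] <;> simp <;> fun_prop
  have key : ∀ i, pderiv (fun w => G P w e b i) i v =
      (2 * dpsi P (‖v‖ ^ 2) * v i) * e i
      + ((2 * deriv (bet P) (‖v‖ ^ 2) * v i) * cross3 v b i
          + bet P (‖v‖ ^ 2) * pderiv (fun w => cross3 w b i) i v)
      - ((2 * ddpsi P (‖v‖ ^ 2) * v i) * cross3 v (cross3 v e) i
          + dpsi P (‖v‖ ^ 2) * pderiv (fun w => cross3 w (cross3 w e) i) i v) := by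
    intro i
    have h0 : (fun w => G P w e b i) = fun w : R3 =>
        (psi P (‖w‖ ^ 2) * e i + bet P (‖w‖ ^ 2) * cross3 w b i)
          - dpsi P (‖w‖ ^ 2) * cross3 w (cross3 w e) i := by
      funext w; exact G_apply P w e b i
    rw [h0]
    have e1 : pderiv (fun w : R3 => (psi P (‖w‖ ^ 2) * e i + bet P (‖w‖ ^ 2) * cross3 w b i)
          - dpsi P (‖w‖ ^ 2) * cross3 w (cross3 w e) i) i v =
        pderiv (fun w : R3 => psi P (‖w‖ ^ 2) * e i + bet P (‖w‖ ^ 2) * cross3 w b i) i v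
          - pderiv (fun w : R3 => dpsi P (‖w‖ ^ 2) * cross3 w (cross3 w e) i) i v :=
      pderiv_sub ((d1.mul_const _).add (d3.mul (c1 b i))) (d2.mul (c2 i)) i
    have e2 : pderiv (fun w : R3 => psi P (‖w‖ ^ 2) * e i + bet P (‖w‖ ^ 2) * cross3 w b i) i v =
        pderiv (fun w : R3 => psi P (‖w‖ ^ 2) * e i) i v
          + pderiv (fun w : R3 => bet P (‖w‖ ^ 2) * cross3 w b i) i v :=
      pderiv_add (d1.mul_const _) (d3.mul (c1 b i)) i
    have e3 : pderiv (fun w : R3 => psi P (‖w‖ ^ 2) * e i) i v =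
        pderiv (fun w : R3 => psi P (‖w‖ ^ 2)) i v * e i
          + psi P (‖v‖ ^ 2) * pderiv (fun _ : R3 => e i) i v :=
      pderiv_mul d1 (differentiableAt_const _) i
    have e4 := pderiv_mul d3 (c1 b i) i
    have e5 := pderiv_mul d2 (c2 i) i
    rw [e1, e2, e3, e4, e5,
      pderiv_comp_normSq hpsi, pderiv_comp_normSq hdpsi, pderiv_comp_normSq hbet, pderiv_const]
    ring
  -- partial derivatives of the two cross product fields
  have q : ∀ (i j : Fin 3) (c : ℝ), pderiv (fun w : R3 => w j * c) i v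
      = (if i = j then 1 else 0) * c := by
    intro i j c
    have := pderiv_mul (dc j) (differentiableAt_const c) i
    rw [this, pderiv_coord, pderiv_const]; ring
  have dq : ∀ (j : Fin 3) (c : ℝ), DifferentiableAt ℝ (fun w : R3 => w j * c) v :=
    fun j c => (dc j).mul_const c
  have b0 : pderiv (fun w => cross3 w b 0) 0 v = 0 := by
    have : pderiv (fun w : R3 => w 1 * b 2 - w 2 * b 1) 0 v = _ := pderiv_sub (dq 1 _) (dq 2 _) 0
    change pderiv (fun w : R3 => w 1 * b 2 - w 2 * b 1) 0 v = 0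
    rw [this, q, q]; simp
  have b1 : pderiv (fun w => cross3 w b 1) 1 v = 0 := by
    have : pderiv (fun w : R3 => w 2 * b 0 - w 0 * b 2) 1 v = _ := pderiv_sub (dq 2 _) (dq 0 _) 1
    change pderiv (fun w : R3 => w 2 * b 0 - w 0 * b 2) 1 v = 0
    rw [this, q, q]; simp
  have b2 : pderiv (fun w => cross3 w b 2) 2 v = 0 := by
    have : pderiv (fun w : R3 => w 0 * b 1 - w 1 * b 0) 2 v = _ := pderiv_sub (dq 0 _) (dq 1 _) 2
    change pderiv (fun w : R3 => w 0 * b 1 - w 1 * b 0) 2 v = 0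
    rw [this, q, q]; simp
  have pq : ∀ (i a j k : Fin 3) (c d : ℝ),
      pderiv (fun w : R3 => w a * (w j * c - w k * d)) i v
        = (if i = a then 1 else 0) * (v j * c - v k * d)
          + v a * ((if i = j then 1 else 0) * c - (if i = k then 1 else 0) * d) := by
    intro i a j k c d
    have t1 : pderiv (fun w : R3 => w j * c - w k * d) i v = _ := pderiv_sub (dq j c) (dq k d) i
    have t2 : pderiv (fun w : R3 => w a * (w j * c - w k * d)) i v =
        pderiv (fun w : R3 => w a) i v * (v j * c - v k * d)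
          + v a * pderiv (fun w : R3 => w j * c - w k * d) i v :=
      pderiv_mul (dc a) ((dq j c).sub (dq k d)) i
    rw [t2, t1, q, q, pderiv_coord]
  have dpq : ∀ (a j k : Fin 3) (c d : ℝ),
      DifferentiableAt ℝ (fun w : R3 => w a * (w j * c - w k * d)) v :=
    fun a j k c d => (dc a).mul ((dq j c).sub (dq k d))
  have s0 : pderiv (fun w => cross3 w (cross3 w e) 0) 0 v = v 1 * e 1 + v 2 * e 2 := by
    have h : (fun w : R3 => cross3 w (cross3 w e) 0) =
        fun w : R3 => w 1 * (w 0 * e 1 - w 1 * e 0) - w 2 * (w 2 * e 0 - w 0 * e 2) := rfl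
    have t : pderiv (fun w : R3 => w 1 * (w 0 * e 1 - w 1 * e 0) - w 2 * (w 2 * e 0 - w 0 * e 2))
        0 v = _ := pderiv_sub (dpq 1 0 1 _ _) (dpq 2 2 0 _ _) 0
    rw [h, t, pq, pq]; simp
  have s1 : pderiv (fun w => cross3 w (cross3 w e) 1) 1 v = v 0 * e 0 + v 2 * e 2 := by
    have h : (fun w : R3 => cross3 w (cross3 w e) 1) =
        fun w : R3 => w 2 * (w 1 * e 2 - w 2 * e 1) - w 0 * (w 0 * e 1 - w 1 * e 0) := rfl
    have t : pderiv (fun w : R3 => w 2 * (w 1 * e 2 - w 2 * e 1) - w 0 * (w 0 * e 1 - w 1 * e 0))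
        1 v = _ := pderiv_sub (dpq 2 1 2 _ _) (dpq 0 0 1 _ _) 1
    rw [h, t, pq, pq]; simp; ring
  have s2 : pderiv (fun w => cross3 w (cross3 w e) 2) 2 v = v 0 * e 0 + v 1 * e 1 := by
    have h : (fun w : R3 => cross3 w (cross3 w e) 2) =
        fun w : R3 => w 0 * (w 2 * e 0 - w 0 * e 2) - w 1 * (w 1 * e 2 - w 2 * e 1) := rfl
    have t : pderiv (fun w : R3 => w 0 * (w 2 * e 0 - w 0 * e 2) - w 1 * (w 1 * e 2 - w 2 * e 1))
        2 v = _ := pderiv_sub (dpq 0 2 0 _ _) (dpq 1 1 2 _ _) 2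
    rw [h, t, pq, pq]; simp
  have hx : v 0 * cross3 v b 0 + v 1 * cross3 v b 1 + v 2 * cross3 v b 2 = 0 := by
    rw [cross3_zero', cross3_one', cross3_two']; ring
  have hy : v 0 * cross3 v (cross3 v e) 0 + v 1 * cross3 v (cross3 v e) 1
      + v 2 * cross3 v (cross3 v e) 2 = 0 := by
    simp only [cross3_zero', cross3_one', cross3_two']; ring
  unfold div3
  simp only [Fin.sum_univ_three, key, b0, b1, b2, s0, s1, s2]
  linear_combination (2 * deriv (bet P) (‖v‖ ^ 2)) * hx - (2 * ddpsi P (‖v‖ ^ 2)) * hy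

end Crest.Agent.R106.Trunc
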