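import Crest.Agent.R106.FlowU
import Crest.Agent.R106.Trunc
import Crest.Agent.R106.ConeMu
import Crest.Agent.R106.MomIface

/-!
Row 106, module FLOW: characteristics of a smooth solution: label flow, `CharP`, `LipP`.
-/

set_option autoImplicit false
set_option linter.unusedSectionVars false

open Set Filter Topology MeasureTheory
open scoped ContDiff
open Crest.AnalysisR.VecCalc3 Crest.AnalysisR.PDE.RVM

noncomputable section

namespace Crest.Agent.R106.FlowSol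

open Crest.Agent.R106.Flow Crest.Agent.R106.Mom
open Crest.Agent.R106.GSR (lor)

/-! ### the Lorentz force -/

lemma lor_eq_G {P : ℝ} (hP : 0 < P) (E B : ℝ → R3 → R3) (t : ℝ) (x : R3) {v : R3}
    (hv : ‖v‖ ≤ P) : lor E B t x v = Trunc.G P v (E t x) (B t x) :=
  (Trunc.G_eq_lorentz hP hv (E t x) (B t x)).symm

theorem div3_lor (E B : ℝ → R3 → R3) (t : ℝ) (x v : R3) : div3 (lor E B t x) v = 0 := by
  have hP : (0 : ℝ) < ‖v‖ + 1 := by positivity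
  have h1 : ∀ i : Fin 3, (fun w => lor E B t x w i) =ᶠ[𝓝 v]
      fun w => Trunc.G (‖v‖ + 1) w (E t x) (B t x) i := by
    intro i
    filter_upwards [(isOpen_lt continuous_norm continuous_const).mem_nhds
      (show ‖v‖ < ‖v‖ + 1 by linarith)] with w hw
    rw [lor_eq_G hP E B t x (le_of_lt hw)]
  have h2 := Trunc.div3_G (‖v‖ + 1) (E t x) (B t x) v
  rw [div3] at h2 ⊢
  rw [← h2]
  refine Finset.sum_congr rfl fun i _ => ?_
  rw [pderiv, pderiv, (h1 i).fderiv_eq]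

lemma norm_lor_le (E B : ℝ → R3 → R3) (t : ℝ) (x v : R3) :
    ‖lor E B t x v‖ ≤ ‖E t x‖ + ‖B t x‖ := norm_force_le E B t (x, v)

variable {E B : ℝ → R3 → R3}

/-- The fields are bounded on compact sets. -/
lemma exists_bound_EB (hE : Continuous (fun p : ℝ × R3 => E p.1 p.2))
    (hB : Continuous (fun p : ℝ × R3 => B p.1 p.2)) (T R : ℝ) :
    ∃ C : ℝ, 0 ≤ C ∧ ∀ t ∈ Icc (-T) T, ∀ x : R3, ‖x‖ ≤ R → ‖E t x‖ + ‖B t x‖ ≤ C := by
  have hK : IsCompact (Icc (-T) T ×ˢ Metric.closedBall (0 : R3) R) :=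
    isCompact_Icc.prod (isCompact_closedBall _ _)
  have hc : ContinuousOn (fun p : ℝ × R3 => ‖E p.1 p.2‖ + ‖B p.1 p.2‖)
      (Icc (-T) T ×ˢ Metric.closedBall (0 : R3) R) := (hE.norm.add hB.norm).continuousOn
  obtain ⟨C, hC⟩ := hK.exists_bound_of_continuousOn hc
  refine ⟨max C 0, le_max_right _ _, fun t ht x hx => ?_⟩
  have h1 := hC (t, x) ⟨ht, by simpa using hx⟩
  refine le_trans ?_ (h1.trans (le_max_left _ _))
  exact Real.le_norm_self _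

lemma locForce_lor {n : ℕ∞} (hE : ContDiff ℝ n (fun p : ℝ × R3 => E p.1 p.2))
    (hB : ContDiff ℝ n (fun p : ℝ × R3 => B p.1 p.2)) : LocForce n (lor E B) := by
  refine ⟨?_, fun T R => ?_⟩
  · have hpr : ContDiff ℝ n (fun p : ℝ × R3 × R3 => ((p.1, p.2.1) : ℝ × R3)) :=
      contDiff_fst.prodMk (contDiff_fst.comp contDiff_snd)
    have h2 : ContDiff ℝ n (fun p : ℝ × R3 × R3 => E p.1 p.2.1) := hE.comp hpr
    have h3 : ContDiff ℝ n (fun p : ℝ × R3 × R3 => B p.1 p.2.1) := hB.comp hpr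
    have hu : ContDiff ℝ n (fun p : ℝ × R3 × R3 => relVel p.2.2) :=
      contDiff_relVel.comp (contDiff_snd.comp contDiff_snd)
    exact h2.add (contDiff_cross3.comp (hu.prodMk h3))
  · obtain ⟨C, _, hC⟩ := exists_bound_EB hE.continuous hB.continuous T R
    exact ⟨C, fun t ht x hx v => (norm_lor_le E B t x v).trans (hC t ht x hx)⟩

/-! ### label flow -/

/-- Phase space flow of the fields: state at time `t` of the particle with label (state at time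
zero) `z`. -/
def Zf (E B : ℝ → R3 → R3) (t : ℝ) (z : R3 × R3) : R3 × R3 := Ξu (lor E B) t 0 z

/-- Inverse label flow. -/
def Zi (E B : ℝ → R3 → R3) (t : ℝ) (z : R3 × R3) : R3 × R3 := Ξu (lor E B) 0 t z

/-- Characteristic vector field. -/
def av (E B : ℝ → R3 → R3) (t : ℝ) (z : R3 × R3) : R3 × R3 := (relVel z.2, lor E B t z.1 z.2)

variable {T : ℝ} {f₀ : R3 → R3 → ℝ} {E₀ B₀ : R3 → R3} {f : ℝ → R3 → R3 → ℝ}

lemma lFlow (T : ℝ) (hE : ContDiff ℝ ∞ (fun p : ℝ × R3 => E p.1 p.2))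
    (hB : ContDiff ℝ ∞ (fun p : ℝ × R3 => B p.1 p.2)) :
    CM.LFlow T (av E B) (Zf E B) (Zi E B) := by
  have hI : LocForce ⊤ (lor E B) := locForce_lor hE hB
  have h1 : LocForce 1 (lor E B) := hI.mono le_top
  have h2 : LocForce 2 (lor E B) := hI.mono le_top
  refine ⟨fun z => Ξu_self h1 0 z, fun τ _ z => ?_, fun τ _ w => ?_, fun z => ?_,
    fun τ _ z => hasDerivAt_Ξu h1 τ 0 z, fun τ w => norm_relVel_lt _, fun τ _ w => ?_,
    fun τ _ w => ?_⟩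
  · rw [Zi, Zf, Ξu_Ξu h1, Ξu_self h1]
  · rw [Zi, Zf, Ξu_Ξu h1, Ξu_self h1]
  · exact fun τ _ => (hasDerivAt_Ξu h1 τ 0 z).continuousAt.continuousWithinAt
  · have h3 := contDiff_Ξu_joint (n := 1) le_rfl h1
    have h4 : ContDiff ℝ 1 (fun q : ℝ × (R3 × R3) => ((0, q.1, q.2) : ℝ × ℝ × (R3 × R3))) :=
      contDiff_const.prodMk (contDiff_fst.prodMk contDiff_snd)
    have h5 := ContDiff.comp (g := fun q : ℝ × ℝ × (R3 × R3) => Ξu (lor E B) q.1 q.2.1 q.2.2)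
      (f := fun q : ℝ × (R3 × R3) => ((0, q.1, q.2) : ℝ × ℝ × (R3 × R3))) h3 h4
    exact (h5.differentiable (by norm_num)) (τ, w)
  · have h3 := det_Ξu h2 (div3_lor E B) 0 τ w
    have h4 : fderiv ℝ (Zi E B τ) w = fderiv ℝ (Ξu (lor E B) 0 τ) w := rfl
    rw [h4, h3, abs_one]

/-- The density is constant along characteristics. -/
theorem const_char (h : IsClassicalSolutionOn T f₀ E₀ B₀ f E B)
    (hf : ContDiff ℝ ∞ (fun p : ℝ × R3 × R3 => f p.1 p.2.1 p.2.2))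
    (hE : ContDiff ℝ ∞ (fun p : ℝ × R3 => E p.1 p.2))
    (hB : ContDiff ℝ ∞ (fun p : ℝ × R3 => B p.1 p.2)) {s t : ℝ} (hs : s ∈ Ico 0 T)
    (ht : t ∈ Ico 0 T) (r : ℝ) (z : R3 × R3) :
    f t (Ξu (lor E B) t r z).1 (Ξu (lor E B) t r z).2 =
      f s (Ξu (lor E B) s r z).1 (Ξu (lor E B) s r z).2 := by
  have hI : LocForce ⊤ (lor E B) := locForce_lor hE hB
  have h1 : LocForce 1 (lor E B) := hI.mono le_top
  have hd : Differentiable ℝ (unc f) := hf.differentiable (by simp)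
  refine const_of_transportu h1 hd.continuous.continuousOn (fun τ _ x v => hd _) ?_ hs ht r z
  intro τ hτ x v
  exact (h.2.2.2.2.2.2.1 τ hτ.1 hτ.2 x).1 v

/-- A characteristic of the flow that meets the support at some time of `[0,T)`. -/
theorem isChar_Ξu (hT : 0 < T) (h : IsClassicalSolutionOn T f₀ E₀ B₀ f E B)
    (hf : ContDiff ℝ ∞ (fun p : ℝ × R3 × R3 => f p.1 p.2.1 p.2.2))
    (hE : ContDiff ℝ ∞ (fun p : ℝ × R3 => E p.1 p.2))
    (hB : ContDiff ℝ ∞ (fun p : ℝ × R3 => B p.1 p.2)) {t : ℝ} (ht : t ∈ Ico 0 T)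
    {z : R3 × R3} (hz : f t z.1 z.2 ≠ 0) :
    IsChar T f E B (fun s => (Ξu (lor E B) s t z).1) (fun s => (Ξu (lor E B) s t z).2) := by
  have hI : LocForce ⊤ (lor E B) := locForce_lor hE hB
  have h1 : LocForce 1 (lor E B) := hI.mono le_top
  refine ⟨fun s _ => (hasDerivAt_Ξu_fst h1 s t z).continuousAt.continuousWithinAt,
    fun s _ => (hasDerivAt_Ξu_snd h1 s t z).continuousAt.continuousWithinAt,
    fun s _ => hasDerivAt_Ξu_fst h1 s t z, fun s _ => hasDerivAt_Ξu_snd h1 s t z, ?_⟩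
  have h2 := const_char h hf hE hB ⟨le_rfl, hT⟩ ht t z
  rw [Ξu_self h1] at h2
  rw [← h2]
  exact hz

theorem charP (hT : 0 < T) (h : IsClassicalSolutionOn T f₀ E₀ B₀ f E B)
    (hf : ContDiff ℝ ∞ (fun p : ℝ × R3 × R3 => f p.1 p.2.1 p.2.2))
    (hE : ContDiff ℝ ∞ (fun p : ℝ × R3 => E p.1 p.2))
    (hB : ContDiff ℝ ∞ (fun p : ℝ × R3 => B p.1 p.2)) : CharP T f E B := by
  intro t ht x v hne
  have hI : LocForce ⊤ (lor E B) := locForce_lor hE hB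
  have h1 : LocForce 1 (lor E B) := hI.mono le_top
  refine ⟨⟨(fun s => (Ξu (lor E B) s t (x, v)).1, fun s => (Ξu (lor E B) s t (x, v)).2),
    isChar_Ξu hT h hf hE hB ht hne⟩, ?_, ?_⟩
  · simp [Ξu_self h1]
  · simp [Ξu_self h1]

/-! ### characteristics in the sense of `IsChar` -/

variable {X p : ℝ → R3}

lemma derivX0 (hT : 0 < T) (hc : IsChar T f E B X p) :
    HasDerivWithinAt X (relVel (p 0)) (Ici 0) 0 := by
  have h0 : (0 : ℝ) ∈ Ico 0 T := ⟨le_rfl, hT⟩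
  refine hasDerivWithinAt_Ici_of_tendsto_deriv (s := Ioo 0 T)
    (fun s hs => (hc.dX s hs).differentiableAt.differentiableWithinAt)
    ((hc.cX 0 h0).mono Ioo_subset_Ico_self) (Ioo_mem_nhdsGT hT) ?_
  have h1 : Tendsto (fun s => relVel (p s)) (𝓝[>] (0 : ℝ)) (𝓝 (relVel (p 0))) := by
    have h2 : Tendsto p (𝓝[>] (0 : ℝ)) (𝓝 (p 0)) :=
      (hc.cp 0 h0).tendsto.mono_left (nhdsWithin_le_iff.2 (Filter.mem_of_superset
        (Ioo_mem_nhdsGT hT) Ioo_subset_Ico_self))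
    exact ((contDiff_relVel (n := 0)).continuous.tendsto _).comp h2
  refine h1.congr' ?_
  filter_upwards [Ioo_mem_nhdsGT hT] with s hs
  exact (hc.dX s hs).deriv.symm

lemma derivp0 (hT : 0 < T) (hE : Continuous (fun p : ℝ × R3 => E p.1 p.2))
    (hB : Continuous (fun p : ℝ × R3 => B p.1 p.2)) (hc : IsChar T f E B X p) :
    HasDerivWithinAt p (lor E B 0 (X 0) (p 0)) (Ici 0) 0 := by
  have h0 : (0 : ℝ) ∈ Ico 0 T := ⟨le_rfl, hT⟩
  refine hasDerivWithinAt_Ici_of_tendsto_deriv (s := Ioo 0 T)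
    (fun s hs => (hc.dp s hs).differentiableAt.differentiableWithinAt)
    ((hc.cp 0 h0).mono Ioo_subset_Ico_self) (Ioo_mem_nhdsGT hT) ?_
  have hle : 𝓝[>] (0 : ℝ) ≤ 𝓝[Ico 0 T] 0 := nhdsWithin_le_iff.2 (Filter.mem_of_superset
        (Ioo_mem_nhdsGT hT) Ioo_subset_Ico_self)
  have h2 : Tendsto p (𝓝[>] (0 : ℝ)) (𝓝 (p 0)) := (hc.cp 0 h0).tendsto.mono_left hle
  have h3 : Tendsto X (𝓝[>] (0 : ℝ)) (𝓝 (X 0)) := (hc.cX 0 h0).tendsto.mono_left hle
  have h4 : Tendsto (fun s : ℝ => s) (𝓝[>] (0 : ℝ)) (𝓝 0) := nhdsWithin_le_nhds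
  have hlc : Continuous (fun q : ℝ × R3 × R3 => lor E B q.1 q.2.1 q.2.2) := by
    have hpr : Continuous (fun p : ℝ × R3 × R3 => ((p.1, p.2.1) : ℝ × R3)) := by fun_prop
    have h2 : Continuous (fun p : ℝ × R3 × R3 => E p.1 p.2.1) := hE.comp hpr
    have h3 : Continuous (fun p : ℝ × R3 × R3 => B p.1 p.2.1) := hB.comp hpr
    have hu : Continuous (fun p : ℝ × R3 × R3 => relVel p.2.2) :=
      (contDiff_relVel (n := 0)).continuous.comp (by fun_prop)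
    exact h2.add ((contDiff_cross3 (n := 0)).continuous.comp (hu.prodMk h3))
  have h5 : Tendsto (fun s => lor E B s (X s) (p s)) (𝓝[>] (0 : ℝ))
      (𝓝 (lor E B 0 (X 0) (p 0))) :=
    (hlc.tendsto ((0, X 0, p 0) : ℝ × R3 × R3)).comp (h4.prodMk_nhds (h3.prodMk_nhds h2))
  refine h5.congr' ?_
  filter_upwards [Ioo_mem_nhdsGT hT] with s hs
  exact (hc.dp s hs).deriv.symm

/-- Every characteristic in the sense of `IsChar` is a trajectory of the flow. -/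
theorem isChar_eq (hE : ContDiff ℝ ∞ (fun p : ℝ × R3 => E p.1 p.2))
    (hB : ContDiff ℝ ∞ (fun p : ℝ × R3 => B p.1 p.2)) (hc : IsChar T f E B X p) {t : ℝ}
    (ht : t ∈ Ico 0 T) : (X t, p t) = Zf E B t (X 0, p 0) := by
  have hI : LocForce ⊤ (lor E B) := locForce_lor hE hB
  have h1 : LocForce 1 (lor E B) := hI.mono le_top
  have hT : 0 < T := ht.1.trans_lt ht.2
  refine eq_Ξu h1 (fun r hr => ?_) (fun r hr => ?_)
  · rw [uIcc_of_le ht.1] at hr ⊢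
    rcases hr.1.eq_or_lt with h0 | h0
    · rw [← h0]
      exact (derivX0 hT hc).mono Icc_subset_Ici_self
    · exact (hc.dX r ⟨h0, hr.2.trans_lt ht.2⟩).hasDerivWithinAt
  · rw [uIcc_of_le ht.1] at hr ⊢
    rcases hr.1.eq_or_lt with h0 | h0
    · rw [← h0]
      exact (derivp0 hT hE.continuous hB.continuous hc).mono Icc_subset_Ici_self
    · exact (hc.dp r ⟨h0, hr.2.trans_lt ht.2⟩).hasDerivWithinAt

/-- Two characteristics with the same state at one time agree. -/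
theorem isChar_unique (hE : ContDiff ℝ ∞ (fun p : ℝ × R3 => E p.1 p.2))
    (hB : ContDiff ℝ ∞ (fun p : ℝ × R3 => B p.1 p.2)) (hc : IsChar T f E B X p)
    {X' p' : ℝ → R3} (hc' : IsChar T f E B X' p') {t : ℝ} (ht : t ∈ Ico 0 T)
    (hX : X t = X' t) (hp : p t = p' t) {s : ℝ} (hs : s ∈ Ico 0 T) :
    X s = X' s ∧ p s = p' s := by
  have hI : LocForce ⊤ (lor E B) := locForce_lor hE hB
  have h1 : LocForce 1 (lor E B) := hI.mono le_top
  have e1 := isChar_eq hE hB hc ht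
  have e2 := isChar_eq hE hB hc' ht
  rw [hX, hp, e2] at e1
  have e3 : (X' 0, p' 0) = (X 0, p 0) := (homeoΞu h1 t 0).injective e1
  have e4 := isChar_eq hE hB hc hs
  have e5 := isChar_eq hE hB hc' hs
  rw [← e3, ← e5] at e4
  exact ⟨congrArg Prod.fst e4, congrArg Prod.snd e4⟩

/-- The density along a characteristic is constant. -/
theorem isChar_const (h : IsClassicalSolutionOn T f₀ E₀ B₀ f E B)
    (hf : ContDiff ℝ ∞ (fun p : ℝ × R3 × R3 => f p.1 p.2.1 p.2.2))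
    (hE : ContDiff ℝ ∞ (fun p : ℝ × R3 => E p.1 p.2))
    (hB : ContDiff ℝ ∞ (fun p : ℝ × R3 => B p.1 p.2)) (hc : IsChar T f E B X p) {t : ℝ}
    (ht : t ∈ Ico 0 T) : f t (X t) (p t) = f 0 (X 0) (p 0) := by
  have hI : LocForce ⊤ (lor E B) := locForce_lor hE hB
  have h1 : LocForce 1 (lor E B) := hI.mono le_top
  have hT : 0 < T := ht.1.trans_lt ht.2
  have h2 := const_char h hf hE hB (s := 0) (t := t) ⟨le_rfl, hT⟩ ht 0 (X 0, p 0)
  have h3 := isChar_eq hE hB hc ht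
  rw [Zf] at h3
  rw [← h3, Ξu_self h1] at h2
  exact h2

/-- Speed at most one. -/
lemma isChar_speed (hE : ContDiff ℝ ∞ (fun p : ℝ × R3 => E p.1 p.2))
    (hB : ContDiff ℝ ∞ (fun p : ℝ × R3 => B p.1 p.2)) (hc : IsChar T f E B X p) {s : ℝ}
    (hs : s ∈ Ico 0 T) : ‖X s‖ ≤ ‖X 0‖ + s := by
  have hI : LocForce ⊤ (lor E B) := locForce_lor hE hB
  have h1 : LocForce 1 (lor E B) := hI.mono le_top
  have h2 := isChar_eq hE hB hc hs
  have h3 := norm_Ξu_fst_le h1 s 0 (X 0, p 0)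
  rw [Zf] at h2
  rw [← h2, abs_zero, abs_of_nonneg hs.1] at h3
  simpa using h3

/-- Bounded initial data of all characteristics. -/
lemma isChar_init (hT : 0 < T) (h : IsClassicalSolutionOn T f₀ E₀ B₀ f E B) :
    ∃ R : ℝ, 0 ≤ R ∧ ∀ X p : ℝ → R3, IsChar T f E B X p → ‖X 0‖ ≤ R ∧ ‖p 0‖ ≤ R := by
  obtain ⟨R, hR⟩ := h.2.2.2.2.2.2.2.1 0 le_rfl hT
  refine ⟨max R 0, le_max_right _ _, fun X p hc => ⟨?_, ?_⟩⟩
  · by_contra hcon
    rw [not_le] at hcon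
    exact hc.supp (hR 0 ⟨le_rfl, le_rfl⟩ _ _ (Or.inl ((le_max_left _ _).trans_lt hcon)))
  · by_contra hcon
    rw [not_le] at hcon
    exact hc.supp (hR 0 ⟨le_rfl, le_rfl⟩ _ _ (Or.inr ((le_max_left _ _).trans_lt hcon)))

/-- On `[0,t]`, `t < T`, the momenta of all characteristics are uniformly Lipschitz. -/
theorem isChar_lip (hT : 0 < T) (h : IsClassicalSolutionOn T f₀ E₀ B₀ f E B)
    (hE : ContDiff ℝ ∞ (fun p : ℝ × R3 => E p.1 p.2))
    (hB : ContDiff ℝ ∞ (fun p : ℝ × R3 => B p.1 p.2)) (t : ℝ) (ht : t < T) :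
    ∃ C : ℝ, 0 ≤ C ∧ ∀ X p : ℝ → R3, IsChar T f E B X p → ∀ s ∈ Icc 0 t, ∀ s' ∈ Icc 0 t,
      ‖p s - p s'‖ ≤ C * |s - s'| := by
  have hI : LocForce ⊤ (lor E B) := locForce_lor hE hB
  have h1 : LocForce 1 (lor E B) := hI.mono le_top
  obtain ⟨R, hR0, hR⟩ := isChar_init hT h
  obtain ⟨C, hC0, hC⟩ := exists_bound_EB hE.continuous hB.continuous t (R + t)
  refine ⟨C, hC0, fun X p hc s hs s' hs' => ?_⟩
  have hIT : ∀ r ∈ Icc 0 t, r ∈ Ico 0 T := fun r hr => ⟨hr.1, hr.2.trans_lt ht⟩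
  have e : ∀ r ∈ Icc 0 t, p r = (Ξu (lor E B) r 0 (X 0, p 0)).2 := fun r hr =>
    congrArg Prod.snd (isChar_eq hE hB hc (hIT r hr))
  rw [e s hs, e s' hs']
  have h2 := (convex_Icc 0 t).norm_image_sub_le_of_norm_hasDerivWithin_le (C := C)
    (f := fun r => (Ξu (lor E B) r 0 (X 0, p 0)).2)
    (fun r _ => (hasDerivAt_Ξu_snd h1 r 0 (X 0, p 0)).hasDerivWithinAt)
    (fun r hr => ?_) hs' hs
  · simpa [Real.norm_eq_abs] using h2
  · refine (norm_lor_le E B _ _ _).trans (hC r ⟨by linarith [hr.1, hr.2], hr.2⟩ _ ?_)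
    have h3 := norm_Ξu_fst_le h1 r 0 (X 0, p 0)
    rw [abs_zero, abs_of_nonneg hr.1] at h3
    have h4 := (hR X p hc).1
    simp only at h3
    linarith [hr.2]

theorem lipP (hT : 0 < T) (h : IsClassicalSolutionOn T f₀ E₀ B₀ f E B)
    (hE : ContDiff ℝ ∞ (fun p : ℝ × R3 => E p.1 p.2))
    (hB : ContDiff ℝ ∞ (fun p : ℝ × R3 => B p.1 p.2)) : LipP T f E B := by
  refine ⟨fun t ht => ?_, ?_⟩
  · obtain ⟨C, _, hC⟩ := isChar_lip hT h hE hB t ht
    exact ⟨C, fun ξ s hs s' hs' => hC ξ.1.1 ξ.1.2 ξ.2 s hs s' hs'⟩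
  · obtain ⟨R, _, hR⟩ := isChar_init hT h
    exact ⟨R, fun ξ => (hR ξ.1.1 ξ.1.2 ξ.2).2⟩

lemma contDiff_Zf (hE : ContDiff ℝ ∞ (fun p : ℝ × R3 => E p.1 p.2))
    (hB : ContDiff ℝ ∞ (fun p : ℝ × R3 => B p.1 p.2)) :
    ContDiff ℝ ∞ (fun p : ℝ × R3 × R3 => Zf E B p.1 p.2) := by
  have hI : LocForce ⊤ (lor E B) := locForce_lor hE hB
  have h4 : ContDiff ℝ ∞ (fun q : ℝ × (R3 × R3) => ((q.1, 0, q.2) : ℝ × ℝ × (R3 × R3))) :=
    contDiff_fst.prodMk (contDiff_const.prodMk contDiff_snd)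
  have h5 := ContDiff.comp (g := fun q : ℝ × ℝ × (R3 × R3) => Ξu (lor E B) q.1 q.2.1 q.2.2)
      (f := fun q : ℝ × (R3 × R3) => ((q.1, 0, q.2) : ℝ × ℝ × (R3 × R3)))
      (contDiff_Ξu_joint le_top hI) h4
  exact h5

lemma contDiff_Zi (hE : ContDiff ℝ ∞ (fun p : ℝ × R3 => E p.1 p.2))
    (hB : ContDiff ℝ ∞ (fun p : ℝ × R3 => B p.1 p.2)) :
    ContDiff ℝ ∞ (fun p : ℝ × R3 × R3 => Zi E B p.1 p.2) := by
  have hI : LocForce ⊤ (lor E B) := locForce_lor hE hB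
  have h4 : ContDiff ℝ ∞ (fun q : ℝ × (R3 × R3) => ((0, q.1, q.2) : ℝ × ℝ × (R3 × R3))) :=
    contDiff_const.prodMk (contDiff_fst.prodMk contDiff_snd)
  have h5 := ContDiff.comp (g := fun q : ℝ × ℝ × (R3 × R3) => Ξu (lor E B) q.1 q.2.1 q.2.2)
      (f := fun q : ℝ × (R3 × R3) => ((0, q.1, q.2) : ℝ × ℝ × (R3 × R3)))
      (contDiff_Ξu_joint le_top hI) h4
  exact h5

lemma continuous_Zf (hE : ContDiff ℝ ∞ (fun p : ℝ × R3 => E p.1 p.2))
    (hB : ContDiff ℝ ∞ (fun p : ℝ × R3 => B p.1 p.2)) :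
    Continuous (fun p : ℝ × R3 × R3 => Zf E B p.1 p.2) := (contDiff_Zf hE hB).continuous

lemma continuous_Zi (hE : ContDiff ℝ ∞ (fun p : ℝ × R3 => E p.1 p.2))
    (hB : ContDiff ℝ ∞ (fun p : ℝ × R3 => B p.1 p.2)) :
    Continuous (fun p : ℝ × R3 × R3 => Zi E B p.1 p.2) := (contDiff_Zi hE hB).continuous

/-- The label flow of a smooth solution. -/
theorem exists_labelFlow (hT : 0 < T) (h : IsClassicalSolutionOn T f₀ E₀ B₀ f E B)
    (hf : ContDiff ℝ ∞ (fun p : ℝ × R3 × R3 => f p.1 p.2.1 p.2.2))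
    (hE : ContDiff ℝ ∞ (fun p : ℝ × R3 => E p.1 p.2))
    (hB : ContDiff ℝ ∞ (fun p : ℝ × R3 => B p.1 p.2)) :
    ∃ (Zf Zi : ℝ → R3 × R3 → R3 × R3) (a : ℝ → R3 × R3 → R3 × R3), CM.LFlow T a Zf Zi ∧
      (∀ τ w, (a τ w).1 = relVel w.2) ∧
      (∀ z : R3 × R3, f 0 z.1 z.2 ≠ 0 →
        IsChar T f E B (fun t => (Zf t z).1) (fun t => (Zf t z).2)) ∧
      (∀ t ∈ Ico 0 T, ∀ w : R3 × R3, f t w.1 w.2 = f 0 (Zi t w).1 (Zi t w).2) ∧
      (∀ t : ℝ, MeasurePreserving (Zf t) volume volume) ∧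
      (∀ t : ℝ, MeasurePreserving (Zi t) volume volume) ∧
      Continuous (fun p : ℝ × R3 × R3 => Zf p.1 p.2) ∧
      Continuous (fun p : ℝ × R3 × R3 => Zi p.1 p.2) := by
  have hI : LocForce ⊤ (lor E B) := locForce_lor hE hB
  have h1 : LocForce 1 (lor E B) := hI.mono le_top
  have h2 : LocForce 2 (lor E B) := hI.mono le_top
  have h0T : (0 : ℝ) ∈ Ico 0 T := ⟨le_rfl, hT⟩
  refine ⟨Zf E B, Zi E B, av E B, lFlow T hE hB, fun τ w => rfl, fun z hz => ?_,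
    fun t ht w => ?_, fun t => measurePreserving_Ξu h2 (div3_lor E B) t 0,
    fun t => measurePreserving_Ξu h2 (div3_lor E B) 0 t, ?_, ?_⟩
  · exact isChar_Ξu hT h hf hE hB h0T hz
  · have h3 := const_char h hf hE hB h0T ht t w
    rw [Ξu_self h1] at h3
    exact h3
  · exact continuous_Zf hE hB
  · exact continuous_Zi hE hB

end Crest.Agent.R106.FlowSol
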