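import Crest.Agent.R106.FlowSol
import Crest.Agent.R106.Clamp

/-!
Row 106, module FLOW: characteristics of a solution of the class `SolTo` / `Mom.SmoothSol`
(fields smooth on `(-∞,T) × R3`, blow-up at `T` allowed): flow for all times `< T`, Liouville,
constancy of the density, `CharP`, label flow.
-/

set_option autoImplicit false
set_option linter.unusedSectionVars false

open Set Filter Topology MeasureTheory
open scoped ContDiff
open Crest.AnalysisR.VecCalc3 Crest.AnalysisR.PDE.RVM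

noncomputable section

namespace Crest.Agent.R106.FlowTo

open Crest.Agent.R106.Flow Crest.Agent.R106.Mom
open Crest.Agent.R106.GSR (lor)

/-- Field with clamped time. -/
def Ec (T T' : ℝ) (E : ℝ → R3 → R3) (t : ℝ) : R3 → R3 := E (Clamp.sig T' T t)

variable {T : ℝ} {E B : ℝ → R3 → R3}

lemma contDiff_Ec (hE : ContDiffOn ℝ ∞ (fun p : ℝ × R3 => E p.1 p.2) (Iio T ×ˢ univ)) {T' : ℝ}
    (h : T' < T) : ContDiff ℝ ∞ (fun p : ℝ × R3 => Ec T T' E p.1 p.2) :=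
  Clamp.contDiff_clamp h (F := fun p : ℝ × R3 => E p.1 p.2) hE

/-- Lorentz force with clamped time. -/
def Fc (E B : ℝ → R3 → R3) (T T' : ℝ) : ℝ → R3 → R3 → R3 := lor (Ec T T' E) (Ec T T' B)

lemma Fc_eq {T' : ℝ} (h : T' < T) {t : ℝ} (ht : t ≤ T') (x v : R3) :
    Fc E B T T' t x v = lor E B t x v := by
  simp [Fc, lor, Ec, Clamp.sig_eq h ht]

lemma div3_Fc (T' : ℝ) (t : ℝ) (x v : R3) : div3 (Fc E B T T' t x) v = 0 :=
  FlowSol.div3_lor _ _ t x v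

section
variable (hE : ContDiffOn ℝ ∞ (fun p : ℝ × R3 => E p.1 p.2) (Iio T ×ˢ univ))
  (hB : ContDiffOn ℝ ∞ (fun p : ℝ × R3 => B p.1 p.2) (Iio T ×ˢ univ))
include hE hB

lemma locForce_Fc {T' : ℝ} (h : T' < T) : LocForce ⊤ (Fc E B T T') :=
  FlowSol.locForce_lor (contDiff_Ec hE h) (contDiff_Ec hB h)

lemma locForce1_Fc {T' : ℝ} (h : T' < T) : LocForce 1 (Fc E B T T') :=
  (locForce_Fc hE hB h).mono le_top

lemma Ξu_Fc_eq {T₁ T₂ : ℝ} (h1 : T₁ < T) (h2 : T₂ < T) {s t : ℝ} (hs1 : s ≤ T₁) (ht1 : t ≤ T₁)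
    (hs2 : s ≤ T₂) (ht2 : t ≤ T₂) (z : R3 × R3) :
    Ξu (Fc E B T T₁) s t z = Ξu (Fc E B T T₂) s t z := by
  have f1 := locForce1_Fc hE hB h1
  have f2 := locForce1_Fc hE hB h2
  have hr1 : ∀ r ∈ uIcc t s, r ≤ T₁ := fun r hr => hr.2.trans (max_le ht1 hs1)
  have hr2 : ∀ r ∈ uIcc t s, r ≤ T₂ := fun r hr => hr.2.trans (max_le ht2 hs2)
  have h3 := eq_Ξu f2 (X := fun r => (Ξu (Fc E B T T₁) r t z).1)
    (V := fun r => (Ξu (Fc E B T T₁) r t z).2) (s := s) (t := t)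
    (fun r _ => (hasDerivAt_Ξu_fst f1 r t z).hasDerivWithinAt)
    (fun r hr => by
      have h4 := hasDerivAt_Ξu_snd f1 r t z
      rw [Fc_eq h1 (hr1 r hr)] at h4
      rw [Fc_eq h2 (hr2 r hr)]
      exact h4.hasDerivWithinAt)
  simp only [Ξu_self f1, Prod.mk.eta] at h3
  exact h3

end

/-- Characteristic map of the fields: state at time `s` of the characteristic which is at `z` at
time `t` (`s, t < T`). -/
def Ξt (E B : ℝ → R3 → R3) (T s t : ℝ) (z : R3 × R3) : R3 × R3 :=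
  Ξu (Fc E B T ((max s t + T) / 2)) s t z

section
variable (hE : ContDiffOn ℝ ∞ (fun p : ℝ × R3 => E p.1 p.2) (Iio T ×ˢ univ))
  (hB : ContDiffOn ℝ ∞ (fun p : ℝ × R3 => B p.1 p.2) (Iio T ×ˢ univ))
include hE hB

omit hE hB in
lemma mid_lt {s t : ℝ} (hs : s < T) (ht : t < T) : (max s t + T) / 2 < T := by
  have := max_lt hs ht
  linarith

omit hE hB in
lemma left_lt_mid {s t : ℝ} (hs : s < T) (ht : t < T) : s < (max s t + T) / 2 := by
  have h1 := max_lt hs ht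
  have h2 := le_max_left s t
  linarith

omit hE hB in
lemma right_lt_mid {s t : ℝ} (hs : s < T) (ht : t < T) : t < (max s t + T) / 2 := by
  have h1 := max_lt hs ht
  have h2 := le_max_right s t
  linarith

lemma Ξt_eq {T' : ℝ} (h : T' < T) {s t : ℝ} (hs : s ≤ T') (ht : t ≤ T') (z : R3 × R3) :
    Ξt E B T s t z = Ξu (Fc E B T T') s t z :=
  Ξu_Fc_eq hE hB (mid_lt (hs.trans_lt h) (ht.trans_lt h)) h
    (left_lt_mid (hs.trans_lt h) (ht.trans_lt h)).le (right_lt_mid (hs.trans_lt h)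
      (ht.trans_lt h)).le hs ht z

lemma Ξt_self {t : ℝ} (ht : t < T) (z : R3 × R3) : Ξt E B T t t z = z :=
  Ξu_self (locForce1_Fc hE hB (mid_lt ht ht)) t z

theorem hasDerivAt_Ξt {s t : ℝ} (hs : s < T) (ht : t < T) (z : R3 × R3) :
    HasDerivAt (fun r => Ξt E B T r t z)
      (relVel (Ξt E B T s t z).2, lor E B s (Ξt E B T s t z).1 (Ξt E B T s t z).2) s := by
  set T' := (max s t + T) / 2 with hT'
  have h0 : T' < T := mid_lt hs ht
  have h1 := hasDerivAt_Ξu (locForce1_Fc hE hB h0) s t z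
  rw [Fc_eq h0 (left_lt_mid hs ht).le, ← Ξt_eq hE hB h0 (left_lt_mid hs ht).le
    (right_lt_mid hs ht).le] at h1
  refine h1.congr_of_eventuallyEq ?_
  filter_upwards [isOpen_Iio.mem_nhds (left_lt_mid hs ht)] with r hr
  exact Ξt_eq hE hB h0 (le_of_lt hr) (right_lt_mid hs ht).le z

lemma hasDerivAt_Ξt_fst {s t : ℝ} (hs : s < T) (ht : t < T) (z : R3 × R3) :
    HasDerivAt (fun r => (Ξt E B T r t z).1) (relVel (Ξt E B T s t z).2) s :=
  (ContinuousLinearMap.fst ℝ R3 R3).hasFDerivAt.comp_hasDerivAt s (hasDerivAt_Ξt hE hB hs ht z)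

lemma hasDerivAt_Ξt_snd {s t : ℝ} (hs : s < T) (ht : t < T) (z : R3 × R3) :
    HasDerivAt (fun r => (Ξt E B T r t z).2)
      (lor E B s (Ξt E B T s t z).1 (Ξt E B T s t z).2) s :=
  (ContinuousLinearMap.snd ℝ R3 R3).hasFDerivAt.comp_hasDerivAt s (hasDerivAt_Ξt hE hB hs ht z)

/-- Group law. -/
theorem Ξt_Ξt {r s t : ℝ} (hr : r < T) (hs : s < T) (ht : t < T) (z : R3 × R3) :
    Ξt E B T r s (Ξt E B T s t z) = Ξt E B T r t z := by
  set T' := (max (max r s) t + T) / 2 with hT'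
  have h1 : max (max r s) t < T := max_lt (max_lt hr hs) ht
  have h0 : T' < T := by rw [hT']; linarith
  have h2 : max (max r s) t < T' := by rw [hT']; linarith
  have hr' : r ≤ T' := ((le_max_left r s).trans (le_max_left _ _)).trans h2.le
  have hs' : s ≤ T' := ((le_max_right r s).trans (le_max_left _ _)).trans h2.le
  have ht' : t ≤ T' := (le_max_right _ _).trans h2.le
  rw [Ξt_eq hE hB h0 hr' hs', Ξt_eq hE hB h0 hs' ht', Ξt_eq hE hB h0 hr' ht',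
    Ξu_Ξu (locForce1_Fc hE hB h0)]

/-- Uniqueness of characteristics. -/
theorem eq_Ξt {X V : ℝ → R3} {s t : ℝ} (hs : s < T) (ht : t < T)
    (hX : ∀ r ∈ uIcc t s, HasDerivWithinAt X (relVel (V r)) (uIcc t s) r)
    (hV : ∀ r ∈ uIcc t s, HasDerivWithinAt V (lor E B r (X r) (V r)) (uIcc t s) r) :
    (X s, V s) = Ξt E B T s t (X t, V t) := by
  set T' := (max s t + T) / 2 with hT'
  have h0 : T' < T := mid_lt hs ht
  have h1 := eq_Ξu (locForce1_Fc hE hB h0) hX (fun r hr => by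
    rw [Fc_eq h0 (hr.2.trans (max_le (right_lt_mid hs ht).le (left_lt_mid hs ht).le))]
    exact hV r hr)
  rw [Ξt_eq hE hB h0 (left_lt_mid hs ht).le (right_lt_mid hs ht).le]
  exact h1

/-- Joint smoothness at all times `< T`. -/
theorem contDiffAt_Ξt {s t : ℝ} (hs : s < T) (ht : t < T) (z : R3 × R3) :
    ContDiffAt ℝ ∞ (fun q : ℝ × ℝ × (R3 × R3) => Ξt E B T q.1 q.2.1 q.2.2) (s, t, z) := by
  set T' := (max s t + T) / 2 with hT'
  have h0 : T' < T := mid_lt hs ht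
  have h1 : ContDiffAt ℝ ∞ (fun q : ℝ × ℝ × (R3 × R3) => Ξu (Fc E B T T') q.1 q.2.1 q.2.2)
      (s, t, z) := (contDiff_Ξu_joint le_top (locForce_Fc hE hB h0)).contDiffAt
  refine h1.congr_of_eventuallyEq ?_
  have hopen : IsOpen (Iio T' ×ˢ Iio T' ×ˢ (univ : Set (R3 × R3))) :=
    isOpen_Iio.prod (isOpen_Iio.prod isOpen_univ)
  filter_upwards [hopen.mem_nhds ⟨left_lt_mid hs ht, right_lt_mid hs ht, mem_univ _⟩] with q hq
  exact Ξt_eq hE hB h0 (le_of_lt hq.1) (le_of_lt hq.2.1) q.2.2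

theorem contDiff_Ξt {s t : ℝ} (hs : s < T) (ht : t < T) : ContDiff ℝ ∞ (Ξt E B T s t) :=
  contDiff_Ξu le_top (locForce_Fc hE hB (mid_lt hs ht)) s t

/-- Liouville. -/
theorem det_Ξt {s t : ℝ} (hs : s < T) (ht : t < T) (z : R3 × R3) :
    (fderiv ℝ (Ξt E B T s t) z).det = 1 :=
  det_Ξu ((locForce_Fc hE hB (mid_lt hs ht)).mono le_top) (div3_Fc _) s t z

theorem measurePreserving_Ξt {s t : ℝ} (hs : s < T) (ht : t < T) :
    MeasurePreserving (Ξt E B T s t) (volume : Measure (R3 × R3)) volume :=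
  measurePreserving_Ξu ((locForce_Fc hE hB (mid_lt hs ht)).mono le_top) (div3_Fc _) s t

lemma norm_Ξt_fst_sub_le {s t : ℝ} (hs : s < T) (ht : t < T) (z : R3 × R3) :
    ‖(Ξt E B T s t z).1 - z.1‖ ≤ |s - t| :=
  norm_Ξu_fst_sub_le (locForce1_Fc hE hB (mid_lt hs ht)) s t z

lemma norm_Ξt_fst_le {s t : ℝ} (hs : s < T) (ht : t < T) (z : R3 × R3) :
    ‖(Ξt E B T s t z).1‖ ≤ ‖z.1‖ + |s| + |t| :=
  norm_Ξu_fst_le (locForce1_Fc hE hB (mid_lt hs ht)) s t z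

end

/-! ### label flow -/

/-- State at time `t` of the particle with label (state at time zero) `z`. -/
def Zf (E B : ℝ → R3 → R3) (T t : ℝ) (z : R3 × R3) : R3 × R3 := Ξt E B T t 0 z

/-- Inverse label flow. -/
def Zi (E B : ℝ → R3 → R3) (T t : ℝ) (z : R3 × R3) : R3 × R3 := Ξt E B T 0 t z

section
variable (hE : ContDiffOn ℝ ∞ (fun p : ℝ × R3 => E p.1 p.2) (Iio T ×ˢ univ))
  (hB : ContDiffOn ℝ ∞ (fun p : ℝ × R3 => B p.1 p.2) (Iio T ×ˢ univ))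
include hE hB

lemma contDiffOn_Zf (hT : 0 < T) :
    ContDiffOn ℝ ∞ (fun p : ℝ × R3 × R3 => Zf E B T p.1 p.2) (Iio T ×ˢ univ) := by
  intro q hq
  have h4 : ContDiff ℝ ∞ (fun q : ℝ × (R3 × R3) => ((q.1, 0, q.2) : ℝ × ℝ × (R3 × R3))) :=
    contDiff_fst.prodMk (contDiff_const.prodMk contDiff_snd)
  have h5 := ContDiffAt.comp (g := fun q : ℝ × ℝ × (R3 × R3) => Ξt E B T q.1 q.2.1 q.2.2)
      (f := fun q : ℝ × (R3 × R3) => ((q.1, 0, q.2) : ℝ × ℝ × (R3 × R3))) q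
      (contDiffAt_Ξt hE hB hq.1 hT q.2) h4.contDiffAt
  exact h5.contDiffWithinAt

lemma contDiffOn_Zi (hT : 0 < T) :
    ContDiffOn ℝ ∞ (fun p : ℝ × R3 × R3 => Zi E B T p.1 p.2) (Iio T ×ˢ univ) := by
  intro q hq
  have h4 : ContDiff ℝ ∞ (fun q : ℝ × (R3 × R3) => ((0, q.1, q.2) : ℝ × ℝ × (R3 × R3))) :=
    contDiff_const.prodMk (contDiff_fst.prodMk contDiff_snd)
  have h5 := ContDiffAt.comp (g := fun q : ℝ × ℝ × (R3 × R3) => Ξt E B T q.1 q.2.1 q.2.2)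
      (f := fun q : ℝ × (R3 × R3) => ((0, q.1, q.2) : ℝ × ℝ × (R3 × R3))) q
      (contDiffAt_Ξt hE hB hT hq.1 q.2) h4.contDiffAt
  exact h5.contDiffWithinAt

lemma lFlow (hT : 0 < T) : CM.LFlow T (FlowSol.av E B) (Zf E B T) (Zi E B T) := by
  refine ⟨fun z => Ξt_self hE hB hT z, fun τ hτ z => ?_, fun τ hτ w => ?_, fun z => ?_,
    fun τ hτ z => hasDerivAt_Ξt hE hB hτ.2 hT z, fun τ w => norm_relVel_lt _, fun τ hτ w => ?_,
    fun τ hτ w => ?_⟩
  · rw [Zi, Zf, Ξt_Ξt hE hB hT hτ.2 hT, Ξt_self hE hB hT]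
  · rw [Zi, Zf, Ξt_Ξt hE hB hτ.2 hT hτ.2, Ξt_self hE hB hτ.2]
  · exact fun τ hτ => (hasDerivAt_Ξt hE hB hτ.2 hT z).continuousAt.continuousWithinAt
  · have hm : ((τ, w) : ℝ × (R3 × R3)) ∈ Iio T ×ˢ (univ : Set (R3 × R3)) := ⟨hτ.2, mem_univ _⟩
    exact ((contDiffOn_Zi hE hB hT).contDiffAt ((isOpen_Iio.prod isOpen_univ).mem_nhds
      hm)).differentiableAt (by simp)
  · have h4 : fderiv ℝ (Zi E B T τ) w = fderiv ℝ (Ξt E B T 0 τ) w := rfl
    rw [h4, det_Ξt hE hB hT hτ.2, abs_one]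

end

/-! ### solutions -/

variable {f₀ : R3 → R3 → ℝ} {E₀ B₀ : R3 → R3} {f : ℝ → R3 → R3 → ℝ}

/-- The density is constant along characteristics. -/
theorem const_char (h : SolTo T f₀ E₀ B₀ f E B) {s t r : ℝ} (hs : s ∈ Ico 0 T)
    (ht : t ∈ Ico 0 T) (hr : r < T) (z : R3 × R3) :
    f t (Ξt E B T t r z).1 (Ξt E B T t r z).2 = f s (Ξt E B T s r z).1 (Ξt E B T s r z).2 := by
  have hE := h.hE
  have hB := h.hB
  set T' := (max (max r s) t + T) / 2 with hT'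
  have h1 : max (max r s) t < T := max_lt (max_lt hr hs.2) ht.2
  have h0 : T' < T := by rw [hT']; linarith
  have h2 : max (max r s) t < T' := by rw [hT']; linarith
  have hr' : r < T' := ((le_max_left r s).trans (le_max_left _ _)).trans_lt h2
  have hs' : s < T' := ((le_max_right r s).trans (le_max_left _ _)).trans_lt h2
  have ht' : t < T' := (le_max_right _ _).trans_lt h2
  rw [Ξt_eq hE hB h0 ht'.le hr'.le, Ξt_eq hE hB h0 hs'.le hr'.le]
  have hsub : Ico 0 T' ×ˢ (univ : Set (R3 × R3)) ⊆ Iio T ×ˢ univ :=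
    fun p hp => ⟨hp.1.2.trans h0, mem_univ _⟩
  refine const_of_transportu (locForce1_Fc hE hB h0) (c := 0) (d := T')
    (h.hf.continuousOn.mono hsub) (fun τ hτ x v => ?_) (fun τ hτ x v => ?_)
    ⟨hs.1, hs'⟩ ⟨ht.1, ht'⟩ r z
  · exact (h.f_at (hτ.2.trans h0) x v).differentiableAt (by simp)
  · rw [← (h.eqs hτ.1 (hτ.2.trans h0) x).1 v]
    simp only [Fc_eq h0 hτ.2.le]
    rfl

/-- A characteristic of the flow that meets the support at some time of `[0,T)`. -/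
theorem isChar_Ξt (h : SolTo T f₀ E₀ B₀ f E B) {t : ℝ} (ht : t ∈ Ico 0 T)
    {z : R3 × R3} (hz : f t z.1 z.2 ≠ 0) :
    IsChar T f E B (fun s => (Ξt E B T s t z).1) (fun s => (Ξt E B T s t z).2) := by
  have hE := h.hE
  have hB := h.hB
  have hT : 0 < T := ht.1.trans_lt ht.2
  refine ⟨fun s hs => (hasDerivAt_Ξt_fst hE hB hs.2 ht.2 z).continuousAt.continuousWithinAt,
    fun s hs => (hasDerivAt_Ξt_snd hE hB hs.2 ht.2 z).continuousAt.continuousWithinAt,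
    fun s hs => hasDerivAt_Ξt_fst hE hB hs.2 ht.2 z,
    fun s hs => hasDerivAt_Ξt_snd hE hB hs.2 ht.2 z, ?_⟩
  have h2 := const_char h ⟨le_rfl, hT⟩ ht ht.2 z
  rw [Ξt_self hE hB ht.2] at h2
  rw [← h2]
  exact hz

theorem charP (h : SolTo T f₀ E₀ B₀ f E B) : CharP T f E B := by
  intro t ht x v hne
  refine ⟨⟨(fun s => (Ξt E B T s t (x, v)).1, fun s => (Ξt E B T s t (x, v)).2),
    isChar_Ξt h ht hne⟩, ?_, ?_⟩
  · simp [Ξt_self h.hE h.hB ht.2]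
  · simp [Ξt_self h.hE h.hB ht.2]

lemma solTo_of_smoothSol (h : Mom.SmoothSol T f₀ E₀ B₀ f E B) : SolTo T f₀ E₀ B₀ f E B :=
  ⟨h.sol, h.smf, h.smE, h.smB⟩

/-- node CharP for the class of the new part. -/
theorem charP_smoothSol (h : Mom.SmoothSol T f₀ E₀ B₀ f E B) : CharP T f E B :=
  charP (solTo_of_smoothSol h)

/-! ### characteristics in the sense of `IsChar` -/

variable {X p : ℝ → R3}

lemma isChar_derivp0 (hT : 0 < T)
    (hE : ContDiffOn ℝ ∞ (fun p : ℝ × R3 => E p.1 p.2) (Iio T ×ˢ univ))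
    (hB : ContDiffOn ℝ ∞ (fun p : ℝ × R3 => B p.1 p.2) (Iio T ×ˢ univ))
    (hc : IsChar T f E B X p) :
    HasDerivWithinAt p (lor E B 0 (X 0) (p 0)) (Ici 0) 0 := by
  have h0 : (0 : ℝ) ∈ Ico 0 T := ⟨le_rfl, hT⟩
  refine hasDerivWithinAt_Ici_of_tendsto_deriv (s := Ioo 0 T)
    (fun s hs => (hc.dp s hs).differentiableAt.differentiableWithinAt)
    ((hc.cp 0 h0).mono Ioo_subset_Ico_self) (Ioo_mem_nhdsGT hT) ?_
  have hle : 𝓝[>] (0 : ℝ) ≤ 𝓝[Ico 0 T] 0 := nhdsWithin_le_iff.2 (Filter.mem_of_superset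
        (Ioo_mem_nhdsGT hT) Ioo_subset_Ico_self)
  have h2 : Tendsto p (𝓝[>] (0 : ℝ)) (𝓝 (p 0)) := (hc.cp 0 h0).tendsto.mono_left hle
  have h3 : Tendsto X (𝓝[>] (0 : ℝ)) (𝓝 (X 0)) := (hc.cX 0 h0).tendsto.mono_left hle
  have h4 : Tendsto (fun s : ℝ => s) (𝓝[>] (0 : ℝ)) (𝓝 0) := nhdsWithin_le_nhds
  have hTm : T / 2 < T := by linarith
  have hlc : Continuous (fun q : ℝ × R3 × R3 => Fc E B T (T / 2) q.1 q.2.1 q.2.2) :=
    (locForce_Fc hE hB hTm).smooth.continuous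
  have h5 : Tendsto (fun s => Fc E B T (T / 2) s (X s) (p s)) (𝓝[>] (0 : ℝ))
      (𝓝 (Fc E B T (T / 2) 0 (X 0) (p 0))) :=
    (hlc.tendsto ((0, X 0, p 0) : ℝ × R3 × R3)).comp (h4.prodMk_nhds (h3.prodMk_nhds h2))
  rw [Fc_eq hTm (by linarith)] at h5
  refine h5.congr' ?_
  filter_upwards [Ioo_mem_nhdsGT (show (0 : ℝ) < T / 2 by linarith)] with s hs
  rw [Fc_eq hTm hs.2.le]
  exact (hc.dp s ⟨hs.1, hs.2.trans hTm⟩).deriv.symm

/-- Every characteristic in the sense of `IsChar` is a trajectory of the label flow. -/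
theorem isChar_eq (hE : ContDiffOn ℝ ∞ (fun p : ℝ × R3 => E p.1 p.2) (Iio T ×ˢ univ))
    (hB : ContDiffOn ℝ ∞ (fun p : ℝ × R3 => B p.1 p.2) (Iio T ×ˢ univ))
    (hc : IsChar T f E B X p) {t : ℝ} (ht : t ∈ Ico 0 T) :
    (X t, p t) = Zf E B T t (X 0, p 0) := by
  have hT : 0 < T := ht.1.trans_lt ht.2
  refine eq_Ξt hE hB ht.2 hT (fun r hr => ?_) (fun r hr => ?_)
  · rw [uIcc_of_le ht.1] at hr ⊢
    rcases hr.1.eq_or_lt with h0 | h0
    · rw [← h0]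
      exact (FlowSol.derivX0 hT hc).mono Icc_subset_Ici_self
    · exact (hc.dX r ⟨h0, hr.2.trans_lt ht.2⟩).hasDerivWithinAt
  · rw [uIcc_of_le ht.1] at hr ⊢
    rcases hr.1.eq_or_lt with h0 | h0
    · rw [← h0]
      exact (isChar_derivp0 hT hE hB hc).mono Icc_subset_Ici_self
    · exact (hc.dp r ⟨h0, hr.2.trans_lt ht.2⟩).hasDerivWithinAt

/-- Two characteristics with the same state at one time agree. -/
theorem isChar_unique (hE : ContDiffOn ℝ ∞ (fun p : ℝ × R3 => E p.1 p.2) (Iio T ×ˢ univ))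
    (hB : ContDiffOn ℝ ∞ (fun p : ℝ × R3 => B p.1 p.2) (Iio T ×ˢ univ))
    (hc : IsChar T f E B X p) {X' p' : ℝ → R3} (hc' : IsChar T f E B X' p') {t : ℝ}
    (ht : t ∈ Ico 0 T) (hX : X t = X' t) (hp : p t = p' t) {s : ℝ} (hs : s ∈ Ico 0 T) :
    X s = X' s ∧ p s = p' s := by
  have hT : 0 < T := ht.1.trans_lt ht.2
  have L := lFlow hE hB hT
  have e1 := isChar_eq hE hB hc ht
  have e2 := isChar_eq hE hB hc' ht
  rw [hX, hp, e2] at e1
  have e3 : (X' 0, p' 0) = (X 0, p 0) := by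
    have := congrArg (Zi E B T t) e1
    rwa [L.left_inv t ht, L.left_inv t ht] at this
  have e4 := isChar_eq hE hB hc hs
  have e5 := isChar_eq hE hB hc' hs
  rw [← e3, ← e5] at e4
  exact ⟨congrArg Prod.fst e4, congrArg Prod.snd e4⟩

/-- The density along a characteristic is constant. -/
theorem isChar_const (h : SolTo T f₀ E₀ B₀ f E B) (hc : IsChar T f E B X p) {t : ℝ}
    (ht : t ∈ Ico 0 T) : f t (X t) (p t) = f 0 (X 0) (p 0) := by
  have hT : 0 < T := ht.1.trans_lt ht.2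
  have h2 := const_char h (s := 0) (t := t) ⟨le_rfl, hT⟩ ht hT (X 0, p 0)
  have h3 := isChar_eq h.hE h.hB hc ht
  rw [Zf] at h3
  rw [← h3, Ξt_self h.hE h.hB hT] at h2
  exact h2

/-- The label flow of a solution of the class `SolTo`. -/
theorem exists_labelFlow (hT : 0 < T) (h : SolTo T f₀ E₀ B₀ f E B) :
    ∃ (Zf Zi : ℝ → R3 × R3 → R3 × R3) (a : ℝ → R3 × R3 → R3 × R3), CM.LFlow T a Zf Zi ∧
      (∀ τ w, a τ w = (relVel w.2, lor E B τ w.1 w.2)) ∧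
      (∀ X p : ℝ → R3, IsChar T f E B X p → ∀ t ∈ Ico 0 T, (X t, p t) = Zf t (X 0, p 0)) ∧
      (∀ z : R3 × R3, f 0 z.1 z.2 ≠ 0 →
        IsChar T f E B (fun t => (Zf t z).1) (fun t => (Zf t z).2)) ∧
      (∀ t ∈ Ico 0 T, ∀ w : R3 × R3, f t w.1 w.2 = f 0 (Zi t w).1 (Zi t w).2) ∧
      (∀ t ∈ Ico 0 T, MeasurePreserving (Zf t) volume volume) ∧
      (∀ t ∈ Ico 0 T, MeasurePreserving (Zi t) volume volume) ∧
      ContDiffOn ℝ ∞ (fun p : ℝ × R3 × R3 => Zf p.1 p.2) (Iio T ×ˢ univ) ∧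
      ContDiffOn ℝ ∞ (fun p : ℝ × R3 × R3 => Zi p.1 p.2) (Iio T ×ˢ univ) := by
  have hE := h.hE
  have hB := h.hB
  have h0T : (0 : ℝ) ∈ Ico 0 T := ⟨le_rfl, hT⟩
  refine ⟨Zf E B T, Zi E B T, FlowSol.av E B, lFlow hE hB hT, fun τ w => rfl,
    fun X p hc t ht => isChar_eq hE hB hc ht, fun z hz => isChar_Ξt h h0T hz,
    fun t ht w => ?_, fun t ht => measurePreserving_Ξt hE hB ht.2 hT,
    fun t ht => measurePreserving_Ξt hE hB hT ht.2, contDiffOn_Zf hE hB hT,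
    contDiffOn_Zi hE hB hT⟩
  have h3 := const_char h h0T ht ht.2 w
  rw [Ξt_self hE hB ht.2] at h3
  exact h3

end Crest.Agent.R106.FlowTo
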