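import Crest.Agent.R106.FlowLiou

/-!
Row 106, module FLOW: characteristics of a force which is only bounded for bounded positions
(automatic for `E + u(v) × B` with continuous fields), on all of `ℝ × R3 × R3`.
-/

set_option autoImplicit false
set_option linter.unusedSectionVars false

open Set Filter Topology MeasureTheory
open scoped ContDiff
open Crest.AnalysisR.VecCalc3 Crest.AnalysisR.PDE.RVM

noncomputable section

namespace Crest.Agent.R106.Flow

/-- The force is `C^n` on `ℝ × R3 × R3` and bounded for bounded times and positions. -/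
structure LocForce (n : ℕ∞) (F : ℝ → R3 → R3 → R3) : Prop where
  smooth : ContDiff ℝ n (fun p : ℝ × R3 × R3 => F p.1 p.2.1 p.2.2)
  bdd : ∀ T R : ℝ, ∃ C : ℝ, ∀ t ∈ Icc (-T) T, ∀ x : R3, ‖x‖ ≤ R → ∀ v, ‖F t x v‖ ≤ C

lemma LocForce.mono {n m : ℕ∞} {F : ℝ → R3 → R3 → R3} (h : LocForce n F) (hm : m ≤ n) :
    LocForce m F := ⟨h.smooth.of_le (by exact_mod_cast hm), h.bdd⟩

/-- Smooth cut-off, equal to one on the ball of radius `R`. -/
def bmp (R : ℝ) : ContDiffBump (0 : R3) :=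
  ⟨max R 1, max R 1 + 1, lt_of_lt_of_le one_pos (le_max_right _ _), by linarith⟩

lemma bmp_one {R : ℝ} {x : R3} (hx : ‖x‖ ≤ R) : bmp R x = 1 := by
  apply ContDiffBump.one_of_mem_closedBall
  simp only [Metric.mem_closedBall, dist_zero_right]
  exact hx.trans (le_max_left _ _)

lemma bmp_zero {R : ℝ} {x : R3} (hx : max R 1 + 1 ≤ ‖x‖) : bmp R x = 0 := by
  apply ContDiffBump.zero_of_le_dist
  simpa [bmp] using hx

lemma contDiff_bmp {n : ℕ∞} (R : ℝ) : ContDiff ℝ n (bmp R : R3 → ℝ) := (bmp R).contDiff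

/-- The force cut off at positions of norm `R`. -/
def cut (R : ℝ) (F : ℝ → R3 → R3 → R3) (t : ℝ) (x v : R3) : R3 := bmp R x • F t x v

lemma cut_eq {R : ℝ} {F : ℝ → R3 → R3 → R3} {x : R3} (hx : ‖x‖ ≤ R) (t : ℝ) (v : R3) :
    cut R F t x v = F t x v := by
  rw [cut, bmp_one hx, one_smul]

variable {n : ℕ∞} {F : ℝ → R3 → R3 → R3}

lemma LocForce.good (h : LocForce n F) (R : ℝ) : GoodForce n (cut R F) := by
  refine ⟨?_, fun T => ?_⟩
  · have h1 : ContDiff ℝ n (fun p : ℝ × R3 × R3 => bmp R p.2.1) :=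
      (contDiff_bmp R).comp (contDiff_fst.comp contDiff_snd)
    exact h1.smul h.smooth
  · obtain ⟨C, hC⟩ := h.bdd T (max R 1 + 1)
    refine ⟨max C 0, fun t ht x v => ?_⟩
    rcases le_total (‖x‖) (max R 1 + 1) with hx | hx
    · rw [cut, norm_smul, Real.norm_of_nonneg (bmp R).nonneg]
      refine (mul_le_of_le_one_left (norm_nonneg _) (bmp R).le_one).trans
        ((hC t ht x hx v).trans (le_max_left _ _))
    · rw [cut, bmp_zero hx, zero_smul, norm_zero]
      exact le_max_right _ _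

/-- The positions stay in a ball. -/
lemma norm_Ξ_cut_le (h : LocForce 1 F) {R s t r : ℝ} {z : R3 × R3}
    (hR : ‖z.1‖ + |s| + |t| ≤ R) (hr : r ∈ uIcc t s) : ‖(Ξ (cut R F) r t z).1‖ ≤ R := by
  have h1 := norm_Ξ_fst_sub_le (h.good R) r t z
  have h2 : |r - t| ≤ |s| + |t| := by
    have h3 := abs_sub_left_of_mem_uIcc hr
    exact h3.trans (abs_sub s t)
  have h4 := norm_sub_norm_le (Ξ (cut R F) r t z).1 z.1
  linarith

/-- The flows of two cut-off forces agree. -/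
lemma Ξ_cut_eq (h : LocForce 1 F) {R R' s t : ℝ} {z : R3 × R3} (hR : ‖z.1‖ + |s| + |t| ≤ R)
    (hR' : R ≤ R') : Ξ (cut R F) s t z = Ξ (cut R' F) s t z := by
  have hX : ∀ r ∈ uIcc t s, HasDerivWithinAt (fun r => (Ξ (cut R F) r t z).1)
      (relVel (Ξ (cut R F) r t z).2) (uIcc t s) r := fun r _ =>
    (hasDerivAt_Ξ_fst (h.good R) r t z).hasDerivWithinAt
  have hV : ∀ r ∈ uIcc t s, HasDerivWithinAt (fun r => (Ξ (cut R F) r t z).2)
      (cut R' F r (Ξ (cut R F) r t z).1 (Ξ (cut R F) r t z).2) (uIcc t s) r := by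
    intro r hr
    have h1 := norm_Ξ_cut_le h hR hr
    have h2 := hasDerivAt_Ξ_snd (h.good R) r t z
    rw [cut_eq h1] at h2
    rw [cut_eq (h1.trans hR')]
    exact h2.hasDerivWithinAt
  have h3 := eq_Ξ (h.good R') hX hV
  simp only [Ξ_self (h.good R), Prod.mk.eta] at h3
  exact h3

/-- The characteristic map of a locally bounded force: state at time `s` of the characteristic
which is at `z` at time `t`. -/
def Ξu (F : ℝ → R3 → R3 → R3) (s t : ℝ) (z : R3 × R3) : R3 × R3 :=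
  Ξ (cut (‖z.1‖ + |s| + |t|) F) s t z

lemma Ξu_eq (h : LocForce 1 F) {R s t : ℝ} {z : R3 × R3} (hR : ‖z.1‖ + |s| + |t| ≤ R) :
    Ξu F s t z = Ξ (cut R F) s t z := Ξ_cut_eq h le_rfl hR

lemma Ξu_eventuallyEq (h : LocForce 1 F) {R s t : ℝ} {z : R3 × R3}
    (hR : ‖z.1‖ + |s| + |t| < R) :
    (fun q : ℝ × ℝ × (R3 × R3) => Ξu F q.1 q.2.1 q.2.2) =ᶠ[𝓝 (s, t, z)]
      fun q => Ξ (cut R F) q.1 q.2.1 q.2.2 := by
  have hc : Continuous (fun q : ℝ × ℝ × (R3 × R3) => ‖q.2.2.1‖ + |q.1| + |q.2.1|) := by fun_prop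
  filter_upwards [(isOpen_lt hc continuous_const).mem_nhds hR] with q hq
  exact Ξu_eq h (le_of_lt hq)

@[simp] lemma Ξu_self (h : LocForce 1 F) (t : ℝ) (z : R3 × R3) : Ξu F t t z = z :=
  Ξ_self (h.good _) t z

/-- Speed less than one. -/
lemma norm_Ξu_fst_sub_le (h : LocForce 1 F) (s t : ℝ) (z : R3 × R3) :
    ‖(Ξu F s t z).1 - z.1‖ ≤ |s - t| := norm_Ξ_fst_sub_le (h.good _) s t z

lemma norm_Ξu_fst_le (h : LocForce 1 F) (s t : ℝ) (z : R3 × R3) :
    ‖(Ξu F s t z).1‖ ≤ ‖z.1‖ + |s| + |t| := by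
  have h1 := norm_Ξu_fst_sub_le h s t z
  have h4 := norm_sub_norm_le (Ξu F s t z).1 z.1
  have h5 := abs_sub s t
  linarith

theorem hasDerivAt_Ξu (h : LocForce 1 F) (s t : ℝ) (z : R3 × R3) :
    HasDerivAt (fun r => Ξu F r t z) (relVel (Ξu F s t z).2, F s (Ξu F s t z).1 (Ξu F s t z).2)
      s := by
  set R := ‖z.1‖ + |s| + |t| + 1 with hR
  have h0 : ‖z.1‖ + |s| + |t| < R := by linarith
  have h1 := hasDerivAt_Ξ (h.good R) s t z
  have h2 : ‖(Ξ (cut R F) s t z).1‖ ≤ R := norm_Ξ_cut_le h h0.le right_mem_uIcc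
  rw [cut_eq h2, ← Ξu_eq h h0.le] at h1
  refine h1.congr_of_eventuallyEq ?_
  have hc : Continuous (fun r : ℝ => ‖z.1‖ + |r| + |t|) := by fun_prop
  filter_upwards [(isOpen_lt hc continuous_const).mem_nhds h0] with r hr
  exact Ξu_eq h (le_of_lt hr)

lemma hasDerivAt_Ξu_fst (h : LocForce 1 F) (s t : ℝ) (z : R3 × R3) :
    HasDerivAt (fun r => (Ξu F r t z).1) (relVel (Ξu F s t z).2) s :=
  (ContinuousLinearMap.fst ℝ R3 R3).hasFDerivAt.comp_hasDerivAt s (hasDerivAt_Ξu h s t z)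

lemma hasDerivAt_Ξu_snd (h : LocForce 1 F) (s t : ℝ) (z : R3 × R3) :
    HasDerivAt (fun r => (Ξu F r t z).2) (F s (Ξu F s t z).1 (Ξu F s t z).2) s :=
  (ContinuousLinearMap.snd ℝ R3 R3).hasFDerivAt.comp_hasDerivAt s (hasDerivAt_Ξu h s t z)

/-- Uniqueness of characteristics. -/
theorem eq_Ξu (h : LocForce 1 F) {X V : ℝ → R3} {s t : ℝ}
    (hX : ∀ r ∈ uIcc t s, HasDerivWithinAt X (relVel (V r)) (uIcc t s) r)
    (hV : ∀ r ∈ uIcc t s, HasDerivWithinAt V (F r (X r) (V r)) (uIcc t s) r) :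
    (X s, V s) = Ξu F s t (X t, V t) := by
  have hXc : ContinuousOn X (uIcc t s) := fun r hr => (hX r hr).continuousWithinAt
  obtain ⟨C, hC⟩ := isCompact_uIcc.exists_bound_of_continuousOn hXc
  set R := max C (‖X t‖ + |s| + |t|) with hR
  have hV' : ∀ r ∈ uIcc t s, HasDerivWithinAt V (cut R F r (X r) (V r)) (uIcc t s) r := by
    intro r hr
    rw [cut_eq ((hC r hr).trans (le_max_left _ _))]
    exact hV r hr
  have h1 := eq_Ξ (h.good R) hX hV'
  have h2 : Ξu F s t (X t, V t) = Ξ (cut R F) s t (X t, V t) :=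
    Ξu_eq h (z := (X t, V t)) (R := R) (le_max_right C (‖X t‖ + |s| + |t|))
  rw [h2]
  exact h1

/-- Group law. -/
theorem Ξu_Ξu (h : LocForce 1 F) (r s t : ℝ) (z : R3 × R3) :
    Ξu F r s (Ξu F s t z) = Ξu F r t z := by
  have hX : ∀ q ∈ uIcc s r, HasDerivWithinAt (fun q => (Ξu F q t z).1)
      (relVel (Ξu F q t z).2) (uIcc s r) q := fun q _ =>
    (hasDerivAt_Ξu_fst h q t z).hasDerivWithinAt
  have hV : ∀ q ∈ uIcc s r, HasDerivWithinAt (fun q => (Ξu F q t z).2)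
      (F q (Ξu F q t z).1 (Ξu F q t z).2) (uIcc s r) q := fun q _ =>
    (hasDerivAt_Ξu_snd h q t z).hasDerivWithinAt
  have h1 := eq_Ξu h hX hV
  simpa using h1.symm

theorem contDiff_Ξu_joint (hn : 1 ≤ n) (h : LocForce n F) :
    ContDiff ℝ n (fun q : ℝ × ℝ × (R3 × R3) => Ξu F q.1 q.2.1 q.2.2) := by
  rw [contDiff_iff_contDiffAt]
  rintro ⟨s, t, z⟩
  have h0 : ‖z.1‖ + |s| + |t| < ‖z.1‖ + |s| + |t| + 1 := by linarith
  exact (contDiff_Ξ_joint hn (h.good (‖z.1‖ + |s| + |t| + 1))).contDiffAt.congr_of_eventuallyEq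
    (Ξu_eventuallyEq (h.mono hn) h0)

theorem contDiff_Ξu (hn : 1 ≤ n) (h : LocForce n F) (s t : ℝ) : ContDiff ℝ n (Ξu F s t) := by
  have h2 : ContDiff ℝ n (fun z : R3 × R3 => ((s, t, z) : ℝ × ℝ × (R3 × R3))) :=
    contDiff_const.prodMk (contDiff_const.prodMk contDiff_id)
  have h3 := ContDiff.comp (g := fun q : ℝ × ℝ × (R3 × R3) => Ξu F q.1 q.2.1 q.2.2)
    (f := fun z : R3 × R3 => ((s, t, z) : ℝ × ℝ × (R3 × R3))) (contDiff_Ξu_joint hn h) h2
  exact h3

theorem continuous_Ξu_joint (h : LocForce 1 F) :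
    Continuous (fun q : ℝ × ℝ × (R3 × R3) => Ξu F q.1 q.2.1 q.2.2) :=
  (contDiff_Ξu_joint (n := 1) le_rfl h).continuous

theorem continuous_Ξu (h : LocForce 1 F) (s t : ℝ) : Continuous (Ξu F s t) :=
  (contDiff_Ξu (n := 1) le_rfl h s t).continuous

/-- The characteristic map as a homeomorphism of phase space. -/
def homeoΞu (h : LocForce 1 F) (s t : ℝ) : (R3 × R3) ≃ₜ (R3 × R3) where
  toFun := Ξu F s t
  invFun := Ξu F t s
  left_inv z := by rw [Ξu_Ξu h, Ξu_self h]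
  right_inv z := by rw [Ξu_Ξu h, Ξu_self h]
  continuous_toFun := continuous_Ξu h s t
  continuous_invFun := continuous_Ξu h t s

@[simp] lemma homeoΞu_apply (h : LocForce 1 F) (s t : ℝ) (z : R3 × R3) :
    homeoΞu h s t z = Ξu F s t z := rfl

lemma div3_cut {F : ℝ → R3 → R3 → R3} (h : LocForce 1 F)
    (hdiv : ∀ t x v, div3 (F t x) v = 0) (R t : ℝ) (x v : R3) : div3 (cut R F t x) v = 0 := by
  have hd : ∀ i : Fin 3, DifferentiableAt ℝ (fun w => F t x w i) v := by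
    intro i
    have h1 : Differentiable ℝ (fun p : ℝ × R3 × R3 => F p.1 p.2.1 p.2.2) :=
      h.smooth.differentiable (by norm_num)
    have h2 : Differentiable ℝ (fun w : R3 => ((t, x, w) : ℝ × R3 × R3)) :=
      (differentiable_const t).prodMk ((differentiable_const x).prodMk differentiable_id)
    have h3 : Differentiable ℝ (fun w : R3 => F t x w) := h1.comp h2
    exact (EuclideanSpace.proj (𝕜 := ℝ) i : R3 →L[ℝ] ℝ).differentiableAt.comp v (h3 v)
  have h1 : ∀ i : Fin 3, pderiv (fun w => cut R F t x w i) i v =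
      bmp R x * pderiv (fun w => F t x w i) i v := by
    intro i
    have h2 : (fun w => cut R F t x w i) = fun w => bmp R x * (fun w => F t x w i) w := by
      funext w
      simp [cut]
    rw [pderiv, h2, fderiv_const_mul (hd i)]
    simp [pderiv]
  have h2 := hdiv t x v
  rw [div3] at h2 ⊢
  simp only [h1]
  rw [← Finset.mul_sum, h2, mul_zero]

theorem det_Ξu (h : LocForce 2 F) (hdiv : ∀ t x v, div3 (F t x) v = 0) (s t : ℝ)
    (z : R3 × R3) : (fderiv ℝ (Ξu F s t) z).det = 1 := by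
  have h1 : LocForce 1 F := h.mono (by norm_num)
  set R := ‖z.1‖ + |s| + |t| + 1 with hR
  have h0 : ‖z.1‖ + |s| + |t| < R := by linarith
  have h2 : Ξu F s t =ᶠ[𝓝 z] Ξ (cut R F) s t := by
    have hc : Continuous (fun w : R3 × R3 => ‖w.1‖ + |s| + |t|) := by fun_prop
    filter_upwards [(isOpen_lt hc continuous_const).mem_nhds h0] with w hw
    exact Ξu_eq h1 (le_of_lt hw)
  rw [h2.fderiv_eq]
  exact det_Ξ (h.good R) (fun t x v => div3_cut h1 hdiv R t x v) s t z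

theorem measurePreserving_Ξu (h : LocForce 2 F) (hdiv : ∀ t x v, div3 (F t x) v = 0)
    (s t : ℝ) : MeasurePreserving (Ξu F s t) (volume : Measure (R3 × R3)) volume := by
  have h1 : LocForce 1 F := h.mono (by norm_num)
  refine measurePreserving_of_det_one volume (homeoΞu h1 s t)
    (fun z => (contDiff_Ξu le_rfl h1 s t).differentiable (by norm_num) z) (fun z => ?_)
  have : fderiv ℝ (homeoΞu h1 s t) z = fderiv ℝ (Ξu F s t) z := rfl
  rw [this, det_Ξu h hdiv, abs_one]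

/-- Derivative of a differentiable density along a characteristic. -/
theorem hasDerivAt_charu (h : LocForce 1 F) {g : ℝ → R3 → R3 → ℝ} {s t : ℝ} {z : R3 × R3}
    (hd : DifferentiableAt ℝ (unc g) (s, Ξu F s t z)) :
    HasDerivAt (fun r => g r (Ξu F r t z).1 (Ξu F r t z).2)
      (deriv (fun r => g r (Ξu F s t z).1 (Ξu F s t z).2) s
        + ∑ i : Fin 3, relVel (Ξu F s t z).2 i * pderiv (fun y => g s y (Ξu F s t z).2) i
          (Ξu F s t z).1
        + ∑ i : Fin 3, F s (Ξu F s t z).1 (Ξu F s t z).2 i *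
          pderiv (fun w => g s (Ξu F s t z).1 w) i (Ξu F s t z).2) s := by
  have h1 := hasDerivAt_along hd (c := fun r => Ξu F r t z) (hasDerivAt_Ξu h s t z)
  have hd' : DifferentiableAt ℝ (unc g) (s, (Ξu F s t z).1, (Ξu F s t z).2) := hd
  have h2 := transport_eq hd' (relVel (Ξu F s t z).2) (F s (Ξu F s t z).1 (Ξu F s t z).2)
  rw [h2]
  exact h1

/-- A solution of the transport equation on `(c,d)` is constant along the characteristics on
`[c,d)`. -/
theorem const_of_transportu (h : LocForce 1 F) {g : ℝ → R3 → R3 → ℝ} {c d : ℝ}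
    (hcont : ContinuousOn (unc g) (Ico c d ×ˢ (univ : Set (R3 × R3))))
    (hd : ∀ t ∈ Ioo c d, ∀ x v, DifferentiableAt ℝ (unc g) (t, x, v))
    (heq : ∀ t ∈ Ioo c d, ∀ x v : R3, deriv (fun s => g s x v) t
      + ∑ i : Fin 3, relVel v i * pderiv (fun y => g t y v) i x
      + ∑ i : Fin 3, F t x v i * pderiv (fun w => g t x w) i v = 0)
    {s t : ℝ} (hs : s ∈ Ico c d) (ht : t ∈ Ico c d) (r : ℝ) (z : R3 × R3) :
    g t (Ξu F t r z).1 (Ξu F t r z).2 = g s (Ξu F s r z).1 (Ξu F s r z).2 := by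
  have hpath : Continuous (fun τ : ℝ => ((τ, Ξu F τ r z) : ℝ × (R3 × R3))) := by
    rw [continuous_iff_continuousAt]
    intro τ
    exact continuousAt_id.prodMk (hasDerivAt_Ξu h τ r z).continuousAt
  have hgc : ContinuousOn (fun τ => g τ (Ξu F τ r z).1 (Ξu F τ r z).2) (Ico c d) :=
    hcont.comp hpath.continuousOn (fun τ hτ => ⟨hτ, mem_univ _⟩)
  have hgd : ∀ τ ∈ Ioo c d, HasDerivAt (fun τ => g τ (Ξu F τ r z).1 (Ξu F τ r z).2) 0 τ := by
    intro τ hτ
    have h1 := hasDerivAt_charu h (hd τ hτ (Ξu F τ r z).1 (Ξu F τ r z).2) (t := r) (z := z)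
    rw [heq τ hτ] at h1
    exact h1
  have key : ∀ p ∈ Ico c d, ∀ q ∈ Ico c d, p < q →
      g q (Ξu F q r z).1 (Ξu F q r z).2 = g p (Ξu F p r z).1 (Ξu F p r z).2 := by
    intro p hp q hq hpq
    have hsub : Icc p q ⊆ Ico c d := fun τ hτ => ⟨hp.1.trans hτ.1, hτ.2.trans_lt hq.2⟩
    obtain ⟨ξ, -, he⟩ := exists_hasDerivAt_eq_slope
      (fun τ => g τ (Ξu F τ r z).1 (Ξu F τ r z).2) (fun _ => 0) hpq (hgc.mono hsub)
      (fun τ hτ => hgd τ ⟨hp.1.trans_lt hτ.1, hτ.2.trans hq.2⟩)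
    have hne : q - p ≠ 0 := (sub_pos.2 hpq).ne'
    have h3 : g q (Ξu F q r z).1 (Ξu F q r z).2 - g p (Ξu F p r z).1 (Ξu F p r z).2 = 0 := by
      have h4 := (eq_div_iff hne).1 he
      simpa using h4.symm
    linarith
  rcases lt_trichotomy s t with hst | hst | hst
  · exact key s hs t ht hst
  · rw [hst]
  · exact (key t ht s hs hst).symm

end Crest.Agent.R106.Flow
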