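/- Row 106: the frozen top interface is `Crest.Agent.R106.Main0` (SmoothSol, Uniq, MomBound,
TruncEx, Goal). This file only re-exports it. -/
import Crest.Agent.R106.Main0
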