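/-
R106, module GsrKer (helper846): the kernels of the representation (R): momentum integration by
parts giving `e_S` and `n × e_S`, pointwise bounds, continuity, integrability on the cone.
-/
import Crest.Agent.R106.GsrMom

set_option autoImplicit false

open MeasureTheory Set Filter Topology Metric
open Crest.AnalysisR.VecCalc3 Crest.AnalysisR.PDE.RVM
open scoped InnerProductSpace ContDiff

noncomputable section

namespace Crest.Agent.R106.GSR

/-! ### positivity of `ε = 1 - n·v` -/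

theorem inner_relVel_lt {n : R3} (hn : ‖n‖ = 1) (p : R3) : ⟪n, relVel p⟫_ℝ < 1 := by
  have h := real_inner_le_norm n (relVel p)
  rw [hn, one_mul] at h
  linarith [norm_relVel_lt p]

theorem eps_pos {n : R3} (hn : ‖n‖ = 1) (p : R3) : 0 < 1 - ⟪n, relVel p⟫_ℝ := by
  linarith [inner_relVel_lt hn p]

theorem eps_ge {n : R3} (hn : ‖n‖ = 1) (p : R3) : (2 * gam p ^ 2)⁻¹ ≤ 1 - ⟪n, relVel p⟫_ℝ := by
  have h := real_inner_le_norm n (relVel p)
  rw [hn, one_mul] at h
  have h1 := norm_sq_relVel p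
  have h2 := norm_relVel_lt p
  have h3 := norm_nonneg (relVel p)
  have h4 : (2 * gam p ^ 2)⁻¹ = ((gam p)⁻¹) ^ 2 / 2 := by rw [mul_inv, inv_pow]; ring
  rw [h4]
  nlinarith

/-! ### the kernels before integration by parts -/

/-- `(n - v)_i / (1 - n·v)` -/
def kE (n : R3) (i : Fin 3) (p : R3) : ℝ := (n i - relVel p i) / (1 - ⟪n, relVel p⟫_ℝ)

/-- `(n × (n - v))_i / (1 - n·v)` -/
def kB (n : R3) (i : Fin 3) (p : R3) : ℝ :=
  (cross3 n (n - relVel p)) i / (1 - ⟪n, relVel p⟫_ℝ)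

theorem cross3_0 (a b : R3) : cross3 a b 0 = a 1 * b 2 - a 2 * b 1 := rfl
theorem cross3_1 (a b : R3) : cross3 a b 1 = a 2 * b 0 - a 0 * b 2 := rfl
theorem cross3_2 (a b : R3) : cross3 a b 2 = a 0 * b 1 - a 1 * b 0 := rfl

theorem hasFDerivAt_eps (n p : R3) :
    HasFDerivAt (fun p => 1 - ⟪n, relVel p⟫_ℝ) (-((innerSL ℝ n).comp (fderiv ℝ relVel p))) p := by
  have hd : DifferentiableAt ℝ relVel p := (contDiff_relVel.differentiable (by simp)) p
  exact ((innerSL ℝ n).hasFDerivAt.comp p hd.hasFDerivAt).const_sub 1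

theorem hasFDerivAt_comp_relVel (p : R3) (i : Fin 3) :
    HasFDerivAt (fun p => relVel p i) (fderiv ℝ (fun p => relVel p i) p) p :=
  ((contDiff_relVel_comp i).differentiable (by simp) p).hasFDerivAt

theorem contDiff_eps (n : R3) : ContDiff ℝ ∞ fun p => 1 - ⟪n, relVel p⟫_ℝ :=
  contDiff_const.sub ((innerSL ℝ n).contDiff.comp contDiff_relVel)

theorem contDiff_kE {n : R3} (hn : ‖n‖ = 1) (i : Fin 3) : ContDiff ℝ ∞ (kE n i) :=
  (contDiff_const.sub (contDiff_relVel_comp i)).div (contDiff_eps n) fun p => (eps_pos hn p).ne'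

theorem contDiff_cross_relVel (n : R3) (i : Fin 3) :
    ContDiff ℝ ∞ fun p => cross3 n (n - relVel p) i := by
  have key : ∀ (a b : Fin 3) (c d : ℝ),
      ContDiff ℝ ∞ fun p => c * (n a - relVel p a) - d * (n b - relVel p b) := fun a b c d =>
    (contDiff_const.mul (contDiff_const.sub (contDiff_relVel_comp a))).sub
      (contDiff_const.mul (contDiff_const.sub (contDiff_relVel_comp b)))
  fin_cases i
  · exact key 2 1 _ _
  · exact key 0 2 _ _
  · exact key 1 0 _ _

theorem contDiff_kB {n : R3} (hn : ‖n‖ = 1) (i : Fin 3) : ContDiff ℝ ∞ (kB n i) :=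
  (contDiff_cross_relVel n i).div (contDiff_eps n) fun p => (eps_pos hn p).ne'

theorem fderiv_quot {N D : R3 → ℝ} {N' D' : R3 →L[ℝ] ℝ} {p : R3} (h1 : HasFDerivAt N N' p)
    (h2 : HasFDerivAt D D' p) (hD : D p ≠ 0) (w : R3) :
    fderiv ℝ (fun p => N p / D p) p w = ((D p) ^ 2)⁻¹ * (N' w * D p - N p * D' w) := by
  have h3 : HasFDerivAt (fun p => (D p)⁻¹) ((-(D p ^ 2)⁻¹) • D') p :=
    (hasDerivAt_inv hD).comp_hasFDerivAt p h2
  have h4 : HasFDerivAt (fun p => N p / D p) _ p := h1.mul h3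
  rw [h4.fderiv]
  simp only [smul_apply, add_apply, smul_eq_mul]
  field_simp
  ring

theorem fderiv_kE {n : R3} (hn : ‖n‖ = 1) (i : Fin 3) (p w : R3) :
    fderiv ℝ (kE n i) p w = ((1 - ⟪n, relVel p⟫_ℝ) ^ 2)⁻¹ *
      (⟪n, acc p w⟫_ℝ * (n i - relVel p i) - (1 - ⟪n, relVel p⟫_ℝ) * acc p w i) := by
  have h1 := (hasFDerivAt_comp_relVel p i).const_sub (n i)
  have h2 := hasFDerivAt_eps n p
  have h3 := fderiv_quot h1 h2 (eps_pos hn p).ne' w
  have h4 : fderiv ℝ (kE n i) p w = _ := h3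
  rw [h4]
  simp only [neg_apply, ContinuousLinearMap.comp_apply,
    innerSL_apply_apply, fderiv_relVel, fderiv_relVel_comp]
  ring

theorem fderiv_cross_relVel (n : R3) (i : Fin 3) (p w : R3) :
    fderiv ℝ (fun p => cross3 n (n - relVel p) i) p w = - cross3 n (acc p w) i := by
  have key : ∀ (a b : Fin 3) (c d : ℝ),
      fderiv ℝ (fun p => c * (n a - relVel p a) - d * (n b - relVel p b)) p w
        = -(c * acc p w a - d * acc p w b) := by
    intro a b c d
    have h1 := ((hasFDerivAt_comp_relVel p a).const_sub (n a)).const_mul c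
    have h2 := ((hasFDerivAt_comp_relVel p b).const_sub (n b)).const_mul d
    have h3 : HasFDerivAt (fun p => c * (n a - relVel p a) - d * (n b - relVel p b)) _ p :=
      h1.sub h2
    rw [h3.fderiv]
    simp only [sub_apply, smul_apply, neg_apply, fderiv_relVel_comp, smul_eq_mul]
    ring
  fin_cases i
  · exact key 2 1 _ _
  · exact key 0 2 _ _
  · exact key 1 0 _ _

theorem fderiv_kB {n : R3} (hn : ‖n‖ = 1) (i : Fin 3) (p w : R3) :
    fderiv ℝ (kB n i) p w = ((1 - ⟪n, relVel p⟫_ℝ) ^ 2)⁻¹ *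
      (⟪n, acc p w⟫_ℝ * cross3 n (n - relVel p) i
        - (1 - ⟪n, relVel p⟫_ℝ) * cross3 n (acc p w) i) := by
  have h1 : HasFDerivAt (fun p => cross3 n (n - relVel p) i)
      (fderiv ℝ (fun p => cross3 n (n - relVel p) i) p) p :=
    ((contDiff_cross_relVel n i).differentiable (by simp) p).hasFDerivAt
  have h2 := hasFDerivAt_eps n p
  have h3 := fderiv_quot h1 h2 (eps_pos hn p).ne' w
  have h4 : fderiv ℝ (kB n i) p w = _ := h3
  rw [h4]
  simp only [neg_apply, ContinuousLinearMap.comp_apply,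
    innerSL_apply_apply, fderiv_relVel, fderiv_cross_relVel]
  ring

theorem eS_apply (n p a : R3) (R : ℝ) (i : Fin 3) :
    eS n p a R i = ((1 - ⟪n, relVel p⟫_ℝ) ^ 2 * R)⁻¹ *
      (⟪n, a⟫_ℝ * (n i - relVel p i) - (1 - ⟪n, relVel p⟫_ℝ) * a i) := rfl

theorem eT_apply (n p : R3) (R : ℝ) (i : Fin 3) :
    eT n p R i = ((gam p) ^ 2 * (1 - ⟪n, relVel p⟫_ℝ) ^ 2 * R ^ 2)⁻¹ * (n i - relVel p i) := rfl

theorem cross_eS_apply (n p a : R3) (R : ℝ) (i : Fin 3) :
    cross3 n (eS n p a R) i = ((1 - ⟪n, relVel p⟫_ℝ) ^ 2 * R)⁻¹ *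
      (⟪n, a⟫_ℝ * cross3 n (n - relVel p) i - (1 - ⟪n, relVel p⟫_ℝ) * cross3 n a i) := by
  fin_cases i
  · show cross3 n (eS n p a R) 0 = _ * (_ * cross3 n (n - relVel p) 0 - _ * cross3 n a 0)
    rw [cross3_0, cross3_0, cross3_0, eS_apply, eS_apply]
    simp only [PiLp.sub_apply]
    ring
  · show cross3 n (eS n p a R) 1 = _ * (_ * cross3 n (n - relVel p) 1 - _ * cross3 n a 1)
    rw [cross3_1, cross3_1, cross3_1, eS_apply, eS_apply]
    simp only [PiLp.sub_apply]
    ring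
  · show cross3 n (eS n p a R) 2 = _ * (_ * cross3 n (n - relVel p) 2 - _ * cross3 n a 2)
    rw [cross3_2, cross3_2, cross3_2, eS_apply, eS_apply]
    simp only [PiLp.sub_apply]
    ring

theorem cross_eT_apply (n p : R3) (R : ℝ) (i : Fin 3) :
    cross3 n (eT n p R) i = ((gam p) ^ 2 * (1 - ⟪n, relVel p⟫_ℝ) ^ 2 * R ^ 2)⁻¹ *
      cross3 n (n - relVel p) i := by
  fin_cases i
  · show cross3 n (eT n p R) 0 = _ * cross3 n (n - relVel p) 0
    rw [cross3_0, cross3_0, eT_apply, eT_apply]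
    simp only [PiLp.sub_apply]
    ring
  · show cross3 n (eT n p R) 1 = _ * cross3 n (n - relVel p) 1
    rw [cross3_1, cross3_1, eT_apply, eT_apply]
    simp only [PiLp.sub_apply]
    ring
  · show cross3 n (eT n p R) 2 = _ * cross3 n (n - relVel p) 2
    rw [cross3_2, cross3_2, eT_apply, eT_apply]
    simp only [PiLp.sub_apply]
    ring

/-- **integration by parts in momentum, electric kernel** -/
theorem ibp_E {n : R3} (hn : ‖n‖ = 1) (i : Fin 3) {R : ℝ} (hR : R ≠ 0) {φ : R3 → ℝ}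
    (hφ : ContDiff ℝ 1 φ) (hc : HasCompactSupport φ) (E B : R3) :
    ∫ p, (kE n i p / R) * fderiv ℝ φ p (lorF E B p)
      = - ∫ p, φ p * eS n p (acc p (lorF E B p)) R i := by
  have h1 : ContDiff ℝ 1 fun p => kE n i p / R :=
    ((contDiff_kE hn i).of_le (by simp)).div_const R
  rw [ibp h1 hφ hc E B]
  congr 1
  refine integral_congr_ae (Eventually.of_forall fun p => ?_)
  dsimp only
  congr 1
  have h2 : fderiv ℝ (fun p => kE n i p / R) p = R⁻¹ • fderiv ℝ (kE n i) p := by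
    have h3 := (((contDiff_kE hn i).differentiable (by simp)) p).hasFDerivAt.mul_const R⁻¹
    simp only [div_eq_mul_inv]
    exact h3.fderiv
  rw [h2, smul_apply, fderiv_kE hn, eS_apply, smul_eq_mul]
  have h5 := (eps_pos hn p).ne'
  field_simp

/-- **integration by parts in momentum, magnetic kernel** -/
theorem ibp_B {n : R3} (hn : ‖n‖ = 1) (i : Fin 3) {R : ℝ} (hR : R ≠ 0) {φ : R3 → ℝ}
    (hφ : ContDiff ℝ 1 φ) (hc : HasCompactSupport φ) (E B : R3) :
    ∫ p, (kB n i p / R) * fderiv ℝ φ p (lorF E B p)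
      = - ∫ p, φ p * cross3 n (eS n p (acc p (lorF E B p)) R) i := by
  have h1 : ContDiff ℝ 1 fun p => kB n i p / R :=
    ((contDiff_kB hn i).of_le (by simp)).div_const R
  rw [ibp h1 hφ hc E B]
  congr 1
  refine integral_congr_ae (Eventually.of_forall fun p => ?_)
  dsimp only
  congr 1
  have h2 : fderiv ℝ (fun p => kB n i p / R) p = R⁻¹ • fderiv ℝ (kB n i) p := by
    have h3 := (((contDiff_kB hn i).differentiable (by simp)) p).hasFDerivAt.mul_const R⁻¹
    simp only [div_eq_mul_inv]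
    exact h3.fderiv
  rw [h2, smul_apply, fderiv_kB hn, cross_eS_apply, smul_eq_mul]
  have h5 := (eps_pos hn p).ne'
  field_simp

end Crest.Agent.R106.GSR
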