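/- Row 106 (helper374): the bound `FtP` of the force at the test particle, from the
representation `GSRep` and the kernel bounds of node PAIR. -/
import Crest.Agent.R106.MomIface
import Crest.Agent.R106.FieldIface
import Crest.Agent.R106.GsrInt
import Crest.Agent.R106.PairKer

set_option autoImplicit false

open MeasureTheory Set Filter Topology
open Crest.AnalysisR.VecCalc3 Crest.AnalysisR.PDE.RVM
open scoped InnerProductSpace ENNReal ContDiff

noncomputable section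

namespace Crest.Agent.R106.FtRep

open Crest.Agent.R106.GSR (gam acc lor eT eS)
open Crest.Agent.R106 (Pair.om)

/-! ### algebra -/

/-- `V ×` as a continuous linear map -/
def crossL (V : R3) : R3 →L[ℝ] R3 :=
  LinearMap.toContinuousLinearMap
    { toFun := fun a => cross3 V a
      map_add' := fun a b => by
        ext i
        fin_cases i <;> simp [cross3] <;> ring
      map_smul' := fun c a => by
        ext i
        fin_cases i <;> simp [cross3] <;> ring }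

@[simp] theorem crossL_apply (V a : R3) : crossL V a = cross3 V a := rfl

theorem cross_cross (n V e : R3) :
    e + cross3 V (cross3 n e) = Pair.lor n V e := by
  unfold Pair.lor Pair.om
  ext i
  fin_cases i <;>
  · simp [cross3, PiLp.inner_apply, Fin.sum_univ_three]
    ring

theorem one_sub_norm_sq (p : R3) : 1 - ‖relVel p‖ ^ 2 = (gam p ^ 2)⁻¹ := by
  rw [GSR.norm_sq_relVel]; rw [inv_pow]; ring

theorem eT_eq (n p : R3) (R : ℝ) : eT n p R = Pair.eT n (relVel p) R := by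
  unfold GSR.eT Pair.eT Pair.om
  rw [one_sub_norm_sq]
  congr 1
  have := GSR.gam_pos p
  rw [mul_inv, mul_inv, div_eq_mul_inv, mul_inv]
  ring

theorem eS_eq (n p a : R3) (R : ℝ) : eS n p a R = Pair.eS n (relVel p) a R := by
  unfold GSR.eS Pair.eS Pair.om
  rw [one_div]

theorem acc_eq (p F : R3) : acc p F = Pair.acc (relVel p) F := by
  unfold GSR.acc Pair.acc
  rw [one_sub_norm_sq, Real.sqrt_inv, Real.sqrt_sq (GSR.gam_pos p).le]

/-- bound of the Lorentz kernel by `k_T + k_S |F|` -/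
theorem norm_kernel_le {n V p F : R3} {R : ℝ} (hn : ‖n‖ = 1) (hV : ‖V‖ ≤ 1) (hR : 0 < R) :
    ‖(eT n p R + eS n p (acc p F) R) + cross3 V (cross3 n (eT n p R + eS n p (acc p F) R))‖
      ≤ 9 * (Mom.kT (1 - ⟪n, V⟫_ℝ) (1 - ⟪n, relVel p⟫_ℝ) (gam p) R
          + Mom.kS (1 - ⟪n, V⟫_ℝ) (1 - ⟪n, relVel p⟫_ℝ) (gam p) R * ‖F‖) := by
  have hv := GSR.norm_relVel_lt p
  have hg := GSR.gam_pos p
  have hε := Pair.om_pos hn hv
  have hδ := Pair.om_nonneg (n := n) (v := V) hn.le hV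
  rw [cross_cross]
  have hadd : Pair.lor n V (eT n p R + eS n p (acc p F) R)
      = Pair.KT n (relVel p) V R + Pair.KS n (relVel p) V (Pair.acc (relVel p) F) R := by
    rw [eT_eq, acc_eq, eS_eq]
    unfold Pair.KT Pair.KS Pair.lor
    rw [smul_add, inner_add_right, add_smul]
    abel
  rw [hadd]
  have h1 := Pair.norm_KT_le (n := n) (v := relVel p) (V := V) (R := R) hn hv hV hR
  have h2 := Pair.norm_KS_le (n := n) (v := relVel p) (V := V) (R := R) hn hv hV hR F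
  have e1 : (1 - ‖relVel p‖ ^ 2) * (Pair.om n (relVel p)
        + Real.sqrt (Pair.om n V * Pair.om n (relVel p)))
      / ((Pair.om n (relVel p)) ^ 2 * R ^ 2)
      = Mom.kT (1 - ⟪n, V⟫_ℝ) (1 - ⟪n, relVel p⟫_ℝ) (gam p) R := by
    rw [one_sub_norm_sq]
    unfold Mom.kT
    simp only [Pair.om] at hε ⊢
    field_simp
  have e2 : Real.sqrt (Pair.om n V) * (Real.sqrt (1 - ‖relVel p‖ ^ 2) * ‖F‖)
      / (Pair.om n (relVel p) * R)
      = Mom.kS (1 - ⟪n, V⟫_ℝ) (1 - ⟪n, relVel p⟫_ℝ) (gam p) R * ‖F‖ := by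
    rw [one_sub_norm_sq, Real.sqrt_inv, Real.sqrt_sq hg.le]
    unfold Mom.kS
    simp only [Pair.om] at hε ⊢
    field_simp
  rw [e1] at h1
  rw [e2] at h2
  have h3 : 0 ≤ Mom.kT (1 - ⟪n, V⟫_ℝ) (1 - ⟪n, relVel p⟫_ℝ) (gam p) R := by
    rw [← e1]
    have : 0 ≤ 1 - ‖relVel p‖ ^ 2 := by nlinarith [norm_nonneg (relVel p)]
    positivity
  calc _ ≤ ‖Pair.KT n (relVel p) V R‖ + ‖Pair.KS n (relVel p) V (Pair.acc (relVel p) F) R‖ :=
        norm_add_le _ _
    _ ≤ _ := by linarith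

/-! ### the position of a characteristic -/

variable {T : ℝ} {f : ℝ → R3 → R3 → ℝ} {E B : ℝ → R3 → R3}

theorem norm_X_sub_le {X p : ℝ → R3} (h : Mom.IsChar T f E B X p) {s : ℝ} (hs : s ∈ Ico 0 T) :
    ‖X s - X 0‖ ≤ s := by
  rcases eq_or_lt_of_le hs.1 with h0 | h0
  · rw [← h0]; simp
  have hcont : ContinuousOn X (Icc 0 s) := h.cX.mono fun r hr => ⟨hr.1, hr.2.trans_lt hs.2⟩
  have key : ∀ δ ∈ Ioo 0 s, ‖X s - X δ‖ ≤ s := by
    intro δ hδ
    have h1 : ContinuousOn X (Icc δ s) := hcont.mono (Icc_subset_Icc_left hδ.1.le)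
    have h2 : ∀ r ∈ Ico δ s, HasDerivWithinAt X (relVel (p r)) (Ici r) r := fun r hr =>
      (h.dX r ⟨hδ.1.trans_le hr.1, hr.2.trans hs.2⟩).hasDerivWithinAt
    have h3 := norm_image_sub_le_of_norm_deriv_right_le_segment h1 h2
      (fun r _ => (GSR.norm_relVel_lt (p r)).le) s ⟨hδ.2.le, le_refl _⟩
    linarith [hδ.1]
  have hlim : Tendsto (fun δ => ‖X s - X δ‖) (𝓝[Ioo 0 s] 0) (𝓝 ‖X s - X 0‖) := by
    have h1 : ContinuousWithinAt X (Ioo 0 s) 0 :=
      (hcont 0 ⟨le_refl _, h0.le⟩).mono Ioo_subset_Icc_self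
    exact (tendsto_const_nhds.sub h1).norm
  have hne : (𝓝[Ioo 0 s] (0 : ℝ)).NeBot := by
    rw [nhdsWithin_Ioo_eq_nhdsGT h0]; infer_instance
  exact le_of_tendsto hlim (by filter_upwards [self_mem_nhdsWithin] with δ hδ using key δ hδ)

/-! ### the cone measure -/

theorem coneM_eq (x : R3) (t : ℝ) :
    Field.coneM x t = (volume : Measure (R3 × R3)).restrict (Metric.ball x t ×ˢ univ) := by
  unfold Field.coneM
  rw [Measure.volume_eq_prod, ← Measure.prod_restrict, Measure.restrict_univ]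

theorem ae_ne (x : R3) (t : ℝ) : ∀ᵐ q ∂(Field.coneM x t), q.1 ≠ x := by
  have h1 : Field.coneM x t = GSR.cone x t := rfl
  rw [h1, GSR.cone_eq]
  filter_upwards [ae_restrict_mem ((Metric.isOpen_ball.measurableSet.diff
    (measurableSet_singleton x)).prod MeasurableSet.univ)] with q hq
  exact hq.1.2

/-- lintegral against the weighted cone measure -/
theorem lintegral_kap {X : ℝ → R3} {s : ℝ}
    (hm : AEMeasurable (fun q : R3 × R3 => ENNReal.ofReal (f (Mom.ret X s q.1) q.1 q.2))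
      (Field.coneM (X s) s)) (g : R3 × R3 → ℝ≥0∞) :
    ∫⁻ q, ENNReal.ofReal (f (Mom.ret X s q.1) q.1 q.2) * g q ∂(Field.coneM (X s) s)
      = ∫⁻ q, g q ∂(Mom.kap f X s) := by
  unfold Mom.kap
  rw [← coneM_eq]
  rw [lintegral_withDensity_eq_lintegral_mul_non_measurable₀ _ hm
    (Eventually.of_forall fun q => ENNReal.ofReal_lt_top)]
  rfl

theorem time_mem {X : ℝ → R3} {s : ℝ} {y : R3} (hy : y ∈ Metric.ball (X s) s) :
    0 < Mom.ret X s y ∧ Mom.ret X s y ≤ s := by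
  rw [Metric.mem_ball, dist_comm, dist_eq_norm] at hy
  unfold Mom.ret
  exact ⟨by linarith, by linarith [norm_nonneg (X s - y)]⟩

/-- Bound of the test force at one time from the representation at one point; the constant is
`2|C| + 9`, `C` = bound of the data part. -/
theorem ft_bound {C : ℝ}
    (hcf : ContinuousOn (fun p : ℝ × R3 × R3 => f p.1 p.2.1 p.2.2) (Iio T ×ˢ univ))
    (hpos : ∀ t ∈ Ico 0 T, ∀ x v, 0 ≤ f t x v) {X p : ℝ → R3} {s : ℝ} (hs : s ∈ Ioo 0 T)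
    (i1 : Integrable (fun q : R3 × R3 => f (s - ‖X s - q.1‖) q.1 q.2 •
        eT (Field.nn (X s) q.1) q.2 ‖X s - q.1‖) (Field.coneM (X s) s))
    (i2 : Integrable (fun q : R3 × R3 => f (s - ‖X s - q.1‖) q.1 q.2 •
        eS (Field.nn (X s) q.1) q.2 (acc q.2 (lor E B (s - ‖X s - q.1‖) q.1 q.2)) ‖X s - q.1‖)
        (Field.coneM (X s) s))
    (hE : ‖E s (X s) - (4 * Real.pi)⁻¹ • ∫ q, f (s - ‖X s - q.1‖) q.1 q.2 •
        Field.eK E B s (X s) q.1 q.2 ∂(Field.coneM (X s) s)‖ ≤ C)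
    (hB : ‖B s (X s) - (4 * Real.pi)⁻¹ • ∫ q, f (s - ‖X s - q.1‖) q.1 q.2 •
        cross3 (Field.nn (X s) q.1) (Field.eK E B s (X s) q.1 q.2) ∂(Field.coneM (X s) s)‖ ≤ C) :
    ENNReal.ofReal (Mom.Ftest E B X p s) ≤ ENNReal.ofReal (2 * |C| + 9) *
      (1 + ∫⁻ q, ENNReal.ofReal
      (Mom.kT (Mom.dl X p s q.1) (Mom.ep X s q.1 q.2) (gam q.2) (Mom.Rr X s q.1)
        + Mom.kS (Mom.dl X p s q.1) (Mom.ep X s q.1 q.2) (gam q.2) (Mom.Rr X s q.1)
          * Mom.Fsrc E B X s q) ∂(Mom.kap f X s)) := by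
  set x := X s with hx
  set V := relVel (p s) with hV
  set μc := Field.coneM x s with hμ
  have hV1 : ‖V‖ ≤ 1 := (GSR.norm_relVel_lt (p s)).le
  -- the electric kernel
  set e : R3 × R3 → R3 := fun q => f (s - ‖x - q.1‖) q.1 q.2 • Field.eK E B s x q.1 q.2 with he
  have ie : Integrable e μc := by
    refine (i1.add i2).congr (Eventually.of_forall fun q => ?_)
    simp only [he, Field.eK, Pi.add_apply, smul_add]
  have ic : Integrable (fun q => cross3 (Field.nn x q.1) (e q)) μc := GSR.integrable_cross ie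
  have hcr : ∀ q : R3 × R3, cross3 (Field.nn x q.1) (e q)
      = f (s - ‖x - q.1‖) q.1 q.2 • cross3 (Field.nn x q.1) (Field.eK E B s x q.1 q.2) := by
    intro q
    exact (crossL (Field.nn x q.1)).map_smul (f (s - ‖x - q.1‖) q.1 q.2)
      (Field.eK E B s x q.1 q.2)
  set Ie := ∫ q, e q ∂μc with hIe
  set Ib := ∫ q, cross3 (Field.nn x q.1) (e q) ∂μc with hIb
  have hB' : ‖B s x - (4 * Real.pi)⁻¹ • Ib‖ ≤ C := by
    have : Ib = ∫ q, f (s - ‖x - q.1‖) q.1 q.2 •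
          cross3 (Field.nn x q.1) (Field.eK E B s x q.1 q.2) ∂μc :=
      integral_congr_ae (Eventually.of_forall hcr)
    rw [this]; exact hB
  have hE' : ‖E s x - (4 * Real.pi)⁻¹ • Ie‖ ≤ C := hE
  -- the combined kernel
  set k : R3 × R3 → R3 := fun q => e q + cross3 V (cross3 (Field.nn x q.1) (e q)) with hk
  have ik : Integrable k μc := ie.add ((crossL V).integrable_comp ic)
  have hsum : Ie + cross3 V Ib = ∫ q, k q ∂μc := by
    have h1 : cross3 V Ib = ∫ q, cross3 V (cross3 (Field.nn x q.1) (e q)) ∂μc :=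
      ((crossL V).integral_comp_comm ic).symm
    rw [h1]
    exact (integral_add ie ((crossL V).integrable_comp ic)).symm
  have hFt : Mom.Ftest E B X p s ≤ 2 * |C| + (4 * Real.pi)⁻¹ * ‖∫ q, k q ∂μc‖ := by
    unfold Mom.Ftest GSR.lor
    rw [← hx, ← hV]
    have h1 : E s x + cross3 V (B s x) = (E s x - (4 * Real.pi)⁻¹ • Ie)
        + cross3 V (B s x - (4 * Real.pi)⁻¹ • Ib)
        + (4 * Real.pi)⁻¹ • (Ie + cross3 V Ib) := by
      have h2 : cross3 V (B s x - (4 * Real.pi)⁻¹ • Ib)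
          = cross3 V (B s x) - (4 * Real.pi)⁻¹ • cross3 V Ib := by
        have := (crossL V).map_sub (B s x) ((4 * Real.pi)⁻¹ • Ib)
        rw [map_smul] at this
        simpa using this
      rw [h2, smul_add]
      abel
    rw [h1, hsum]
    refine (norm_add_le _ _).trans ?_
    refine add_le_add ((norm_add_le _ _).trans ?_) ?_
    · have h3 := GSR.norm_cross3_le V (B s x - (4 * Real.pi)⁻¹ • Ib)
      have h4 : ‖V‖ * ‖B s x - (4 * Real.pi)⁻¹ • Ib‖ ≤ 1 * |C| :=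
        mul_le_mul hV1 (hB'.trans (le_abs_self C)) (norm_nonneg _) zero_le_one
      have h5 := hE'.trans (le_abs_self C)
      linarith
    · rw [norm_smul, Real.norm_eq_abs, abs_of_nonneg (by positivity)]
  -- the lintegral bound
  have hmeas : AEMeasurable (fun q : R3 × R3 => ENNReal.ofReal (f (Mom.ret X s q.1) q.1 q.2))
      (Field.coneM (X s) s) := by
    rw [coneM_eq]
    have hc : ContinuousOn (fun q : R3 × R3 => f (Mom.ret X s q.1) q.1 q.2)
        (Metric.ball (X s) s ×ˢ univ) := by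
      have h2 : Continuous (fun q : R3 × R3 => ((Mom.ret X s q.1, q.1, q.2) : ℝ × R3 × R3)) := by
        unfold Mom.ret; fun_prop
      refine hcf.comp h2.continuousOn fun q hq => ⟨?_, mem_univ _⟩
      exact lt_of_le_of_lt (time_mem hq.1).2 hs.2
    exact (hc.aemeasurable (Metric.isOpen_ball.measurableSet.prod MeasurableSet.univ)).ennreal_ofReal
  set Φ : R3 × R3 → ℝ := fun q =>
    Mom.kT (Mom.dl X p s q.1) (Mom.ep X s q.1 q.2) (gam q.2) (Mom.Rr X s q.1)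
      + Mom.kS (Mom.dl X p s q.1) (Mom.ep X s q.1 q.2) (gam q.2) (Mom.Rr X s q.1)
        * Mom.Fsrc E B X s q with hΦ
  have hpt : ∀ᵐ q ∂μc, ‖k q‖ₑ ≤ ENNReal.ofReal (f (Mom.ret X s q.1) q.1 q.2)
      * (9 * ENNReal.ofReal (Φ q)) := by
    have hball : ∀ᵐ q ∂μc, q ∈ Metric.ball x s ×ˢ (univ : Set R3) := by
      rw [hμ, coneM_eq]
      exact ae_restrict_mem (Metric.isOpen_ball.measurableSet.prod MeasurableSet.univ)
    filter_upwards [ae_ne x s, hball] with q hq hqb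
    have hn : ‖Field.nn x q.1‖ = 1 := GSR.norm_nv hq
    have hR : 0 < ‖x - q.1‖ := norm_pos_iff.2 (sub_ne_zero.2 hq.symm)
    have hf0 : 0 ≤ f (s - ‖x - q.1‖) q.1 q.2 := by
      have := time_mem (X := X) (s := s) hqb.1
      exact hpos _ ⟨this.1.le, lt_of_le_of_lt this.2 hs.2⟩ _ _
    have hke : k q = f (s - ‖x - q.1‖) q.1 q.2 •
        (Field.eK E B s x q.1 q.2
          + cross3 V (cross3 (Field.nn x q.1) (Field.eK E B s x q.1 q.2))) := by
      simp only [hk]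
      rw [hcr q]
      have := (crossL V).map_smul (f (s - ‖x - q.1‖) q.1 q.2)
        (cross3 (Field.nn x q.1) (Field.eK E B s x q.1 q.2))
      simp only [crossL_apply] at this
      rw [this, smul_add]
    have hb := norm_kernel_le (n := Field.nn x q.1) (V := V) (p := q.2)
      (F := lor E B (s - ‖x - q.1‖) q.1 q.2) (R := ‖x - q.1‖) hn hV1 hR
    have hb' : ‖Field.eK E B s x q.1 q.2
          + cross3 V (cross3 (Field.nn x q.1) (Field.eK E B s x q.1 q.2))‖ ≤ 9 * Φ q := hb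
    have hΦ0 : 0 ≤ Φ q := by
      have := (norm_nonneg _).trans hb'
      linarith
    rw [hke, enorm_smul, Real.enorm_of_nonneg hf0]
    refine mul_le_mul' (le_of_eq rfl) ?_
    rw [← ofReal_norm]
    have h9 : (9 : ℝ≥0∞) = ENNReal.ofReal 9 := by simp
    rw [h9, ← ENNReal.ofReal_mul (by norm_num)]
    exact ENNReal.ofReal_le_ofReal hb'
  have hlint : ‖∫ q, k q ∂μc‖ₑ ≤ 9 * ∫⁻ q, ENNReal.ofReal (Φ q) ∂(Mom.kap f X s) := by
    calc ‖∫ q, k q ∂μc‖ₑ ≤ ∫⁻ q, ‖k q‖ₑ ∂μc := enorm_integral_le_lintegral_enorm _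
      _ ≤ ∫⁻ q, ENNReal.ofReal (f (Mom.ret X s q.1) q.1 q.2) * (9 * ENNReal.ofReal (Φ q)) ∂μc :=
        lintegral_mono_ae hpt
      _ = ∫⁻ q, 9 * ENNReal.ofReal (Φ q) ∂(Mom.kap f X s) := lintegral_kap hmeas _
      _ = 9 * ∫⁻ q, ENNReal.ofReal (Φ q) ∂(Mom.kap f X s) :=
        lintegral_const_mul' _ _ (by norm_num)
  set I := ∫⁻ q, ENNReal.ofReal (Φ q) ∂(Mom.kap f X s) with hI
  have hpi : (4 * Real.pi)⁻¹ ≤ 1 := by
    have : (1 : ℝ) ≤ 4 * Real.pi := by nlinarith [Real.pi_gt_three]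
    exact inv_le_one_of_one_le₀ this
  calc ENNReal.ofReal (Mom.Ftest E B X p s)
      ≤ ENNReal.ofReal (2 * |C| + (4 * Real.pi)⁻¹ * ‖∫ q, k q ∂μc‖) :=
        ENNReal.ofReal_le_ofReal hFt
    _ ≤ ENNReal.ofReal (2 * |C|) + ENNReal.ofReal (‖∫ q, k q ∂μc‖) := by
        refine (ENNReal.ofReal_add_le).trans (add_le_add le_rfl (ENNReal.ofReal_le_ofReal ?_))
        exact mul_le_of_le_one_left (norm_nonneg _) hpi
    _ ≤ ENNReal.ofReal (2 * |C|) + 9 * I := by
        rw [ofReal_norm]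
        exact add_le_add le_rfl hlint
    _ ≤ ENNReal.ofReal (2 * |C| + 9) * (1 + I) := by
        rw [ENNReal.ofReal_add (by positivity) (by norm_num), mul_add, mul_one, add_mul]
        have h9 : (9 : ℝ≥0∞) = ENNReal.ofReal 9 := by simp
        rw [h9]
        calc ENNReal.ofReal (2 * |C|) + ENNReal.ofReal 9 * I
            ≤ (ENNReal.ofReal (2 * |C|) + ENNReal.ofReal 9)
              + (ENNReal.ofReal (2 * |C|) * I + ENNReal.ofReal 9 * I) :=
          add_le_add le_self_add le_add_self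
        _ = _ := rfl

/-- **FtP** from the representation (for one solution; `hrep` = the conclusion of `GSRep`). -/
theorem ftP_of (hT : 0 < T)
    (hcf : ContinuousOn (fun p : ℝ × R3 × R3 => f p.1 p.2.1 p.2.2) (Iio T ×ˢ univ))
    (hsupp : ∀ T' : ℝ, 0 ≤ T' → T' < T → ∃ R : ℝ, ∀ t ∈ Set.Icc 0 T', ∀ x v : R3,
      (R < ‖x‖ ∨ R < ‖v‖) → f t x v = 0)
    (hpos : ∀ t ∈ Ico 0 T, ∀ x v, 0 ≤ f t x v)
    (hrep : ∀ X0 : ℝ, ∃ C : ℝ, ∀ t ∈ Ico 0 T, ∀ x : R3, ‖x‖ ≤ X0 →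
      Integrable (fun q : R3 × R3 => f (t - ‖x - q.1‖) q.1 q.2 •
        eT (Field.nn x q.1) q.2 ‖x - q.1‖) (Field.coneM x t) ∧
      Integrable (fun q : R3 × R3 => f (t - ‖x - q.1‖) q.1 q.2 •
        eS (Field.nn x q.1) q.2 (acc q.2 (lor E B (t - ‖x - q.1‖) q.1 q.2)) ‖x - q.1‖)
          (Field.coneM x t) ∧
      ‖E t x - (4 * Real.pi)⁻¹ • ∫ q, f (t - ‖x - q.1‖) q.1 q.2 • Field.eK E B t x q.1 q.2
          ∂(Field.coneM x t)‖ ≤ C ∧
      ‖B t x - (4 * Real.pi)⁻¹ • ∫ q, f (t - ‖x - q.1‖) q.1 q.2 •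
          cross3 (Field.nn x q.1) (Field.eK E B t x q.1 q.2) ∂(Field.coneM x t)‖ ≤ C) :
    Mom.FtP T f E B := by
  -- initial positions
  obtain ⟨R0, hR0⟩ : ∃ R0 : ℝ, ∀ x v : R3, f 0 x v ≠ 0 → ‖x‖ ≤ R0 := by
    obtain ⟨R, hR⟩ := hsupp 0 le_rfl hT
    refine ⟨R, fun x v hne => ?_⟩
    by_contra hcon
    exact hne (hR 0 ⟨le_rfl, le_rfl⟩ x v (Or.inl (not_le.1 hcon)))
  obtain ⟨C, hC⟩ := hrep (R0 + T)
  refine ⟨2 * |C| + 9, by positivity, fun X p hch s hs => ?_⟩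
  have hsI : s ∈ Ico 0 T := ⟨hs.1.le, hs.2⟩
  have hX : ‖X s‖ ≤ R0 + T := by
    have h1 := norm_X_sub_le hch hsI
    have h2 := hR0 (X 0) (p 0) hch.supp
    calc ‖X s‖ = ‖(X s - X 0) + X 0‖ := by rw [sub_add_cancel]
      _ ≤ ‖X s - X 0‖ + ‖X 0‖ := norm_add_le _ _
      _ ≤ R0 + T := by linarith [hs.2]
  obtain ⟨i1, i2, hE, hB⟩ := hC s hsI (X s) hX
  exact ft_bound hcf hpos hs i1 i2 hE hB

end Crest.Agent.R106.FtRep
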