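import Crest.Agent.R106.Main0

/-!
Row 106 (S0140): THE class of solutions of the NEW PART (per-solution version of the top interface):
`SolTo` (classical solution on `[0,T)`, `C^∞` on the open set `(-∞,T) × ..`, blow-up at `T` allowed)
and `MomBound1` (bound of the momentum support, the constant may depend on the solution).
`glue1 : Uniq → TruncEx → MomBound1 → Goal` is in `R106/Glue1.lean`.
-/

set_option autoImplicit false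
open MeasureTheory Set
open scoped ContDiff
open Crest.AnalysisR.VecCalc3 Crest.AnalysisR.PDE.RVM

namespace Crest.Agent.R106

/-- A classical solution on `[0, T)` whose components are `C^∞` on the open set `(-∞, T) × ..`. -/
def SolTo (T : ℝ) (f₀ : R3 → R3 → ℝ) (E₀ B₀ : R3 → R3)
    (f : ℝ → R3 → R3 → ℝ) (E B : ℝ → R3 → R3) : Prop :=
  IsClassicalSolutionOn T f₀ E₀ B₀ f E B ∧
  ContDiffOn ℝ ∞ (fun p : ℝ × R3 × R3 => f p.1 p.2.1 p.2.2) (Iio T ×ˢ univ) ∧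
  ContDiffOn ℝ ∞ (fun p : ℝ × R3 => E p.1 p.2) (Iio T ×ˢ univ) ∧
  ContDiffOn ℝ ∞ (fun p : ℝ × R3 => B p.1 p.2) (Iio T ×ˢ univ)

/-- The momentum bound, per solution: the momentum support of a smooth solution stays bounded on
every finite time interval `[0, T)` on which it exists. -/
def MomBound1 : Prop :=
  ∀ (T : ℝ), 0 < T → ∀ (f₀ : R3 → R3 → ℝ) (E₀ B₀ : R3 → R3), IsAdmissibleDatum f₀ E₀ B₀ →
    ∀ (f : ℝ → R3 → R3 → ℝ) (E B : ℝ → R3 → R3), SolTo T f₀ E₀ B₀ f E B →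
    ∃ M : ℝ, ∀ t ∈ Ico 0 T, ∀ x v : R3, M < ‖v‖ → f t x v = 0

namespace SolTo

variable {T : ℝ} {f₀ : R3 → R3 → ℝ} {E₀ B₀ : R3 → R3} {f : ℝ → R3 → R3 → ℝ} {E B : ℝ → R3 → R3}

theorem sol (h : SolTo T f₀ E₀ B₀ f E B) : IsClassicalSolutionOn T f₀ E₀ B₀ f E B := h.1

theorem hf (h : SolTo T f₀ E₀ B₀ f E B) :
    ContDiffOn ℝ ∞ (fun p : ℝ × R3 × R3 => f p.1 p.2.1 p.2.2) (Iio T ×ˢ univ) := h.2.1

theorem hE (h : SolTo T f₀ E₀ B₀ f E B) :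
    ContDiffOn ℝ ∞ (fun p : ℝ × R3 => E p.1 p.2) (Iio T ×ˢ univ) := h.2.2.1

theorem hB (h : SolTo T f₀ E₀ B₀ f E B) :
    ContDiffOn ℝ ∞ (fun p : ℝ × R3 => B p.1 p.2) (Iio T ×ˢ univ) := h.2.2.2

theorem f_at (h : SolTo T f₀ E₀ B₀ f E B) {t : ℝ} (ht : t < T) (x v : R3) :
    ContDiffAt ℝ ∞ (fun p : ℝ × R3 × R3 => f p.1 p.2.1 p.2.2) (t, x, v) :=
  h.2.1.contDiffAt ((isOpen_Iio.prod isOpen_univ).mem_nhds ⟨ht, mem_univ _⟩)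

theorem E_at (h : SolTo T f₀ E₀ B₀ f E B) {t : ℝ} (ht : t < T) (x : R3) :
    ContDiffAt ℝ ∞ (fun p : ℝ × R3 => E p.1 p.2) (t, x) :=
  h.2.2.1.contDiffAt ((isOpen_Iio.prod isOpen_univ).mem_nhds ⟨ht, mem_univ _⟩)

theorem B_at (h : SolTo T f₀ E₀ B₀ f E B) {t : ℝ} (ht : t < T) (x : R3) :
    ContDiffAt ℝ ∞ (fun p : ℝ × R3 => B p.1 p.2) (t, x) :=
  h.2.2.2.contDiffAt ((isOpen_Iio.prod isOpen_univ).mem_nhds ⟨ht, mem_univ _⟩)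

theorem f_zero (h : SolTo T f₀ E₀ B₀ f E B) : f 0 = f₀ := h.1.2.2.2.1
theorem E_zero (h : SolTo T f₀ E₀ B₀ f E B) : E 0 = E₀ := h.1.2.2.2.2.1
theorem B_zero (h : SolTo T f₀ E₀ B₀ f E B) : B 0 = B₀ := h.1.2.2.2.2.2.1

theorem eqs (h : SolTo T f₀ E₀ B₀ f E B) {t : ℝ} (h0 : 0 < t) (ht : t < T) (x : R3) :
    EquationsHoldAt f E B t x := h.1.2.2.2.2.2.2.1 t h0 ht x

theorem supp (h : SolTo T f₀ E₀ B₀ f E B) {T' : ℝ} (h0 : 0 ≤ T') (ht : T' < T) :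
    ∃ R : ℝ, ∀ t ∈ Icc 0 T', ∀ x v : R3, (R < ‖x‖ ∨ R < ‖v‖) → f t x v = 0 :=
  h.1.2.2.2.2.2.2.2.1 T' h0 ht

end SolTo

end Crest.Agent.R106
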