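/-
Row 106, module GSR (helper585): uniform bounds of the initial data of a smooth solution.
-/
import Mathlib
import Crest.Prelude.Def_VlasovMaxwell
import Crest.Agent.R106.Main0
import Crest.Agent.R106.SolTo
import Crest.Agent.R106.GSRDefs
import Crest.Agent.R106.GsrMom

set_option autoImplicit false

open MeasureTheory Set Filter Topology
open Crest.AnalysisR.VecCalc3 Crest.AnalysisR.PDE.RVM
open scoped InnerProductSpace ContDiff

noncomputable section

namespace Crest.Agent.R106.GSR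

/-! ### elementary facts on R3 -/

theorem abs_coord_le (v : R3) (i : Fin 3) : |v i| ≤ ‖v‖ := by
  have := PiLp.norm_apply_le v i
  simpa using this

/-! ### bounds of the data -/

/-- uniform bounds of an admissible datum -/
structure DBd (f₀ : R3 → R3 → ℝ) (E₀ B₀ : R3 → R3) (R C : ℝ) : Prop where
  R0 : 0 ≤ R
  C0 : 0 ≤ C
  supp : ∀ x v, (R < ‖x‖ ∨ R < ‖v‖) → f₀ x v = 0
  f_nonneg : ∀ x v, 0 ≤ f₀ x v
  f_le : ∀ x v, f₀ x v ≤ C
  E_le : ∀ x, ‖E₀ x‖ ≤ C
  B_le : ∀ x, ‖B₀ x‖ ≤ C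
  dE_le : ∀ x, ‖fderiv ℝ E₀ x‖ ≤ C
  dB_le : ∀ x, ‖fderiv ℝ B₀ x‖ ≤ C
  rho_le : ∀ x, |∫ v, f₀ x v| ≤ C

theorem exists_DBd {f₀ : R3 → R3 → ℝ} {E₀ B₀ : R3 → R3} (h : IsAdmissibleDatum f₀ E₀ B₀) :
    ∃ R C : ℝ, DBd f₀ E₀ B₀ R C := by
  obtain ⟨hf0, hfs, hfc, hE, hB, hbd, -, -, -, -⟩ := h
  obtain ⟨M, hM⟩ : ∃ M, ∀ p : R3 × R3, ‖Function.uncurry f₀ p‖ ≤ M := by
    exact hfs.continuous.bounded_above_of_compact_support hfc
  obtain ⟨R, hR⟩ := hfc.isCompact.isBounded.subset_closedBall 0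
  have hsupp : ∀ x v, (|R| < ‖x‖ ∨ |R| < ‖v‖) → f₀ x v = 0 := by
    intro x v hxv
    by_contra hne
    have h1 : (x, v) ∈ tsupport (Function.uncurry f₀) := subset_tsupport _ hne
    have h2 := hR h1
    rw [Metric.mem_closedBall, dist_zero_right, Prod.norm_def] at h2
    simp only [sup_le_iff] at h2
    have h3 := le_abs_self R
    rcases hxv with h | h
    · linarith [h2.1]
    · linarith [h2.2]
  obtain ⟨C0, hC0⟩ := hbd 0
  obtain ⟨C1, hC1⟩ := hbd 1
  have hM0 : 0 ≤ M := (norm_nonneg _).trans (hM (0, 0))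
  set V := (volume (Metric.closedBall (0 : R3) |R|)).toReal with hV
  have hV0 : 0 ≤ V := ENNReal.toReal_nonneg
  refine ⟨|R|, |C0| + |C1| + M + M * V, ?_⟩
  have a0 := abs_nonneg C0
  have a1 := abs_nonneg C1
  have hMV : 0 ≤ M * V := mul_nonneg hM0 hV0
  refine ⟨abs_nonneg _, by positivity, hsupp, hf0, ?_, ?_, ?_, ?_, ?_, ?_⟩
  · intro x v
    have := (le_abs_self _).trans (hM (x, v))
    simp only [Function.uncurry_apply_pair] at this
    linarith
  · intro x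
    have h1 := (hC0 x).1
    rw [norm_iteratedFDeriv_zero] at h1
    linarith [le_abs_self C0]
  · intro x
    have h1 := (hC0 x).2
    rw [norm_iteratedFDeriv_zero] at h1
    linarith [le_abs_self C0]
  · intro x
    have h1 := (hC1 x).1
    rw [← norm_iteratedFDeriv_fderiv, norm_iteratedFDeriv_zero] at h1
    linarith [le_abs_self C1]
  · intro x
    have h1 := (hC1 x).2
    rw [← norm_iteratedFDeriv_fderiv, norm_iteratedFDeriv_zero] at h1
    linarith [le_abs_self C1]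
  · intro x
    have h1 : ∫ v, f₀ x v = ∫ v in Metric.closedBall (0 : R3) |R|, f₀ x v := by
      rw [← integral_indicator Metric.isClosed_closedBall.measurableSet]
      congr 1
      ext v
      by_cases hv : v ∈ Metric.closedBall (0 : R3) |R|
      · rw [indicator_of_mem hv]
      · rw [indicator_of_notMem hv]
        apply hsupp
        right
        simpa using hv
    rw [h1, ← Real.norm_eq_abs]
    have h2 : ‖∫ v in Metric.closedBall (0 : R3) |R|, f₀ x v‖ ≤ M * V := by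
      have := norm_setIntegral_le_of_norm_le_const (μ := (volume : Measure R3))
        (s := Metric.closedBall (0 : R3) |R|) (f := fun v => f₀ x v) (C := M)
        (isCompact_closedBall _ _).measure_lt_top (fun v _ => hM (x, v))
      simpa [hV, Measure.real] using this
    linarith


/-! ### derivatives on space-time -/

section bridge

variable {E : ℝ → R3 → R3} {i k : Fin 3} {t : ℝ} {x : R3}

theorem deriv_eq_pt (h : DifferentiableAt ℝ (cmp E i) (t, x)) :
    deriv (fun s => E s x i) t = pt (cmp E i) (t, x) := by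
  have h1 : HasDerivAt (fun s : ℝ => ((s, x) : ℝ × R3)) ((1 : ℝ), (0 : R3)) t :=
    (hasDerivAt_id t).prodMk (hasDerivAt_const t x)
  exact (h.hasFDerivAt.comp_hasDerivAt t h1).deriv

theorem pderiv_eq_px (h : DifferentiableAt ℝ (cmp E i) (t, x)) :
    pderiv (fun y => E t y i) k x = px k (cmp E i) (t, x) := by
  have h1 : HasFDerivAt (fun y : R3 => ((t, y) : ℝ × R3))
      (ContinuousLinearMap.inr ℝ ℝ R3) x := hasFDerivAt_prodMk_right t x
  have h2 := h.hasFDerivAt.comp x h1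
  unfold pderiv
  have h3 : fderiv ℝ (fun y => E t y i) x
      = (fderiv ℝ (cmp E i) (t, x)).comp (ContinuousLinearMap.inr ℝ ℝ R3) := h2.fderiv
  rw [h3]
  rfl

theorem pderiv_coord {F : R3 → R3} (hF : DifferentiableAt ℝ F x) :
    pderiv (fun y => F y i) k x = fderiv ℝ F x (EuclideanSpace.single k 1) i := by
  have h1 : HasFDerivAt (fun y => F y i)
      ((EuclideanSpace.proj i : R3 →L[ℝ] ℝ).comp (fderiv ℝ F x)) x :=
    (EuclideanSpace.proj i : R3 →L[ℝ] ℝ).hasFDerivAt.comp x hF.hasFDerivAt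
  unfold pderiv
  rw [h1.fderiv]
  rfl

theorem abs_pderiv_coord_le {F : R3 → R3} (hF : DifferentiableAt ℝ F x) :
    |pderiv (fun y => F y i) k x| ≤ ‖fderiv ℝ F x‖ := by
  rw [pderiv_coord hF]
  refine (abs_coord_le _ _).trans ?_
  have := (fderiv ℝ F x).le_opNorm (EuclideanSpace.single k 1)
  simpa using this

theorem abs_curl3_le {F : R3 → R3} (hF : DifferentiableAt ℝ F x) (i : Fin 3) :
    |curl3 F x i| ≤ 2 * ‖fderiv ℝ F x‖ := by
  have h := fun i k : Fin 3 => abs_le.1 (abs_pderiv_coord_le (i := i) (k := k) hF)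
  fin_cases i
  · simp only [curl3]
    have h1 := h 2 1
    have h2 := h 1 2
    simp only [Fin.zero_eta, Fin.isValue, Matrix.cons_val_zero]
    rw [abs_le]
    constructor <;> linarith [h1.1, h1.2, h2.1, h2.2]
  · simp only [curl3]
    have h1 := h 0 2
    have h2 := h 2 0
    simp only [Fin.mk_one, Fin.isValue, Matrix.cons_val_one, Matrix.cons_val_zero]
    rw [abs_le]
    constructor <;> linarith [h1.1, h1.2, h2.1, h2.2]
  · simp only [curl3]
    have h1 := h 1 0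
    have h2 := h 0 1
    simp only [Fin.reduceFinMk, Fin.isValue, Matrix.cons_val]
    rw [abs_le]
    constructor <;> linarith [h1.1, h1.2, h2.1, h2.2]

end bridge

/-! ### the initial time derivative -/

section init

variable {T : ℝ} {f₀ : R3 → R3 → ℝ} {E₀ B₀ : R3 → R3} {f : ℝ → R3 → R3 → ℝ} {E B : ℝ → R3 → R3}

theorem smooth_cmp {E : ℝ → R3 → R3}
    (hE : ContDiffOn ℝ ∞ (fun p : ℝ × R3 => E p.1 p.2) (Iio T ×ˢ univ)) (i : Fin 3) :
    ContDiffOn ℝ ∞ (cmp E i) (Iio T ×ˢ univ) :=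
  (EuclideanSpace.proj i : R3 →L[ℝ] ℝ).contDiff.comp_contDiffOn hE

theorem isOpen_half (T : ℝ) : IsOpen (Iio T ×ˢ (univ : Set R3)) := isOpen_Iio.prod isOpen_univ

theorem mem_half {T t : ℝ} (ht : t < T) (x : R3) : ((t, x) : ℝ × R3) ∈ Iio T ×ˢ (univ : Set R3) :=
  ⟨ht, trivial⟩

theorem tendsto_pt {E : ℝ → R3 → R3}
    (hE : ContDiffOn ℝ ∞ (fun p : ℝ × R3 => E p.1 p.2) (Iio T ×ˢ univ)) (hT : 0 < T)
    (i : Fin 3) (x : R3) :
    Tendsto (fun t : ℝ => pt (cmp E i) (t, x)) (𝓝[>] 0) (𝓝 (pt (cmp E i) (0, x))) := by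
  have h1 : ContinuousOn (fderiv ℝ (cmp E i)) (Iio T ×ˢ univ) :=
    (smooth_cmp hE i).continuousOn_fderiv_of_isOpen (isOpen_half T) (by simp)
  have h2 : ContinuousAt (fderiv ℝ (cmp E i)) ((0 : ℝ), x) :=
    h1.continuousAt ((isOpen_half T).mem_nhds (mem_half hT x))
  have h3 : ContinuousAt (fun t : ℝ => ((t, x) : ℝ × R3)) 0 := by fun_prop
  have h4 : ContinuousAt (fun t : ℝ => fderiv ℝ (cmp E i) (t, x)) 0 :=
    ContinuousAt.comp (g := fderiv ℝ (cmp E i)) (f := fun t : ℝ => ((t, x) : ℝ × R3)) h2 h3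
  have h5 : ContinuousAt (fun t : ℝ => fderiv ℝ (cmp E i) (t, x) ((1 : ℝ), (0 : R3))) 0 :=
    h4.clm_apply continuousAt_const
  exact h5.tendsto.mono_left nhdsWithin_le_nhds

theorem tendsto_norm_fderiv {B : ℝ → R3 → R3}
    (hB : ContDiffOn ℝ ∞ (fun p : ℝ × R3 => B p.1 p.2) (Iio T ×ˢ univ)) (hT : 0 < T) (x : R3) :
    Tendsto (fun t : ℝ => 2 * ‖fderiv ℝ (B t) x‖) (𝓝[>] 0) (𝓝 (2 * ‖fderiv ℝ (B 0) x‖)) := by
  have h1 : ContinuousOn (fderiv ℝ (fun p : ℝ × R3 => B p.1 p.2)) (Iio T ×ˢ univ) :=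
    hB.continuousOn_fderiv_of_isOpen (isOpen_half T) (by simp)
  have h2 : ContinuousAt (fderiv ℝ (fun p : ℝ × R3 => B p.1 p.2)) ((0 : ℝ), x) :=
    h1.continuousAt ((isOpen_half T).mem_nhds (mem_half hT x))
  have h3 : ContinuousAt (fun t : ℝ => ((t, x) : ℝ × R3)) 0 := by fun_prop
  have h4 : ContinuousAt (fun t : ℝ => fderiv ℝ (fun p : ℝ × R3 => B p.1 p.2) (t, x)) 0 :=
    ContinuousAt.comp (g := fderiv ℝ (fun p : ℝ × R3 => B p.1 p.2))
      (f := fun t : ℝ => ((t, x) : ℝ × R3)) h2 h3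
  have h5 : ContinuousAt (fun t : ℝ => 2 * ‖(fderiv ℝ (fun p : ℝ × R3 => B p.1 p.2) (t, x)).comp
      (ContinuousLinearMap.inr ℝ ℝ R3)‖) 0 :=
    (h4.clm_comp continuousAt_const).norm.const_mul 2
  have h6 : ∀ t : ℝ, t < T → fderiv ℝ (B t) x
      = (fderiv ℝ (fun p : ℝ × R3 => B p.1 p.2) (t, x)).comp
        (ContinuousLinearMap.inr ℝ ℝ R3) := by
    intro t ht
    have h7 : DifferentiableAt ℝ (fun p : ℝ × R3 => B p.1 p.2) (t, x) :=
      (hB.contDiffAt ((isOpen_half T).mem_nhds (mem_half ht x))).differentiableAt (by simp)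
    have h8 : HasFDerivAt (fun y : R3 => ((t, y) : ℝ × R3))
      (ContinuousLinearMap.inr ℝ ℝ R3) x := hasFDerivAt_prodMk_right t x
    exact (h7.hasFDerivAt.comp x h8).fderiv
  rw [h6 0 hT]
  refine (h5.tendsto.mono_left nhdsWithin_le_nhds).congr' ?_
  filter_upwards [mem_nhdsWithin_of_mem_nhds (Iio_mem_nhds hT)] with t ht
  rw [h6 t ht]

/-- slices of `f` in momentum are continuous with compact support -/
theorem slice_cont {f : ℝ → R3 → R3 → ℝ}
    (hf : ContDiffOn ℝ ∞ (fun p : ℝ × R3 × R3 => f p.1 p.2.1 p.2.2) (Iio T ×ˢ univ)) {t : ℝ}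
    (ht : t < T) (x : R3) : Continuous (f t x) := by
  have h := hf.continuousOn
  refine h.comp_continuous (f := fun v : R3 => ((t, x, v) : ℝ × R3 × R3)) (by fun_prop) ?_
  intro v
  exact ⟨ht, trivial⟩

theorem slice_integrable {f : ℝ → R3 → R3 → ℝ}
    (hf : ContDiffOn ℝ ∞ (fun p : ℝ × R3 × R3 => f p.1 p.2.1 p.2.2) (Iio T ×ˢ univ)) {t R : ℝ}
    (ht : t < T) (x : R3) (hR : ∀ v, R < ‖v‖ → f t x v = 0) : Integrable (f t x) := by
  refine (slice_cont hf ht x).integrable_of_hasCompactSupport ?_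
  refine HasCompactSupport.intro (isCompact_closedBall (0 : R3) R) ?_
  intro v hv
  apply hR
  simpa using hv

theorem tendsto_int_abs {f : ℝ → R3 → R3 → ℝ}
    (hf : ContDiffOn ℝ ∞ (fun p : ℝ × R3 × R3 => f p.1 p.2.1 p.2.2) (Iio T ×ˢ univ))
    (hT : 0 < T) (x : R3) {R : ℝ}
    (hR : ∀ t ∈ Icc 0 (T / 2), ∀ v, R < ‖v‖ → f t x v = 0) :
    Tendsto (fun t : ℝ => ∫ v, |f t x v|) (𝓝[>] 0) (𝓝 (∫ v, |f 0 x v|)) := by
  -- bound on a compact set
  have hK : IsCompact (Icc (0 : ℝ) (T / 2) ×ˢ Metric.closedBall (0 : R3) R) :=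
    isCompact_Icc.prod (isCompact_closedBall _ _)
  have hc : ContinuousOn (fun p : ℝ × R3 => |f p.1 x p.2|)
      (Icc (0 : ℝ) (T / 2) ×ˢ Metric.closedBall (0 : R3) R) := by
    refine ContinuousOn.abs ?_
    have h := hf.continuousOn
    refine h.comp (f := fun p : ℝ × R3 => ((p.1, x, p.2) : ℝ × R3 × R3)) (by fun_prop) ?_
    intro p hp
    exact ⟨by have := hp.1.2; show p.1 < T; linarith, trivial⟩
  obtain ⟨M, hM⟩ := hK.bddAbove_image hc
  have hM' : ∀ t ∈ Icc (0 : ℝ) (T / 2), ∀ v, |f t x v| ≤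
      (Metric.closedBall (0 : R3) R).indicator (fun _ => |M|) v := by
    intro t ht v
    by_cases hv : v ∈ Metric.closedBall (0 : R3) R
    · rw [indicator_of_mem hv]
      exact (hM (mem_image_of_mem _ (mk_mem_prod ht hv))).trans (le_abs_self _)
    · rw [indicator_of_notMem hv, hR t ht v (by simpa using hv), abs_zero]
  have hint : Integrable ((Metric.closedBall (0 : R3) R).indicator (fun _ => |M|)) := by
    rw [integrable_indicator_iff Metric.isClosed_closedBall.measurableSet]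
    exact integrableOn_const (isCompact_closedBall (0 : R3) R).measure_lt_top.ne
  have hev : ∀ᶠ t in 𝓝[>] (0 : ℝ), t ∈ Icc (0 : ℝ) (T / 2) := by
    filter_upwards [self_mem_nhdsWithin,
      mem_nhdsWithin_of_mem_nhds (Iio_mem_nhds (half_pos hT))] with t h1 h2
    exact ⟨(mem_Ioi.1 h1).le, (mem_Iio.1 h2).le⟩
  refine tendsto_integral_filter_of_dominated_convergence _ ?_ ?_ hint ?_
  · filter_upwards [hev] with t ht
    have : t < T := by linarith [ht.2]
    exact (slice_cont hf this x).abs.aestronglyMeasurable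
  · filter_upwards [hev] with t ht
    refine Eventually.of_forall fun v => ?_
    rw [Real.norm_eq_abs, abs_abs]
    exact hM' t ht v
  · refine Eventually.of_forall fun v => ?_
    have h1 : ContinuousAt (fun t : ℝ => |f t x v|) 0 := by
      refine ContinuousAt.abs ?_
      have h := hf.continuousOn.continuousAt (x := ((0 : ℝ), x, v))
        ((isOpen_Iio.prod isOpen_univ).mem_nhds ⟨hT, trivial⟩)
      exact ContinuousAt.comp (g := fun p : ℝ × R3 × R3 => f p.1 p.2.1 p.2.2)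
        (f := fun t : ℝ => ((t, x, v) : ℝ × R3 × R3)) h (by fun_prop)
    exact h1.tendsto.mono_left nhdsWithin_le_nhds

theorem abs_current_le {f : ℝ → R3 → R3 → ℝ} {t : ℝ} {x : R3} (hint : Integrable (f t x))
    (i : Fin 3) : |currentDensity f t x i| ≤ ∫ v, |f t x v| := by
  refine (abs_coord_le _ _).trans ?_
  unfold currentDensity
  refine (norm_integral_le_integral_norm _).trans ?_
  refine integral_mono_of_nonneg (Eventually.of_forall fun v => norm_nonneg _) hint.abs ?_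
  refine Eventually.of_forall fun v => ?_
  show ‖f t x v • relVel v‖ ≤ |f t x v|
  rw [norm_smul, Real.norm_eq_abs]
  calc |f t x v| * ‖relVel v‖ ≤ |f t x v| * 1 :=
        mul_le_mul_of_nonneg_left (norm_relVel_lt v).le (abs_nonneg _)
    _ = |f t x v| := mul_one _

/-- DATA BOUND: everything at time `0` is bounded by a constant depending on the datum only. -/
structure DataBd (f : ℝ → R3 → R3 → ℝ) (E B : ℝ → R3 → R3) (A : ℝ) : Prop where
  A0 : 0 ≤ A
  leE : ∀ x i, |E 0 x i| ≤ A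
  leB : ∀ x i, |B 0 x i| ≤ A
  ptE : ∀ x i, |pt (cmp E i) (0, x)| ≤ A
  ptB : ∀ x i, |pt (cmp B i) (0, x)| ≤ A
  pxE : ∀ x i k, |px k (cmp E i) (0, x)| ≤ A
  pxB : ∀ x i k, |px k (cmp B i) (0, x)| ≤ A
  lef : ∀ x v, |f 0 x v| ≤ A
  supp : ∀ x v, A < ‖v‖ → f 0 x v = 0
  suppx : ∀ x v, A < ‖x‖ → f 0 x v = 0

theorem dataBound_iio {R C : ℝ} (hd : DBd f₀ E₀ B₀ R C) (hT : 0 < T)
    (h : IsClassicalSolutionOn T f₀ E₀ B₀ f E B)
    (hf : ContDiffOn ℝ ∞ (fun p : ℝ × R3 × R3 => f p.1 p.2.1 p.2.2) (Iio T ×ˢ univ))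
    (hE : ContDiffOn ℝ ∞ (fun p : ℝ × R3 => E p.1 p.2) (Iio T ×ˢ univ))
    (hB : ContDiffOn ℝ ∞ (fun p : ℝ × R3 => B p.1 p.2) (Iio T ×ˢ univ)) :
    DataBd f E B (3 * C + R) := by
  obtain ⟨-, -, -, hf0, hE0, hB0, heq, hsup, -⟩ := h
  have hC := hd.C0
  have hR := hd.R0
  have hcE : ∀ (t : ℝ) (_ : t < T) (x : R3) (i : Fin 3), DifferentiableAt ℝ (cmp E i) (t, x) :=
    fun t ht x i => ((smooth_cmp hE i).contDiffAt
      ((isOpen_half T).mem_nhds (mem_half ht x))).differentiableAt (by simp)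
  have hcB : ∀ (t : ℝ) (_ : t < T) (x : R3) (i : Fin 3), DifferentiableAt ℝ (cmp B i) (t, x) :=
    fun t ht x i => ((smooth_cmp hB i).contDiffAt
      ((isOpen_half T).mem_nhds (mem_half ht x))).differentiableAt (by simp)
  have hsl : ∀ (F : ℝ → R3 → R3) (_ : ContDiffOn ℝ ∞ (fun p : ℝ × R3 => F p.1 p.2)
      (Iio T ×ˢ univ)) (t : ℝ) (_ : t < T) (x : R3), DifferentiableAt ℝ (F t) x := by
    intro F hF t ht x
    have h7 : DifferentiableAt ℝ (fun p : ℝ × R3 => F p.1 p.2) (t, x) :=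
      (hF.contDiffAt ((isOpen_half T).mem_nhds (mem_half ht x))).differentiableAt (by simp)
    have h8 : HasFDerivAt (fun y : R3 => ((t, y) : ℝ × R3))
      (ContinuousLinearMap.inr ℝ ℝ R3) x := hasFDerivAt_prodMk_right t x
    exact (h7.hasFDerivAt.comp x h8).differentiableAt
  obtain ⟨R', hR'⟩ := hsup (T / 2) (by linarith) (by linarith)
  have hIoo : ∀ᶠ t in 𝓝[>] (0 : ℝ), 0 < t ∧ t < T / 2 := by
    filter_upwards [self_mem_nhdsWithin,
      mem_nhdsWithin_of_mem_nhds (Iio_mem_nhds (half_pos hT))] with t h1 h2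
    exact ⟨h1, h2⟩
  refine ⟨by linarith, ?_, ?_, ?_, ?_, ?_, ?_, ?_, ?_, ?_⟩
  · intro x i
    rw [hE0]
    linarith [(abs_coord_le (E₀ x) i).trans (hd.E_le x)]
  · intro x i
    rw [hB0]
    linarith [(abs_coord_le (B₀ x) i).trans (hd.B_le x)]
  · intro x i
    have h1 := (tendsto_pt hE hT i x).abs
    have h2 := (tendsto_norm_fderiv hB hT x).add
      (tendsto_int_abs hf hT x (R := R') (fun t ht v hv => hR' t ht x v (Or.inr hv)))
    have h3 : |pt (cmp E i) (0, x)| ≤ 2 * ‖fderiv ℝ (B 0) x‖ + ∫ v, |f 0 x v| := by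
      refine le_of_tendsto_of_tendsto h1 h2 ?_
      filter_upwards [hIoo] with t ht
      have htT : t < T := by linarith [ht.2]
      obtain ⟨-, ha, -, -, -⟩ := heq t ht.1 htT x
      have ha' := ha i
      rw [deriv_eq_pt (hcE t htT x i)] at ha'
      have e : pt (cmp E i) (t, x) = curl3 (B t) x i - currentDensity f t x i := by linarith
      rw [e]
      refine (abs_sub _ _).trans (add_le_add (abs_curl3_le (hsl B hB t htT x) i) ?_)
      exact abs_current_le (slice_integrable hf htT x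
        (fun v hv => hR' t ⟨ht.1.le, ht.2.le⟩ x v (Or.inr hv))) i
    have h4 : ∫ v, |f 0 x v| ≤ C := by
      rw [hf0]
      have : ∀ v, |f₀ x v| = f₀ x v := fun v => abs_of_nonneg (hd.f_nonneg x v)
      simp only [this]
      exact (le_abs_self _).trans (hd.rho_le x)
    have h5 : ‖fderiv ℝ (B 0) x‖ ≤ C := by rw [hB0]; exact hd.dB_le x
    linarith
  · intro x i
    have h1 := (tendsto_pt hB hT i x).abs
    have h2 := tendsto_norm_fderiv hE hT x
    have h3 : |pt (cmp B i) (0, x)| ≤ 2 * ‖fderiv ℝ (E 0) x‖ := by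
      refine le_of_tendsto_of_tendsto h1 h2 ?_
      filter_upwards [hIoo] with t ht
      have htT : t < T := by linarith [ht.2]
      obtain ⟨-, -, ha, -, -⟩ := heq t ht.1 htT x
      have ha' := ha i
      rw [deriv_eq_pt (hcB t htT x i)] at ha'
      have e : pt (cmp B i) (t, x) = - curl3 (E t) x i := by linarith
      rw [e, abs_neg]
      exact abs_curl3_le (hsl E hE t htT x) i
    have h5 : ‖fderiv ℝ (E 0) x‖ ≤ C := by rw [hE0]; exact hd.dE_le x
    linarith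
  · intro x i k
    rw [← pderiv_eq_px (hcE 0 hT x i)]
    have h5 : ‖fderiv ℝ (E 0) x‖ ≤ C := by rw [hE0]; exact hd.dE_le x
    linarith [abs_pderiv_coord_le (i := i) (k := k) (hsl E hE 0 hT x)]
  · intro x i k
    rw [← pderiv_eq_px (hcB 0 hT x i)]
    have h5 : ‖fderiv ℝ (B 0) x‖ ≤ C := by rw [hB0]; exact hd.dB_le x
    linarith [abs_pderiv_coord_le (i := i) (k := k) (hsl B hB 0 hT x)]
  · intro x v
    rw [hf0, abs_of_nonneg (hd.f_nonneg x v)]
    linarith [hd.f_le x v]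
  · intro x v hv
    rw [hf0]
    exact hd.supp x v (Or.inr (by linarith))
  · intro x v hv
    rw [hf0]
    exact hd.supp x v (Or.inl (by linarith))

/-- DATA BOUND, uniform over all solutions of an admissible datum that are smooth up to `T`
(class `SolTo` of `Glue1`). -/
theorem dataBound_to (h : IsAdmissibleDatum f₀ E₀ B₀) :
    ∃ A : ℝ, ∀ (T : ℝ), 0 < T → ∀ (f : ℝ → R3 → R3 → ℝ) (E B : ℝ → R3 → R3),
      IsClassicalSolutionOn T f₀ E₀ B₀ f E B →
      ContDiffOn ℝ ∞ (fun p : ℝ × R3 × R3 => f p.1 p.2.1 p.2.2) (Iio T ×ˢ univ) →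
      ContDiffOn ℝ ∞ (fun p : ℝ × R3 => E p.1 p.2) (Iio T ×ˢ univ) →
      ContDiffOn ℝ ∞ (fun p : ℝ × R3 => B p.1 p.2) (Iio T ×ˢ univ) → DataBd f E B A := by
  obtain ⟨R, C, hd⟩ := exists_DBd h
  exact ⟨3 * C + R, fun T hT f E B hs hf hE hB => dataBound_iio hd hT hs hf hE hB⟩

/-- the unfolded form (846's `GSR.DataBd`) -/
theorem DataBd.unfold {f : ℝ → R3 → R3 → ℝ} {E B : ℝ → R3 → R3} {A : ℝ} (h : DataBd f E B A) :
    ∀ x : R3, (∀ i, |E 0 x i| ≤ A ∧ |B 0 x i| ≤ A ∧ |pt (cmp E i) (0, x)| ≤ A ∧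
      |pt (cmp B i) (0, x)| ≤ A ∧
      ∀ k, |px k (cmp E i) (0, x)| ≤ A ∧ |px k (cmp B i) (0, x)| ≤ A) ∧
    (∀ v, |f 0 x v| ≤ A) ∧ ∀ v, A < ‖v‖ → f 0 x v = 0 := fun x =>
  ⟨fun i => ⟨h.leE x i, h.leB x i, h.ptE x i, h.ptB x i, fun k => ⟨h.pxE x i k, h.pxB x i k⟩⟩,
    fun v => h.lef x v, fun v hv => h.supp x v hv⟩

/-- DATA BOUND for the class `SolTo`, uniform over all solutions of the datum. -/
theorem dataBound_solTo (h : IsAdmissibleDatum f₀ E₀ B₀) :
    ∃ A : ℝ, ∀ (T : ℝ), 0 < T → ∀ (f : ℝ → R3 → R3 → ℝ) (E B : ℝ → R3 → R3),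
      SolTo T f₀ E₀ B₀ f E B → DataBd f E B A := by
  obtain ⟨A, hA⟩ := dataBound_to h
  exact ⟨A, fun T hT f E B hs => hA T hT f E B hs.1 hs.2.1 hs.2.2.1 hs.2.2.2⟩

/-- DATA BOUND, uniform over all smooth solutions of an admissible datum. -/
theorem dataBound (h : IsAdmissibleDatum f₀ E₀ B₀) :
    ∃ A : ℝ, ∀ (T : ℝ), 0 < T → ∀ (f : ℝ → R3 → R3 → ℝ) (E B : ℝ → R3 → R3),
      SmoothSol T f₀ E₀ B₀ f E B → DataBd f E B A := by
  obtain ⟨A, hA⟩ := dataBound_to h
  exact ⟨A, fun T hT f E B hs => hA T hT f E B hs.1 hs.2.1.contDiffOn hs.2.2.1.contDiffOn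
    hs.2.2.2.contDiffOn⟩

end init

end Crest.Agent.R106.GSR
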