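/-
R106, module GSR (helper846): from the representation for globally smooth functions (`RepU`) and
the bounds of the data (`DataBd`) to the frozen `Field.GSRep`.
-/
import Crest.Agent.R106.GsrInt
import Crest.Agent.R106.GSRData
import Crest.Agent.R106.SolTo
import Crest.Agent.R106.FieldIface

set_option autoImplicit false

open MeasureTheory Set Filter Topology Metric
open Crest.AnalysisR.VecCalc3 Crest.AnalysisR.PDE.RVM
open scoped InnerProductSpace ContDiff

noncomputable section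

namespace Crest.Agent.R106.GSR

/-- the representation for globally smooth functions, uniform in `T' ≤ T` -/
def RepU : Prop := ∀ A T : ℝ, ∃ C : ℝ, ∀ T' : ℝ, 0 < T' → T' ≤ T →
  ∀ (f : ℝ → R3 → R3 → ℝ) (E B : ℝ → R3 → R3), ContDiff ℝ ∞ (unc f) →
    ContDiff ℝ ∞ (fun q : ℝ × R3 => E q.1 q.2) → ContDiff ℝ ∞ (fun q : ℝ × R3 => B q.1 q.2) →
    (∀ t, 0 < t → t < T' → ∀ x, EquationsHoldAt f E B t x) →
    (∀ S, 0 ≤ S → S < T' → ∃ R, ∀ t ∈ Icc 0 S, ∀ x v : R3,
      (R < ‖x‖ ∨ R < ‖v‖) → f t x v = 0) →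
    DataBd f E B A → ∀ t ∈ Ioo 0 T', ∀ x : R3,
      ‖E t x - (4 * Real.pi)⁻¹ • ∫ q, f (t - ‖x - q.1‖) q.1 q.2 • Field.eK E B t x q.1 q.2
          ∂(Field.coneM x t)‖ ≤ C ∧
      ‖B t x - (4 * Real.pi)⁻¹ • ∫ q, f (t - ‖x - q.1‖) q.1 q.2 •
          cross3 (Field.nn x q.1) (Field.eK E B t x q.1 q.2) ∂(Field.coneM x t)‖ ≤ C

/-- `Field.GSRep` for the class `SolTo` (blow-up at `T` allowed) -/
def GSRepW : Prop :=
  ∀ (T : ℝ), 0 < T → ∀ (f₀ : R3 → R3 → ℝ) (E₀ B₀ : R3 → R3), IsAdmissibleDatum f₀ E₀ B₀ →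
    ∀ (f : ℝ → R3 → R3 → ℝ) (E B : ℝ → R3 → R3), SolTo T f₀ E₀ B₀ f E B →
    ∀ X0 : ℝ, ∃ C : ℝ, ∀ t ∈ Ico 0 T, ∀ x : R3, ‖x‖ ≤ X0 →
      Integrable (fun q : R3 × R3 => f (t - ‖x - q.1‖) q.1 q.2 •
        eT (Field.nn x q.1) q.2 ‖x - q.1‖) (Field.coneM x t) ∧
      Integrable (fun q : R3 × R3 => f (t - ‖x - q.1‖) q.1 q.2 •
        eS (Field.nn x q.1) q.2 (acc q.2 (lor E B (t - ‖x - q.1‖) q.1 q.2)) ‖x - q.1‖)
        (Field.coneM x t) ∧
      ‖E t x - (4 * Real.pi)⁻¹ • ∫ q, f (t - ‖x - q.1‖) q.1 q.2 • Field.eK E B t x q.1 q.2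
          ∂(Field.coneM x t)‖ ≤ C ∧
      ‖B t x - (4 * Real.pi)⁻¹ • ∫ q, f (t - ‖x - q.1‖) q.1 q.2 •
          cross3 (Field.nn x q.1) (Field.eK E B t x q.1 q.2) ∂(Field.coneM x t)‖ ≤ C

theorem gsRep_of_W (h : GSRepW) : Field.GSRep := by
  intro T hT f₀ E₀ B₀ hadm f E B hsol X0
  exact h T hT f₀ E₀ B₀ hadm f E B ⟨hsol.1, hsol.2.1.contDiffOn, hsol.2.2.1.contDiffOn,
    hsol.2.2.2.contDiffOn⟩ X0

/-! ### clamping the time -/

theorem exists_clamp {T' T : ℝ} (h : T' < T) :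
    ∃ κ : ℝ → ℝ, ContDiff ℝ ∞ κ ∧ (∀ t ≤ T', κ t = t) ∧ ∀ t, κ t < T := by
  set δ : ℝ := (T - T') / 2 with hδ
  have hδ0 : 0 < δ := by rw [hδ]; linarith
  refine ⟨fun t => t + Real.smoothTransition ((t - T') / δ) * (T' - t), ?_, ?_, ?_⟩
  · have h1 : ContDiff ℝ ∞ fun t : ℝ => Real.smoothTransition ((t - T') / δ) :=
      Real.smoothTransition.contDiff.comp ((contDiff_id.sub contDiff_const).div_const δ)
    exact contDiff_id.add (h1.mul (contDiff_const.sub contDiff_id))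
  · intro t ht
    have h1 : Real.smoothTransition ((t - T') / δ) = 0 :=
      Real.smoothTransition.zero_of_nonpos (div_nonpos_of_nonpos_of_nonneg (by linarith) hδ0.le)
    simp [h1]
  · intro t
    have h0 := Real.smoothTransition.nonneg ((t - T') / δ)
    have h1 := Real.smoothTransition.le_one ((t - T') / δ)
    rcases le_or_gt t (T' + δ) with h2 | h2
    · rcases le_or_gt t T' with h3 | h3
      · have h4 : Real.smoothTransition ((t - T') / δ) = 0 :=
          Real.smoothTransition.zero_of_nonpos (div_nonpos_of_nonpos_of_nonneg (by linarith) hδ0.le)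
        simp only [h4]
        linarith
      · have : Real.smoothTransition ((t - T') / δ) * (T' - t) ≤ 0 :=
          mul_nonpos_of_nonneg_of_nonpos h0 (by linarith)
        show t + Real.smoothTransition ((t - T') / δ) * (T' - t) < T
        linarith
    · have h4 : Real.smoothTransition ((t - T') / δ) = 1 :=
        Real.smoothTransition.one_of_one_le (by rw [le_div_iff₀ hδ0]; linarith)
      simp only [h4]
      linarith

theorem clamp_field {T : ℝ} {E : ℝ → R3 → R3} {κ : ℝ → ℝ} (hκ : ContDiff ℝ ∞ κ)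
    (hT : ∀ t, κ t < T) (hE : ContDiffOn ℝ ∞ (fun p : ℝ × R3 => E p.1 p.2) (Iio T ×ˢ univ)) :
    ContDiff ℝ ∞ (fun q : ℝ × R3 => E (κ q.1) q.2) := by
  have h := hE.comp_contDiff (f := fun q : ℝ × R3 => (κ q.1, q.2))
    ((hκ.comp contDiff_fst).prodMk contDiff_snd) (fun q => ⟨hT q.1, mem_univ _⟩)
  exact h

theorem clamp_dens {T : ℝ} {f : ℝ → R3 → R3 → ℝ} {κ : ℝ → ℝ} (hκ : ContDiff ℝ ∞ κ)
    (hT : ∀ t, κ t < T)
    (hf : ContDiffOn ℝ ∞ (fun p : ℝ × R3 × R3 => f p.1 p.2.1 p.2.2) (Iio T ×ˢ univ)) :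
    ContDiff ℝ ∞ (unc fun t => f (κ t)) := by
  have h := hf.comp_contDiff (f := fun q : ℝ × R3 × R3 => (κ q.1, q.2))
    ((hκ.comp contDiff_fst).prodMk contDiff_snd) (fun q => ⟨hT q.1, mem_univ _⟩)
  exact h

theorem equations_congr' {f f' : ℝ → R3 → R3 → ℝ} {E B E' B' : ℝ → R3 → R3} {t : ℝ} {x : R3}
    (hf : ∀ᶠ s in 𝓝 t, f' s = f s) (hE : ∀ᶠ s in 𝓝 t, E' s = E s) (hB : ∀ᶠ s in 𝓝 t, B' s = B s)
    (h : EquationsHoldAt f E B t x) : EquationsHoldAt f' E' B' t x := by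
  obtain ⟨h1, h2, h3, h4, h5⟩ := h
  have ef : f' t = f t := hf.self_of_nhds
  have eE : E' t = E t := hE.self_of_nhds
  have eB : B' t = B t := hB.self_of_nhds
  refine ⟨fun v => ?_, fun i => ?_, fun i => ?_, ?_, ?_⟩
  · have hd : deriv (fun s => f' s x v) t = deriv (fun s => f s x v) t := by
      apply Filter.EventuallyEq.deriv_eq
      filter_upwards [hf] with s hs
      rw [hs]
    rw [hd, ef, eE, eB]
    exact h1 v
  · have hd : deriv (fun s => E' s x i) t = deriv (fun s => E s x i) t := by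
      apply Filter.EventuallyEq.deriv_eq
      filter_upwards [hE] with s hs
      rw [hs]
    have hj : currentDensity f' t x i = currentDensity f t x i := by
      simp only [currentDensity, ef]
    rw [hd, hj, eB]
    exact h2 i
  · have hd : deriv (fun s => B' s x i) t = deriv (fun s => B s x i) t := by
      apply Filter.EventuallyEq.deriv_eq
      filter_upwards [hB] with s hs
      rw [hs]
    rw [hd, eE]
    exact h3 i
  · have hr : chargeDensity f' t x = chargeDensity f t x := by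
      simp only [chargeDensity, ef]
    rw [eE, hr]
    exact h4
  · rw [eB]
    exact h5

theorem fderiv_cmp_congr {E E' : ℝ → R3 → R3} {t : ℝ} {x : R3} (i : Fin 3)
    (hE : ∀ᶠ s in 𝓝 t, E' s = E s) :
    fderiv ℝ (cmp E' i) (t, x) = fderiv ℝ (cmp E i) (t, x) := by
  apply Filter.EventuallyEq.fderiv_eq
  have : Tendsto (fun q : ℝ × R3 => q.1) (𝓝 (t, x)) (𝓝 t) := continuous_fst.tendsto _
  filter_upwards [this.eventually hE] with q hq
  show E' q.1 q.2 i = E q.1 q.2 i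
  rw [hq]

theorem dataBd_congr {A : ℝ} {f f' : ℝ → R3 → R3 → ℝ} {E B E' B' : ℝ → R3 → R3}
    (hf : f' 0 = f 0) (hE : ∀ᶠ s in 𝓝 (0 : ℝ), E' s = E s) (hB : ∀ᶠ s in 𝓝 (0 : ℝ), B' s = B s)
    (h : DataBd f E B A) : DataBd f' E' B' A := by
  have eE : E' 0 = E 0 := hE.self_of_nhds
  have eB : B' 0 = B 0 := hB.self_of_nhds
  refine ⟨h.A0, ?_, ?_, ?_, ?_, ?_, ?_, ?_, ?_, ?_⟩
  · rw [eE]; exact h.leE
  · rw [eB]; exact h.leB
  · intro x i; simpa only [pt, fderiv_cmp_congr i hE] using h.ptE x i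
  · intro x i; simpa only [pt, fderiv_cmp_congr i hB] using h.ptB x i
  · intro x i k; simpa only [px, fderiv_cmp_congr i hE] using h.pxE x i k
  · intro x i k; simpa only [px, fderiv_cmp_congr i hB] using h.pxB x i k
  · rw [hf]; exact h.lef
  · rw [hf]; exact h.supp
  · rw [hf]; exact h.suppx

/-! ### the adaptor -/

theorem norm_le_of_coord {a : R3} {A : ℝ} (h : ∀ i, |a i| ≤ A) : ‖a‖ ≤ 3 * A := by
  have hA : 0 ≤ A := (abs_nonneg _).trans (h 0)
  rw [← abs_of_nonneg (norm_nonneg a), ← abs_of_nonneg (by positivity : 0 ≤ 3 * A),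
    ← sq_le_sq, EuclideanSpace.real_norm_sq_eq, Fin.sum_univ_three]
  have h0 := sq_le_sq' (neg_le_of_abs_le (h 0)) (le_of_abs_le (h 0))
  have h1 := sq_le_sq' (neg_le_of_abs_le (h 1)) (le_of_abs_le (h 1))
  have h2 := sq_le_sq' (neg_le_of_abs_le (h 2)) (le_of_abs_le (h 2))
  nlinarith [sq_nonneg A]

theorem coneM_zero (x : R3) : Field.coneM x 0 = 0 := by
  unfold Field.coneM
  rw [ball_zero, Measure.restrict_empty, Measure.zero_prod]

/-- a.e. on the cone the retarded time lies in `(0, t)` -/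
theorem cone_ae (x : R3) (t : ℝ) : ∀ᵐ q ∂(Field.coneM x t), t - ‖x - q.1‖ ≤ t ∧ 0 < t - ‖x - q.1‖ := by
  have h : Field.coneM x t = (volume : Measure (R3 × R3)).restrict (ball x t ×ˢ univ) := by
    calc Field.coneM x t
        = ((volume : Measure R3).restrict (ball x t)).prod ((volume : Measure R3).restrict univ) := by
          rw [Measure.restrict_univ]; rfl
      _ = ((volume : Measure R3).prod (volume : Measure R3)).restrict (ball x t ×ˢ univ) :=
          Measure.prod_restrict _ _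
      _ = (volume : Measure (R3 × R3)).restrict (ball x t ×ˢ univ) := rfl
  rw [h]
  filter_upwards [ae_restrict_mem (measurableSet_ball.prod MeasurableSet.univ)] with q hq
  have h1 := hq.1
  rw [mem_ball, dist_comm, dist_eq_norm] at h1
  exact ⟨by linarith [norm_nonneg (x - q.1)], by linarith⟩

theorem gsRepW (hrep : RepU) : GSRepW := by
  intro T hT f₀ E₀ B₀ hadm f E B hsol X0
  obtain ⟨A, hA⟩ := dataBound_to hadm
  have hdA := hA T hT f E B hsol.sol hsol.hf hsol.hE hsol.hB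
  obtain ⟨C, hC⟩ := hrep A T
  refine ⟨max C (3 * A), fun t ht x _ => ?_⟩
  -- choose `T'`
  obtain ⟨S, htS, hST⟩ := exists_between ht.2
  obtain ⟨κ, hκ, hκ1, hκ2⟩ := exists_clamp hST
  have hS0 : 0 < S := ht.1.trans_lt htS
  have hcl : ∀ {α : Type} (g : ℝ → α), ∀ s < S, ∀ᶠ r in 𝓝 s, (fun t => g (κ t)) r = g r := by
    intro α g s hs
    filter_upwards [Iio_mem_nhds hs] with r hr
    show g (κ r) = g r
    rw [hκ1 r (le_of_lt hr)]
  have hf' := clamp_dens hκ hκ2 hsol.2.1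
  have hE' := clamp_field hκ hκ2 hsol.2.2.1
  have hB' := clamp_field hκ hκ2 hsol.2.2.2
  obtain ⟨P, hP⟩ := hsol.supp hS0.le hST
  have hsup : ∀ s ∈ Icc 0 t, ∀ y p : R3, P < ‖p‖ → (fun t => f (κ t)) s y p = 0 := by
    intro s hs y p hp
    show f (κ s) y p = 0
    rw [hκ1 s (hs.2.trans htS.le)]
    exact hP s ⟨hs.1, hs.2.trans htS.le⟩ y p (Or.inr hp)
  have hae := cone_ae x t
  have i1 : Integrable (fun q : R3 × R3 => f (t - ‖x - q.1‖) q.1 q.2 •
        eT (Field.nn x q.1) q.2 ‖x - q.1‖) (Field.coneM x t) := by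
    refine (integrable_eT hf'.continuous hsup x).congr ?_
    filter_upwards [hae] with q hq
    show f (κ (t - ‖x - q.1‖)) q.1 q.2 • eT (nv x q.1) q.2 ‖x - q.1‖ = _
    rw [hκ1 _ (hq.1.trans htS.le)]
    rfl
  have i2 : Integrable (fun q : R3 × R3 => f (t - ‖x - q.1‖) q.1 q.2 •
        eS (Field.nn x q.1) q.2 (acc q.2 (lor E B (t - ‖x - q.1‖) q.1 q.2)) ‖x - q.1‖)
        (Field.coneM x t) := by
    refine (integrable_eS hf'.continuous hE'.continuous hB'.continuous hsup x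
      (E := fun t => E (κ t)) (B := fun t => B (κ t))).congr ?_
    filter_upwards [hae] with q hq
    simp only [lor]
    rw [hκ1 _ (hq.1.trans htS.le)]
    rfl
  refine ⟨i1, i2, ?_⟩
  rcases eq_or_lt_of_le ht.1 with h0 | h0
  · rw [← h0, coneM_zero]
    simp only [integral_zero_measure, smul_zero, sub_zero]
    exact ⟨(norm_le_of_coord fun i => hdA.leE x i).trans (le_max_right _ _),
      (norm_le_of_coord fun i => hdA.leB x i).trans (le_max_right _ _)⟩
  · have key := hC S hS0 hST.le (fun t => f (κ t)) (fun t => E (κ t)) (fun t => B (κ t)) hf' hE' hB'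
      (fun s hs0 hs1 y => equations_congr' (hcl f s hs1) (hcl E s hs1) (hcl B s hs1)
        (hsol.eqs hs0 (hs1.trans hST) y))
      (fun S' h1 h2 => ⟨P, fun s hs y v hv => by
        show f (κ s) y v = 0
        rw [hκ1 s (hs.2.trans h2.le)]
        exact hP s ⟨hs.1, hs.2.trans h2.le⟩ y v hv⟩)
      (dataBd_congr (by show f (κ 0) = f 0; rw [hκ1 0 hS0.le]) (hcl E 0 hS0) (hcl B 0 hS0) hdA)
      t ⟨h0, htS⟩ x
    have e1 : κ t = t := hκ1 t htS.le
    have e2 : ∀ q : R3 × R3, t - ‖x - q.1‖ ≤ t →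
        Field.eK (fun t => E (κ t)) (fun t => B (κ t)) t x q.1 q.2 = Field.eK E B t x q.1 q.2 := by
      intro q hq
      simp only [Field.eK, lor]
      rw [hκ1 _ (hq.trans htS.le)]
    have e3 : ∀ q : R3 × R3, t - ‖x - q.1‖ ≤ t →
        f (κ (t - ‖x - q.1‖)) q.1 q.2 = f (t - ‖x - q.1‖) q.1 q.2 := by
      intro q hq
      rw [hκ1 _ (hq.trans htS.le)]
    have e4 : ∫ q, f (κ (t - ‖x - q.1‖)) q.1 q.2 •
          Field.eK (fun t => E (κ t)) (fun t => B (κ t)) t x q.1 q.2 ∂(Field.coneM x t)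
        = ∫ q, f (t - ‖x - q.1‖) q.1 q.2 • Field.eK E B t x q.1 q.2 ∂(Field.coneM x t) := by
      refine integral_congr_ae ?_
      filter_upwards [hae] with q hq
      rw [e2 q hq.1, e3 q hq.1]
    have e5 : ∫ q, f (κ (t - ‖x - q.1‖)) q.1 q.2 • cross3 (Field.nn x q.1)
          (Field.eK (fun t => E (κ t)) (fun t => B (κ t)) t x q.1 q.2) ∂(Field.coneM x t)
        = ∫ q, f (t - ‖x - q.1‖) q.1 q.2 • cross3 (Field.nn x q.1)
          (Field.eK E B t x q.1 q.2) ∂(Field.coneM x t) := by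
      refine integral_congr_ae ?_
      filter_upwards [hae] with q hq
      rw [e2 q hq.1, e3 q hq.1]
    simp only [e1] at key
    rw [e4, e5] at key
    exact ⟨key.1.trans (le_max_left _ _), key.2.trans (le_max_left _ _)⟩

theorem gsRep (hrep : RepU) : Field.GSRep := gsRep_of_W (gsRepW hrep)

end Crest.Agent.R106.GSR
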