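import Crest.Agent.R106.FtRep
import Crest.Agent.R106.GsrFin

/-! Row 106 (helper374): `FtP` for the class `SolTo` from `GSR.GSRepW` (and from `GSR.RepU`). -/

set_option autoImplicit false

open MeasureTheory Set Filter Topology Metric
open Crest.AnalysisR.VecCalc3 Crest.AnalysisR.PDE.RVM
open scoped ContDiff

namespace Crest.Agent.R106.FtRep

theorem ftP_of_repW (hrep : GSR.GSRepW) {T : ℝ} (hT : 0 < T)
    {f₀ : R3 → R3 → ℝ} {E₀ B₀ : R3 → R3} (hadm : IsAdmissibleDatum f₀ E₀ B₀)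
    {f : ℝ → R3 → R3 → ℝ} {E B : ℝ → R3 → R3} (hsol : SolTo T f₀ E₀ B₀ f E B)
    (hpos : ∀ t ∈ Ico 0 T, ∀ x v, 0 ≤ f t x v) : Mom.FtP T f E B := by
  refine ftP_of hT hsol.hf.continuousOn ?_ hpos
    (hrep T hT f₀ E₀ B₀ hadm f E B hsol)
  obtain ⟨-, -, -, -, -, -, -, hs, -⟩ := hsol.1
  exact hs

theorem ftP_of_repU (hrep : GSR.RepU) {T : ℝ} (hT : 0 < T)
    {f₀ : R3 → R3 → ℝ} {E₀ B₀ : R3 → R3} (hadm : IsAdmissibleDatum f₀ E₀ B₀)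
    {f : ℝ → R3 → R3 → ℝ} {E B : ℝ → R3 → R3} (hsol : SolTo T f₀ E₀ B₀ f E B)
    (hpos : ∀ t ∈ Ico 0 T, ∀ x v, 0 ≤ f t x v) : Mom.FtP T f E B :=
  ftP_of_repW (GSR.gsRepW hrep) hT hadm hsol hpos

end Crest.Agent.R106.FtRep
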