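import Mathlib
import Crest.Prelude.Def_VecCalc3
import Crest.Prelude.Def_VlasovMaxwell
import Crest.Agent.R106.Main0

/-!
Row 106 (S0140), node GLUE: `glue : Uniq → TruncEx → MomBound → Goal` (interface `R106.Main0`).
-/

set_option autoImplicit false
open MeasureTheory Set Filter
open scoped ContDiff Topology
open Crest.AnalysisR.VecCalc3 Crest.AnalysisR.PDE.RVM

namespace Crest.Agent.R106.Glue

/-- The triple is smooth on `[0, T)` (one-sided at `0`). -/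
def SmoothOn (T : ℝ) (f : ℝ → R3 → R3 → ℝ) (E B : ℝ → R3 → R3) : Prop :=
  ContDiffOn ℝ ∞ (fun p : ℝ × R3 × R3 => f p.1 p.2.1 p.2.2) (Set.Ico 0 T ×ˢ Set.univ) ∧
  ContDiffOn ℝ ∞ (fun p : ℝ × R3 => E p.1 p.2) (Set.Ico 0 T ×ˢ Set.univ) ∧
  ContDiffOn ℝ ∞ (fun p : ℝ × R3 => B p.1 p.2) (Set.Ico 0 T ×ˢ Set.univ)

variable {T T' : ℝ} {f₀ : R3 → R3 → ℝ} {E₀ B₀ : R3 → R3}
  {f f' : ℝ → R3 → R3 → ℝ} {E B E' B' : ℝ → R3 → R3}

theorem SmoothOn.mono (h : SmoothOn T f E B) (hT : T' ≤ T) : SmoothOn T' f E B := by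
  obtain ⟨h1, h2, h3⟩ := h
  exact ⟨h1.mono (prod_mono (Ico_subset_Ico_right hT) le_rfl),
    h2.mono (prod_mono (Ico_subset_Ico_right hT) le_rfl),
    h3.mono (prod_mono (Ico_subset_Ico_right hT) le_rfl)⟩

/-- Restriction of a classical solution to a shorter time interval. -/
theorem classical_mono (h : IsClassicalSolutionOn T f₀ E₀ B₀ f E B) (hT : T' ≤ T) :
    IsClassicalSolutionOn T' f₀ E₀ B₀ f E B := by
  obtain ⟨h1, h2, h3, h4, h5, h6, h7, h8, h9⟩ := h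
  refine ⟨h1.mono (prod_mono (Ico_subset_Ico_right hT) le_rfl),
    h2.mono (prod_mono (Ico_subset_Ico_right hT) le_rfl),
    h3.mono (prod_mono (Ico_subset_Ico_right hT) le_rfl), h4, h5, h6,
    fun t ht0 htT => h7 t ht0 (htT.trans_le hT), fun s hs0 hsT => h8 s hs0 (hsT.trans_le hT),
    fun t ht => ?_⟩
  obtain ⟨a, b, c, d⟩ := h9 t (Ico_subset_Ico_right hT ht)
  exact ⟨a, b, c.mono_left (nhdsWithin_mono _ (Ico_subset_Ico_right hT)),
    d.mono_left (nhdsWithin_mono _ (Ico_subset_Ico_right hT))⟩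

/-- A triple which coincides on `[0, T)` with a classical solution is a classical solution. -/
theorem classical_congr (h : IsClassicalSolutionOn T f₀ E₀ B₀ f E B) (hT : 0 < T)
    (hf : ∀ t ∈ Ico 0 T, f' t = f t) (hE : ∀ t ∈ Ico 0 T, E' t = E t)
    (hB : ∀ t ∈ Ico 0 T, B' t = B t) : IsClassicalSolutionOn T f₀ E₀ B₀ f' E' B' := by
  obtain ⟨h1, h2, h3, h4, h5, h6, h7, h8, h9⟩ := h
  have h0 : (0 : ℝ) ∈ Ico (0 : ℝ) T := ⟨le_rfl, hT⟩
  refine ⟨h1.congr fun p hp => ?_, h2.congr fun p hp => ?_, h3.congr fun p hp => ?_,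
    (hf 0 h0).trans h4, (hE 0 h0).trans h5, (hB 0 h0).trans h6, ?_, ?_, ?_⟩
  · simp only [hf p.1 hp.1]
  · simp only [hE p.1 hp.1]
  · simp only [hB p.1 hp.1]
  · intro t ht0 htT x
    obtain ⟨e1, e2, e3, e4, e5⟩ := h7 t ht0 htT x
    have htm : t ∈ Ico 0 T := ⟨ht0.le, htT⟩
    have hnh : Ico 0 T ∈ 𝓝 t := Ico_mem_nhds ht0 htT
    have hfe : ∀ᶠ s in 𝓝 t, f' s = f s := by
      filter_upwards [hnh] with s hs using hf s hs
    have hEe : ∀ᶠ s in 𝓝 t, E' s = E s := by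
      filter_upwards [hnh] with s hs using hE s hs
    have hBe : ∀ᶠ s in 𝓝 t, B' s = B s := by
      filter_upwards [hnh] with s hs using hB s hs
    refine ⟨fun v => ?_, fun i => ?_, fun i => ?_, ?_, ?_⟩
    · have := e1 v
      rw [hf t htm, hE t htm, hB t htm]
      rw [show deriv (fun s => f' s x v) t = deriv (fun s => f s x v) t from
        Filter.EventuallyEq.deriv_eq (by filter_upwards [hfe] with s hs; rw [hs])]
      exact this
    · have := e2 i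
      unfold currentDensity at this ⊢
      rw [hf t htm, hB t htm]
      rw [show deriv (fun s => E' s x i) t = deriv (fun s => E s x i) t from
        Filter.EventuallyEq.deriv_eq (by filter_upwards [hEe] with s hs; rw [hs])]
      exact this
    · have := e3 i
      rw [hE t htm]
      rw [show deriv (fun s => B' s x i) t = deriv (fun s => B s x i) t from
        Filter.EventuallyEq.deriv_eq (by filter_upwards [hBe] with s hs; rw [hs])]
      exact this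
    · unfold chargeDensity at e4 ⊢
      rw [hf t htm, hE t htm]
      exact e4
    · rw [hB t htm]
      exact e5
  · intro s hs0 hsT
    obtain ⟨R, hR⟩ := h8 s hs0 hsT
    refine ⟨R, fun t ht x v hxv => ?_⟩
    rw [hf t ⟨ht.1, ht.2.trans_lt hsT⟩]
    exact hR t ht x v hxv
  · intro t ht
    obtain ⟨a, b, c, d⟩ := h9 t ht
    rw [hE t ht, hB t ht]
    refine ⟨a, b, c.congr' ?_, d.congr' ?_⟩
    · filter_upwards [self_mem_nhdsWithin] with s hs
      rw [hE s hs]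
    · filter_upwards [self_mem_nhdsWithin] with s hs
      rw [hB s hs]

/-- Gluing: smooth classical solutions on every `[0, T)` and uniqueness give a global one. -/
theorem glue_of_exists
    (hex : ∀ T : ℝ, 0 < T → ∃ f : ℝ → R3 → R3 → ℝ, ∃ E B : ℝ → R3 → R3,
      IsClassicalSolutionOn T f₀ E₀ B₀ f E B ∧ SmoothOn T f E B)
    (huniq : ∀ (T : ℝ) (f : ℝ → R3 → R3 → ℝ) (E B : ℝ → R3 → R3)
      (f' : ℝ → R3 → R3 → ℝ) (E' B' : ℝ → R3 → R3),
      IsClassicalSolutionOn T f₀ E₀ B₀ f E B → IsClassicalSolutionOn T f₀ E₀ B₀ f' E' B' →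
      ∀ t ∈ Ico 0 T, f' t = f t ∧ E' t = E t ∧ B' t = B t) :
    ∃ f : ℝ → R3 → R3 → ℝ, ∃ E B : ℝ → R3 → R3,
      (∀ T : ℝ, 0 < T → IsClassicalSolutionOn T f₀ E₀ B₀ f E B) ∧
      ContDiffOn ℝ ∞ (fun p : ℝ × R3 × R3 => f p.1 p.2.1 p.2.2) (Set.Ici 0 ×ˢ Set.univ) ∧
      ContDiffOn ℝ ∞ (fun p : ℝ × R3 => E p.1 p.2) (Set.Ici 0 ×ˢ Set.univ) ∧
      ContDiffOn ℝ ∞ (fun p : ℝ × R3 => B p.1 p.2) (Set.Ici 0 ×ˢ Set.univ) ∧
      ∀ T : ℝ, 0 < T → ∀ (f' : ℝ → R3 → R3 → ℝ) (E' B' : ℝ → R3 → R3),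
        IsClassicalSolutionOn T f₀ E₀ B₀ f' E' B' →
        ∀ t ∈ Set.Ico 0 T, f' t = f t ∧ E' t = E t ∧ B' t = B t := by
  have hpos : ∀ n : ℕ, (0 : ℝ) < (n : ℝ) + 1 := fun n => by positivity
  choose F EE BB hcl hsm using fun n : ℕ => hex ((n : ℝ) + 1) (hpos n)
  -- compatibility
  have hcomp : ∀ (m : ℕ) (t : ℝ), t ∈ Ico (0 : ℝ) ((m : ℝ) + 1) →
      F ⌊t⌋₊ t = F m t ∧ EE ⌊t⌋₊ t = EE m t ∧ BB ⌊t⌋₊ t = BB m t := by
    intro m t ht
    have h1 : t < (⌊t⌋₊ : ℝ) + 1 := Nat.lt_floor_add_one t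
    have h2 : (⌊t⌋₊ : ℝ) ≤ m := by
      have : ⌊t⌋₊ < m + 1 := by
        rw [Nat.floor_lt ht.1]; push_cast; exact ht.2
      exact_mod_cast Nat.lt_succ_iff.mp this
    have h3 := classical_mono (hcl m) (by linarith : (⌊t⌋₊ : ℝ) + 1 ≤ (m : ℝ) + 1)
    exact huniq _ _ _ _ _ _ _ h3 (hcl ⌊t⌋₊) t ⟨ht.1, h1⟩
  have hglob : ∀ T : ℝ, 0 < T → IsClassicalSolutionOn T f₀ E₀ B₀
      (fun t => F ⌊t⌋₊ t) (fun t => EE ⌊t⌋₊ t) (fun t => BB ⌊t⌋₊ t) := by
    intro T hT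
    obtain ⟨m, hm⟩ := exists_nat_ge T
    refine classical_mono (T := (m : ℝ) + 1) ?_ (by linarith)
    exact classical_congr (hcl m) (hpos m) (fun t ht => (hcomp m t ht).1)
      (fun t ht => (hcomp m t ht).2.1) (fun t ht => (hcomp m t ht).2.2)
  refine ⟨fun t => F ⌊t⌋₊ t, fun t => EE ⌊t⌋₊ t, fun t => BB ⌊t⌋₊ t, hglob, ?_, ?_, ?_, ?_⟩
  · intro p hp
    have hp0 : 0 ≤ p.1 := hp.1
    set m : ℕ := ⌊p.1⌋₊ with hm
    have hlt : p.1 < (m : ℝ) + 1 := Nat.lt_floor_add_one _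
    have h1 := (hsm m).1 p ⟨⟨hp0, hlt⟩, mem_univ _⟩
    have h2 : ContDiffWithinAt ℝ ∞ (fun p : ℝ × R3 × R3 => F ⌊p.1⌋₊ p.1 p.2.1 p.2.2)
        (Ico 0 ((m : ℝ) + 1) ×ˢ univ) p := by
      refine h1.congr (fun q hq => ?_) ?_
      · rw [(hcomp m q.1 hq.1).1]
      · rw [(hcomp m p.1 ⟨hp0, hlt⟩).1]
    refine h2.mono_of_mem_nhdsWithin ?_
    have : (Ici (0 : ℝ) ×ˢ (univ : Set (R3 × R3))) ∩ {q | q.1 < (m : ℝ) + 1} ⊆
        Ico 0 ((m : ℝ) + 1) ×ˢ univ := fun q hq => ⟨⟨hq.1.1, hq.2⟩, mem_univ _⟩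
    refine mem_of_superset (inter_mem self_mem_nhdsWithin (mem_nhdsWithin_of_mem_nhds ?_)) this
    exact (isOpen_lt continuous_fst continuous_const).mem_nhds hlt
  · intro p hp
    have hp0 : 0 ≤ p.1 := hp.1
    set m : ℕ := ⌊p.1⌋₊ with hm
    have hlt : p.1 < (m : ℝ) + 1 := Nat.lt_floor_add_one _
    have h1 := (hsm m).2.1 p ⟨⟨hp0, hlt⟩, mem_univ _⟩
    have h2 : ContDiffWithinAt ℝ ∞ (fun p : ℝ × R3 => EE ⌊p.1⌋₊ p.1 p.2)
        (Ico 0 ((m : ℝ) + 1) ×ˢ univ) p := by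
      refine h1.congr (fun q hq => ?_) ?_
      · rw [(hcomp m q.1 hq.1).2.1]
      · rw [(hcomp m p.1 ⟨hp0, hlt⟩).2.1]
    refine h2.mono_of_mem_nhdsWithin ?_
    have : (Ici (0 : ℝ) ×ˢ (univ : Set R3)) ∩ {q | q.1 < (m : ℝ) + 1} ⊆
        Ico 0 ((m : ℝ) + 1) ×ˢ univ := fun q hq => ⟨⟨hq.1.1, hq.2⟩, mem_univ _⟩
    refine mem_of_superset (inter_mem self_mem_nhdsWithin (mem_nhdsWithin_of_mem_nhds ?_)) this
    exact (isOpen_lt continuous_fst continuous_const).mem_nhds hlt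
  · intro p hp
    have hp0 : 0 ≤ p.1 := hp.1
    set m : ℕ := ⌊p.1⌋₊ with hm
    have hlt : p.1 < (m : ℝ) + 1 := Nat.lt_floor_add_one _
    have h1 := (hsm m).2.2 p ⟨⟨hp0, hlt⟩, mem_univ _⟩
    have h2 : ContDiffWithinAt ℝ ∞ (fun p : ℝ × R3 => BB ⌊p.1⌋₊ p.1 p.2)
        (Ico 0 ((m : ℝ) + 1) ×ˢ univ) p := by
      refine h1.congr (fun q hq => ?_) ?_
      · rw [(hcomp m q.1 hq.1).2.2]
      · rw [(hcomp m p.1 ⟨hp0, hlt⟩).2.2]
    refine h2.mono_of_mem_nhdsWithin ?_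
    have : (Ici (0 : ℝ) ×ˢ (univ : Set R3)) ∩ {q | q.1 < (m : ℝ) + 1} ⊆
        Ico 0 ((m : ℝ) + 1) ×ˢ univ := fun q hq => ⟨⟨hq.1.1, hq.2⟩, mem_univ _⟩
    refine mem_of_superset (inter_mem self_mem_nhdsWithin (mem_nhdsWithin_of_mem_nhds ?_)) this
    exact (isOpen_lt continuous_fst continuous_const).mem_nhds hlt
  · intro T hT f' E' B' h' t ht
    exact huniq T _ _ _ _ _ _ (hglob T hT) h' t ht

/-- The clauses of `TruncEx` for one triple give a classical solution as long as the momentum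
support stays in the ball of radius `P`. -/
theorem classical_of_trunc {P : ℝ} (hf : ContDiff ℝ ∞ (fun p : ℝ × R3 × R3 => f p.1 p.2.1 p.2.2))
    (hE : ContDiff ℝ ∞ (fun p : ℝ × R3 => E p.1 p.2))
    (hB : ContDiff ℝ ∞ (fun p : ℝ × R3 => B p.1 p.2))
    (hf0 : f 0 = f₀) (hE0 : E 0 = E₀) (hB0 : B 0 = B₀)
    (heq : ∀ t : ℝ, 0 < t → (∀ x v : R3, P < ‖v‖ → f t x v = 0) →
        ∀ x : R3, EquationsHoldAt f E B t x)
    (hsupp : ∀ T : ℝ, ∃ R : ℝ, ∀ t ∈ Icc 0 T, ∀ x v : R3, (R < ‖x‖ ∨ R < ‖v‖) → f t x v = 0)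
    (hL2 : ∀ T : ℝ, ∀ t ∈ Ico 0 T, MemLp (E t) 2 ∧ MemLp (B t) 2 ∧
        Filter.Tendsto (fun s => eLpNorm (E s - E t) 2 volume) (nhdsWithin t (Ico 0 T)) (nhds 0) ∧
        Filter.Tendsto (fun s => eLpNorm (B s - B t) 2 volume) (nhdsWithin t (Ico 0 T)) (nhds 0))
    (hP : ∀ t ∈ Ico 0 T', ∀ x v : R3, P < ‖v‖ → f t x v = 0) :
    SmoothSol T' f₀ E₀ B₀ f E B := by
  refine ⟨⟨(hf.of_le (by exact_mod_cast le_top)).contDiffOn,
    (hE.of_le (by exact_mod_cast le_top)).contDiffOn,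
    (hB.of_le (by exact_mod_cast le_top)).contDiffOn, hf0, hE0, hB0, ?_,
    fun s _ _ => hsupp s, hL2 T'⟩, hf, hE, hB⟩
  intro t ht0 htT x
  exact heq t ht0 (hP t ⟨ht0.le, htT⟩) x

/-- Momentum bound + truncated solutions give smooth classical solutions on `[0, T)`. -/
theorem exists_smoothSol (hTr : TruncEx) (hMB : MomBound) (hadm : IsAdmissibleDatum f₀ E₀ B₀)
    (hT : 0 < T) : ∃ f : ℝ → R3 → R3 → ℝ, ∃ E B : ℝ → R3 → R3,
      SmoothSol T f₀ E₀ B₀ f E B := by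
  -- momentum support of the datum
  obtain ⟨P₀, hP₀⟩ : ∃ P₀ : ℝ, ∀ x v : R3, P₀ < ‖v‖ → f₀ x v = 0 := by
    obtain ⟨R, hR⟩ := (hadm.2.2.1.isCompact).isBounded.exists_norm_le
    refine ⟨R, fun x v hv => ?_⟩
    by_contra hne
    have h1 : (x, v) ∈ tsupport (Function.uncurry f₀) := subset_tsupport _ hne
    have h2 : ‖v‖ ≤ R := (norm_snd_le (x, v)).trans (hR _ h1)
    linarith
  obtain ⟨M, hM⟩ := hMB T hT f₀ E₀ B₀ hadm
  set M' : ℝ := max (max M P₀) 0 with hM'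
  have hMM' : M ≤ M' := (le_max_left _ _).trans (le_max_left _ _)
  have hPM' : P₀ ≤ M' := (le_max_right _ _).trans (le_max_left _ _)
  have hM'0 : 0 ≤ M' := le_max_right _ _
  obtain ⟨f, E, B, hf, hE, hB, hf0, hE0, hB0, heq, hsupp, hL2, hgr⟩ :=
    hTr f₀ E₀ B₀ hadm (M' + 1) (by linarith)
  obtain ⟨L₀, hL₀⟩ := hgr T
  set L : ℝ := max L₀ 1 with hL
  have hLpos : 0 < L := lt_of_lt_of_le one_pos (le_max_right _ _)
  have hgrow : ∀ t t' : ℝ, 0 ≤ t → t ≤ t' → t' ≤ T → ∀ m : ℝ,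
      (∀ x v : R3, m < ‖v‖ → f t x v = 0) →
      ∀ x v : R3, m + L * (t' - t) < ‖v‖ → f t' x v = 0 := by
    intro t t' h0 h1 h2 m hm x v hv
    refine hL₀ t t' m h0 h1 h2 hm x v (lt_of_le_of_lt ?_ hv)
    have : L₀ * (t' - t) ≤ L * (t' - t) :=
      mul_le_mul_of_nonneg_right (le_max_left _ _) (sub_nonneg.mpr h1)
    linarith
  set δ : ℝ := 1 / L with hδ
  have hδpos : 0 < δ := by positivity
  have hLδ : L * δ = 1 := by rw [hδ]; field_simp
  have key : ∀ n : ℕ, ∀ t ∈ Ico 0 T, t ≤ n * δ → ∀ x v : R3, M' < ‖v‖ → f t x v = 0 := by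
    intro n
    induction n with
    | zero =>
      intro t ht htn x v hv
      have : t = 0 := le_antisymm (by simpa using htn) ht.1
      subst this
      rw [hf0]
      exact hP₀ x v (lt_of_le_of_lt hPM' hv)
    | succ n ih =>
      have hsup : ∀ t ∈ Ico 0 T, t ≤ (n + 1 : ℕ) * δ → ∀ x v : R3, M' + 1 < ‖v‖ →
          f t x v = 0 := by
        intro t ht htn x v hv
        by_cases hc : t ≤ n * δ
        · exact ih t ht hc x v (by linarith)
        · push Not at hc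
          have hn0 : (0 : ℝ) ≤ n * δ := by positivity
          refine hgrow (n * δ) t hn0 hc.le ht.2.le M'
            (fun x v hv => ih (n * δ) ⟨hn0, hc.trans ht.2⟩ le_rfl x v hv) x v ?_
          have h1 : t - n * δ ≤ δ := by
            push_cast at htn; linarith
          have h2 : L * (t - n * δ) ≤ L * δ := mul_le_mul_of_nonneg_left h1 hLpos.le
          rw [hLδ] at h2
          linarith
      set T₁ : ℝ := min T ((n + 1 : ℕ) * δ) with hT₁
      have hT₁pos : 0 < T₁ := lt_min hT (by positivity)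
      have hcl : SmoothSol T₁ f₀ E₀ B₀ f E B := by
        refine classical_of_trunc (P := M' + 1) hf hE hB hf0 hE0 hB0 heq hsupp hL2
          fun t ht x v hv => ?_
        exact hsup t ⟨ht.1, ht.2.trans_le (min_le_left _ _)⟩
          (ht.2.le.trans (min_le_right _ _)) x v hv
      have hmb := hM T₁ hT₁pos (min_le_left _ _) f E B hcl
      intro t ht htn x v hv
      have hMv : M < ‖v‖ := lt_of_le_of_lt hMM' hv
      rcases lt_or_eq_of_le htn with hlt | heq'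
      · exact hmb t ⟨ht.1, lt_min ht.2 hlt⟩ x v hMv
      · have htpos : 0 < t := by rw [heq']; positivity
        have hcont : Continuous (fun s : ℝ => f s x v) :=
          hf.continuous.comp (by fun_prop : Continuous (fun s : ℝ => ((s, x, v) : ℝ × R3 × R3)))
        have hc2 : Tendsto (fun s : ℝ => f s x v) (𝓝[Ioo 0 t] t) (𝓝 (f t x v)) :=
          hcont.continuousAt.mono_left nhdsWithin_le_nhds
        have : (𝓝[Ioo 0 t] t).NeBot := by
          rw [← mem_closure_iff_nhdsWithin_neBot, closure_Ioo htpos.ne]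
          exact ⟨htpos.le, le_rfl⟩
        have hz : Tendsto (fun s : ℝ => f s x v) (𝓝[Ioo 0 t] t) (𝓝 0) := by
          refine tendsto_const_nhds.congr' ?_
          filter_upwards [self_mem_nhdsWithin] with s hs
          refine (hmb s ⟨hs.1.le, lt_min (hs.2.trans ht.2) ?_⟩ x v hMv).symm
          rw [← heq']; exact hs.2
        exact tendsto_nhds_unique hc2 hz
  refine ⟨f, E, B, classical_of_trunc (P := M' + 1) hf hE hB hf0 hE0 hB0 heq hsupp hL2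
    fun t ht x v hv => ?_⟩
  obtain ⟨n, hn⟩ := exists_nat_ge (t / δ)
  exact key n t ht (by rwa [div_le_iff₀ hδpos] at hn) x v (by linarith)

end Crest.Agent.R106.Glue

namespace Crest.Agent.R106

/-- Node GLUE. -/
theorem glue (hU : Uniq) (hTr : TruncEx) (hMB : MomBound) : Goal := by
  intro f₀ E₀ B₀ hadm
  refine Glue.glue_of_exists (fun T hT => ?_) (fun T f E B f' E' B' h h' => ?_)
  · obtain ⟨f, E, B, h, h1, h2, h3⟩ := Glue.exists_smoothSol hTr hMB hadm hT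
    exact ⟨f, E, B, h, h1.contDiffOn, h2.contDiffOn, h3.contDiffOn⟩
  · exact hU T f₀ E₀ B₀ f E B f' E' B' h h'

end Crest.Agent.R106
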