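import Mathlib
import Crest.Prelude.Def_VecCalc3
import Crest.Prelude.Def_VlasovMaxwell
import Crest.Agent.R106.Main0
import Crest.Agent.R106.SolTo
import Crest.Agent.R106.Glue

/-!
Row 106 (S0140): second form of node GLUE, for a momentum bound PER SOLUTION:
`glue1 : Uniq → TruncEx → MomBound1 → Goal` (helper913).
The solution given to `MomBound1` is `C^∞` on the open set `(-∞, T) × ..`.
-/

set_option autoImplicit false
open MeasureTheory Set Filter
open scoped ContDiff Topology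
open Crest.AnalysisR.VecCalc3 Crest.AnalysisR.PDE.RVM

namespace Crest.Agent.R106

namespace Glue1

open Glue

variable {T T' : ℝ} {f₀ : R3 → R3 → ℝ} {E₀ B₀ : R3 → R3}
  {f f' : ℝ → R3 → R3 → ℝ} {E B E' B' : ℝ → R3 → R3}

theorem solTo_mono (h : SolTo T f₀ E₀ B₀ f E B) (hT : T' ≤ T) : SolTo T' f₀ E₀ B₀ f E B :=
  ⟨classical_mono h.1 hT, h.2.1.mono (prod_mono (Iio_subset_Iio hT) le_rfl),
    h.2.2.1.mono (prod_mono (Iio_subset_Iio hT) le_rfl),
    h.2.2.2.mono (prod_mono (Iio_subset_Iio hT) le_rfl)⟩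

/-- smoothness of a glued function -/
theorem glue_smooth {X V Y : Type*} [NormedAddCommGroup X] [NormedSpace ℝ X]
    [NormedAddCommGroup V] [NormedSpace ℝ V] (ev : Y → X → V) {g : ℝ → Y} {G : ℕ → ℝ → Y}
    {Tn : ℕ → ℝ} {Ts : ℝ} (hpos : 0 < Tn 0) (hcov : ∀ t < Ts, ∃ n, t < Tn n)
    (hsm : ∀ n, ContDiffOn ℝ ∞ (fun p : ℝ × X => ev (G n p.1) p.2) (Iio (Tn n) ×ˢ univ))
    (hA : ∀ n, ∀ t ∈ Ico 0 (Tn n), g t = G n t) (hneg : ∀ t < 0, g t = G 0 t) :
    ContDiffOn ℝ ∞ (fun p : ℝ × X => ev (g p.1) p.2) (Iio Ts ×ˢ univ) := by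
  intro p hp
  apply ContDiffAt.contDiffWithinAt
  have key : ∀ (n : ℕ) (U : Set ℝ), IsOpen U → p.1 ∈ U → U ⊆ Iio (Tn n) →
      (∀ t ∈ U, g t = G n t) → ContDiffAt ℝ ∞ (fun p : ℝ × X => ev (g p.1) p.2) p := by
    intro n U hU hpU hUT hg
    have h1 : ContDiffAt ℝ ∞ (fun p : ℝ × X => ev (G n p.1) p.2) p :=
      (hsm n).contDiffAt ((isOpen_Iio.prod isOpen_univ).mem_nhds ⟨hUT hpU, mem_univ _⟩)
    refine h1.congr_of_eventuallyEq ?_
    filter_upwards [(hU.prod isOpen_univ).mem_nhds ⟨hpU, mem_univ _⟩] with q hq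
    rw [hg q.1 hq.1]
  by_cases h0 : p.1 < Tn 0
  · refine key 0 (Iio (Tn 0)) isOpen_Iio h0 le_rfl (fun t ht => ?_)
    rcases lt_or_ge t 0 with h | h
    · exact hneg t h
    · exact hA 0 t ⟨h, ht⟩
  · push Not at h0
    obtain ⟨n, hn⟩ := hcov p.1 hp.1
    exact key n (Ioo 0 (Tn n)) isOpen_Ioo ⟨hpos.trans_le h0, hn⟩ (fun t ht => ht.2)
      (fun t ht => hA n t ⟨ht.1.le, ht.2⟩)

/-- a triple which is a classical solution on every shorter interval and smooth is a classical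
solution -/
theorem classical_of_lt {Ts : ℝ} (hTs : 0 < Ts)
    (h : ∀ T, 0 < T → T < Ts → IsClassicalSolutionOn T f₀ E₀ B₀ f E B)
    (hf : ContDiffOn ℝ ∞ (fun p : ℝ × R3 × R3 => f p.1 p.2.1 p.2.2) (Iio Ts ×ˢ univ))
    (hE : ContDiffOn ℝ ∞ (fun p : ℝ × R3 => E p.1 p.2) (Iio Ts ×ˢ univ))
    (hB : ContDiffOn ℝ ∞ (fun p : ℝ × R3 => B p.1 p.2) (Iio Ts ×ˢ univ)) :
    IsClassicalSolutionOn Ts f₀ E₀ B₀ f E B := by
  have hsub : Ico (0 : ℝ) Ts ⊆ Iio Ts := fun t ht => ht.2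
  have h1 : (1 : WithTop ℕ∞) ≤ ∞ := by exact_mod_cast le_top
  obtain ⟨-, -, -, a4, a5, a6, -, -, -⟩ := h (Ts / 2) (by linarith) (by linarith)
  refine ⟨(hf.of_le h1).mono (prod_mono hsub le_rfl), (hE.of_le h1).mono (prod_mono hsub le_rfl),
    (hB.of_le h1).mono (prod_mono hsub le_rfl), a4, a5, a6, ?_, ?_, ?_⟩
  · intro t ht0 htT x
    have := h ((t + Ts) / 2) (by linarith) (by linarith)
    exact this.2.2.2.2.2.2.1 t ht0 (by linarith) x
  · intro s hs0 hsT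
    have := h ((s + Ts) / 2) (by linarith) (by linarith)
    exact this.2.2.2.2.2.2.2.1 s hs0 (by linarith)
  · intro t ht
    have ht2 : t < (t + Ts) / 2 := by linarith [ht.2]
    obtain ⟨a, b, c, d⟩ :=
      (h ((t + Ts) / 2) (by linarith [ht.1]) (by linarith [ht.2])).2.2.2.2.2.2.2.2 t ⟨ht.1, ht2⟩
    have hnh : nhdsWithin t (Ico 0 Ts) = nhdsWithin t (Ico 0 ((t + Ts) / 2)) := by
      refine nhdsWithin_eq_nhdsWithin (s := Iio ((t + Ts) / 2)) ht2 isOpen_Iio ?_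
      ext r
      simp only [mem_inter_iff, mem_Ico, mem_Iio]
      constructor
      · rintro ⟨⟨h1, h2⟩, h3⟩
        exact ⟨⟨h1, h3⟩, h3⟩
      · rintro ⟨⟨h1, h2⟩, h3⟩
        exact ⟨⟨h1, by linarith [ht.2]⟩, h3⟩
    rw [hnh]
    exact ⟨a, b, c, d⟩

/-- gluing up to a finite time -/
theorem glue_to {Ts : ℝ} (hTs : 0 < Ts) (hU : Uniq)
    (hex : ∀ T : ℝ, 0 < T → T < Ts → ∃ f : ℝ → R3 → R3 → ℝ, ∃ E B : ℝ → R3 → R3,
      SolTo T f₀ E₀ B₀ f E B) :
    ∃ f : ℝ → R3 → R3 → ℝ, ∃ E B : ℝ → R3 → R3, SolTo Ts f₀ E₀ B₀ f E B := by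
  set Tn : ℕ → ℝ := fun n => Ts - Ts / ((n : ℝ) + 2) with hTn
  have hTn_pos : ∀ n, 0 < Tn n := by
    intro n
    have h2 : (0 : ℝ) < (n : ℝ) + 2 := by positivity
    simp only [hTn, sub_pos]
    rw [div_lt_iff₀ h2]
    nlinarith [(Nat.cast_nonneg n : (0 : ℝ) ≤ n)]
  have hTn_lt : ∀ n, Tn n < Ts := by
    intro n
    have h2 : (0 : ℝ) < (n : ℝ) + 2 := by positivity
    have : 0 < Ts / ((n : ℝ) + 2) := by positivity
    simp only [hTn]
    linarith
  choose F EE BB hsol using fun n : ℕ => hex (Tn n) (hTn_pos n) (hTn_lt n)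
  set idx : ℝ → ℕ := fun t => ⌊Ts / (Ts - t)⌋₊ with hidx
  have hidx_lt : ∀ t, t < Ts → t < Tn (idx t) := by
    intro t ht
    have h1 : Ts / (Ts - t) < (idx t : ℝ) + 1 := Nat.lt_floor_add_one _
    have h3 : 0 < Ts - t := by linarith
    have h2 : (0 : ℝ) < (idx t : ℝ) + 2 := by positivity
    rw [div_lt_iff₀ h3] at h1
    simp only [hTn]
    have h4 : Ts / ((idx t : ℝ) + 2) < Ts - t := by
      rw [div_lt_iff₀ h2]
      nlinarith
    linarith
  have hidx_neg : ∀ t, t < 0 → idx t = 0 := by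
    intro t ht
    simp only [hidx]
    rw [Nat.floor_eq_zero, div_lt_one (by linarith)]
    linarith
  have hA : ∀ n, ∀ t ∈ Ico 0 (Tn n),
      F (idx t) t = F n t ∧ EE (idx t) t = EE n t ∧ BB (idx t) t = BB n t := by
    intro n t ht
    have h1 := hidx_lt t (ht.2.trans (hTn_lt n))
    exact hU (min (Tn n) (Tn (idx t))) _ _ _ _ _ _ _ _ _
      (classical_mono (hsol n).1 (min_le_left _ _))
      (classical_mono (hsol (idx t)).1 (min_le_right _ _)) t ⟨ht.1, lt_min ht.2 h1⟩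
  have hcov : ∀ t < Ts, ∃ n, t < Tn n := fun t ht => ⟨idx t, hidx_lt t ht⟩
  have hf := glue_smooth (X := R3 × R3) (V := ℝ) (fun (φ : R3 → R3 → ℝ) q => φ q.1 q.2)
    (g := fun t => F (idx t) t) (G := F) (Tn := Tn) (Ts := Ts) (hTn_pos 0) hcov
    (fun n => (hsol n).2.1) (fun n t ht => (hA n t ht).1)
    (fun t ht => by simp only [hidx_neg t ht])
  have hE := glue_smooth (X := R3) (V := R3) (fun (φ : R3 → R3) q => φ q)
    (g := fun t => EE (idx t) t) (G := EE) (Tn := Tn) (Ts := Ts) (hTn_pos 0) hcov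
    (fun n => (hsol n).2.2.1) (fun n t ht => (hA n t ht).2.1)
    (fun t ht => by simp only [hidx_neg t ht])
  have hB := glue_smooth (X := R3) (V := R3) (fun (φ : R3 → R3) q => φ q)
    (g := fun t => BB (idx t) t) (G := BB) (Tn := Tn) (Ts := Ts) (hTn_pos 0) hcov
    (fun n => (hsol n).2.2.2) (fun n t ht => (hA n t ht).2.2)
    (fun t ht => by simp only [hidx_neg t ht])
  refine ⟨fun t => F (idx t) t, fun t => EE (idx t) t, fun t => BB (idx t) t, ?_, hf, hE, hB⟩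
  refine classical_of_lt hTs (fun T hT0 hT => ?_) hf hE hB
  have h1 := hidx_lt T hT
  exact classical_mono (classical_congr (hsol (idx T)).1 (hTn_pos _)
    (fun t ht => (hA _ t ht).1) (fun t ht => (hA _ t ht).2.1) (fun t ht => (hA _ t ht).2.2)) h1.le

/-- Existence of solutions on every interval. -/
theorem exists_solTo (hU : Uniq) (hTr : TruncEx) (hMB : MomBound1)
    (hadm : IsAdmissibleDatum f₀ E₀ B₀) :
    ∀ T : ℝ, 0 < T → ∃ f : ℝ → R3 → R3 → ℝ, ∃ E B : ℝ → R3 → R3, SolTo T f₀ E₀ B₀ f E B := by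
  -- momentum support of the datum
  obtain ⟨P₀, hP₀⟩ : ∃ P₀ : ℝ, ∀ x v : R3, P₀ < ‖v‖ → f₀ x v = 0 := by
    obtain ⟨R, hR⟩ := (hadm.2.2.1.isCompact).isBounded.exists_norm_le
    refine ⟨R, fun x v hv => ?_⟩
    by_contra hne
    have h1 : (x, v) ∈ tsupport (Function.uncurry f₀) := subset_tsupport _ hne
    have h2 : ‖v‖ ≤ R := (norm_snd_le (x, v)).trans (hR _ h1)
    linarith
  -- one step: if the momenta are bounded by `M'` on `[0, Ts)` for every solution there,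
  -- then there is a solution past `Ts`
  have step : ∀ Ts : ℝ, 0 ≤ Ts → ∀ M' : ℝ, P₀ ≤ M' → 0 ≤ M' →
      (∀ T', 0 < T' → T' ≤ Ts → ∀ (f : ℝ → R3 → R3 → ℝ) (E B : ℝ → R3 → R3),
        IsClassicalSolutionOn T' f₀ E₀ B₀ f E B →
        ∀ t ∈ Ico 0 T', ∀ x v : R3, M' < ‖v‖ → f t x v = 0) →
      ∃ T', Ts < T' ∧ ∃ f : ℝ → R3 → R3 → ℝ, ∃ E B : ℝ → R3 → R3, SolTo T' f₀ E₀ B₀ f E B := by
    intro Ts hTs M' hPM' hM'0 hbd
    obtain ⟨f, E, B, hf, hE, hB, hf0, hE0, hB0, heq, hsupp, hL2, hgr⟩ :=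
      hTr f₀ E₀ B₀ hadm (M' + 1) (by linarith)
    obtain ⟨L₀, hL₀⟩ := hgr (Ts + 1)
    set L : ℝ := max L₀ 2 with hL
    have hLpos : 0 < L := lt_of_lt_of_le two_pos (le_max_right _ _)
    have hgrow : ∀ t t' : ℝ, 0 ≤ t → t ≤ t' → t' ≤ Ts + 1 → ∀ m : ℝ,
        (∀ x v : R3, m < ‖v‖ → f t x v = 0) →
        ∀ x v : R3, m + L * (t' - t) < ‖v‖ → f t' x v = 0 := by
      intro t t' h0 h1 h2 m hm x v hv
      refine hL₀ t t' m h0 h1 h2 hm x v (lt_of_le_of_lt ?_ hv)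
      have : L₀ * (t' - t) ≤ L * (t' - t) :=
        mul_le_mul_of_nonneg_right (le_max_left _ _) (sub_nonneg.mpr h1)
      linarith
    set δ : ℝ := 1 / (2 * L) with hδ
    have hδpos : 0 < δ := by positivity
    have hLδ : L * (2 * δ) = 1 := by rw [hδ]; field_simp
    have hδ1 : δ ≤ 1 / 4 := by
      rw [hδ]
      have : (2 : ℝ) ≤ L := le_max_right _ _
      apply one_div_le_one_div_of_le (by norm_num) (by linarith)
    have hsol : ∀ T', (∀ t ∈ Ico 0 T', ∀ x v : R3, M' + 1 < ‖v‖ → f t x v = 0) →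
        SolTo T' f₀ E₀ B₀ f E B := by
      intro T' h
      have h1 := classical_of_trunc (P := M' + 1) hf hE hB hf0 hE0 hB0 heq hsupp hL2 h
      exact ⟨h1.1, hf.contDiffOn, hE.contDiffOn, hB.contDiffOn⟩
    have key : ∀ n : ℕ, ∀ t ∈ Icc 0 Ts, t ≤ n * δ → t < Ts ∨ n = 0 →
        ∀ x v : R3, M' < ‖v‖ → f t x v = 0 := by
      intro n
      induction n with
      | zero =>
        intro t ht htn _ x v hv
        have : t = 0 := le_antisymm (by simpa using htn) ht.1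
        subst this
        rw [hf0]
        exact hP₀ x v (lt_of_le_of_lt hPM' hv)
      | succ n ih =>
        intro t ht htn hlt x v hv
        have hlt : t < Ts := by
          rcases hlt with h | h
          · exact h
          · exact absurd h (Nat.succ_ne_zero n)
        have hsup : ∀ s ∈ Ico 0 (min Ts ((n + 2 : ℕ) * δ)), ∀ x v : R3, M' + 1 < ‖v‖ →
            f s x v = 0 := by
          intro s hs x v hv
          have hs1 : s < Ts := hs.2.trans_le (min_le_left _ _)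
          have hs2 : s < (n + 2 : ℕ) * δ := hs.2.trans_le (min_le_right _ _)
          by_cases hc : s ≤ n * δ
          · exact ih s ⟨hs.1, hs1.le⟩ hc (Or.inl hs1) x v (by linarith)
          · push Not at hc
            have hn0 : (0 : ℝ) ≤ n * δ := by positivity
            refine hgrow (n * δ) s hn0 hc.le (by linarith) M'
              (fun x v hv => ih (n * δ) ⟨hn0, (hc.trans hs1).le⟩ le_rfl
                (Or.inl (hc.trans hs1)) x v hv) x v ?_
            have h1 : s - n * δ ≤ 2 * δ := by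
              push_cast at hs2; linarith
            have h2 : L * (s - n * δ) ≤ L * (2 * δ) := mul_le_mul_of_nonneg_left h1 hLpos.le
            rw [hLδ] at h2
            linarith
        have hpos : 0 < min Ts ((n + 2 : ℕ) * δ) :=
          lt_min (lt_of_le_of_lt ht.1 hlt) (by positivity)
        have h3 : t < (n + 2 : ℕ) * δ := by
          push_cast at htn ⊢
          nlinarith
        exact hbd _ hpos (min_le_left _ _) f E B (hsol _ hsup).1 t
          ⟨ht.1, lt_min hlt h3⟩ x v hv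
    have hall : ∀ t ∈ Ico 0 Ts, ∀ x v : R3, M' < ‖v‖ → f t x v = 0 := by
      intro t ht
      obtain ⟨n, hn⟩ := exists_nat_ge (t / δ)
      exact key n t ⟨ht.1, ht.2.le⟩ (by rwa [div_le_iff₀ hδpos] at hn) (Or.inl ht.2)
    have hzero : ∀ x v : R3, M' < ‖v‖ → f 0 x v = 0 := by
      intro x v hv
      rw [hf0]
      exact hP₀ x v (lt_of_le_of_lt hPM' hv)
    refine ⟨Ts + δ, by linarith, f, E, B, hsol _ ?_⟩
    intro t ht x v hv
    -- a time before `Ts` at distance at most `2 δ`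
    by_cases hc : t < Ts
    · exact hall t ⟨ht.1, hc⟩ x v (by linarith)
    · push Not at hc
      have hs : ∃ s, 0 ≤ s ∧ s ≤ t ∧ t - s ≤ 2 * δ ∧ ∀ x v : R3, M' < ‖v‖ → f s x v = 0 := by
        by_cases hd : Ts ≤ δ
        · exact ⟨0, le_rfl, ht.1, by linarith [ht.2], hzero⟩
        · push Not at hd
          exact ⟨Ts - δ, by linarith, by linarith, by linarith [ht.2],
            hall _ ⟨by linarith, by linarith⟩⟩
      obtain ⟨s, hs0, hst, hsd, hsz⟩ := hs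
      refine hgrow s t hs0 hst (by linarith [ht.2]) M' hsz x v ?_
      have h2 : L * (t - s) ≤ L * (2 * δ) := mul_le_mul_of_nonneg_left hsd hLpos.le
      rw [hLδ] at h2
      linarith
  -- the set of good times
  by_contra hcon
  push Not at hcon
  obtain ⟨Tb, hTb, hno⟩ := hcon
  set S : Set ℝ := {T | 0 < T ∧ ∃ f : ℝ → R3 → R3 → ℝ, ∃ E B : ℝ → R3 → R3,
    SolTo T f₀ E₀ B₀ f E B} with hS
  have hSb : ∀ T ∈ S, T < Tb := by
    intro T hT
    by_contra hc
    push Not at hc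
    obtain ⟨-, f, E, B, h⟩ := hT
    exact hno f E B (solTo_mono h hc)
  obtain ⟨T1, hT1, hT1S⟩ : ∃ T', 0 < T' ∧ ∃ f : ℝ → R3 → R3 → ℝ, ∃ E B : ℝ → R3 → R3,
      SolTo T' f₀ E₀ B₀ f E B := by
    obtain ⟨T', h1, h2⟩ := step 0 le_rfl (max P₀ 0) (le_max_left _ _) (le_max_right _ _)
      (fun T' h0 h1 => absurd h0 (not_lt.mpr h1))
    exact ⟨T', h1, h2⟩
  have hne : S.Nonempty := ⟨T1, hT1, hT1S⟩
  have hbdd : BddAbove S := ⟨Tb, fun T hT => (hSb T hT).le⟩
  set Ts := sSup S with hTs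
  have hTspos : 0 < Ts := hT1.trans_le (le_csSup hbdd ⟨hT1, hT1S⟩)
  have hlow : ∀ T : ℝ, 0 < T → T < Ts → ∃ f : ℝ → R3 → R3 → ℝ, ∃ E B : ℝ → R3 → R3,
      SolTo T f₀ E₀ B₀ f E B := by
    intro T hT hTT
    obtain ⟨T2, hT2, hlt⟩ := exists_lt_of_lt_csSup hne hTT
    obtain ⟨-, f, E, B, h⟩ := hT2
    exact ⟨f, E, B, solTo_mono h hlt.le⟩
  obtain ⟨f, E, B, hsolTs⟩ := glue_to hTspos hU hlow
  obtain ⟨M, hM⟩ := hMB Ts hTspos f₀ E₀ B₀ hadm f E B hsolTs
  obtain ⟨T3, hT3, h3⟩ := step Ts hTspos.le (max (max M P₀) 0)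
    ((le_max_right _ _).trans (le_max_left _ _)) (le_max_right _ _)
    (by
      intro T' hT'0 hT' f' E' B' h' t ht x v hv
      have h1 := hU T' _ _ _ _ _ _ _ _ _ (classical_mono hsolTs.1 hT') h' t ht
      rw [h1.1]
      exact hM t ⟨ht.1, ht.2.trans_le hT'⟩ x v
        (lt_of_le_of_lt ((le_max_left _ _).trans (le_max_left _ _)) hv))
  have : T3 ∈ S := ⟨hTspos.trans hT3, h3⟩
  have := le_csSup hbdd this
  linarith

end Glue1

/-- Node GLUE for the momentum bound per solution. -/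
theorem glue1 (hU : Uniq) (hTr : TruncEx) (hMB : MomBound1) : Goal := by
  intro f₀ E₀ B₀ hadm
  refine Glue.glue_of_exists (fun T hT => ?_) (fun T f E B f' E' B' h h' => ?_)
  · obtain ⟨f, E, B, h, h1, h2, h3⟩ := Glue1.exists_solTo hU hTr hMB hadm T hT
    have hsub : Ico (0 : ℝ) T ⊆ Iio T := fun t ht => ht.2
    exact ⟨f, E, B, h, h1.mono (prod_mono hsub le_rfl), h2.mono (prod_mono hsub le_rfl),
      h3.mono (prod_mono hsub le_rfl)⟩
  · exact hU T f₀ E₀ B₀ f E B f' E' B' h h'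

/-- alias (name used by helper18) -/
theorem Glue1.glue1 (hU : Uniq) (hTr : TruncEx) (hMB : MomBound1) : Goal :=
  Crest.Agent.R106.glue1 hU hTr hMB

end Crest.Agent.R106
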