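import Mathlib
import Crest.Prelude.Def_VecCalc3
import Crest.Prelude.Def_VlasovMaxwell
import Crest.Agent.R106.Main0
import Crest.Agent.R106.Glue

/-!
Row 106 (S0140), node GLUE, WEAK version: the momentum bound may depend on the solution
(and the solution is only smooth on the open time set `t < T`):
`glueW : Uniq → TruncEx → MomBoundW → Goal`.
-/

set_option autoImplicit false
open MeasureTheory Set Filter
open scoped ContDiff Topology
open Crest.AnalysisR.VecCalc3 Crest.AnalysisR.PDE.RVM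

namespace Crest.Agent.R106

/-- smooth for all times `t < T` -/
def SmoothIio (T : ℝ) (f : ℝ → R3 → R3 → ℝ) (E B : ℝ → R3 → R3) : Prop :=
  ContDiffOn ℝ ∞ (fun p : ℝ × R3 × R3 => f p.1 p.2.1 p.2.2) (Iio T ×ˢ univ) ∧
  ContDiffOn ℝ ∞ (fun p : ℝ × R3 => E p.1 p.2) (Iio T ×ˢ univ) ∧
  ContDiffOn ℝ ∞ (fun p : ℝ × R3 => B p.1 p.2) (Iio T ×ˢ univ)

/-- The momentum bound, solution by solution. -/
def MomBoundW : Prop :=
  ∀ T : ℝ, 0 < T → ∀ (f₀ : R3 → R3 → ℝ) (E₀ B₀ : R3 → R3), IsAdmissibleDatum f₀ E₀ B₀ →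
    ∀ (f : ℝ → R3 → R3 → ℝ) (E B : ℝ → R3 → R3), IsClassicalSolutionOn T f₀ E₀ B₀ f E B →
    SmoothIio T f E B → ∃ M : ℝ, ∀ t ∈ Ico 0 T, ∀ x v : R3, M < ‖v‖ → f t x v = 0

namespace Glue

variable {T T' : ℝ} {f₀ : R3 → R3 → ℝ} {E₀ B₀ : R3 → R3}
  {f f' : ℝ → R3 → R3 → ℝ} {E B E' B' : ℝ → R3 → R3}

theorem equationsHoldAt_congr {t : ℝ} {x : R3} (h : EquationsHoldAt f E B t x)
    (hfe : ∀ᶠ s in 𝓝 t, f' s = f s) (hEe : ∀ᶠ s in 𝓝 t, E' s = E s)
    (hBe : ∀ᶠ s in 𝓝 t, B' s = B s) : EquationsHoldAt f' E' B' t x := by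
  obtain ⟨e1, e2, e3, e4, e5⟩ := h
  have hf := hfe.self_of_nhds
  have hE := hEe.self_of_nhds
  have hB := hBe.self_of_nhds
  refine ⟨fun v => ?_, fun i => ?_, fun i => ?_, ?_, ?_⟩
  · have := e1 v
    rw [hf, hE, hB]
    rw [show deriv (fun s => f' s x v) t = deriv (fun s => f s x v) t from
      Filter.EventuallyEq.deriv_eq (by filter_upwards [hfe] with s hs; rw [hs])]
    exact this
  · have := e2 i
    unfold currentDensity at this ⊢
    rw [hf, hB]
    rw [show deriv (fun s => E' s x i) t = deriv (fun s => E s x i) t from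
      Filter.EventuallyEq.deriv_eq (by filter_upwards [hEe] with s hs; rw [hs])]
    exact this
  · have := e3 i
    rw [hE]
    rw [show deriv (fun s => B' s x i) t = deriv (fun s => B s x i) t from
      Filter.EventuallyEq.deriv_eq (by filter_upwards [hBe] with s hs; rw [hs])]
    exact this
  · unfold chargeDensity at e4 ⊢
    rw [hf, hE]
    exact e4
  · rw [hB]
    exact e5

/-- gluing on a finite interval -/
theorem glue_fin (hT : 0 < T)
    (hex : ∀ S : ℝ, 0 < S → S < T → ∃ f : ℝ → R3 → R3 → ℝ, ∃ E B : ℝ → R3 → R3,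
      IsClassicalSolutionOn S f₀ E₀ B₀ f E B ∧ SmoothIio S f E B)
    (huniq : ∀ (T : ℝ) (f : ℝ → R3 → R3 → ℝ) (E B : ℝ → R3 → R3)
      (f' : ℝ → R3 → R3 → ℝ) (E' B' : ℝ → R3 → R3),
      IsClassicalSolutionOn T f₀ E₀ B₀ f E B → IsClassicalSolutionOn T f₀ E₀ B₀ f' E' B' →
      ∀ t ∈ Ico 0 T, f' t = f t ∧ E' t = E t ∧ B' t = B t) :
    ∃ f : ℝ → R3 → R3 → ℝ, ∃ E B : ℝ → R3 → R3,
      IsClassicalSolutionOn T f₀ E₀ B₀ f E B ∧ SmoothIio T f E B := by
  choose! F EE BB hcl hsm using fun S : ℝ => (fun h : 0 < S ∧ S < T => hex S h.1 h.2)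
  -- index
  set τ : ℝ → ℝ := fun t => (max t 0 + T) / 2 with hτ
  have hτpos : ∀ t, 0 < τ t := fun t => by
    have : 0 ≤ max t 0 := le_max_right _ _
    simp only [hτ]; linarith
  have hτlt : ∀ t < T, τ t < T := fun t ht => by
    have : max t 0 < T := max_lt ht hT
    simp only [hτ]; linarith
  have hτgt : ∀ t < T, t < τ t := fun t ht => by
    have h1 : max t 0 < T := max_lt ht hT
    have h2 : t ≤ max t 0 := le_max_left _ _
    simp only [hτ]; linarith
  have hτc : ∀ t < T, 0 < τ t ∧ τ t < T := fun t ht => ⟨hτpos t, hτlt t ht⟩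
  -- compatibility
  have hcomp : ∀ S : ℝ, 0 < S → S < T → ∀ t ∈ Ico (0 : ℝ) S,
      F (τ t) t = F S t ∧ EE (τ t) t = EE S t ∧ BB (τ t) t = BB S t := by
    intro S hS0 hST t ht
    have htT : t < T := ht.2.trans hST
    have h1 := classical_mono (hcl S ⟨hS0, hST⟩) (min_le_left S (τ t))
    have h2 := classical_mono (hcl (τ t) (hτc t htT)) (min_le_right S (τ t))
    exact huniq _ _ _ _ _ _ _ h1 h2 t ⟨ht.1, lt_min ht.2 (hτgt t htT)⟩
  -- local coincidence
  have hloc : ∀ t < T, ∀ᶠ s in 𝓝 t, F (τ s) s = F (τ t) s ∧ EE (τ s) s = EE (τ t) s ∧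
      BB (τ s) s = BB (τ t) s := by
    intro t ht
    rcases lt_trichotomy t 0 with h0 | h0 | h0
    · filter_upwards [Iio_mem_nhds h0] with s hs
      have : τ s = τ t := by
        simp only [hτ, max_eq_right h0.le, max_eq_right (le_of_lt (mem_Iio.mp hs))]
      rw [this]; exact ⟨rfl, rfl, rfl⟩
    · filter_upwards [Iio_mem_nhds (hτgt t ht)] with s hs
      rcases lt_or_ge s 0 with hs0 | hs0
      · have : τ s = τ t := by
          simp only [hτ, h0, max_eq_right hs0.le, max_self]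
        rw [this]; exact ⟨rfl, rfl, rfl⟩
      · exact hcomp (τ t) (hτpos t) (hτlt t ht) s ⟨hs0, hs⟩
    · filter_upwards [Ioo_mem_nhds h0 (hτgt t ht)] with s hs
      exact hcomp (τ t) (hτpos t) (hτlt t ht) s ⟨hs.1.le, hs.2⟩
  have hsmooth : SmoothIio T (fun t => F (τ t) t) (fun t => EE (τ t) t) (fun t => BB (τ t) t) := by
    refine ⟨fun p hp => ?_, fun p hp => ?_, fun p hp => ?_⟩
    · have hpT : p.1 < T := hp.1
      have h1 := ((hsm (τ p.1) (hτc p.1 hpT)).1.contDiffAt (x := p) (by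
        refine (isOpen_Iio.prod isOpen_univ).mem_nhds ⟨hτgt p.1 hpT, mem_univ _⟩))
      refine (h1.congr_of_eventuallyEq ?_).contDiffWithinAt
      have h2 := (continuous_fst (X := ℝ) (Y := R3 × R3)).continuousAt (x := p)
      filter_upwards [h2.eventually (hloc p.1 hpT)] with q hq
      rw [hq.1]
    · have hpT : p.1 < T := hp.1
      have h1 := ((hsm (τ p.1) (hτc p.1 hpT)).2.1.contDiffAt (x := p) (by
        refine (isOpen_Iio.prod isOpen_univ).mem_nhds ⟨hτgt p.1 hpT, mem_univ _⟩))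
      refine (h1.congr_of_eventuallyEq ?_).contDiffWithinAt
      have h2 := (continuous_fst (X := ℝ) (Y := R3)).continuousAt (x := p)
      filter_upwards [h2.eventually (hloc p.1 hpT)] with q hq
      rw [hq.2.1]
    · have hpT : p.1 < T := hp.1
      have h1 := ((hsm (τ p.1) (hτc p.1 hpT)).2.2.contDiffAt (x := p) (by
        refine (isOpen_Iio.prod isOpen_univ).mem_nhds ⟨hτgt p.1 hpT, mem_univ _⟩))
      refine (h1.congr_of_eventuallyEq ?_).contDiffWithinAt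
      have h2 := (continuous_fst (X := ℝ) (Y := R3)).continuousAt (x := p)
      filter_upwards [h2.eventually (hloc p.1 hpT)] with q hq
      rw [hq.2.2]
  have hsub : ∀ {Y : Type}, (Ico (0 : ℝ) T ×ˢ (univ : Set Y)) ⊆ Iio T ×ˢ univ := by
    intro Y p hp
    exact ⟨hp.1.2, mem_univ _⟩
  refine ⟨fun t => F (τ t) t, fun t => EE (τ t) t, fun t => BB (τ t) t, ⟨?_, ?_, ?_, ?_, ?_, ?_,
    ?_, ?_, ?_⟩, hsmooth⟩
  · exact (hsmooth.1.of_le (by exact_mod_cast le_top)).mono hsub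
  · exact (hsmooth.2.1.of_le (by exact_mod_cast le_top)).mono hsub
  · exact (hsmooth.2.2.of_le (by exact_mod_cast le_top)).mono hsub
  · exact (hcl (τ 0) (hτc 0 hT)).2.2.2.1
  · exact (hcl (τ 0) (hτc 0 hT)).2.2.2.2.1
  · exact (hcl (τ 0) (hτc 0 hT)).2.2.2.2.2.1
  · intro t ht0 htT x
    refine equationsHoldAt_congr
      ((hcl (τ t) (hτc t htT)).2.2.2.2.2.2.1 t ht0 (hτgt t htT) x) ?_ ?_ ?_
    · filter_upwards [hloc t htT] with s hs using hs.1
    · filter_upwards [hloc t htT] with s hs using hs.2.1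
    · filter_upwards [hloc t htT] with s hs using hs.2.2
  · intro S hS0 hST
    obtain ⟨R, hR⟩ := (hcl (τ S) (hτc S hST)).2.2.2.2.2.2.2.1 S hS0 (hτgt S hST)
    refine ⟨R, fun t ht x v hxv => ?_⟩
    have h1 := (hcomp (τ S) (hτpos S) (hτlt S hST) t ⟨ht.1, ht.2.trans_lt (hτgt S hST)⟩).1
    show F (τ t) t x v = 0
    rw [h1]
    exact hR t ht x v hxv
  · intro t ht
    have htT := ht.2
    obtain ⟨a, b, c, d⟩ := (hcl (τ t) (hτc t htT)).2.2.2.2.2.2.2.2 t ⟨ht.1, hτgt t htT⟩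
    have hle : 𝓝[Ico 0 T] t ≤ 𝓝[Ico 0 (τ t)] t := by
      refine nhdsWithin_le_iff.mpr ?_
      filter_upwards [self_mem_nhdsWithin, mem_nhdsWithin_of_mem_nhds
        (Iio_mem_nhds (hτgt t htT))] with s hs1 hs2
      exact ⟨hs1.1, hs2⟩
    refine ⟨a, b, (c.mono_left hle).congr' ?_, (d.mono_left hle).congr' ?_⟩
    · filter_upwards [mem_nhdsWithin_of_mem_nhds (hloc t htT)] with s hs
      rw [hs.2.1]
    · filter_upwards [mem_nhdsWithin_of_mem_nhds (hloc t htT)] with s hs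
      rw [hs.2.2]

/-- support of the datum -/
theorem exists_P0 (hadm : IsAdmissibleDatum f₀ E₀ B₀) :
    ∃ P₀ : ℝ, ∀ x v : R3, P₀ < ‖v‖ → f₀ x v = 0 := by
  obtain ⟨R, hR⟩ := (hadm.2.2.1.isCompact).isBounded.exists_norm_le
  refine ⟨R, fun x v hv => ?_⟩
  by_contra hne
  have h1 : (x, v) ∈ tsupport (Function.uncurry f₀) := subset_tsupport _ hne
  have h2 : ‖v‖ ≤ R := (norm_snd_le (x, v)).trans (hR _ h1)
  linarith

/-- One step of the continuation: a solution on `[0, T)` with bounded momentum support (or `T = 0`)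
can be continued. -/
theorem extend (hTr : TruncEx) (hadm : IsAdmissibleDatum f₀ E₀ B₀)
    (huniq : ∀ (T : ℝ) (f : ℝ → R3 → R3 → ℝ) (E B : ℝ → R3 → R3)
      (f' : ℝ → R3 → R3 → ℝ) (E' B' : ℝ → R3 → R3),
      IsClassicalSolutionOn T f₀ E₀ B₀ f E B → IsClassicalSolutionOn T f₀ E₀ B₀ f' E' B' →
      ∀ t ∈ Ico 0 T, f' t = f t ∧ E' t = E t ∧ B' t = B t)
    (hT : 0 ≤ T) {M : ℝ} {g : ℝ → R3 → R3 → ℝ} {Eg Bg : ℝ → R3 → R3}
    (hg : 0 < T → IsClassicalSolutionOn T f₀ E₀ B₀ g Eg Bg)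
    (hM : ∀ t ∈ Ico 0 T, ∀ x v : R3, M < ‖v‖ → g t x v = 0) :
    ∃ S : ℝ, T < S ∧ ∃ f : ℝ → R3 → R3 → ℝ, ∃ E B : ℝ → R3 → R3,
      IsClassicalSolutionOn S f₀ E₀ B₀ f E B ∧ SmoothIio S f E B := by
  obtain ⟨P₀, hP₀⟩ := exists_P0 hadm
  set M' : ℝ := max (max M P₀) 0 with hM'
  have hMM' : M ≤ M' := (le_max_left _ _).trans (le_max_left _ _)
  have hPM' : P₀ ≤ M' := (le_max_right _ _).trans (le_max_left _ _)
  have hM'0 : 0 ≤ M' := le_max_right _ _
  obtain ⟨f, E, B, hf, hE, hB, hf0, hE0, hB0, heq, hsupp, hL2, hgr⟩ :=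
    hTr f₀ E₀ B₀ hadm (M' + 1) (by linarith)
  obtain ⟨L₀, hL₀⟩ := hgr (T + 1)
  set L : ℝ := max L₀ 1 with hL
  have hL1 : 1 ≤ L := le_max_right _ _
  have hLpos : 0 < L := lt_of_lt_of_le one_pos hL1
  have hgrow : ∀ t t' : ℝ, 0 ≤ t → t ≤ t' → t' ≤ T + 1 → ∀ m : ℝ,
      (∀ x v : R3, m < ‖v‖ → f t x v = 0) →
      ∀ x v : R3, m + L * (t' - t) < ‖v‖ → f t' x v = 0 := by
    intro t t' h0 h1 h2 m hm x v hv
    refine hL₀ t t' m h0 h1 h2 hm x v (lt_of_le_of_lt ?_ hv)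
    have : L₀ * (t' - t) ≤ L * (t' - t) :=
      mul_le_mul_of_nonneg_right (le_max_left _ _) (sub_nonneg.mpr h1)
    linarith
  set δ : ℝ := 1 / L with hδ
  have hδpos : 0 < δ := by positivity
  have hδ1 : δ ≤ 1 := by rw [hδ, div_le_one hLpos]; exact hL1
  have hLδ : L * δ = 1 := by rw [hδ]; field_simp
  -- the momentum support of `f` stays in `M'` on `[0, T]`
  have key : ∀ n : ℕ, ∀ t ∈ Icc 0 T, t ≤ n * δ → ∀ x v : R3, M' < ‖v‖ → f t x v = 0 := by
    intro n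
    induction n with
    | zero =>
      intro t ht htn x v hv
      have : t = 0 := le_antisymm (by simpa using htn) ht.1
      subst this
      rw [hf0]
      exact hP₀ x v (lt_of_le_of_lt hPM' hv)
    | succ n ih =>
      intro t ht htn x v hv
      rcases eq_or_lt_of_le ht.1 with h0 | htpos
      · rw [← h0, hf0]
        exact hP₀ x v (lt_of_le_of_lt hPM' hv)
      have hTpos : 0 < T := htpos.trans_le ht.2
      have hsup : ∀ t ∈ Icc 0 T, t ≤ (n + 1 : ℕ) * δ → ∀ x v : R3, M' + 1 < ‖v‖ →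
          f t x v = 0 := by
        intro t ht htn x v hv
        by_cases hc : t ≤ n * δ
        · exact ih t ht hc x v (by linarith)
        · push Not at hc
          have hn0 : (0 : ℝ) ≤ n * δ := by positivity
          refine hgrow (n * δ) t hn0 hc.le (by linarith [ht.2]) M'
            (fun x v hv => ih (n * δ) ⟨hn0, hc.le.trans ht.2⟩ le_rfl x v hv) x v ?_
          have h1 : t - n * δ ≤ δ := by
            push_cast at htn; linarith
          have h2 : L * (t - n * δ) ≤ L * δ := mul_le_mul_of_nonneg_left h1 hLpos.le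
          rw [hLδ] at h2
          linarith
      -- classical on `[0, t)`
      have hcl : SmoothSol t f₀ E₀ B₀ f E B := by
        refine classical_of_trunc (P := M' + 1) hf hE hB hf0 hE0 hB0 heq hsupp hL2
          fun s hs x v hv => ?_
        exact hsup s ⟨hs.1, hs.2.le.trans ht.2⟩ (hs.2.le.trans htn) x v hv
      have heqg : ∀ s ∈ Ico 0 t, f s = g s := fun s hs =>
        (huniq t g Eg Bg f E B (classical_mono (hg hTpos) ht.2) hcl.1 s hs).1
      have hMv : M < ‖v‖ := lt_of_le_of_lt hMM' hv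
      have hcont : Continuous (fun s : ℝ => f s x v) :=
        hf.continuous.comp (by fun_prop : Continuous (fun s : ℝ => ((s, x, v) : ℝ × R3 × R3)))
      have hc2 : Tendsto (fun s : ℝ => f s x v) (𝓝[Ioo 0 t] t) (𝓝 (f t x v)) :=
        hcont.continuousAt.mono_left nhdsWithin_le_nhds
      have : (𝓝[Ioo 0 t] t).NeBot := by
        rw [← mem_closure_iff_nhdsWithin_neBot, closure_Ioo htpos.ne]
        exact ⟨htpos.le, le_rfl⟩
      have hz : Tendsto (fun s : ℝ => f s x v) (𝓝[Ioo 0 t] t) (𝓝 0) := by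
        refine tendsto_const_nhds.congr' ?_
        filter_upwards [self_mem_nhdsWithin] with s hs
        rw [heqg s ⟨hs.1.le, hs.2⟩]
        exact (hM s ⟨hs.1.le, hs.2.trans_le ht.2⟩ x v hMv).symm
      exact tendsto_nhds_unique hc2 hz
  have hTall : ∀ t ∈ Icc 0 T, ∀ x v : R3, M' < ‖v‖ → f t x v = 0 := by
    intro t ht
    obtain ⟨n, hn⟩ := exists_nat_ge (t / δ)
    exact key n t ht (by rwa [div_le_iff₀ hδpos] at hn)
  have hsol : SmoothSol (T + δ) f₀ E₀ B₀ f E B := by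
    refine classical_of_trunc (P := M' + 1) hf hE hB hf0 hE0 hB0 heq hsupp hL2
      fun s hs x v hv => ?_
    rcases le_or_gt s T with h1 | h1
    · exact hTall s ⟨hs.1, h1⟩ x v (by linarith)
    · refine hgrow T s hT h1.le (by linarith [hs.2]) M'
        (fun x v hv => hTall T ⟨hT, le_rfl⟩ x v hv) x v ?_
      have h2 : L * (s - T) ≤ L * δ := mul_le_mul_of_nonneg_left (by linarith [hs.2]) hLpos.le
      rw [hLδ] at h2
      linarith
  exact ⟨T + δ, by linarith, f, E, B, hsol.1, hf.contDiffOn, hE.contDiffOn, hB.contDiffOn⟩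

/-- solutions exist on every `[0, T)` -/
theorem exists_all (hU : Uniq) (hTr : TruncEx) (hMB : MomBoundW)
    (hadm : IsAdmissibleDatum f₀ E₀ B₀) (hT : 0 < T) :
    ∃ f : ℝ → R3 → R3 → ℝ, ∃ E B : ℝ → R3 → R3,
      IsClassicalSolutionOn T f₀ E₀ B₀ f E B ∧ SmoothIio T f E B := by
  have huniq : ∀ (T : ℝ) (f : ℝ → R3 → R3 → ℝ) (E B : ℝ → R3 → R3)
      (f' : ℝ → R3 → R3 → ℝ) (E' B' : ℝ → R3 → R3),
      IsClassicalSolutionOn T f₀ E₀ B₀ f E B → IsClassicalSolutionOn T f₀ E₀ B₀ f' E' B' →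
      ∀ t ∈ Ico 0 T, f' t = f t ∧ E' t = E t ∧ B' t = B t :=
    fun T f E B f' E' B' h h' => hU T f₀ E₀ B₀ f E B f' E' B' h h'
  set S : Set ℝ := {s | 0 < s ∧ ∃ f : ℝ → R3 → R3 → ℝ, ∃ E B : ℝ → R3 → R3,
      IsClassicalSolutionOn s f₀ E₀ B₀ f E B ∧ SmoothIio s f E B} with hS
  have hdown : ∀ s ∈ S, ∀ r, 0 < r → r ≤ s → r ∈ S := by
    rintro s ⟨_, f, E, B, h1, h2, h3, h4⟩ r hr hrs
    exact ⟨hr, f, E, B, classical_mono h1 hrs,
      h2.mono (prod_mono (Iio_subset_Iio hrs) le_rfl),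
      h3.mono (prod_mono (Iio_subset_Iio hrs) le_rfl),
      h4.mono (prod_mono (Iio_subset_Iio hrs) le_rfl)⟩
  have hne : S.Nonempty := by
    obtain ⟨s, hs, f, E, B, h1, h2⟩ := extend (T := 0) (M := 0) (g := fun _ _ _ => 0)
      (Eg := fun _ _ => 0) (Bg := fun _ _ => 0) hTr hadm huniq le_rfl
      (fun h => absurd h (lt_irrefl _)) (fun t ht x v _ => rfl)
    exact ⟨s, hs, f, E, B, h1, h2⟩
  by_contra hcon
  have hTS : T ∉ S := fun h => hcon h.2
  have hbdd : BddAbove S := ⟨T, fun s hs => by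
    by_contra h
    push Not at h
    exact hTS (hdown s hs T hT h.le)⟩
  set Tm : ℝ := sSup S with hTm
  obtain ⟨s₀, hs₀⟩ := hne
  have hTm0 : 0 < Tm := hs₀.1.trans_le (le_csSup hbdd hs₀)
  obtain ⟨g, Eg, Bg, hg, hgs⟩ := glue_fin hTm0 (fun r hr0 hr => by
    obtain ⟨s, hs, hrs⟩ := exists_lt_of_lt_csSup ⟨s₀, hs₀⟩ hr
    exact (hdown s hs r hr0 hrs.le).2) huniq
  obtain ⟨M, hM⟩ := hMB Tm hTm0 f₀ E₀ B₀ hadm g Eg Bg hg hgs
  obtain ⟨s, hs, f, E, B, h1, h2⟩ := extend hTr hadm huniq hTm0.le (fun _ => hg) hM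
  have : s ∈ S := ⟨hTm0.trans hs, f, E, B, h1, h2⟩
  exact absurd (le_csSup hbdd this) (not_le.mpr hs)

end Glue

/-- Node GLUE, weak version: the momentum bound may depend on the solution. -/
theorem glueW (hU : Uniq) (hTr : TruncEx) (hMB : MomBoundW) : Goal := by
  intro f₀ E₀ B₀ hadm
  refine Glue.glue_of_exists (fun T hT => ?_) (fun T f E B f' E' B' h h' => ?_)
  · obtain ⟨f, E, B, h, h1, h2, h3⟩ := Glue.exists_all hU hTr hMB hadm hT
    exact ⟨f, E, B, h, h1.mono (fun p hp => ⟨hp.1.2, mem_univ _⟩),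
      h2.mono (fun p hp => ⟨hp.1.2, mem_univ _⟩), h3.mono (fun p hp => ⟨hp.1.2, mem_univ _⟩)⟩
  · exact hU T f₀ E₀ B₀ f E B f' E' B' h h'

end Crest.Agent.R106
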