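/- Row 106, node GS2 (helper375): the far part of the gradient estimate. -/
import Crest.Agent.R106.Gs2Sup
import Crest.Agent.R106.Gs2Aux

set_option autoImplicit false
open MeasureTheory Set Filter Topology
open scoped ContDiff RealInnerProductSpace
open Crest.AnalysisR.VecCalc3 Crest.AnalysisR.PDE.RVM

namespace Crest.Agent.R106.Gs2

theorem far_smooth (d t ε : ℝ) : ContDiff ℝ 1 (fun r => th d (t - r) * ch ε r) :=
  (thr_smooth d t).mul ((ch_smooth ε).of_le (by simp))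

theorem far_deriv (d t ε r : ℝ) : deriv (fun r => th d (t - r) * ch ε r) r
    = deriv (th d) (t - r) * (-ch ε r) + th d (t - r) * deriv (ch ε) r := by
  have h1 : DifferentiableAt ℝ (fun r => th d (t - r)) r :=
    (thr_smooth d t).differentiable (by simp) r
  have h2 : DifferentiableAt ℝ (ch ε) r := (ch_smooth ε).differentiable (by simp) r
  have := (h1.hasDerivAt.mul h2.hasDerivAt).deriv
  have h3 : deriv (fun r => th d (t - r) * ch ε r) r = _ := this
  rw [h3, thr_deriv]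
  ring

theorem farK (P : ℝ) {κ : ZV → ℝ} (hκ : Hk 2 κ) (a : ℝ) (b : R3) : ∃ C : ℝ, 0 ≤ C ∧
    ∀ (t d ε : ℝ) (x : R3) (g : PS → ℝ) (G : Fin 3 → PS → ℝ) (a0 n0 : ℝ) (NG : ℝ → ℝ),
      0 < t → 0 < d → d ≤ t → 0 < ε → ε ≤ t →
      ContDiff ℝ 1 g → (∀ i, ContDiff ℝ 1 (G i)) →
      (∀ (s : ℝ) (y v : R3), P < ‖v‖ → g (s, y, v) = 0 ∧ ∀ i, G i (s, y, v) = 0) →
      (∀ s ∈ Icc 0 t, ∀ y v : R3, Tr g (s, y, v) = divv G (s, y, v)) →
      (∀ s ∈ Icc 0 d, ∀ y v : R3, |g (s, y, v)| ≤ a0) →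
      (∀ s ∈ Icc 0 t, ∀ y v : R3, |g (s, y, v)| ≤ n0) →
      (∀ s ∈ Icc 0 t, ∀ i, ∀ y v : R3, |G i (s, y, v)| ≤ NG s) →
      IntervalIntegrable NG volume 0 t →
      |∫ p, (th d (t - ‖p.1‖) * ch ε ‖p.1‖) * κ p * dxt a b g (cone t x p)| ≤
        C * (a0 + n0 * (1 + Real.log (t / ε)) + ∫ s in (0:ℝ)..t, NG s) := by
  choose C2 hC2 B2 using fun i => main_term le_rfl P (kV_Hk hκ a b i)
  obtain ⟨C3, hC3, B3⟩ := (kZ_Hk hκ a b).bound P
  obtain ⟨C4, hC4, B4⟩ := radial_term le_rfl P (kR_Hk hκ a b)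
  obtain ⟨C5, hC5, B5⟩ := (kR_Hk hκ a b).bound P
  obtain ⟨M, hM0, hM⟩ := ch_deriv_le
  have hS2 : 0 ≤ ∑ i, C2 i := Finset.sum_nonneg fun i _ => hC2 i
  have hcB := cB_nonneg P
  refine ⟨(∑ i, C2 i) + cB P * C3 + C4 + cB P * (M * C5), by positivity, ?_⟩
  intro t d ε x g G a0 n0 NG ht hd hdt hε hεt hg hG hP hT hg0 hgN hGN iNG
  set ϑ : ℝ → ℝ := fun r => th d (t - r) * ch ε r with hϑdef
  have hϑ : ContDiff ℝ 1 ϑ := far_smooth d t ε
  have hr0 : ∀ r, t ≤ r → ϑ r = 0 := fun r hr => by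
    simp only [hϑdef, thr_zero hd hr, zero_mul]
  have hϑ1 : ∀ r, |ϑ r| ≤ 1 := fun r => by
    simp only [hϑdef]
    rw [abs_mul, abs_of_nonneg (th_mem _ _).1, abs_of_nonneg (ch_mem _ _).1]
    exact mul_le_one₀ (th_mem _ _).2 (ch_mem _ _).1 (ch_mem _ _).2
  have hϑs : ∀ r, r ≤ ε / 2 → ϑ r = 0 := fun r hr => by
    simp only [hϑdef, ch_zero hε hr, mul_zero]
  have hKB : KB 1 (fun p : ZV => ϑ ‖p.1‖ * κ p) := by
    have h2 : KB (1 + 1) (fun p : ZV => ϑ ‖p.1‖ * κ p) := by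
      simpa using (rad_KB hϑ).mul hκ.toKB
    refine h2.lower (half_pos hε) fun z v _ hz => ?_
    rw [hϑs _ hz.le, zero_mul]
  have hn0 : 0 ≤ n0 := (abs_nonneg _).trans (hgN 0 ⟨le_rfl, ht.le⟩ 0 0)
  have ha0 : 0 ≤ a0 := (abs_nonneg _).trans (hg0 0 ⟨le_rfl, hd.le⟩ 0 0)
  have hlog : 0 ≤ Real.log (t / ε) := Real.log_nonneg (by rw [le_div_iff₀ hε]; linarith)
  have hI : Integrable (fun p => ϑ ‖p.1‖ * kZ κ a b p * g (cone t x p)) := by
    refine integrable_RI (R := t) (P := P) (C := C3 * (2 / ε))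
      (kZ_Hk hκ a b).smooth.continuousOn hϑ.continuous hg.continuous (by positivity)
      (fun r hr => hr0 r hr.le) (fun s y v hv => (hP s y v hv).1) ?_
    intro z v hz hzt hv
    have hz' : 0 < ‖z‖ := norm_pos_iff.2 hz
    by_cases hs : ‖z‖ ≤ ε / 2
    · rw [hϑs _ hs, zero_mul, abs_zero]; positivity
    · rw [not_le] at hs
      rw [abs_mul]
      calc |ϑ ‖z‖| * |kZ κ a b (z, v)| ≤ 1 * (C3 * (‖z‖ ^ (2 + 1))⁻¹) :=
            mul_le_mul (hϑ1 _) (B3 z v hz hv) (abs_nonneg _) zero_le_one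
        _ = C3 * ‖z‖⁻¹ * (‖z‖ ^ 2)⁻¹ := by rw [pow_succ, mul_inv]; ring
        _ ≤ C3 * (2 / ε) * (‖z‖ ^ 2)⁻¹ := by
          gcongr
          rw [show 2 / ε = (ε / 2)⁻¹ by rw [inv_div]]
          gcongr
  have hmain := division_rad (t := t) (x := x) (h := fun _ => (0:ℝ)) hκ hϑ hKB hr0 hg hG
    continuous_const (fun s y v hv => ⟨(hP s y v hv).1, (hP s y v hv).2, rfl⟩) ?_ a b hI
  · -- momentum terms
    have t2 := fun i => B2 i t x ϑ (G i) NG ht hr0 hϑ1
      (fun s y v hv => (hP s y v hv).2 i) (fun s hs => hGN s hs i) iNG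
    -- the log term
    have t3 : |∫ p, ϑ ‖p.1‖ * kZ κ a b p * g (cone t x p)|
        ≤ cB P * (C3 * n0) * (Real.log 2 + Real.log (t / ε)) := by
      refine log_int_le (by positivity) hε hεt ?_ ?_
      · rintro z v hz (h | h | h)
        · simp only [hϑs _ h.le, zero_mul]
        · simp only [hr0 _ h.le, zero_mul]
        · have : g (cone t x (z, v)) = 0 := (hP _ _ _ h).1
          simp only [this, mul_zero]
      · intro z v hz hv
        have hz' : 0 < ‖z‖ := norm_pos_iff.2 hz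
        by_cases hzt : t ≤ ‖z‖
        · simp only [hr0 _ hzt, zero_mul, abs_zero]; positivity
        · rw [not_le] at hzt
          have hF : |g (cone t x (z, v))| ≤ n0 := hgN _ ⟨by linarith, by linarith⟩ _ _
          rw [abs_mul, abs_mul]
          calc |ϑ ‖z‖| * |kZ κ a b (z, v)| * |g (cone t x (z, v))|
              ≤ 1 * (C3 * (‖z‖ ^ (2 + 1))⁻¹) * n0 :=
                mul_le_mul (mul_le_mul (hϑ1 _) (B3 z v hz hv) (abs_nonneg _) zero_le_one) hF
                  (abs_nonneg _) (by positivity)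
            _ = C3 * n0 * (‖z‖ ^ 3)⁻¹ := by ring
    -- the cut-off terms
    have hfarD : ∀ r, deriv ϑ r = deriv (th d) (t - r) * (-ch ε r) + th d (t - r) * deriv (ch ε) r :=
      fun r => far_deriv d t ε r
    have t4 := B4 t d x (fun r => -ch ε r) g a0 ht hd hdt
      (fun r => by rw [abs_neg, abs_of_nonneg (ch_mem _ _).1]; exact (ch_mem _ _).2)
      (fun s y v hv => (hP s y v hv).1) hg0
    have t5 : |∫ p, (th d (t - ‖p.1‖) * deriv (ch ε) ‖p.1‖) * kR κ a b p * g (cone t x p)|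
        ≤ cB P * (M / ε * C5 * n0) * ε := by
      refine near_int_le (by positivity) hε ?_ ?_
      · rintro z v hz (h | h)
        · simp only [ch_deriv_zero hε (Or.inr h.le), mul_zero, zero_mul]
        · have : g (cone t x (z, v)) = 0 := (hP _ _ _ h).1
          simp only [this, mul_zero]
      · intro z v hz hv
        have hz' : 0 < ‖z‖ := norm_pos_iff.2 hz
        by_cases hzt : t ≤ ‖z‖
        · simp only [thr_zero hd hzt, zero_mul, abs_zero]; positivity
        · rw [not_le] at hzt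
          have hF : |g (cone t x (z, v))| ≤ n0 := hgN _ ⟨by linarith, by linarith⟩ _ _
          rw [abs_mul, abs_mul, abs_mul, abs_of_nonneg (th_mem _ _).1]
          calc th d (t - ‖z‖) * |deriv (ch ε) ‖z‖| * |kR κ a b (z, v)| * |g (cone t x (z, v))|
              ≤ 1 * (M / ε) * (C5 * (‖z‖ ^ 2)⁻¹) * n0 :=
                mul_le_mul (mul_le_mul (mul_le_mul (th_mem _ _).2 (hM ε hε _) (abs_nonneg _)
                  zero_le_one) (B5 z v hz hv) (abs_nonneg _) (by positivity)) hF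
                  (abs_nonneg _) (by positivity)
            _ = M / ε * C5 * n0 * (‖z‖ ^ 2)⁻¹ := by ring
    have i4 : Integrable (fun p => (deriv (th d) (t - ‖p.1‖) * (-ch ε ‖p.1‖)) * kR κ a b p *
        g (cone t x p)) := by
      refine integrable_hk (ϑ := fun r => deriv (th d) (t - r) * (-ch ε r)) le_rfl (kR_Hk hκ a b)
        ?_ (R := t) (fun r hr => ?_) hg.continuous (fun s y v hv => (hP s y v hv).1)
      · exact ((th_deriv_cont d).comp (continuous_const.sub continuous_id)).mul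
          (ch_smooth ε).continuous.neg
      · simp only [th_deriv_zero hd (Or.inl (by linarith : t - r ≤ 0)), zero_mul]
    have i5 : Integrable (fun p => (th d (t - ‖p.1‖) * deriv (ch ε) ‖p.1‖) * kR κ a b p *
        g (cone t x p)) := by
      refine integrable_hk (ϑ := fun r => th d (t - r) * deriv (ch ε) r) le_rfl (kR_Hk hκ a b)
        ?_ (R := t) (fun r hr => ?_) hg.continuous (fun s y v hv => (hP s y v hv).1)
      · exact (thr_smooth d t).continuous.mul
          (((ch_smooth ε).of_le (by simp : (1 : WithTop ℕ∞) ≤ ∞)).continuous_deriv (by simp))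
      · simp only [thr_zero hd hr, zero_mul]
    have e45 : (∫ p, deriv ϑ ‖p.1‖ * kR κ a b p * g (cone t x p))
        = (∫ p, (deriv (th d) (t - ‖p.1‖) * (-ch ε ‖p.1‖)) * kR κ a b p * g (cone t x p))
          + ∫ p, (th d (t - ‖p.1‖) * deriv (ch ε) ‖p.1‖) * kR κ a b p * g (cone t x p) := by
      rw [← integral_add i4 i5]
      refine integral_congr_ae (Eventually.of_forall fun p => ?_)
      simp only [hfarD]; ring
    rw [e45] at hmain
    simp only [mul_zero, integral_zero, zero_sub] at hmain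
    have e0 : (∫ p, (th d (t - ‖p.1‖) * ch ε ‖p.1‖) * κ p * dxt a b g (cone t x p))
        = ∫ p, ϑ ‖p.1‖ * κ p * dxt a b g (cone t x p) := rfl
    rw [e0, hmain]
    have hNG0 : ∀ s ∈ Icc 0 t, 0 ≤ NG s := fun s hs => (abs_nonneg _).trans (hGN s hs 0 0 0)
    have q3 : 0 ≤ ∫ s in (0:ℝ)..t, NG s :=
      intervalIntegral.integral_nonneg ht.le fun s hs => hNG0 s hs
    simp only [Nat.sub_self, pow_zero, one_mul] at t2 t4
    set I1 := ∫ s in (0:ℝ)..t, NG s
    have t2' : |∑ i, ∫ p, ϑ ‖p.1‖ * kV κ a b i p * G i (cone t x p)|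
        ≤ (∑ i, C2 i) * I1 := by
      rw [Finset.sum_mul]
      exact (Finset.abs_sum_le_sum_abs _ _).trans (Finset.sum_le_sum fun i _ => t2 i)
    set A2 := ∑ i, ∫ p, ϑ ‖p.1‖ * kV κ a b i p * G i (cone t x p)
    set A3 := ∫ p, ϑ ‖p.1‖ * kZ κ a b p * g (cone t x p)
    set A4 := ∫ p, (deriv (th d) (t - ‖p.1‖) * (-ch ε ‖p.1‖)) * kR κ a b p * g (cone t x p)
    set A5 := ∫ p, (th d (t - ‖p.1‖) * deriv (ch ε) ‖p.1‖) * kR κ a b p * g (cone t x p)
    have tri : |-A2 - A3 - (A4 + A5)| ≤ |A2| + |A3| + (|A4| + |A5|) := by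
      refine (abs_sub _ _).trans (add_le_add ?_ (abs_add_le _ _))
      refine (abs_sub _ _).trans ?_
      rw [abs_neg]
    have hl2 : Real.log 2 ≤ 1 := by
      have := Real.log_two_lt_d9
      linarith
    have t3' : |A3| ≤ cB P * C3 * (n0 * (1 + Real.log (t / ε))) := by
      refine t3.trans ?_
      have : cB P * (C3 * n0) * (Real.log 2 + Real.log (t / ε))
          ≤ cB P * (C3 * n0) * (1 + Real.log (t / ε)) := by gcongr
      linarith
    have t5' : |A5| ≤ cB P * (M * C5) * n0 := by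
      refine t5.trans (le_of_eq ?_)
      field_simp
    have hL : n0 ≤ n0 * (1 + Real.log (t / ε)) := by nlinarith
    set L := n0 * (1 + Real.log (t / ε))
    have hL0 : 0 ≤ L := hn0.trans hL
    refine tri.trans ?_
    set S2 := ∑ i, C2 i
    have k3 : 0 ≤ cB P * C3 := by positivity
    have k5 : 0 ≤ cB P * (M * C5) := by positivity
    have t5'' : |A5| ≤ cB P * (M * C5) * L := t5'.trans (by gcongr)
    nlinarith [mul_nonneg hS2 ha0, mul_nonneg hS2 hL0, mul_nonneg k3 ha0, mul_nonneg k3 q3,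
      mul_nonneg hC4 hL0, mul_nonneg hC4 q3, mul_nonneg k5 ha0, mul_nonneg k5 q3]
  · intro p hp hne
    have hp' : 0 < ‖p.1‖ := norm_pos_iff.2 hp
    have hlt : ‖p.1‖ < t := by
      by_contra hcon
      exact hne (hr0 _ (not_lt.1 hcon))
    rw [zero_add]
    exact hT (t - ‖p.1‖) ⟨by linarith, by linarith⟩ _ _

end Crest.Agent.R106.Gs2
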