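/- Row 106, node GS2 (helper585 for helper899): the near part of the gradient estimate. -/
import Crest.Agent.R106.Gs2Sup
import Crest.Agent.R106.Gs2Aux

set_option autoImplicit false
open MeasureTheory Set Filter Topology
open scoped ContDiff RealInnerProductSpace
open Crest.AnalysisR.VecCalc3 Crest.AnalysisR.PDE.RVM

namespace Crest.Agent.R106.Gs2

/-- the near part `‖z‖ ≤ ε` with the trivial bound of `F` -/
theorem nearK (P : ℝ) {κ : ZV → ℝ} (hκ : Hk 2 κ) : ∃ C : ℝ, 0 ≤ C ∧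
    ∀ (t d ε : ℝ) (x : R3) (F : PS → ℝ) (n1 : ℝ), 0 < ε → ε ≤ t →
      (∀ (s : ℝ) (y v : R3), P < ‖v‖ → F (s, y, v) = 0) →
      (∀ s ∈ Icc 0 t, ∀ y v : R3, |F (s, y, v)| ≤ n1) →
      |∫ p, (th d (t - ‖p.1‖) * (1 - ch ε ‖p.1‖)) * κ p * F (cone t x p)| ≤ C * (ε * n1) := by
  obtain ⟨C, hC, hb⟩ := hκ.bound P
  refine ⟨cB P * C, mul_nonneg (cB_nonneg P) hC, ?_⟩
  intro t d ε x F n1 hε hεt hP hF
  have ht : 0 ≤ t := hε.le.trans hεt
  have hn1 : 0 ≤ n1 := (abs_nonneg _).trans (hF 0 ⟨le_rfl, ht⟩ 0 0)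
  have h := near_int_le (P := P) (C := C * n1) (ε := ε)
    (Φ := fun p => (th d (t - ‖p.1‖) * (1 - ch ε ‖p.1‖)) * κ p * F (cone t x p))
    (by positivity) hε ?_ ?_
  · refine h.trans (le_of_eq ?_); ring
  · rintro z v hz (h | h)
    · simp only [ch_one hε h.le, sub_self, mul_zero, zero_mul]
    · have : F (cone t x (z, v)) = 0 := hP _ _ _ h
      simp only [this, mul_zero]
  · intro z v hz hv
    have hz' : 0 < ‖z‖ := norm_pos_iff.2 hz
    by_cases hzε : ε < ‖z‖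
    · simp only [ch_one hε hzε.le, sub_self, mul_zero, zero_mul, abs_zero]
      positivity
    · rw [not_lt] at hzε
      have h1 : |F (cone t x (z, v))| ≤ n1 := hF _ ⟨by linarith, by linarith⟩ _ _
      have h2 := hb z v hz hv
      have h3 : |th d (t - ‖z‖) * (1 - ch ε ‖z‖)| ≤ 1 := by
        have a1 := th_mem d (t - ‖z‖)
        have a2 := ch_mem ε ‖z‖
        rw [abs_of_nonneg (mul_nonneg a1.1 (by linarith [a2.2]))]
        nlinarith [a1.1, a1.2, a2.1, a2.2]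
      rw [abs_mul, abs_mul]
      calc |th d (t - ‖z‖) * (1 - ch ε ‖z‖)| * |κ (z, v)| * |F (cone t x (z, v))|
          ≤ 1 * (C * (‖z‖ ^ 2)⁻¹) * n1 := by gcongr
        _ = C * n1 * (‖z‖ ^ 2)⁻¹ := by ring

/-- splitting `1 = (1 - ch) + ch` of a term with a homogeneous kernel of degree `-2` -/
theorem split_ch {κ : ZV → ℝ} (hκ : Hk 2 κ) {P t d ε : ℝ} {x : R3} (hd : 0 < d) {F : PS → ℝ}
    (hF : Continuous F) (hP : ∀ (s : ℝ) (y v : R3), P < ‖v‖ → F (s, y, v) = 0) :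
    ∫ p, th d (t - ‖p.1‖) * κ p * F (cone t x p)
      = (∫ p, (th d (t - ‖p.1‖) * (1 - ch ε ‖p.1‖)) * κ p * F (cone t x p))
        + ∫ p, (th d (t - ‖p.1‖) * ch ε ‖p.1‖) * κ p * F (cone t x p) := by
  have c1 : Continuous fun r => th d (t - r) := (thr_smooth d t).continuous
  have c2 : Continuous (ch ε) := (ch_smooth ε).continuous
  have i1 := integrable_hk (k := 2) (t := t) (x := x) (P := P) le_rfl hκ
    (ϑ := fun r => th d (t - r) * (1 - ch ε r)) (c1.mul (continuous_const.sub c2)) (R := t)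
    (fun r hr => by rw [thr_zero hd hr, zero_mul]) hF hP
  have i2 := integrable_hk (k := 2) (t := t) (x := x) (P := P) le_rfl hκ
    (ϑ := fun r => th d (t - r) * ch ε r) (c1.mul c2) (R := t)
    (fun r hr => by rw [thr_zero hd hr, zero_mul]) hF hP
  rw [← integral_add i1 i2]
  refine integral_congr_ae (Eventually.of_forall fun p => ?_)
  simp only
  ring

end Crest.Agent.R106.Gs2
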