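import Crest.Agent.R106.FieldIface
import Crest.Agent.R106.PairDefs
import Crest.Agent.R106.MomIface
import Crest.Agent.R106.ConeMu
import Crest.Agent.R106.FlowVM

/-!
# Row 106, node GSCOR (helper369)

From `Field.GSRep` (representation of `E` and `B`) to the force on a test characteristic:
* `char_bound`  : `‖X s‖ ≤ R0 + T`;
* `force_rep`   : `E + V × B = O(1) + (4π)⁻¹ ∫ f (K_T + K_S)` along every characteristic;
* `ftP`         : the Prop `Mom.FtP`.
-/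

set_option autoImplicit false
open MeasureTheory Set Filter Topology
open Crest.AnalysisR.VecCalc3 Crest.AnalysisR.PDE.RVM
open scoped InnerProductSpace ENNReal ContDiff

noncomputable section

namespace Crest.Agent.R106.GsCor

open Crest.Agent.R106.GSR (gam acc lor eT eS)
open Crest.Agent.R106.Field (GSRep eK coneM)
open Crest.Agent.R106.Mom (IsChar ret nn Rr dl ep kap Ftest Fsrc)

/-! ### the cone measure -/

theorem coneM_eq (x : R3) (s : ℝ) :
    coneM x s = (volume : Measure (R3 × R3)).restrict (Metric.ball x s ×ˢ (univ : Set R3)) := by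
  unfold coneM
  rw [Measure.volume_eq_prod, ← Measure.prod_restrict, Measure.restrict_univ]

/-- the density is continuous on the cone -/
theorem continuousOn_cone {T : ℝ} {f : ℝ → R3 → R3 → ℝ}
    (hf : ContinuousOn (fun p : ℝ × R3 × R3 => f p.1 p.2.1 p.2.2) (Ico 0 T ×ˢ univ))
    {s : ℝ} (hs : s < T) (x : R3) :
    ContinuousOn (fun q : R3 × R3 => f (s - ‖x - q.1‖) q.1 q.2)
      (Metric.ball x s ×ˢ (univ : Set R3)) := by
  refine hf.comp (f := fun q : R3 × R3 => (s - ‖x - q.1‖, q.1, q.2)) (by fun_prop) ?_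
  rintro ⟨y, w⟩ hy
  simp only [mem_prod, Metric.mem_ball, mem_univ, and_true] at hy
  simp only [mem_prod, mem_Ico, mem_univ, and_true]
  rw [dist_comm, dist_eq_norm] at hy
  exact ⟨by linarith, by linarith [norm_nonneg (x - y)]⟩

theorem aemeasurable_cone {T : ℝ} {f : ℝ → R3 → R3 → ℝ}
    (hf : ContinuousOn (fun p : ℝ × R3 × R3 => f p.1 p.2.1 p.2.2) (Ico 0 T ×ˢ univ))
    {s : ℝ} (hs : s < T) (x : R3) :
    AEMeasurable (fun q : R3 × R3 => f (s - ‖x - q.1‖) q.1 q.2) (coneM x s) := by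
  rw [coneM_eq]
  exact (continuousOn_cone hf hs x).aemeasurable (Metric.isOpen_ball.measurableSet.prod
    MeasurableSet.univ)

theorem kap_eq (f : ℝ → R3 → R3 → ℝ) (X : ℝ → R3) (s : ℝ) :
    kap f X s = (coneM (X s) s).withDensity
      (fun q => ENNReal.ofReal (f (s - ‖X s - q.1‖) q.1 q.2)) := by
  rw [coneM_eq]; rfl

/-- integrals against `kap` as weighted integrals over the cone, no measurability of the
integrand needed. -/
theorem lintegral_kap {T : ℝ} {f : ℝ → R3 → R3 → ℝ}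
    (hf : ContinuousOn (fun p : ℝ × R3 × R3 => f p.1 p.2.1 p.2.2) (Ico 0 T ×ˢ univ))
    {s : ℝ} (hs : s < T) (X : ℝ → R3) (g : R3 × R3 → ℝ≥0∞) :
    ∫⁻ q, g q ∂(kap f X s) =
      ∫⁻ q, ENNReal.ofReal (f (s - ‖X s - q.1‖) q.1 q.2) * g q ∂(coneM (X s) s) := by
  rw [kap_eq, lintegral_withDensity_eq_lintegral_mul_non_measurable₀ _
    (aemeasurable_cone hf hs (X s)).ennreal_ofReal
    (Eventually.of_forall fun q => ENNReal.ofReal_lt_top)]
  rfl

/-- almost every source point is off the vertex. -/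
theorem ae_ne (x : R3) (s : ℝ) : ∀ᵐ q : R3 × R3 ∂(coneM x s), x ≠ q.1 := by
  rw [coneM_eq]
  refine ae_restrict_of_ae ?_
  rw [Measure.volume_eq_prod]
  have h : ∀ᵐ y : R3, x ≠ y := by
    have : (volume : Measure R3) {y | ¬ x ≠ y} = 0 := by
      have : {y : R3 | ¬ x ≠ y} = {x} := by ext y; simp [eq_comm]
      rw [this]; exact measure_singleton x
    exact this
  exact Measure.quasiMeasurePreserving_fst.ae h

theorem norm_nn {x y : R3} (h : x ≠ y) : ‖Field.nn x y‖ = 1 := by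
  have : ‖x - y‖ ≠ 0 := norm_ne_zero_iff.2 (sub_ne_zero.2 h)
  unfold Field.nn
  rw [norm_smul, norm_inv, norm_norm, inv_mul_cancel₀ this]

theorem measurable_nn (x : R3) : Measurable (fun q : R3 × R3 => Field.nn x q.1) := by
  unfold Field.nn
  fun_prop

/-! ### the cross product as a continuous linear map -/

/-- `b ↦ a × b`. -/
def crossR (a : R3) : R3 →L[ℝ] R3 :=
  LinearMap.toContinuousLinearMap
    { toFun := cross3 a
      map_add' := fun b c => Pair.cross3_add a b c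
      map_smul' := fun r b => Pair.cross3_smul a b r }

@[simp] theorem crossR_apply (a b : R3) : crossR a b = cross3 a b := rfl

theorem measurable_cross3 {α : Type*} [MeasurableSpace α] {μ : Measure α} {a b : α → R3}
    (ha : AEStronglyMeasurable a μ) (hb : AEStronglyMeasurable b μ) :
    AEStronglyMeasurable (fun q => cross3 (a q) (b q)) μ :=
  (Flow.contDiff_cross3 (n := 0)).continuous.comp_aestronglyMeasurable (ha.prodMk hb)

/-! ### characteristics -/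

theorem char_subL {T : ℝ} {f : ℝ → R3 → R3 → ℝ} {E B : ℝ → R3 → R3} {X p : ℝ → R3}
    (h : IsChar T f E B X p) {a b : ℝ} (ha : 0 ≤ a) (hab : a ≤ b) (hb : b < T) :
    ‖X b - X a‖ ≤ b - a := by
  rcases eq_or_lt_of_le hab with rfl | hab'
  · simp
  exact (CM.subL_of_deriv h.cX h.dX (fun τ _ => Pair.norm_relVel_lt_one _) a
    ⟨ha, by linarith⟩ b ⟨by linarith, hb⟩ hab').le

/-- the test points stay in a ball which does not depend on the characteristic -/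
theorem char_bound {T : ℝ} (hT : 0 < T) {f₀ : R3 → R3 → ℝ} {E₀ B₀ : R3 → R3}
    {f : ℝ → R3 → R3 → ℝ} {E B : ℝ → R3 → R3} (hsol : IsClassicalSolutionOn T f₀ E₀ B₀ f E B) :
    ∃ X0 : ℝ, ∀ X p : ℝ → R3, IsChar T f E B X p → ∀ s ∈ Ico 0 T, ‖X s‖ ≤ X0 := by
  obtain ⟨R, hR⟩ := hsol.2.2.2.2.2.2.2.1 0 le_rfl hT
  refine ⟨R + T, fun X p h s hs => ?_⟩
  have h0 : ‖X 0‖ ≤ R := by
    by_contra hcon
    push Not at hcon
    exact h.supp (hR 0 ⟨le_rfl, le_rfl⟩ _ _ (Or.inl hcon))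
  have h1 := char_subL h le_rfl hs.1 hs.2
  calc ‖X s‖ = ‖X 0 + (X s - X 0)‖ := by congr 1; abel
    _ ≤ ‖X 0‖ + ‖X s - X 0‖ := norm_add_le _ _
    _ ≤ R + T := by linarith [hs.2]

/-! ### the force representation -/

/-- `GSRep` for one solution. -/
def GSRepOn (T : ℝ) (f : ℝ → R3 → R3 → ℝ) (E B : ℝ → R3 → R3) : Prop :=
    ∀ X0 : ℝ, ∃ C : ℝ, ∀ t ∈ Ico 0 T, ∀ x : R3, ‖x‖ ≤ X0 →
      Integrable (fun q : R3 × R3 => f (t - ‖x - q.1‖) q.1 q.2 •
        eT (Field.nn x q.1) q.2 ‖x - q.1‖) (coneM x t) ∧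
      Integrable (fun q : R3 × R3 => f (t - ‖x - q.1‖) q.1 q.2 •
        eS (Field.nn x q.1) q.2 (acc q.2 (lor E B (t - ‖x - q.1‖) q.1 q.2)) ‖x - q.1‖)
        (coneM x t) ∧
      ‖E t x - (4 * Real.pi)⁻¹ • ∫ q, f (t - ‖x - q.1‖) q.1 q.2 • eK E B t x q.1 q.2
          ∂(coneM x t)‖ ≤ C ∧
      ‖B t x - (4 * Real.pi)⁻¹ • ∫ q, f (t - ‖x - q.1‖) q.1 q.2 •
          cross3 (Field.nn x q.1) (eK E B t x q.1 q.2) ∂(coneM x t)‖ ≤ C

theorem gsRepOn_of {T : ℝ} (hT : 0 < T) {f₀ : R3 → R3 → ℝ} {E₀ B₀ : R3 → R3}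
    {f : ℝ → R3 → R3 → ℝ} {E B : ℝ → R3 → R3} (hrep : GSRep)
    (had : IsAdmissibleDatum f₀ E₀ B₀) (hs : SmoothSol T f₀ E₀ B₀ f E B) : GSRepOn T f E B :=
  fun X0 => hrep T hT f₀ E₀ B₀ had f E B hs X0

/-- the retarded kernel of the force on the test particle: `K_T + K_S`. -/
def KK (E B : ℝ → R3 → R3) (X p : ℝ → R3) (s : ℝ) (q : R3 × R3) : R3 :=
  Pair.lor (nn X s q.1) (relVel (p s)) (eK E B s (X s) q.1 q.2)

theorem lor_add (n V e e' : R3) : Pair.lor n V (e + e') = Pair.lor n V e + Pair.lor n V e' := by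
  unfold Pair.lor
  rw [smul_add, inner_add_right, add_smul]
  abel

theorem KK_eq (E B : ℝ → R3 → R3) (X p : ℝ → R3) (s : ℝ) (q : R3 × R3) :
    KK E B X p s q =
      Pair.KT (nn X s q.1) (relVel q.2) (relVel (p s)) ‖X s - q.1‖ +
      Pair.KS (nn X s q.1) (relVel q.2) (relVel (p s))
        (Pair.acc (relVel q.2) (lor E B (ret X s q.1) q.1 q.2)) ‖X s - q.1‖ := by
  unfold KK eK
  rw [Pair.eT_eq, Pair.eS_eq, Pair.acc_eq, lor_add]
  rfl

/-- pointwise bound of the kernel -/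
theorem norm_KK_le (E B : ℝ → R3 → R3) (X p : ℝ → R3) (s : ℝ) (q : R3 × R3)
    (h : X s ≠ q.1) :
    ‖KK E B X p s q‖ ≤ 9 * (Mom.kT (dl X p s q.1) (ep X s q.1 q.2) (gam q.2) (Rr X s q.1)
      + Mom.kS (dl X p s q.1) (ep X s q.1 q.2) (gam q.2) (Rr X s q.1) * Fsrc E B X s q) := by
  have hn : ‖nn X s q.1‖ = 1 := norm_nn h
  have hR : 0 < ‖X s - q.1‖ := norm_pos_iff.2 (sub_ne_zero.2 h)
  unfold KK eK
  rw [lor_add]
  refine (norm_add_le _ _).trans ?_
  have h1 := Pair.norm_KT_mom (n := nn X s q.1) (w := q.2) (p := p s) hn hR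
  have h2 := Pair.norm_KS_mom (n := nn X s q.1) (w := q.2) (p := p s) hn hR
    (lor E B (s - ‖X s - q.1‖) q.1 q.2)
  have h3 : 0 ≤ Mom.kT (1 - ⟪nn X s q.1, relVel (p s)⟫_ℝ) (1 - ⟪nn X s q.1, relVel q.2⟫_ℝ)
      (gam q.2) ‖X s - q.1‖ := by
    have := h1
    have h4 := norm_nonneg (Pair.lor (nn X s q.1) (relVel (p s))
      (GSR.eT (nn X s q.1) q.2 ‖X s - q.1‖))
    linarith
  have e1 : Mom.kT (dl X p s q.1) (ep X s q.1 q.2) (gam q.2) (Rr X s q.1) =
    Mom.kT (1 - ⟪nn X s q.1, relVel (p s)⟫_ℝ) (1 - ⟪nn X s q.1, relVel q.2⟫_ℝ)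
      (gam q.2) ‖X s - q.1‖ := rfl
  have e2 : Mom.kS (dl X p s q.1) (ep X s q.1 q.2) (gam q.2) (Rr X s q.1) * Fsrc E B X s q =
    Mom.kS (1 - ⟪nn X s q.1, relVel (p s)⟫_ℝ) (1 - ⟪nn X s q.1, relVel q.2⟫_ℝ)
      (gam q.2) ‖X s - q.1‖ * ‖lor E B (s - ‖X s - q.1‖) q.1 q.2‖ := rfl
  rw [e1, e2]
  have h1' : ‖Pair.lor (nn X s q.1) (relVel (p s)) (eT (Field.nn (X s) q.1) q.2 ‖X s - q.1‖)‖ ≤
    4 * Mom.kT (1 - ⟪nn X s q.1, relVel (p s)⟫_ℝ) (1 - ⟪nn X s q.1, relVel q.2⟫_ℝ)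
      (gam q.2) ‖X s - q.1‖ := h1
  have h2' : ‖Pair.lor (nn X s q.1) (relVel (p s)) (eS (Field.nn (X s) q.1) q.2
      (acc q.2 (lor E B (s - ‖X s - q.1‖) q.1 q.2)) ‖X s - q.1‖)‖ ≤
      9 * (Mom.kS (1 - ⟪nn X s q.1, relVel (p s)⟫_ℝ) (1 - ⟪nn X s q.1, relVel q.2⟫_ℝ)
      (gam q.2) ‖X s - q.1‖ * ‖lor E B (s - ‖X s - q.1‖) q.1 q.2‖) := h2
  linarith

/-- **the force representation**. -/
theorem force_rep {T : ℝ} (hT : 0 < T) {f₀ : R3 → R3 → ℝ} {E₀ B₀ : R3 → R3}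
    {f : ℝ → R3 → R3 → ℝ} {E B : ℝ → R3 → R3} (hsol : IsClassicalSolutionOn T f₀ E₀ B₀ f E B)
    (hrep : GSRepOn T f E B) :
    ∃ C : ℝ, 0 ≤ C ∧ ∀ X p : ℝ → R3, IsChar T f E B X p → ∀ s ∈ Ico 0 T,
      Integrable (fun q => f (ret X s q.1) q.1 q.2 • KK E B X p s q) (coneM (X s) s) ∧
      ‖lor E B s (X s) (p s) - (4 * Real.pi)⁻¹ •
        ∫ q, f (ret X s q.1) q.1 q.2 • KK E B X p s q ∂(coneM (X s) s)‖ ≤ C := by
  obtain ⟨X0, hX0⟩ := char_bound hT hsol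
  obtain ⟨C, hC⟩ := hrep X0
  refine ⟨2 * |C|, by positivity, fun X p h s hs => ?_⟩
  obtain ⟨i1, i2, hE, hB⟩ := hC s hs (X s) (hX0 X p h s hs)
  set V := relVel (p s) with hV
  have hV1 : ‖V‖ ≤ 1 := (Pair.norm_relVel_lt_one _).le
  set μ := coneM (X s) s with hμ
  -- integrability of the electric integrand
  have iE : Integrable (fun q : R3 × R3 => f (s - ‖X s - q.1‖) q.1 q.2 •
      eK E B s (X s) q.1 q.2) μ := by
    refine (i1.add i2).congr (Eventually.of_forall fun q => ?_)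
    simp only [Pi.add_apply, ← smul_add]
    rfl
  have iB : Integrable (fun q : R3 × R3 => f (s - ‖X s - q.1‖) q.1 q.2 •
      cross3 (Field.nn (X s) q.1) (eK E B s (X s) q.1 q.2)) μ := by
    have e : (fun q : R3 × R3 => f (s - ‖X s - q.1‖) q.1 q.2 •
        cross3 (Field.nn (X s) q.1) (eK E B s (X s) q.1 q.2)) =
        fun q => cross3 (Field.nn (X s) q.1) (f (s - ‖X s - q.1‖) q.1 q.2 •
          eK E B s (X s) q.1 q.2) := by
      funext q; rw [Pair.cross3_smul]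
    rw [e]
    refine iE.norm.mono' (measurable_cross3
      (measurable_nn (X s)).aestronglyMeasurable iE.aestronglyMeasurable) ?_
    filter_upwards [ae_ne (X s) s] with q hq
    refine (Flow.norm_cross3_le _ _).trans ?_
    rw [norm_nn hq, one_mul]
  have hpt : ∀ q : R3 × R3, f (ret X s q.1) q.1 q.2 • KK E B X p s q =
      f (s - ‖X s - q.1‖) q.1 q.2 • eK E B s (X s) q.1 q.2 +
      crossR V (f (s - ‖X s - q.1‖) q.1 q.2 •
        cross3 (Field.nn (X s) q.1) (eK E B s (X s) q.1 q.2)) := by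
    intro q
    rw [map_smul, crossR_apply, ← smul_add, Pair.lor_eq]
    rfl
  have iK : Integrable (fun q => f (ret X s q.1) q.1 q.2 • KK E B X p s q) μ := by
    refine (iE.add ((crossR V).integrable_comp iB)).congr (Eventually.of_forall fun q => ?_)
    simp only [Pi.add_apply]
    exact (hpt q).symm
  refine ⟨iK, ?_⟩
  have hI : ∫ q, f (ret X s q.1) q.1 q.2 • KK E B X p s q ∂μ =
      (∫ q, f (s - ‖X s - q.1‖) q.1 q.2 • eK E B s (X s) q.1 q.2 ∂μ) +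
      crossR V (∫ q, f (s - ‖X s - q.1‖) q.1 q.2 •
        cross3 (Field.nn (X s) q.1) (eK E B s (X s) q.1 q.2) ∂μ) := by
    rw [← (crossR V).integral_comp_comm iB, ← integral_add iE ((crossR V).integrable_comp iB)]
    exact integral_congr_ae (Eventually.of_forall hpt)
  have hF : lor E B s (X s) (p s) = E s (X s) + crossR V (B s (X s)) := rfl
  rw [hI, hF]
  set IE := ∫ q, f (s - ‖X s - q.1‖) q.1 q.2 • eK E B s (X s) q.1 q.2 ∂μ
  set IB := ∫ q, f (s - ‖X s - q.1‖) q.1 q.2 •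
        cross3 (Field.nn (X s) q.1) (eK E B s (X s) q.1 q.2) ∂μ
  have e : E s (X s) + crossR V (B s (X s)) - (4 * Real.pi)⁻¹ • (IE + crossR V IB) =
      (E s (X s) - (4 * Real.pi)⁻¹ • IE) + crossR V (B s (X s) - (4 * Real.pi)⁻¹ • IB) := by
    rw [map_sub, map_smul, smul_add]; abel
  rw [e]
  refine (norm_add_le _ _).trans ?_
  have h2 : ‖crossR V (B s (X s) - (4 * Real.pi)⁻¹ • IB)‖ ≤ |C| := by
    refine (Flow.norm_cross3_le _ _).trans ?_
    calc ‖V‖ * ‖B s (X s) - (4 * Real.pi)⁻¹ • IB‖ ≤ 1 * |C| :=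
          mul_le_mul hV1 (hB.trans (le_abs_self C)) (norm_nonneg _) zero_le_one
      _ = |C| := one_mul _
  have h1 : ‖E s (X s) - (4 * Real.pi)⁻¹ • IE‖ ≤ |C| := hE.trans (le_abs_self C)
  linarith

/-- **FtP** : bound of the force on the test particle. -/
theorem ftP {T : ℝ} (hT : 0 < T) {f₀ : R3 → R3 → ℝ} {E₀ B₀ : R3 → R3}
    {f : ℝ → R3 → R3 → ℝ} {E B : ℝ → R3 → R3} (hsol : IsClassicalSolutionOn T f₀ E₀ B₀ f E B)
    (hf0 : ∀ t ∈ Ico 0 T, ∀ x v : R3, 0 ≤ f t x v)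
    (hrep : GSRepOn T f E B) : Mom.FtP T f E B := by
  obtain ⟨C, hC0, hC⟩ := force_rep hT hsol hrep
  refine ⟨max C 9, le_max_of_le_left hC0, fun X p h s hs => ?_⟩
  have hs' : s ∈ Ico 0 T := ⟨hs.1.le, hs.2⟩
  obtain ⟨iK, hK⟩ := hC X p h s hs'
  have hcont : ContinuousOn (fun p : ℝ × R3 × R3 => f p.1 p.2.1 p.2.2) (Ico 0 T ×ˢ univ) :=
    hsol.1.continuousOn
  set μ := coneM (X s) s with hμ
  set I := ∫ q, f (ret X s q.1) q.1 q.2 • KK E B X p s q ∂μ with hI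
  have hpi : (4 * Real.pi)⁻¹ ≤ 1 := by
    have := Real.pi_gt_three
    rw [inv_le_one_iff₀]; right; linarith
  have hpi0 : 0 < (4 * Real.pi)⁻¹ := by positivity
  have h1 : Ftest E B X p s ≤ C + ‖I‖ := by
    unfold Ftest
    calc ‖lor E B s (X s) (p s)‖
        = ‖(lor E B s (X s) (p s) - (4 * Real.pi)⁻¹ • I) + (4 * Real.pi)⁻¹ • I‖ := by
          rw [sub_add_cancel]
      _ ≤ ‖lor E B s (X s) (p s) - (4 * Real.pi)⁻¹ • I‖ + ‖(4 * Real.pi)⁻¹ • I‖ := norm_add_le _ _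
      _ ≤ C + ‖I‖ := by
          rw [norm_smul, Real.norm_of_nonneg hpi0.le]
          exact add_le_add hK (mul_le_of_le_one_left (norm_nonneg _) hpi)
  have h2 : ENNReal.ofReal ‖I‖ ≤ ENNReal.ofReal 9 * ∫⁻ q, ENNReal.ofReal
    (Mom.kT (dl X p s q.1) (ep X s q.1 q.2) (gam q.2) (Rr X s q.1)
      + Mom.kS (dl X p s q.1) (ep X s q.1 q.2) (gam q.2) (Rr X s q.1) * Fsrc E B X s q)
      ∂(kap f X s) := by
    rw [lintegral_kap hcont hs.2, ofReal_norm, ← lintegral_const_mul' _ _ ENNReal.ofReal_ne_top]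
    refine (enorm_integral_le_lintegral_enorm _).trans (lintegral_mono_ae ?_)
    have hin : ∀ᵐ q : R3 × R3 ∂μ, q ∈ Metric.ball (X s) s ×ˢ (univ : Set R3) := by
      rw [hμ, coneM_eq]
      exact ae_restrict_mem (Metric.isOpen_ball.measurableSet.prod MeasurableSet.univ)
    filter_upwards [ae_ne (X s) s, hin] with q hq hq2
    simp only [mem_prod, Metric.mem_ball, mem_univ, and_true] at hq2
    rw [dist_comm, dist_eq_norm] at hq2
    have hf : 0 ≤ f (s - ‖X s - q.1‖) q.1 q.2 :=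
      hf0 _ ⟨by linarith, by linarith [norm_nonneg (X s - q.1), hs.2]⟩ _ _
    have e1 : ‖f (ret X s q.1) q.1 q.2 • KK E B X p s q‖ₑ =
        ENNReal.ofReal (f (s - ‖X s - q.1‖) q.1 q.2) * ENNReal.ofReal ‖KK E B X p s q‖ := by
      rw [enorm_smul, ofReal_norm]
      congr 1
      exact Real.enorm_of_nonneg hf
    rw [e1, mul_comm (ENNReal.ofReal 9), mul_assoc]
    gcongr
    rw [← ENNReal.ofReal_mul' (by norm_num), mul_comm]
    exact ENNReal.ofReal_le_ofReal (norm_KK_le E B X p s q hq)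
  calc ENNReal.ofReal (Ftest E B X p s) ≤ ENNReal.ofReal (C + ‖I‖) := ENNReal.ofReal_le_ofReal h1
    _ = ENNReal.ofReal C + ENNReal.ofReal ‖I‖ := ENNReal.ofReal_add hC0 (norm_nonneg _)
    _ ≤ ENNReal.ofReal (max C 9) * 1 + ENNReal.ofReal (max C 9) * _ := by
        refine add_le_add ?_ (h2.trans ?_)
        · rw [mul_one]; exact ENNReal.ofReal_le_ofReal (le_max_left _ _)
        · exact mul_le_mul_left (ENNReal.ofReal_le_ofReal (le_max_right _ _)) _
    _ = _ := by rw [← mul_add]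

end Crest.Agent.R106.GsCor
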