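/-
Row 106, node GSR (helper801), part 1: the divergence lemma on `R3 \ {0}` with a tip.

`Crest.Agent.R106.Gsr.tip`: if `Φ : Fin 3 → R3 → ℝ` is `C¹` away from `0`, of bounded support, `|Φ k z| ≤ C/‖z‖²`,
`D = div Φ` is integrable and `ε² Φ k (ε ζ) → Φ0 k ζ`, then `∫ D = - ∑ k ∫ ψ k * Φ0 k`,
with `ψ k ζ = ∂_k cut ζ`, `cut ζ = smoothTransition (‖ζ‖² - 1)`.
Corollaries: `tip_zero` (mild singularity: `∫ div Φ = 0`), `tip_newton` (`Φ0 k ζ = - c ζ k / ‖ζ‖³` : `∫ div Φ = 4π c`).
-/
import Mathlib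
import Crest.Prelude.Def_VecCalc3

set_option autoImplicit false

open MeasureTheory Set Filter Topology Metric
open Crest.AnalysisR.VecCalc3
open scoped ContDiff RealInnerProductSpace

namespace Crest.Agent.R106.Gsr

/-- standard basis vector -/
noncomputable abbrev e (k : Fin 3) : R3 := EuclideanSpace.single k (1 : ℝ)

lemma integrable_of_bound {F : R3 → ℝ} {C ρ : ℝ} (hc : ContinuousOn F {0}ᶜ)
    (hs : ∀ z, ρ < ‖z‖ → F z = 0) (hb : ∀ z, z ≠ 0 → |F z| ≤ C / ‖z‖ ^ 2) : Integrable F := by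
  have hm : AEStronglyMeasurable F volume := by
    have h1 : AEStronglyMeasurable F (volume.restrict ({0}ᶜ : Set R3)) :=
      hc.aestronglyMeasurable (measurableSet_singleton (0 : R3)).compl
    rwa [restrict_compl_singleton] at h1
  have h2 : IntegrableOn (fun z : R3 => (fun r : ℝ => C / r ^ 2) ‖z‖) (ball (0 : R3) (ρ + 1)) volume := by
    refine (integrableOn_fun_norm_addHaar (volume : Measure R3) (f := fun r : ℝ => C / r ^ 2) (r := ρ + 1)).2 ?_
    have h3 : IntegrableOn (fun _ : ℝ => C) (Ioo 0 (ρ + 1)) := by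
      apply integrableOn_const
      · rw [Real.volume_Ioo]; exact ENNReal.ofReal_ne_top
      · simp
    refine h3.congr_fun ?_ measurableSet_Ioo
    intro y hy
    have hy0 : y ≠ 0 := hy.1.ne'
    simp only [finrank_euclideanSpace, Fintype.card_fin, smul_eq_mul]
    norm_num
    field_simp
  have h3 : Integrable ((ball (0 : R3) (ρ + 1)).indicator (fun z : R3 => C / ‖z‖ ^ 2)) := by
    rw [integrable_indicator_iff measurableSet_ball]
    exact h2
  refine h3.mono' hm ?_
  have h0 : ∀ᵐ z : R3, z ≠ 0 := by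
    have : ({0}ᶜ : Set R3) ∈ ae (volume : Measure R3) := by
      rw [mem_ae_iff, compl_compl]; exact measure_singleton _
    exact this
  filter_upwards [h0] with z hz
  by_cases hzr : ‖z‖ < ρ + 1
  · rw [indicator_of_mem (by simpa using hzr)]
    exact hb z hz
  · rw [indicator_of_notMem (by simpa using hzr), hs z (by linarith [not_lt.1 hzr])]
    simp

/-- cut-off: `0` for `‖z‖ ≤ 1`, `1` for `‖z‖² ≥ 2`. -/
noncomputable def cut (z : R3) : ℝ := Real.smoothTransition (‖z‖ ^ 2 - 1)

lemma cut_contDiff {n : ℕ∞} : ContDiff ℝ n cut := by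
  unfold cut
  exact Real.smoothTransition.contDiff.comp ((contDiff_norm_sq ℝ).sub contDiff_const)

lemma cut_zero {z : R3} (hz : ‖z‖ ≤ 1) : cut z = 0 := by
  unfold cut
  apply Real.smoothTransition.zero_of_nonpos
  nlinarith [norm_nonneg z]

lemma cut_one {z : R3} (hz : 2 ≤ ‖z‖ ^ 2) : cut z = 1 := by
  unfold cut
  apply Real.smoothTransition.one_of_one_le
  linarith

lemma cut_nonneg (z : R3) : 0 ≤ cut z := Real.smoothTransition.nonneg _
lemma cut_le_one (z : R3) : cut z ≤ 1 := Real.smoothTransition.le_one _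

/-- `ψ k = ∂_k cut` -/
noncomputable def psi (k : Fin 3) (z : R3) : ℝ := fderiv ℝ cut z (e k)

lemma psi_eq (k : Fin 3) (z : R3) :
    psi k z = deriv Real.smoothTransition (‖z‖ ^ 2 - 1) * (2 * z k) := by
  unfold psi
  have h1 : HasFDerivAt (fun z : R3 => ‖z‖ ^ 2 - 1) (2 • (innerSL ℝ) z) z :=
    (hasStrictFDerivAt_norm_sq z).hasFDerivAt.sub_const 1
  have h2 : HasDerivAt Real.smoothTransition (deriv Real.smoothTransition (‖z‖ ^ 2 - 1)) (‖z‖ ^ 2 - 1) :=
    ((Real.smoothTransition.contDiff (n := 1)).differentiable (by norm_num)).differentiableAt.hasDerivAt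
  have h3 := h2.comp_hasFDerivAt z h1
  have h4 : HasFDerivAt cut (deriv Real.smoothTransition (‖z‖ ^ 2 - 1) • 2 • (innerSL ℝ) z) z := h3
  rw [h4.fderiv]
  simp [EuclideanSpace.inner_single_right]

lemma psi_continuous (k : Fin 3) : Continuous (psi k) := by
  unfold psi
  exact ((cut_contDiff (n := 1)).continuous_fderiv (by norm_num)).clm_apply continuous_const

lemma psi_zero_of_lt {k : Fin 3} {z : R3} (hz : ‖z‖ < 1) : psi k z = 0 := by
  unfold psi
  have : cut =ᶠ[𝓝 z] fun _ => 0 := by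
    have : {w : R3 | ‖w‖ < 1} ∈ 𝓝 z := (isOpen_lt continuous_norm continuous_const).mem_nhds hz
    filter_upwards [this] with w hw using cut_zero (le_of_lt hw)
  rw [this.fderiv_eq]; simp

lemma psi_zero_of_gt {k : Fin 3} {z : R3} (hz : 2 < ‖z‖) : psi k z = 0 := by
  unfold psi
  have : cut =ᶠ[𝓝 z] fun _ => 1 := by
    have : {w : R3 | 2 < ‖w‖} ∈ 𝓝 z := (isOpen_lt continuous_const continuous_norm).mem_nhds hz
    filter_upwards [this] with w hw
    exact cut_one (by nlinarith [show (2:ℝ) < ‖w‖ from hw])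
  rw [this.fderiv_eq]; simp

lemma integrable_cutoff_mul {F G : R3 → ℝ} {δ ρ : ℝ} (hδ : 0 < δ) (hF : Continuous F)
    (hF0 : ∀ z, ‖z‖ < δ → F z = 0) (hG : ContinuousOn G {0}ᶜ) (hs : ∀ z, ρ < ‖z‖ → G z = 0) :
    Integrable (fun z => F z * G z) := by
  have hcont : Continuous (fun z => F z * G z) := by
    rw [continuous_iff_continuousAt]
    intro z
    by_cases hz : z = 0
    · subst hz
      have : (fun z => F z * G z) =ᶠ[𝓝 (0 : R3)] fun _ => 0 := by
        have : {w : R3 | ‖w‖ < δ} ∈ 𝓝 (0 : R3) :=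
          (isOpen_lt continuous_norm continuous_const).mem_nhds (by simpa using hδ)
        filter_upwards [this] with w hw
        rw [hF0 w hw, zero_mul]
      exact ContinuousAt.congr continuousAt_const this.symm
    · exact hF.continuousAt.mul (hG.continuousAt (isOpen_compl_singleton.mem_nhds hz))
  apply hcont.integrable_of_hasCompactSupport
  apply HasCompactSupport.intro (isCompact_closedBall (0 : R3) ρ)
  intro z hz
  rw [hs z (by simpa using hz), mul_zero]

/-- The divergence lemma with a tip. -/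
theorem tip {Φ : Fin 3 → R3 → ℝ} {D : R3 → ℝ} {Φ0 : Fin 3 → R3 → ℝ} {C ρ : ℝ}
    (hΦ : ∀ k, ContDiffOn ℝ 1 (Φ k) {0}ᶜ)
    (hs : ∀ k z, ρ < ‖z‖ → Φ k z = 0)
    (hb : ∀ k z, z ≠ 0 → |Φ k z| ≤ C / ‖z‖ ^ 2)
    (hD : ∀ z, z ≠ 0 → ∑ k, fderiv ℝ (Φ k) z (e k) = D z)
    (hDi : Integrable D)
    (hlim : ∀ k ζ, ζ ≠ 0 → Tendsto (fun ε : ℝ => ε ^ 2 * Φ k (ε • ζ)) (𝓝[>] 0) (𝓝 (Φ0 k ζ))) :
    ∫ z, D z = - ∑ k, ∫ ζ, psi k ζ * Φ0 k ζ := by
  have hdiff : ∀ k z, z ≠ 0 → DifferentiableAt ℝ (Φ k) z := fun k z hz =>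
    ((hΦ k).contDiffAt (isOpen_compl_singleton.mem_nhds hz)).differentiableAt (by norm_num)
  have hcd : ∀ k, ContinuousOn (fun z => fderiv ℝ (Φ k) z (e k)) {0}ᶜ := fun k =>
    ((hΦ k).continuousOn_fderiv_of_isOpen isOpen_compl_singleton (by norm_num)).clm_apply continuousOn_const
  have hsd : ∀ k z, ρ < ‖z‖ → fderiv ℝ (Φ k) z (e k) = 0 := by
    intro k z hz
    have : Φ k =ᶠ[𝓝 z] fun _ => 0 := by
      have : {w : R3 | ρ < ‖w‖} ∈ 𝓝 z := (isOpen_lt continuous_const continuous_norm).mem_nhds hz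
      filter_upwards [this] with w hw using hs k w hw
    rw [this.fderiv_eq]; simp
  -- identity at level ε
  have hid : ∀ ε : ℝ, 0 < ε → ∫ z, cut (ε⁻¹ • z) * D z = - ∑ k, ∫ ζ, psi k ζ * (ε ^ 2 * Φ k (ε • ζ)) := by
    intro ε hε
    have hce : ContDiff ℝ 1 (fun z : R3 => cut (ε⁻¹ • z)) :=
      (cut_contDiff (n := 1)).comp (contDiff_const_smul _)
    have hcd' : ∀ (k : Fin 3) (z : R3), fderiv ℝ (fun z : R3 => cut (ε⁻¹ • z)) z (e k) = ε⁻¹ * psi k (ε⁻¹ • z) := by
      intro k z
      have h1 : HasFDerivAt (fun z : R3 => ε⁻¹ • z) (ε⁻¹ • ContinuousLinearMap.id ℝ R3) z :=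
        (hasFDerivAt_id z).const_smul ε⁻¹
      have h2 : HasFDerivAt cut (fderiv ℝ cut (ε⁻¹ • z)) (ε⁻¹ • z) :=
        ((cut_contDiff (n := 1)).differentiable (by norm_num)).differentiableAt.hasFDerivAt
      have h3 := h2.comp z h1
      have h4 : HasFDerivAt (fun z : R3 => cut (ε⁻¹ • z)) ((fderiv ℝ cut (ε⁻¹ • z)).comp (ε⁻¹ • ContinuousLinearMap.id ℝ R3)) z := h3
      rw [h4.fderiv]
      simp [psi]
    have hcz : ∀ z : R3, ‖z‖ < ε → cut (ε⁻¹ • z) = 0 := by
      intro z hz
      apply cut_zero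
      rw [norm_smul, norm_inv, Real.norm_of_nonneg hε.le]
      rw [inv_mul_le_iff₀ hε]; linarith
    have hpz : ∀ (k : Fin 3) (z : R3), ‖z‖ < ε → ε⁻¹ * psi k (ε⁻¹ • z) = 0 := by
      intro k z hz
      rw [psi_zero_of_lt, mul_zero]
      rw [norm_smul, norm_inv, Real.norm_of_nonneg hε.le]
      rw [inv_mul_lt_iff₀ hε]; linarith
    have hI1 : ∀ k, Integrable (fun z => cut (ε⁻¹ • z) * fderiv ℝ (Φ k) z (e k)) := fun k =>
      integrable_cutoff_mul hε hce.continuous hcz (hcd k) (hsd k)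
    have hI2 : ∀ k, Integrable (fun z => (ε⁻¹ * psi k (ε⁻¹ • z)) * Φ k z) := fun k =>
      integrable_cutoff_mul hε (continuous_const.mul ((psi_continuous k).comp (continuous_const_smul _))) (hpz k)
        (hΦ k).continuousOn (hs k)
    have hI3 : ∀ k, Integrable (fun z => cut (ε⁻¹ • z) * Φ k z) := fun k =>
      integrable_cutoff_mul hε hce.continuous hcz (hΦ k).continuousOn (hs k)
    have hibp : ∀ k, ∫ z, cut (ε⁻¹ • z) * fderiv ℝ (Φ k) z (e k) = - ∫ z, (ε⁻¹ * psi k (ε⁻¹ • z)) * Φ k z := by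
      intro k
      have := integral_mul_fderiv_eq_neg_fderiv_mul_of_integrable (μ := (volume : Measure R3))
        (f := fun z : R3 => cut (ε⁻¹ • z)) (g := Φ k) (v := e k)
        (by simpa only [hcd'] using hI2 k) (hI1 k) (hI3 k)
        (fun z _ => (hce.differentiable (by norm_num)).differentiableAt)
        (fun z hz => by
          apply hdiff
          rintro rfl
          have : (0 : R3) ∉ tsupport (fun z : R3 => cut (ε⁻¹ • z)) := by
            rw [notMem_tsupport_iff_eventuallyEq]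
            have : {w : R3 | ‖w‖ < ε} ∈ 𝓝 (0 : R3) :=
              (isOpen_lt continuous_norm continuous_const).mem_nhds (by simpa using hε)
            filter_upwards [this] with w hw using hcz w hw
          exact this hz)
      rw [this]
      simp only [hcd']
    have hsum : ∫ z, cut (ε⁻¹ • z) * D z = ∑ k, ∫ z, cut (ε⁻¹ • z) * fderiv ℝ (Φ k) z (e k) := by
      rw [← integral_finsetSum _ (fun k _ => hI1 k)]
      apply integral_congr_ae
      have h0 : ∀ᵐ z : R3, z ≠ 0 := by
        have : ({0}ᶜ : Set R3) ∈ ae (volume : Measure R3) := by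
          rw [mem_ae_iff, compl_compl]; exact measure_singleton _
        exact this
      filter_upwards [h0] with z hz
      rw [← hD z hz, Finset.mul_sum]
    rw [hsum, ← Finset.sum_neg_distrib]
    apply Finset.sum_congr rfl
    intro k _
    rw [hibp k]
    congr 1
    have hsc := Measure.integral_comp_smul (volume : Measure R3)
      (fun z : R3 => (ε⁻¹ * psi k (ε⁻¹ • z)) * Φ k z) ε
    have hfr : Module.finrank ℝ R3 = 3 := by simp
    rw [hfr] at hsc
    have habs : |(ε ^ 3)⁻¹| = (ε ^ 3)⁻¹ := abs_of_pos (by positivity)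
    rw [habs] at hsc
    have : ∫ z, (ε⁻¹ * psi k (ε⁻¹ • z)) * Φ k z = ε ^ 3 * ∫ x, (ε⁻¹ * psi k (ε⁻¹ • ε • x)) * Φ k (ε • x) := by
      rw [hsc, smul_eq_mul, ← mul_assoc, mul_inv_cancel₀ (by positivity), one_mul]
    rw [this, ← integral_const_mul]
    congr 1
    ext ζ
    rw [smul_smul, inv_mul_cancel₀ hε.ne', one_smul]
    field_simp
  -- limits
  have hL : Tendsto (fun ε : ℝ => ∫ z, cut (ε⁻¹ • z) * D z) (𝓝[>] 0) (𝓝 (∫ z, D z)) := by
    apply tendsto_integral_filter_of_dominated_convergence (fun z => ‖D z‖)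
    · filter_upwards [self_mem_nhdsWithin] with ε hε
      exact (((cut_contDiff (n := 1)).continuous.comp (continuous_const_smul _)).aestronglyMeasurable).mul hDi.1
    · filter_upwards [self_mem_nhdsWithin] with ε hε
      filter_upwards with z
      rw [norm_mul]
      have : ‖cut (ε⁻¹ • z)‖ ≤ 1 := by
        rw [Real.norm_of_nonneg (cut_nonneg _)]; exact cut_le_one _
      nlinarith [norm_nonneg (D z)]
    · exact hDi.norm
    · have h0 : ∀ᵐ z : R3, z ≠ 0 := by
        have : ({0}ᶜ : Set R3) ∈ ae (volume : Measure R3) := by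
          rw [mem_ae_iff, compl_compl]; exact measure_singleton _
        exact this
      filter_upwards [h0] with z hz
      have hz' : 0 < ‖z‖ := norm_pos_iff.2 hz
      have : ∀ᶠ ε : ℝ in 𝓝[>] 0, cut (ε⁻¹ • z) * D z = D z := by
        have : Ioo (0 : ℝ) (‖z‖ / 2) ∈ 𝓝[>] (0 : ℝ) := Ioo_mem_nhdsGT (by positivity)
        filter_upwards [this] with ε hε
        rw [cut_one, one_mul]
        rw [norm_smul, norm_inv, Real.norm_of_nonneg hε.1.le]
        have h1 : 2 ≤ ε⁻¹ * ‖z‖ := by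
          rw [le_inv_mul_iff₀ hε.1]; linarith [hε.2]
        nlinarith
      exact tendsto_const_nhds.congr' (by filter_upwards [this] with ε h using h.symm)
  have hR : Tendsto (fun ε : ℝ => - ∑ k, ∫ ζ, psi k ζ * (ε ^ 2 * Φ k (ε • ζ))) (𝓝[>] 0)
      (𝓝 (- ∑ k, ∫ ζ, psi k ζ * Φ0 k ζ)) := by
    apply Tendsto.neg
    apply tendsto_finsetSum
    intro k _
    apply tendsto_integral_filter_of_dominated_convergence (fun ζ => |psi k ζ| * |C|)
    · filter_upwards [self_mem_nhdsWithin] with ε hε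
      have hε' : (0:ℝ) < ε := hε
      apply Continuous.aestronglyMeasurable
      rw [continuous_iff_continuousAt]
      intro z
      by_cases hz : z = 0
      · subst hz
        have : (fun z => psi k z * (ε ^ 2 * Φ k (ε • z))) =ᶠ[𝓝 (0 : R3)] fun _ => 0 := by
          have : {w : R3 | ‖w‖ < 1} ∈ 𝓝 (0 : R3) :=
            (isOpen_lt continuous_norm continuous_const).mem_nhds (by simp)
          filter_upwards [this] with w hw
          rw [psi_zero_of_lt hw, zero_mul]
        exact ContinuousAt.congr continuousAt_const this.symm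
      · apply (psi_continuous k).continuousAt.mul
        apply continuousAt_const.mul
        have h1 : ContinuousAt (Φ k) (ε • z) :=
          (hdiff k (ε • z) (smul_ne_zero hε'.ne' hz)).continuousAt
        exact ContinuousAt.comp (f := fun z : R3 => ε • z) (g := Φ k) h1 (continuous_const_smul ε).continuousAt
    · filter_upwards [self_mem_nhdsWithin] with ε hε
      have hε' : (0:ℝ) < ε := hε
      filter_upwards with ζ
      by_cases hζ : ‖ζ‖ < 1
      · rw [psi_zero_of_lt hζ]; simp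
      · have hζ1 : 1 ≤ ‖ζ‖ := not_lt.1 hζ
        rw [norm_mul, Real.norm_eq_abs]
        apply mul_le_mul_of_nonneg_left _ (abs_nonneg _)
        rw [Real.norm_eq_abs, abs_mul, abs_of_pos (by positivity : (0:ℝ) < ε ^ 2)]
        have hne : ε • ζ ≠ 0 := smul_ne_zero hε'.ne' (by rintro rfl; simp at hζ1; linarith)
        have h1 := hb k _ hne
        rw [norm_smul, Real.norm_of_nonneg hε'.le] at h1
        have h2 : |Φ k (ε • ζ)| ≤ |C| / (ε * ‖ζ‖) ^ 2 := h1.trans (by gcongr; exact le_abs_self C)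
        calc ε ^ 2 * |Φ k (ε • ζ)| ≤ ε ^ 2 * (|C| / (ε * ‖ζ‖) ^ 2) := by gcongr
          _ = |C| / ‖ζ‖ ^ 2 := by
              have : ‖ζ‖ ≠ 0 := by positivity
              field_simp
          _ ≤ |C| / 1 := by
              gcongr
              nlinarith
          _ = |C| := by simp
    · apply Integrable.mul_const
      apply Continuous.integrable_of_hasCompactSupport ((psi_continuous k).abs)
      apply HasCompactSupport.intro (isCompact_closedBall (0 : R3) 2)
      intro z hz
      rw [psi_zero_of_gt (by simpa using hz), abs_zero]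
    · have h0 : ∀ᵐ z : R3, z ≠ 0 := by
        have : ({0}ᶜ : Set R3) ∈ ae (volume : Measure R3) := by
          rw [mem_ae_iff, compl_compl]; exact measure_singleton _
        exact this
      filter_upwards [h0] with z hz
      exact (hlim k z hz).const_mul _
  have heq : (fun ε : ℝ => ∫ z, cut (ε⁻¹ • z) * D z) =ᶠ[𝓝[>] 0]
      fun ε : ℝ => - ∑ k, ∫ ζ, psi k ζ * (ε ^ 2 * Φ k (ε • ζ)) := by
    filter_upwards [self_mem_nhdsWithin] with ε hε using hid ε hε
  exact tendsto_nhds_unique (hL.congr' heq) hR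

end Crest.Agent.R106.Gsr
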