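/-
Row 106, node GSR (helper801), part 2: calculus of retarded functions `z ↦ F (t - ‖z‖, x + z)` away from `z = 0`.
-/
import Crest.Agent.R106.GsrTip
import Crest.Agent.R106.GSRDefs

set_option autoImplicit false

open MeasureTheory Set Filter Topology Metric
open Crest.AnalysisR.VecCalc3
open scoped ContDiff RealInnerProductSpace

namespace Crest.Agent.R106.Gsr

open Crest.Agent.R106.GSR (pt px box)

/-- the retarded point `(t - |z|, x + z)` -/
noncomputable def ret (t : ℝ) (x z : R3) : ℝ × R3 := (t - ‖z‖, x + z)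

/-- `ω_i = z_i / |z|` -/
noncomputable def om (i : Fin 3) (z : R3) : ℝ := z i * ‖z‖⁻¹

lemma norm_sq_eq (z : R3) : ‖z‖ ^ 2 = ∑ i, z i ^ 2 := by
  rw [EuclideanSpace.norm_sq_eq]; simp

lemma sum_om_sq {z : R3} (hz : z ≠ 0) : ∑ i, om i z ^ 2 = 1 := by
  have h1 : ‖z‖ ≠ 0 := norm_ne_zero_iff.2 hz
  have h2 := norm_sq_eq z
  simp only [om, mul_pow, ← Finset.sum_mul]
  rw [← h2]
  field_simp

lemma abs_om_le (i : Fin 3) (z : R3) : |om i z| ≤ 1 := by
  by_cases hz : z = 0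
  · subst hz; simp [om]
  have h1 := sum_om_sq hz
  have h2 : om i z ^ 2 ≤ 1 := by
    rw [← h1]
    exact Finset.single_le_sum (f := fun i => om i z ^ 2) (fun i _ => sq_nonneg _) (Finset.mem_univ i)
  exact abs_le_one_iff_mul_self_le_one.2 (by nlinarith)

lemma om_smul (i : Fin 3) (z : R3) {c : ℝ} (hc : 0 < c) : om i (c • z) = om i z := by
  unfold om
  rw [norm_smul, Real.norm_of_nonneg hc.le]
  simp only [PiLp.smul_apply, smul_eq_mul, mul_inv]
  field_simp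

lemma e_apply (i k : Fin 3) : (e k) i = if i = k then (1:ℝ) else 0 := by
  simp [e, Pi.single_apply]

lemma hasDerivAt_line (z : R3) (k : Fin 3) : HasDerivAt (fun s : ℝ => z + s • e k) (e k) 0 := by
  have h := ((hasDerivAt_id (0:ℝ)).smul_const (e k)).const_add z
  simpa using h

lemma hasDerivAt_coord (i k : Fin 3) (z : R3) :
    HasDerivAt (fun s : ℝ => (z + s • e k) i) (if i = k then (1:ℝ) else 0) 0 := by
  have h1 : HasFDerivAt (fun w : R3 => w i) (EuclideanSpace.proj i : R3 →L[ℝ] ℝ) (z + (0:ℝ) • e k) :=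
    (EuclideanSpace.proj i : R3 →L[ℝ] ℝ).hasFDerivAt
  have h2 := h1.comp_hasDerivAt (0:ℝ) (hasDerivAt_line z k)
  have h3 : HasDerivAt (fun s : ℝ => (z + s • e k) i) ((EuclideanSpace.proj i : R3 →L[ℝ] ℝ) (e k)) 0 := h2
  convert! h3 using 1
  simp [e, Pi.single_apply]

lemma hasFDerivAt_norm {z : R3} (hz : z ≠ 0) :
    HasFDerivAt (fun w : R3 => ‖w‖) (‖z‖⁻¹ • (innerSL ℝ z)) z := by
  have h1 : ‖z‖ ≠ 0 := norm_ne_zero_iff.2 hz
  have h2 := (hasStrictFDerivAt_norm_sq z).hasFDerivAt.sqrt (by positivity)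
  have h3 : (fun w : R3 => √(‖w‖ ^ 2)) = fun w => ‖w‖ := by
    ext w; exact Real.sqrt_sq (norm_nonneg w)
  rw [h3] at h2
  convert! h2 using 1
  rw [Real.sqrt_sq (norm_nonneg z)]
  ext w
  simp
  field_simp

lemma hasDerivAt_norm {z : R3} (hz : z ≠ 0) (k : Fin 3) :
    HasDerivAt (fun s : ℝ => ‖z + s • e k‖) (om k z) 0 := by
  have h1 : HasFDerivAt (fun w : R3 => ‖w‖) (‖z‖⁻¹ • (innerSL ℝ z)) (z + (0:ℝ) • e k) := by
    simpa using hasFDerivAt_norm hz
  have h2 := h1.comp_hasDerivAt (0:ℝ) (hasDerivAt_line z k)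
  have h3 : HasDerivAt (fun s : ℝ => ‖z + s • e k‖) ((‖z‖⁻¹ • (innerSL ℝ z)) (e k)) 0 := h2
  convert! h3 using 1
  simp [om, e, EuclideanSpace.inner_single_right, mul_comm]

lemma hasDerivAt_rho {z : R3} (hz : z ≠ 0) (k : Fin 3) :
    HasDerivAt (fun s : ℝ => ‖z + s • e k‖⁻¹) (-(‖z‖⁻¹ ^ 2 * om k z)) 0 := by
  have h1 : ‖z‖ ≠ 0 := norm_ne_zero_iff.2 hz
  have h := (hasDerivAt_norm hz k).inv (by simpa using h1)
  convert! h using 1
  simp
  field_simp

lemma hasDerivAt_om {z : R3} (hz : z ≠ 0) (i k : Fin 3) :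
    HasDerivAt (fun s : ℝ => om i (z + s • e k))
      (‖z‖⁻¹ * ((if i = k then (1:ℝ) else 0) - om i z * om k z)) 0 := by
  have h := (hasDerivAt_coord i k z).mul (hasDerivAt_rho hz k)
  convert! h using 1
  simp only [om, zero_smul, add_zero]
  split_ifs <;> ring

lemma hasFDerivAt_ret (t : ℝ) (x : R3) {z : R3} (hz : z ≠ 0) :
    HasFDerivAt (ret t x) ((-(‖z‖⁻¹ • (innerSL ℝ z))).prod (ContinuousLinearMap.id ℝ R3)) z := by
  unfold ret
  have h1 : HasFDerivAt (fun w : R3 => t - ‖w‖) (-(‖z‖⁻¹ • (innerSL ℝ z))) z := by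
    simpa using (hasFDerivAt_norm hz).const_sub t
  have h2 : HasFDerivAt (fun w : R3 => x + w) (ContinuousLinearMap.id ℝ R3) z :=
    (hasFDerivAt_id z).const_add x
  exact h1.prodMk h2

lemma hasDerivAt_ret {F : ℝ × R3 → ℝ} {t : ℝ} {x z : R3} (hz : z ≠ 0) (k : Fin 3)
    (hF : DifferentiableAt ℝ F (ret t x z)) :
    HasDerivAt (fun s : ℝ => F (ret t x (z + s • e k)))
      (px k F (ret t x z) - om k z * pt F (ret t x z)) 0 := by
  have h1 : HasFDerivAt (fun w => F (ret t x w))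
      ((fderiv ℝ F (ret t x z)).comp ((-(‖z‖⁻¹ • (innerSL ℝ z))).prod (ContinuousLinearMap.id ℝ R3)))
      (z + (0:ℝ) • e k) := by
    have h0 : z + (0:ℝ) • e k = z := by simp
    rw [h0]
    exact hF.hasFDerivAt.comp z (hasFDerivAt_ret t x hz)
  have h2 := h1.comp_hasDerivAt (0:ℝ) (hasDerivAt_line z k)
  have h3 : HasDerivAt (fun s : ℝ => F (ret t x (z + s • e k)))
    (((fderiv ℝ F (ret t x z)).comp ((-(‖z‖⁻¹ • (innerSL ℝ z))).prod (ContinuousLinearMap.id ℝ R3))) (e k)) 0 := h2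
  convert! h3 using 1
  unfold px pt
  have h4 : ((-(‖z‖⁻¹ • (innerSL ℝ z))).prod (ContinuousLinearMap.id ℝ R3)) (e k)
      = ((0 : ℝ), e k) - om k z • ((1 : ℝ), (0 : R3)) := by
    ext
    · simp [om, e, EuclideanSpace.inner_single_right, mul_comm]
    · simp
  rw [ContinuousLinearMap.comp_apply, h4, map_sub, map_smul, smul_eq_mul]

/-- transfer of line derivatives to `fderiv` -/
lemma fderiv_eq_of_line {Φ : R3 → ℝ} {z : R3} {k : Fin 3} {d : ℝ} (hd : DifferentiableAt ℝ Φ z)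
    (h : HasDerivAt (fun s : ℝ => Φ (z + s • e k)) d 0) : fderiv ℝ Φ z (e k) = d := by
  have h1 : HasLineDerivAt ℝ Φ d z (e k) := h
  have h2 := hd.hasFDerivAt.hasLineDerivAt (e k)
  exact h2.unique h1

lemma contDiffOn_norm {n : ℕ∞} : ContDiffOn ℝ n (fun z : R3 => ‖z‖) {0}ᶜ := fun z hz =>
  (contDiffAt_norm ℝ (by simpa using hz)).contDiffWithinAt

lemma contDiffOn_rho {n : ℕ∞} : ContDiffOn ℝ n (fun z : R3 => ‖z‖⁻¹) {0}ᶜ :=
  contDiffOn_norm.inv (fun z hz => norm_ne_zero_iff.2 (by simpa using hz))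

lemma contDiffOn_om {n : ℕ∞} (i : Fin 3) : ContDiffOn ℝ n (om i) {0}ᶜ := by
  unfold om
  have h1 : ContDiff ℝ n (fun z : R3 => z i) := (EuclideanSpace.proj i : R3 →L[ℝ] ℝ).contDiff
  exact h1.contDiffOn.mul contDiffOn_rho

lemma contDiffOn_ret {n : ℕ∞} (t : ℝ) (x : R3) : ContDiffOn ℝ n (ret t x) {0}ᶜ := by
  unfold ret
  exact (contDiffOn_const.sub contDiffOn_norm).prodMk (contDiff_const.add contDiff_id).contDiffOn

lemma continuous_ret (t : ℝ) (x : R3) : Continuous (ret t x) := by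
  unfold ret; fun_prop

lemma px_contDiff {u : ℝ × R3 → ℝ} {n : ℕ∞} (hu : ContDiff ℝ (n + 1) u) (k : Fin 3) :
    ContDiff ℝ n (px k u) := by
  unfold px
  exact (hu.fderiv_right (m := n) le_rfl).clm_apply contDiff_const

lemma pt_contDiff {u : ℝ × R3 → ℝ} {n : ℕ∞} (hu : ContDiff ℝ (n + 1) u) :
    ContDiff ℝ n (pt u) := by
  unfold pt
  exact (hu.fderiv_right (m := n) le_rfl).clm_apply contDiff_const

/-- symmetry of second derivatives -/
lemma px_pt_comm {u : ℝ × R3 → ℝ} (hu : ContDiff ℝ 2 u) (k : Fin 3) (q : ℝ × R3) :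
    px k (pt u) q = pt (px k u) q := by
  unfold px pt
  have hs : IsSymmSndFDerivAt ℝ u q := by
    apply hu.contDiffAt.isSymmSndFDerivAt
    simp
  have hd : DifferentiableAt ℝ (fderiv ℝ u) q :=
    ((hu.fderiv_right (m := 1) (by norm_num)).differentiable (by norm_num)).differentiableAt
  have h1 : ∀ a : ℝ × R3, HasFDerivAt (fun q => fderiv ℝ u q a)
      ((ContinuousLinearMap.apply ℝ ℝ a).comp (fderiv ℝ (fderiv ℝ u) q)) q := fun a =>
    (ContinuousLinearMap.apply ℝ ℝ a).hasFDerivAt.comp q hd.hasFDerivAt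
  rw [(h1 (1, 0)).fderiv, (h1 (0, EuclideanSpace.single k 1)).fderiv]
  simp only [ContinuousLinearMap.comp_apply, ContinuousLinearMap.apply_apply]
  exact hs _ _

end Crest.Agent.R106.Gsr
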