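/-
Row 106, node GSR (helper801), part 3: zero-past Kirchhoff formula in volume form and the cone integration by parts.
-/
import Crest.Agent.R106.GsrCalc

set_option autoImplicit false

open MeasureTheory Set Filter Topology Metric
open Crest.AnalysisR.VecCalc3
open scoped ContDiff RealInnerProductSpace

namespace Crest.Agent.R106.Gsr

open Crest.Agent.R106.GSR (pt px box)

/-- the retarded function of a zero-past function vanishes for `|z| > t` -/
lemma ret_zero {F : ℝ × R3 → ℝ} (h0 : ∀ τ ≤ 0, ∀ y, F (τ, y) = 0) {t : ℝ} {x z : R3} (hz : t ≤ ‖z‖) :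
    F (ret t x z) = 0 := h0 _ (by simpa using hz) _

lemma px_zero {F : ℝ × R3 → ℝ} (h0 : ∀ τ ≤ 0, ∀ y, F (τ, y) = 0) (hF : ContDiff ℝ 1 F) (k : Fin 3) :
    ∀ τ ≤ 0, ∀ y, px k F (τ, y) = 0 := by
  intro τ hτ y
  unfold px
  have h1 : HasDerivAt (fun s : ℝ => F ((τ, y) + s • ((0 : ℝ), EuclideanSpace.single k (1:ℝ))))
      (fderiv ℝ F (τ, y) (0, EuclideanSpace.single k 1)) 0 :=
    ((hF.differentiable (by norm_num)).differentiableAt.hasFDerivAt.hasLineDerivAt _)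
  have h2 : HasDerivAt (fun s : ℝ => F ((τ, y) + s • ((0 : ℝ), EuclideanSpace.single k (1:ℝ)))) 0 0 := by
    have : (fun s : ℝ => F ((τ, y) + s • ((0 : ℝ), EuclideanSpace.single k (1:ℝ)))) = fun _ => 0 := by
      ext s
      simp [h0 τ hτ]
    rw [this]; exact hasDerivAt_const _ _
  exact h1.unique h2

lemma pt_zero {F : ℝ × R3 → ℝ} (h0 : ∀ τ ≤ 0, ∀ y, F (τ, y) = 0) (hF : ContDiff ℝ 1 F) :
    ∀ τ ≤ 0, ∀ y, pt F (τ, y) = 0 := by
  intro τ hτ y
  have hc : Continuous (fun s : ℝ => pt F (s, y)) :=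
    (show Continuous (pt F) from ((hF.continuous_fderiv (by norm_num)).clm_apply continuous_const)).comp
      (by fun_prop)
  have hlt : ∀ s < 0, pt F (s, y) = 0 := by
    intro s hs
    unfold pt
    have : F =ᶠ[𝓝 (s, y)] fun _ => 0 := by
      have : {q : ℝ × R3 | q.1 < 0} ∈ 𝓝 (s, y) := (isOpen_lt continuous_fst continuous_const).mem_nhds hs
      filter_upwards [this] with q hq
      exact h0 q.1 (le_of_lt hq) q.2
    rw [this.fderiv_eq]; simp
  rcases hτ.lt_or_eq with h | h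
  · exact hlt τ h
  · subst h
    have h1 : Tendsto (fun s : ℝ => pt F (s, y)) (𝓝[<] 0) (𝓝 (pt F (0, y))) :=
      hc.continuousAt.tendsto.mono_left nhdsWithin_le_nhds
    have h2 : Tendsto (fun s : ℝ => pt F (s, y)) (𝓝[<] 0) (𝓝 0) := by
      apply tendsto_const_nhds.congr'
      filter_upwards [self_mem_nhdsWithin] with s hs using (hlt s hs).symm
    exact tendsto_nhds_unique h1 h2

/-- bound of a retarded zero-past function -/
lemma ret_bound {F : ℝ × R3 → ℝ} (h0 : ∀ τ ≤ 0, ∀ y, F (τ, y) = 0) (hF : Continuous F) (t : ℝ) (x : R3) :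
    ∃ M, 0 ≤ M ∧ ∀ z, |F (ret t x z)| ≤ M := by
  have hc : Continuous fun z => F (ret t x z) := hF.comp (continuous_ret t x)
  have h1 : HasCompactSupport fun z => F (ret t x z) := by
    apply HasCompactSupport.intro (isCompact_closedBall (0 : R3) |t|)
    intro z hz
    apply ret_zero h0
    have : |t| < ‖z‖ := by simpa using hz
    exact (le_abs_self t).trans this.le
  obtain ⟨M, hM⟩ := hc.bounded_above_of_compact_support h1
  exact ⟨max M 0, le_max_right _ _, fun z => (hM z).trans (le_max_left _ _)⟩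

lemma contDiff_comp_ret {F : ℝ × R3 → ℝ} {n : ℕ∞} (hF : ContDiff ℝ n F) (t : ℝ) (x : R3) :
    ContDiffOn ℝ n (fun z => F (ret t x z)) {0}ᶜ := hF.comp_contDiffOn (contDiffOn_ret t x)

lemma rho_le {t : ℝ} {z : R3} (hz : z ≠ 0) (ht : ‖z‖ ≤ t) : ‖z‖⁻¹ ≤ t / ‖z‖ ^ 2 := by
  have h1 : 0 < ‖z‖ := norm_pos_iff.2 hz
  rw [le_div_iff₀ (by positivity)]
  calc ‖z‖⁻¹ * ‖z‖ ^ 2 = ‖z‖ := by field_simp
    _ ≤ t := ht

lemma integrable_cutoff_mul' {F G : R3 → ℝ} {δ ρ : ℝ} (hδ : 0 < δ) (hF : Continuous F)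
    (hF0 : ∀ z, ‖z‖ < δ → F z = 0) (hs : ∀ z, ρ < ‖z‖ → F z = 0) (hG : ContinuousOn G {0}ᶜ) :
    Integrable (fun z => F z * G z) := by
  have hcont : Continuous (fun z => F z * G z) := by
    rw [continuous_iff_continuousAt]
    intro z
    by_cases hz : z = 0
    · subst hz
      have : (fun z => F z * G z) =ᶠ[𝓝 (0 : R3)] fun _ => 0 := by
        have : {w : R3 | ‖w‖ < δ} ∈ 𝓝 (0 : R3) :=
          (isOpen_lt continuous_norm continuous_const).mem_nhds (by simpa using hδ)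
        filter_upwards [this] with w hw
        rw [hF0 w hw, zero_mul]
      exact ContinuousAt.congr continuousAt_const this.symm
    · exact hF.continuousAt.mul (hG.continuousAt (isOpen_compl_singleton.mem_nhds hz))
  apply hcont.integrable_of_hasCompactSupport
  apply HasCompactSupport.intro (isCompact_closedBall (0 : R3) ρ)
  intro z hz
  rw [hs z (by simpa using hz), zero_mul]

lemma integral_psi_newton :
    ∑ k, ∫ ζ : R3, psi k ζ * (‖ζ‖⁻¹ ^ 2 * om k ζ) = 4 * Real.pi := by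
  have hdc : Continuous (deriv Real.smoothTransition) :=
    (Real.smoothTransition.contDiff (n := 1)).continuous_deriv (by norm_num)
  have hpt : ∀ ζ : R3, ∑ k, psi k ζ * (‖ζ‖⁻¹ ^ 2 * om k ζ)
      = (fun r : ℝ => deriv Real.smoothTransition (r ^ 2 - 1) * (2 * r⁻¹)) ‖ζ‖ := by
    intro ζ
    by_cases hz : ζ = 0
    · subst hz; simp [psi_eq, om]
    have h1 : ‖ζ‖ ≠ 0 := norm_ne_zero_iff.2 hz
    have h2 := norm_sq_eq ζ
    simp only [psi_eq, om, Fin.sum_univ_three] at h2 ⊢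
    have h3 : deriv Real.smoothTransition (‖ζ‖ ^ 2 - 1) * (2 * ζ 0) * (‖ζ‖⁻¹ ^ 2 * (ζ 0 * ‖ζ‖⁻¹)) +
          deriv Real.smoothTransition (‖ζ‖ ^ 2 - 1) * (2 * ζ 1) * (‖ζ‖⁻¹ ^ 2 * (ζ 1 * ‖ζ‖⁻¹)) +
        deriv Real.smoothTransition (‖ζ‖ ^ 2 - 1) * (2 * ζ 2) * (‖ζ‖⁻¹ ^ 2 * (ζ 2 * ‖ζ‖⁻¹))
        = deriv Real.smoothTransition (‖ζ‖ ^ 2 - 1) * 2 * ‖ζ‖⁻¹ ^ 3 * (ζ 0 ^ 2 + ζ 1 ^ 2 + ζ 2 ^ 2) := by ring
    rw [h3, ← h2]
    field_simp
  have hint : ∀ k : Fin 3, Integrable fun ζ : R3 => psi k ζ * (‖ζ‖⁻¹ ^ 2 * om k ζ) := by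
    intro k
    apply integrable_cutoff_mul' (δ := 1) (ρ := 2) one_pos (psi_continuous k) (fun z hz => psi_zero_of_lt hz)
      (fun z hz => psi_zero_of_gt hz)
    exact ((contDiffOn_rho (n := 0)).continuousOn.pow 2).mul (contDiffOn_om (n := 0) k).continuousOn
  rw [← integral_finsetSum _ (fun k _ => hint k)]
  simp_rw [hpt]
  rw [integral_fun_norm_addHaar (volume : Measure R3) (fun r : ℝ => deriv Real.smoothTransition (r ^ 2 - 1) * (2 * r⁻¹))]
  have hvol : (volume : Measure R3).real (ball 0 1) = Real.pi * 4 / 3 := by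
    rw [Measure.real, EuclideanSpace.volume_ball_fin_three]
    simp
    positivity
  rw [hvol]
  have hfr : Module.finrank ℝ R3 = 3 := by simp
  rw [hfr]
  have hI : ∫ y in Ioi (0 : ℝ), y ^ (3 - 1) • (deriv Real.smoothTransition (y ^ 2 - 1) * (2 * y⁻¹)) = 1 := by
    have h1 : ∫ y in Ioi (0 : ℝ), deriv Real.smoothTransition (y ^ 2 - 1) * (2 * y) = 1 - Real.smoothTransition (0 ^ 2 - 1) := by
      apply integral_Ioi_of_hasDerivAt_of_tendsto' (f := fun y : ℝ => Real.smoothTransition (y ^ 2 - 1))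
      · intro y _
        have h2 : HasDerivAt Real.smoothTransition (deriv Real.smoothTransition (y ^ 2 - 1)) (y ^ 2 - 1) :=
          ((Real.smoothTransition.contDiff (n := 1)).differentiable (by norm_num)).differentiableAt.hasDerivAt
        have h3 : HasDerivAt (fun y : ℝ => y ^ 2 - 1) (2 * y) y := by
          simpa using (hasDerivAt_pow 2 y).sub_const 1
        exact h2.comp y h3
      · apply Integrable.integrableOn
        apply Continuous.integrable_of_hasCompactSupport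
        · exact (hdc.comp (by fun_prop)).mul (by fun_prop)
        · apply HasCompactSupport.intro (isCompact_closedBall (0 : ℝ) 2)
          intro y hy
          have hy' : 2 < |y| := by simpa using hy
          have h4 : 1 < y ^ 2 - 1 := by nlinarith [sq_abs y, abs_nonneg y]
          have h5 : Real.smoothTransition =ᶠ[𝓝 (y ^ 2 - 1)] fun _ => 1 := by
            filter_upwards [Ioi_mem_nhds h4] with w hw
            exact Real.smoothTransition.one_of_one_le (le_of_lt hw)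
          rw [h5.deriv_eq]; simp
      · apply tendsto_const_nhds.congr'
        filter_upwards [eventually_ge_atTop 2] with y hy
        exact (Real.smoothTransition.one_of_one_le (by nlinarith)).symm
    rw [Real.smoothTransition.zero_of_nonpos (by norm_num), sub_zero] at h1
    refine Eq.trans ?_ h1
    apply setIntegral_congr_fun measurableSet_Ioi
    intro y hy
    have : y ≠ 0 := (ne_of_gt hy)
    simp only [smul_eq_mul]
    norm_num
    field_simp
  rw [hI]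
  simp only [smul_eq_mul, nsmul_eq_mul]
  norm_num
  ring

/-- mild singularity: no contribution of the tip -/
theorem tip_zero {Φ : Fin 3 → R3 → ℝ} {D : R3 → ℝ} {C ρ : ℝ}
    (hΦ : ∀ k, ContDiffOn ℝ 1 (Φ k) {0}ᶜ)
    (hs : ∀ k z, ρ < ‖z‖ → Φ k z = 0)
    (hb : ∀ k z, z ≠ 0 → |Φ k z| ≤ C * ‖z‖⁻¹)
    (hD : ∀ z, z ≠ 0 → ∑ k, fderiv ℝ (Φ k) z (e k) = D z)
    (hDi : Integrable D) : ∫ z, D z = 0 := by
  have hC : ∀ k z, z ≠ 0 → |Φ k z| ≤ (|C| * |ρ|) / ‖z‖ ^ 2 := by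
    intro k z hz
    have h1 : 0 < ‖z‖ := norm_pos_iff.2 hz
    by_cases h : ρ < ‖z‖
    · rw [hs k z h, abs_zero]; positivity
    · calc |Φ k z| ≤ C * ‖z‖⁻¹ := hb k z hz
        _ ≤ |C| * (|ρ| / ‖z‖ ^ 2) := by
            gcongr
            · exact le_abs_self C
            · exact rho_le hz ((not_lt.1 h).trans (le_abs_self ρ))
        _ = _ := by ring
  rw [tip (Φ0 := fun _ _ => 0) hΦ hs hC hD hDi]
  · simp
  · intro k ζ hζ
    have h1 : 0 < ‖ζ‖ := norm_pos_iff.2 hζ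
    apply squeeze_zero_norm' (a := fun ε => ε * (|C| * ‖ζ‖⁻¹))
    · filter_upwards [self_mem_nhdsWithin] with ε hε
      have hε' : (0:ℝ) < ε := hε
      have h2 := hb k (ε • ζ) (smul_ne_zero hε'.ne' hζ)
      rw [norm_smul, Real.norm_of_nonneg hε'.le] at h2
      rw [Real.norm_eq_abs, abs_mul, abs_of_pos (by positivity : (0:ℝ) < ε ^ 2)]
      calc ε ^ 2 * |Φ k (ε • ζ)| ≤ ε ^ 2 * (|C| * (ε * ‖ζ‖)⁻¹) := by
            gcongr
            exact h2.trans (by gcongr; exact le_abs_self C)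
        _ = _ := by field_simp
    · have : Tendsto (fun ε : ℝ => ε * (|C| * ‖ζ‖⁻¹)) (𝓝 0) (𝓝 (0 * (|C| * ‖ζ‖⁻¹))) :=
        (continuous_id.mul continuous_const).tendsto 0
      rw [zero_mul] at this
      exact this.mono_left nhdsWithin_le_nhds

lemma px_contDiff2 {u : ℝ × R3 → ℝ} (hu : ContDiff ℝ 2 u) (k : Fin 3) : ContDiff ℝ 1 (px k u) := by
  unfold px
  exact (hu.fderiv_right (m := 1) (by norm_num)).clm_apply contDiff_const

lemma pt_contDiff2 {u : ℝ × R3 → ℝ} (hu : ContDiff ℝ 2 u) : ContDiff ℝ 1 (pt u) := by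
  unfold pt
  exact (hu.fderiv_right (m := 1) (by norm_num)).clm_apply contDiff_const

/-- Kirchhoff's formula in volume form for functions vanishing in the past. -/
theorem kirchhoff {u : ℝ × R3 → ℝ} (hu : ContDiff ℝ 2 u) (h0 : ∀ τ ≤ 0, ∀ y, u (τ, y) = 0)
    (t : ℝ) (x : R3) :
    ∫ z, ‖z‖⁻¹ * box u (ret t x z) = 4 * Real.pi * u (t, x) := by
  have hu1 : ContDiff ℝ 1 u := hu.of_le (by norm_num)
  have hpx : ∀ k, ContDiff ℝ 1 (px k u) := fun k => px_contDiff2 hu k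
  have hpt : ContDiff ℝ 1 (pt u) := pt_contDiff2 hu
  have hpx0 : ∀ k, ∀ τ ≤ 0, ∀ y, px k u (τ, y) = 0 := fun k => px_zero h0 hu1 k
  have hpt0 : ∀ τ ≤ 0, ∀ y, pt u (τ, y) = 0 := pt_zero h0 hu1
  have hdpx : ∀ (k : Fin 3) (q), DifferentiableAt ℝ (px k u) q := fun k q =>
    ((hpx k).differentiable (by norm_num)).differentiableAt
  have hdpt : ∀ q, DifferentiableAt ℝ (pt u) q := fun q =>
    (hpt.differentiable (by norm_num)).differentiableAt
  have hdu : ∀ q, DifferentiableAt ℝ u q := fun q =>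
    (hu1.differentiable (by norm_num)).differentiableAt
  let Φ : Fin 3 → R3 → ℝ := fun k z =>
    -(‖z‖⁻¹ * (px k u (ret t x z) + om k z * pt u (ret t x z))) - ‖z‖⁻¹ ^ 2 * om k z * u (ret t x z)
  have hΦ : ∀ k, ContDiffOn ℝ 1 (Φ k) {0}ᶜ := by
    intro k
    exact ((contDiffOn_rho (n := 1)).mul ((contDiff_comp_ret (n := 1) (hpx k) t x).add
      ((contDiffOn_om (n := 1) k).mul (contDiff_comp_ret (n := 1) hpt t x)))).neg.sub
      ((((contDiffOn_rho (n := 1)).pow 2).mul (contDiffOn_om (n := 1) k)).mul (contDiff_comp_ret (n := 1) hu1 t x))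
  have hline : ∀ (k : Fin 3) (z : R3), z ≠ 0 → HasDerivAt (fun s : ℝ => Φ k (z + s • e k))
      (-(-(‖z‖⁻¹ ^ 2 * om k z) * (px k u (ret t x z) + om k z * pt u (ret t x z))
        + ‖z‖⁻¹ * ((px k (px k u) (ret t x z) - om k z * pt (px k u) (ret t x z))
          + (‖z‖⁻¹ * (1 - om k z * om k z) * pt u (ret t x z)
            + om k z * (px k (pt u) (ret t x z) - om k z * pt (pt u) (ret t x z)))))
        - (((2 * ‖z‖⁻¹ * -(‖z‖⁻¹ ^ 2 * om k z)) * om k z + ‖z‖⁻¹ ^ 2 * (‖z‖⁻¹ * (1 - om k z * om k z))) * u (ret t x z)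
          + ‖z‖⁻¹ ^ 2 * om k z * (px k u (ret t x z) - om k z * pt u (ret t x z)))) 0 := by
    intro k z hz
    have hr := hasDerivAt_rho hz k
    have ho := hasDerivAt_om hz k k
    have h1 := hasDerivAt_ret (F := px k u) (t := t) (x := x) hz k (hdpx k _)
    have h2 := hasDerivAt_ret (F := pt u) (t := t) (x := x) hz k (hdpt _)
    have h3 := hasDerivAt_ret (F := u) (t := t) (x := x) hz k (hdu _)
    have hmain := ((hr.mul (h1.add (ho.mul h2))).neg).sub ((((hr.pow 2).mul ho)).mul h3)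
    convert! hmain using 1
    simp
  have hD : ∀ z, z ≠ 0 → ∑ k, fderiv ℝ (Φ k) z (e k) = ‖z‖⁻¹ * box u (ret t x z) := by
    intro z hz
    have h1 : ∀ k, fderiv ℝ (Φ k) z (e k) = _ := fun k =>
      fderiv_eq_of_line (((hΦ k).contDiffAt (isOpen_compl_singleton.mem_nhds hz)).differentiableAt (by norm_num)) (hline k z hz)
    simp only [h1]
    have ho := sum_om_sq hz
    have hc := fun k => px_pt_comm hu k (ret t x z)
    unfold box
    simp only [Fin.sum_univ_three, hc] at ho ⊢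
    linear_combination ((‖z‖⁻¹) * pt (pt u) (ret t x z) + 3 * ‖z‖⁻¹ ^ 2 * pt u (ret t x z) + 3 * ‖z‖⁻¹ ^ 3 * u (ret t x z)) * ho
  have hbox0 : ∀ τ ≤ 0, ∀ y, box u (τ, y) = 0 := by
    intro τ hτ y
    unfold box
    rw [pt_zero hpt0 hpt τ hτ y]
    simp [fun k => px_zero (hpx0 k) (hpx k) k τ hτ y]
  have hboxc : Continuous (box u) := by
    have h1 : ∀ {F : ℝ × R3 → ℝ} (k : Fin 3), ContDiff ℝ 1 F → Continuous (px k F) := fun k hF =>
      (hF.continuous_fderiv (by norm_num)).clm_apply continuous_const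
    have h2 : Continuous (pt (pt u)) := (hpt.continuous_fderiv (by norm_num)).clm_apply continuous_const
    exact h2.sub (continuous_finsetSum _ fun k _ => h1 k (hpx k))
  obtain ⟨M1, hM1, hb1⟩ := ret_bound hbox0 hboxc t x
  have hMx : ∀ k, ∃ M, 0 ≤ M ∧ ∀ z, |px k u (ret t x z)| ≤ M := fun k =>
    ret_bound (hpx0 k) (hpx k).continuous t x
  obtain ⟨M2, hM2, hb2⟩ := ret_bound hpt0 hpt.continuous t x
  obtain ⟨M3, hM3, hb3⟩ := ret_bound h0 hu.continuous t x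
  have hDi : Integrable (fun z : R3 => ‖z‖⁻¹ * box u (ret t x z)) := by
    apply integrable_of_bound (C := |t| * M1) (ρ := t)
    · exact (contDiffOn_rho (n := 0)).continuousOn.mul (hboxc.comp (continuous_ret t x)).continuousOn
    · intro z hz; rw [ret_zero hbox0 hz.le, mul_zero]
    · intro z hz
      by_cases h : t < ‖z‖
      · rw [ret_zero hbox0 h.le, mul_zero, abs_zero]; positivity
      · rw [abs_mul, abs_inv, abs_norm]
        calc ‖z‖⁻¹ * |box u (ret t x z)| ≤ (|t| / ‖z‖ ^ 2) * M1 := by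
              gcongr
              · exact rho_le hz ((not_lt.1 h).trans (le_abs_self t))
              · exact hb1 z
          _ = _ := by ring
  have hs : ∀ k z, t < ‖z‖ → Φ k z = 0 := by
    intro k z hz
    simp only [Φ, ret_zero (hpx0 k) hz.le, ret_zero hpt0 hz.le, ret_zero h0 hz.le]
    ring
  have hbd : ∀ k, ∃ C, 0 ≤ C ∧ ∀ z, z ≠ 0 → |Φ k z| ≤ C / ‖z‖ ^ 2 := by
    intro k
    obtain ⟨M, hM, hb⟩ := hMx k
    refine ⟨|t| * (M + M2) + M3, by positivity, ?_⟩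
    intro z hz
    by_cases h : t < ‖z‖
    · rw [hs k z h, abs_zero]; positivity
    · have hr : ‖z‖⁻¹ ≤ |t| / ‖z‖ ^ 2 := rho_le hz ((not_lt.1 h).trans (le_abs_self t))
      have ho := abs_om_le k z
      have hzp : 0 < ‖z‖ := norm_pos_iff.2 hz
      have e1 : |‖z‖⁻¹ * (px k u (ret t x z) + om k z * pt u (ret t x z))| ≤ (|t| / ‖z‖ ^ 2) * (M + M2) := by
        rw [abs_mul, abs_inv, abs_norm]
        gcongr
        refine (abs_add_le _ _).trans (add_le_add (hb z) ?_)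
        rw [abs_mul]
        calc |om k z| * |pt u (ret t x z)| ≤ 1 * M2 := by gcongr; exact hb2 z
          _ = M2 := one_mul _
      have e2 : |‖z‖⁻¹ ^ 2 * om k z * u (ret t x z)| ≤ M3 / ‖z‖ ^ 2 := by
        rw [abs_mul, abs_mul, abs_of_nonneg (by positivity : (0:ℝ) ≤ ‖z‖⁻¹ ^ 2)]
        calc ‖z‖⁻¹ ^ 2 * |om k z| * |u (ret t x z)| ≤ ‖z‖⁻¹ ^ 2 * 1 * M3 := by gcongr; exact hb3 z
          _ = _ := by field_simp
      calc |Φ k z| ≤ |-(‖z‖⁻¹ * (px k u (ret t x z) + om k z * pt u (ret t x z)))| + |‖z‖⁻¹ ^ 2 * om k z * u (ret t x z)| :=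
            abs_sub _ _
        _ ≤ (|t| / ‖z‖ ^ 2) * (M + M2) + M3 / ‖z‖ ^ 2 := by rw [abs_neg]; exact add_le_add e1 e2
        _ = _ := by ring
  choose Cb hCb0 hCb using hbd
  have hC : ∀ k z, z ≠ 0 → |Φ k z| ≤ (∑ k, Cb k) / ‖z‖ ^ 2 := by
    intro k z hz
    refine (hCb k z hz).trans ?_
    gcongr
    exact Finset.single_le_sum (fun i _ => hCb0 i) (Finset.mem_univ k)
  rw [tip (Φ0 := fun k ζ => - (‖ζ‖⁻¹ ^ 2 * om k ζ * u (t, x))) hΦ hs hC hD hDi]
  · have h1 : ∀ k, ∫ ζ : R3, psi k ζ * -(‖ζ‖⁻¹ ^ 2 * om k ζ * u (t, x))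
        = - ((∫ ζ : R3, psi k ζ * (‖ζ‖⁻¹ ^ 2 * om k ζ)) * u (t, x)) := by
      intro k
      rw [← integral_mul_const, ← integral_neg]
      congr 1; ext ζ; ring
    simp only [h1, Finset.sum_neg_distrib, neg_neg]
    rw [← Finset.sum_mul, integral_psi_newton]
  · intro k ζ hζ
    have hζp : 0 < ‖ζ‖ := norm_pos_iff.2 hζ
    have hret : Tendsto (fun ε : ℝ => ret t x (ε • ζ)) (𝓝[>] 0) (𝓝 (t, x)) := by
      have h1 : Continuous fun ε : ℝ => ret t x (ε • ζ) := (continuous_ret t x).comp (by fun_prop)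
      have h2 := h1.tendsto 0
      have h3 : ret t x ((0:ℝ) • ζ) = (t, x) := by simp [ret]
      rw [h3] at h2
      exact h2.mono_left nhdsWithin_le_nhds
    have hid : Tendsto (fun ε : ℝ => ε) (𝓝[>] (0:ℝ)) (𝓝 0) := tendsto_id.mono_left nhdsWithin_le_nhds
    have hlim1 : Tendsto (fun ε : ℝ => -(ε * (‖ζ‖⁻¹ * (px k u (ret t x (ε • ζ)) + om k ζ * pt u (ret t x (ε • ζ)))))
        - ‖ζ‖⁻¹ ^ 2 * om k ζ * u (ret t x (ε • ζ))) (𝓝[>] 0)
        (𝓝 (-(0 * (‖ζ‖⁻¹ * (px k u (t, x) + om k ζ * pt u (t, x)))) - ‖ζ‖⁻¹ ^ 2 * om k ζ * u (t, x))) := by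
      apply Tendsto.sub
      · apply Tendsto.neg
        apply hid.mul
        apply Tendsto.const_mul
        apply Tendsto.add
        · exact ((hpx k).continuous.tendsto _).comp hret
        · exact ((hpt.continuous.tendsto _).comp hret).const_mul _
      · exact ((hu.continuous.tendsto _).comp hret).const_mul _
    have h4 : -(0 * (‖ζ‖⁻¹ * (px k u (t, x) + om k ζ * pt u (t, x)))) - ‖ζ‖⁻¹ ^ 2 * om k ζ * u (t, x)
        = -(‖ζ‖⁻¹ ^ 2 * om k ζ * u (t, x)) := by ring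
    rw [h4] at hlim1
    refine hlim1.congr' ?_
    filter_upwards [self_mem_nhdsWithin] with ε hε
    have hε' : (0:ℝ) < ε := hε
    simp only [Φ]
    rw [om_smul k ζ hε', norm_smul, Real.norm_of_nonneg hε'.le]
    field_simp

/-- `a · ω` -/
noncomputable def sdot (a z : R3) : ℝ := ∑ i, a i * om i z

lemma hasDerivAt_sdot (a : R3) {z : R3} (hz : z ≠ 0) (k : Fin 3) :
    HasDerivAt (fun s : ℝ => sdot a (z + s • e k)) (‖z‖⁻¹ * (a k - sdot a z * om k z)) 0 := by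
  have h : HasDerivAt (fun s : ℝ => sdot a (z + s • e k))
      (∑ i, a i * (‖z‖⁻¹ * ((if i = k then (1:ℝ) else 0) - om i z * om k z))) 0 := by
    unfold sdot
    apply HasDerivAt.fun_sum
    intro i _
    exact (hasDerivAt_om hz i k).const_mul (a i)
  convert! h using 1
  unfold sdot
  fin_cases k <;> simp [Fin.sum_univ_three] <;> ring

lemma contDiffOn_sdot {n : ℕ∞} (a : R3) : ContDiffOn ℝ n (sdot a) {0}ᶜ := by
  unfold sdot
  exact ContDiffOn.sum fun i _ => contDiffOn_const.mul (contDiffOn_om i)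

lemma abs_sdot_le (a z : R3) : |sdot a z| ≤ ‖a‖ := by
  by_cases hz : z = 0
  · subst hz; simp [sdot, om]
  have h1 : sdot a z = ⟪a, z⟫ * ‖z‖⁻¹ := by
    unfold sdot om
    rw [PiLp.inner_apply]
    simp only [Fin.sum_univ_three]
    simp
    ring
  have hzp : 0 < ‖z‖ := norm_pos_iff.2 hz
  rw [h1, abs_mul, abs_inv, abs_norm, mul_inv_le_iff₀ hzp]
  exact abs_real_inner_le_norm a z

/-- `m = 1 + v·ω` -/
noncomputable def mm (v z : R3) : ℝ := 1 + sdot v z

lemma mm_pos {v : R3} (hv : ‖v‖ < 1) (z : R3) : 0 < mm v z := by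
  have := abs_sdot_le v z
  unfold mm
  linarith [neg_abs_le (sdot v z)]

lemma mm_ge {v : R3} (z : R3) : 1 - ‖v‖ ≤ mm v z := by
  have := abs_sdot_le v z
  unfold mm
  linarith [neg_abs_le (sdot v z)]

/-- `κ = c·(ω + v)` -/
noncomputable def kap (v c z : R3) : ℝ := sdot c z + ∑ i, c i * v i

lemma cone_kernel_integrable {F : ℝ × R3 → ℝ} (h0 : ∀ τ ≤ 0, ∀ y, F (τ, y) = 0) (hF : Continuous F)
    (t : ℝ) (x : R3) {K : R3 → ℝ} {C : ℝ} (hK : ContinuousOn K {0}ᶜ) (hKb : ∀ z, z ≠ 0 → |K z| ≤ C * ‖z‖⁻¹ ^ 2) :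
    Integrable (fun z => K z * F (ret t x z)) := by
  obtain ⟨M, hM, hb⟩ := ret_bound h0 hF t x
  apply integrable_of_bound (C := C * M) (ρ := t)
  · exact hK.mul (hF.comp (continuous_ret t x)).continuousOn
  · intro z hz; rw [ret_zero h0 hz.le, mul_zero]
  · intro z hz
    rw [abs_mul]
    calc |K z| * |F (ret t x z)| ≤ (C * ‖z‖⁻¹ ^ 2) * M :=
          mul_le_mul (hKb z hz) (hb z) (abs_nonneg _) ((abs_nonneg _).trans (hKb z hz))
      _ = _ := by field_simp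

lemma cone_kernel_integrable' {F : ℝ × R3 → ℝ} (h0 : ∀ τ ≤ 0, ∀ y, F (τ, y) = 0) (hF : Continuous F)
    (t : ℝ) (x : R3) {K : R3 → ℝ} {C : ℝ} (hK : ContinuousOn K {0}ᶜ) (hKb : ∀ z, z ≠ 0 → |K z| ≤ C * ‖z‖⁻¹) :
    Integrable (fun z => K z * F (ret t x z)) := by
  obtain ⟨M, hM, hb⟩ := ret_bound h0 hF t x
  apply integrable_of_bound (C := |C| * |t| * M) (ρ := t)
  · exact hK.mul (hF.comp (continuous_ret t x)).continuousOn
  · intro z hz; rw [ret_zero h0 hz.le, mul_zero]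
  · intro z hz
    by_cases h : t < ‖z‖
    · rw [ret_zero h0 h.le, mul_zero, abs_zero]; positivity
    · rw [abs_mul]
      have hr : ‖z‖⁻¹ ≤ |t| / ‖z‖ ^ 2 := rho_le hz ((not_lt.1 h).trans (le_abs_self t))
      calc |K z| * |F (ret t x z)| ≤ (|C| * (|t| / ‖z‖ ^ 2)) * M := by
            apply mul_le_mul _ (hb z) (abs_nonneg _) (by positivity)
            refine (hKb z hz).trans ?_
            gcongr
            exact le_abs_self C
        _ = _ := by ring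

/-- The cone integration by parts (Glassey--Strauss), combined form with integrability. -/
theorem cone_ibp_aux {g : ℝ × R3 → ℝ} (hg : ContDiff ℝ 1 g) (h0 : ∀ τ ≤ 0, ∀ y, g (τ, y) = 0)
    {v : R3} (hv : ‖v‖ < 1) (c : R3) (t : ℝ) (x : R3) :
    Integrable (fun z => ‖z‖⁻¹ * (∑ i, c i * px i g (ret t x z) + (∑ i, c i * v i) * pt g (ret t x z))) ∧
    Integrable (fun z => (kap v c z * (1 - ‖v‖ ^ 2) * (mm v z)⁻¹ ^ 2 * ‖z‖⁻¹ ^ 2) * g (ret t x z)) ∧
    Integrable (fun z => (kap v c z * (mm v z)⁻¹ * ‖z‖⁻¹) * (pt g (ret t x z) + ∑ i, v i * px i g (ret t x z))) ∧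
    ∫ z, (‖z‖⁻¹ * (∑ i, c i * px i g (ret t x z) + (∑ i, c i * v i) * pt g (ret t x z))
      - (kap v c z * (1 - ‖v‖ ^ 2) * (mm v z)⁻¹ ^ 2 * ‖z‖⁻¹ ^ 2) * g (ret t x z)
      - (kap v c z * (mm v z)⁻¹ * ‖z‖⁻¹) * (pt g (ret t x z) + ∑ i, v i * px i g (ret t x z))) = 0 := by
  have hpxc : ∀ k, Continuous (px k g) := fun k => (hg.continuous_fderiv (by norm_num)).clm_apply continuous_const
  have hptc : Continuous (pt g) := (hg.continuous_fderiv (by norm_num)).clm_apply continuous_const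
  have hpx0 : ∀ k, ∀ τ ≤ 0, ∀ y, px k g (τ, y) = 0 := fun k => px_zero h0 hg k
  have hpt0 : ∀ τ ≤ 0, ∀ y, pt g (τ, y) = 0 := pt_zero h0 hg
  have hdg : ∀ q, DifferentiableAt ℝ g q := fun q => (hg.differentiable (by norm_num)).differentiableAt
  have hmne : ∀ z, mm v z ≠ 0 := fun z => (mm_pos hv z).ne'
  have hmC : ∀ {n : ℕ∞}, ContDiffOn ℝ n (mm v) {0}ᶜ := fun {n} => contDiffOn_const.add (contDiffOn_sdot v)
  have hmiC : ∀ {n : ℕ∞}, ContDiffOn ℝ n (fun z => (mm v z)⁻¹) {0}ᶜ := fun {n} => hmC.inv (fun z _ => hmne z)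
  have hkC : ∀ {n : ℕ∞}, ContDiffOn ℝ n (kap v c) {0}ᶜ := fun {n} => (contDiffOn_sdot c).add contDiffOn_const
  let Φ : Fin 3 → R3 → ℝ := fun k z => ‖z‖⁻¹ * (c k - kap v c z * (mm v z)⁻¹ * v k) * g (ret t x z)
  have hΦ : ∀ k, ContDiffOn ℝ 1 (Φ k) {0}ᶜ := fun k =>
    ((contDiffOn_rho (n := 1)).mul (contDiffOn_const.sub ((hkC.mul hmiC).mul contDiffOn_const))).mul
      (contDiff_comp_ret (n := 1) hg t x)
  have hline : ∀ (k : Fin 3) (z : R3), z ≠ 0 → HasDerivAt (fun s : ℝ => Φ k (z + s • e k))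
      ((-(‖z‖⁻¹ ^ 2 * om k z) * (c k - kap v c z * (mm v z)⁻¹ * v k)
        + ‖z‖⁻¹ * (-((‖z‖⁻¹ * (c k - sdot c z * om k z) * (mm v z)⁻¹
          + kap v c z * (-(‖z‖⁻¹ * (v k - sdot v z * om k z)) * (mm v z)⁻¹ ^ 2)) * v k))) * g (ret t x z)
        + ‖z‖⁻¹ * (c k - kap v c z * (mm v z)⁻¹ * v k) * (px k g (ret t x z) - om k z * pt g (ret t x z))) 0 := by
    intro k z hz
    have hr := hasDerivAt_rho hz k
    have hm : HasDerivAt (fun s : ℝ => mm v (z + s • e k)) (‖z‖⁻¹ * (v k - sdot v z * om k z)) 0 :=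
      (hasDerivAt_sdot v hz k).const_add 1
    have hk : HasDerivAt (fun s : ℝ => kap v c (z + s • e k)) (‖z‖⁻¹ * (c k - sdot c z * om k z)) 0 :=
      (hasDerivAt_sdot c hz k).add_const _
    have hmi := hm.inv (by simpa using hmne z)
    have h3 := hasDerivAt_ret (F := g) (t := t) (x := x) hz k (hdg _)
    have hmain := (hr.mul (((hk.mul hmi).mul_const (v k)).const_sub (c k))).mul h3
    convert! hmain using 1
    simp
    field_simp
    simp
  have hD : ∀ z, z ≠ 0 → ∑ k, fderiv ℝ (Φ k) z (e k)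
      = ‖z‖⁻¹ * (∑ i, c i * px i g (ret t x z) + (∑ i, c i * v i) * pt g (ret t x z))
        - (kap v c z * (1 - ‖v‖ ^ 2) * (mm v z)⁻¹ ^ 2 * ‖z‖⁻¹ ^ 2) * g (ret t x z)
        - (kap v c z * (mm v z)⁻¹ * ‖z‖⁻¹) * (pt g (ret t x z) + ∑ i, v i * px i g (ret t x z)) := by
    intro z hz
    have h1 : ∀ k, fderiv ℝ (Φ k) z (e k) = _ := fun k =>
      fderiv_eq_of_line (((hΦ k).contDiffAt (isOpen_compl_singleton.mem_nhds hz)).differentiableAt (by norm_num)) (hline k z hz)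
    simp only [h1]
    have hm : (1 + sdot v z) * (mm v z)⁻¹ = 1 := mul_inv_cancel₀ (hmne z)
    rw [norm_sq_eq v]
    have hsv : sdot v z = v 0 * om 0 z + v 1 * om 1 z + v 2 * om 2 z := by simp [sdot, Fin.sum_univ_three]
    have hsc : sdot c z = c 0 * om 0 z + c 1 * om 1 z + c 2 * om 2 z := by simp [sdot, Fin.sum_univ_three]
    unfold kap
    generalize hmi : (mm v z)⁻¹ = mi at *
    simp only [Fin.sum_univ_three]
    rw [hsc]
    rw [hsv] at hm ⊢
    linear_combination (‖z‖⁻¹ ^ 2 * g (ret t x z) * ((c 0 * om 0 z + c 1 * om 1 z + c 2 * om 2 z + (c 0 * v 0 + c 1 * v 1 + c 2 * v 2)) * mi * (1 - (v 0 * om 0 z + v 1 * om 1 z + v 2 * om 2 z)) + (c 0 * om 0 z + c 1 * om 1 z + c 2 * om 2 z)) + ‖z‖⁻¹ * pt g (ret t x z) * (c 0 * om 0 z + c 1 * om 1 z + c 2 * om 2 z + (c 0 * v 0 + c 1 * v 1 + c 2 * v 2))) * hm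
  have hF1c : Continuous (fun q : ℝ × R3 => ∑ i, c i * px i g q + (∑ i, c i * v i) * pt g q) :=
    (continuous_finsetSum _ fun i _ => continuous_const.mul (hpxc i)).add (continuous_const.mul hptc)
  have hF3c : Continuous (fun q : ℝ × R3 => pt g q + ∑ i, v i * px i g q) :=
    hptc.add (continuous_finsetSum _ fun i _ => continuous_const.mul (hpxc i))
  have hF1z : ∀ τ ≤ 0, ∀ y, (fun q : ℝ × R3 => ∑ i, c i * px i g q + (∑ i, c i * v i) * pt g q) (τ, y) = 0 := by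
    intro τ hτ y
    simp [fun i => hpx0 i τ hτ y, hpt0 τ hτ y]
  have hF3z : ∀ τ ≤ 0, ∀ y, (fun q : ℝ × R3 => pt g q + ∑ i, v i * px i g q) (τ, y) = 0 := by
    intro τ hτ y
    simp [fun i => hpx0 i τ hτ y, hpt0 τ hτ y]
  have hv1 : 0 < 1 - ‖v‖ := by linarith
  have hmi_le : ∀ z, (mm v z)⁻¹ ≤ (1 - ‖v‖)⁻¹ := fun z => inv_anti₀ hv1 (mm_ge z)
  have hmi_nn : ∀ z, 0 ≤ (mm v z)⁻¹ := fun z => inv_nonneg.2 (mm_pos hv z).le
  have hkb : ∀ z, |kap v c z| ≤ ‖c‖ + |∑ i, c i * v i| := fun z =>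
    (abs_add_le _ _).trans (add_le_add (abs_sdot_le c z) le_rfl)
  set κ0 : ℝ := ‖c‖ + |∑ i, c i * v i| with hκ0
  have hκ0n : 0 ≤ κ0 := by positivity
  have hI1 : Integrable (fun z => ‖z‖⁻¹ * (∑ i, c i * px i g (ret t x z) + (∑ i, c i * v i) * pt g (ret t x z))) :=
    cone_kernel_integrable' (F := fun q : ℝ × R3 => ∑ i, c i * px i g q + (∑ i, c i * v i) * pt g q)
      hF1z hF1c t x (K := fun z => ‖z‖⁻¹) (C := 1) (contDiffOn_rho (n := 0)).continuousOn
      (fun z _ => by rw [abs_inv, abs_norm, one_mul])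
  have hI2 : Integrable (fun z => (kap v c z * (1 - ‖v‖ ^ 2) * (mm v z)⁻¹ ^ 2 * ‖z‖⁻¹ ^ 2) * g (ret t x z)) := by
    apply cone_kernel_integrable h0 hg.continuous t x (C := κ0 * |1 - ‖v‖ ^ 2| * (1 - ‖v‖)⁻¹ ^ 2)
    · exact (((hkC (n := 0)).continuousOn.mul continuousOn_const).mul ((hmiC (n := 0)).continuousOn.pow 2)).mul
        ((contDiffOn_rho (n := 0)).continuousOn.pow 2)
    · intro z _
      rw [abs_mul, abs_mul, abs_mul, abs_of_nonneg (pow_nonneg (hmi_nn z) 2),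
        abs_of_nonneg (by positivity : (0:ℝ) ≤ ‖z‖⁻¹ ^ 2)]
      have := hmi_nn z
      gcongr
      · exact hkb z
      · exact mm_ge z
  have hI3 : Integrable (fun z => (kap v c z * (mm v z)⁻¹ * ‖z‖⁻¹) * (pt g (ret t x z) + ∑ i, v i * px i g (ret t x z))) := by
    apply cone_kernel_integrable' (F := fun q : ℝ × R3 => pt g q + ∑ i, v i * px i g q)
      hF3z hF3c t x (K := fun z => kap v c z * (mm v z)⁻¹ * ‖z‖⁻¹) (C := κ0 * (1 - ‖v‖)⁻¹)
    · exact ((hkC (n := 0)).continuousOn.mul (hmiC (n := 0)).continuousOn).mul (contDiffOn_rho (n := 0)).continuousOn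
    · intro z _
      rw [abs_mul, abs_mul, abs_of_nonneg (hmi_nn z), abs_inv, abs_norm]
      have := hmi_nn z
      gcongr
      · exact hkb z
      · exact mm_ge z
  have hz := tip_zero (C := (∑ k, ((|c k| + κ0 * (1 - ‖v‖)⁻¹ * |v k|))) * Classical.choose (ret_bound h0 hg.continuous t x))
    (ρ := t) hΦ
    (fun k z hz => by simp only [Φ, ret_zero h0 hz.le, mul_zero])
    (fun k z hz => by
      obtain ⟨hM0, hM⟩ := Classical.choose_spec (ret_bound h0 hg.continuous t x)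
      set M := Classical.choose (ret_bound h0 hg.continuous t x)
      simp only [Φ]
      rw [abs_mul, abs_mul, abs_inv, abs_norm]
      have e1 : |c k - kap v c z * (mm v z)⁻¹ * v k| ≤ |c k| + κ0 * (1 - ‖v‖)⁻¹ * |v k| := by
        refine (abs_sub _ _).trans (add_le_add le_rfl ?_)
        rw [abs_mul, abs_mul, abs_of_nonneg (hmi_nn z)]
        have := hmi_nn z
        gcongr
        · exact hkb z
        · exact mm_ge z
      have e2 : |c k| + κ0 * (1 - ‖v‖)⁻¹ * |v k| ≤ ∑ k, (|c k| + κ0 * (1 - ‖v‖)⁻¹ * |v k|) :=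
        Finset.single_le_sum (f := fun k => |c k| + κ0 * (1 - ‖v‖)⁻¹ * |v k|) (fun i _ => by positivity) (Finset.mem_univ k)
      calc ‖z‖⁻¹ * |c k - kap v c z * (mm v z)⁻¹ * v k| * |g (ret t x z)|
          ≤ ‖z‖⁻¹ * (∑ k, (|c k| + κ0 * (1 - ‖v‖)⁻¹ * |v k|)) * M := by
            gcongr
            · exact e1.trans e2
            · exact hM z
        _ = _ := by ring)
    hD ((hI1.sub hI2).sub hI3)
  exact ⟨hI1, hI2, hI3, hz⟩

/-- The cone integration by parts (Glassey--Strauss) for one velocity `v` and one covector `(c, c·v)`. -/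
theorem cone_ibp {g : ℝ × R3 → ℝ} (hg : ContDiff ℝ 1 g) (h0 : ∀ τ ≤ 0, ∀ y, g (τ, y) = 0)
    {v : R3} (hv : ‖v‖ < 1) (c : R3) (t : ℝ) (x : R3) :
    ∫ z, ‖z‖⁻¹ * (∑ i, c i * px i g (ret t x z) + (∑ i, c i * v i) * pt g (ret t x z))
      = (∫ z, (kap v c z * (1 - ‖v‖ ^ 2) * (mm v z)⁻¹ ^ 2 * ‖z‖⁻¹ ^ 2) * g (ret t x z))
        + ∫ z, (kap v c z * (mm v z)⁻¹ * ‖z‖⁻¹) * (pt g (ret t x z) + ∑ i, v i * px i g (ret t x z)) := by
  obtain ⟨hI1, hI2, hI3, hz⟩ := cone_ibp_aux hg h0 hv c t x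
  have hz2 := integral_sub (hI1.sub hI2) hI3
  have hz3 := integral_sub hI1 hI2
  simp only [Pi.sub_apply] at hz2
  rw [hz2] at hz
  linarith

end Crest.Agent.R106.Gsr
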