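/-
Row 106, node GSR (helper801), part 4: Kirchhoff's formula with a time cut-off at `τ = 0`.
-/
import Crest.Agent.R106.GsrCone

set_option autoImplicit false

open MeasureTheory Set Filter Topology Metric
open Crest.AnalysisR.VecCalc3
open scoped ContDiff RealInnerProductSpace

namespace Crest.Agent.R106.Gsr

open Crest.Agent.R106.GSR (pt px box)

/-- time cut-off: `0` for `τ ≤ 0`, `1` for `τ ≥ h`. -/
noncomputable def th (h τ : ℝ) : ℝ := Real.smoothTransition (τ / h)

/-- derivative of the cut-off -/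
noncomputable def th' (h τ : ℝ) : ℝ := deriv (th h) τ

lemma th_contDiff (h : ℝ) {n : ℕ∞} : ContDiff ℝ n (th h) := by
  unfold th
  exact Real.smoothTransition.contDiff.comp (contDiff_id.div_const h)

lemma th'_contDiff (h : ℝ) {n : ℕ∞} : ContDiff ℝ n (th' h) := by
  have h1 : ContDiff ℝ ∞ (th h) := th_contDiff h
  exact ((contDiff_infty_iff_deriv.1 h1).2).of_le (by exact_mod_cast le_top)

lemma th_hasDerivAt (h τ : ℝ) : HasDerivAt (th h) (th' h τ) τ :=
  ((th_contDiff h (n := 1)).differentiable (by norm_num)).differentiableAt.hasDerivAt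

lemma th_zero {h τ : ℝ} (hh : 0 < h) (hτ : τ ≤ 0) : th h τ = 0 :=
  Real.smoothTransition.zero_of_nonpos (div_nonpos_of_nonpos_of_nonneg hτ hh.le)

lemma th_one {h τ : ℝ} (hh : 0 < h) (hτ : h ≤ τ) : th h τ = 1 :=
  Real.smoothTransition.one_of_one_le ((one_le_div hh).2 hτ)

lemma th_nonneg (h τ : ℝ) : 0 ≤ th h τ := Real.smoothTransition.nonneg _
lemma th_le_one (h τ : ℝ) : th h τ ≤ 1 := Real.smoothTransition.le_one _

lemma th_mono {h : ℝ} (hh : 0 < h) : Monotone (th h) := fun a b hab =>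
  Real.smoothTransition.monotone (by gcongr)

lemma th'_nonneg {h : ℝ} (hh : 0 < h) (τ : ℝ) : 0 ≤ th' h τ := (th_mono hh).deriv_nonneg

lemma th'_continuous (h : ℝ) : Continuous (th' h) := (th'_contDiff h (n := 0)).continuous

lemma th'_zero {h τ : ℝ} (hh : 0 < h) (hτ : τ ≤ 0) : th' h τ = 0 := by
  have hlt : ∀ s < 0, th' h s = 0 := by
    intro s hs
    have : th h =ᶠ[𝓝 s] fun _ => 0 := by
      filter_upwards [Iio_mem_nhds hs] with w hw using th_zero hh (le_of_lt hw)
    unfold th'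
    rw [this.deriv_eq]; simp
  rcases hτ.lt_or_eq with h1 | h1
  · exact hlt τ h1
  · subst h1
    have h2 : Tendsto (th' h) (𝓝[<] 0) (𝓝 (th' h 0)) :=
      (th'_continuous h).continuousAt.tendsto.mono_left nhdsWithin_le_nhds
    have h3 : Tendsto (th' h) (𝓝[<] 0) (𝓝 0) := by
      apply tendsto_const_nhds.congr'
      filter_upwards [self_mem_nhdsWithin] with s hs using (hlt s hs).symm
    exact tendsto_nhds_unique h2 h3

lemma th'_zero' {h τ : ℝ} (hh : 0 < h) (hτ : h < τ) : th' h τ = 0 := by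
  have : th h =ᶠ[𝓝 τ] fun _ => 1 := by
    filter_upwards [Ioi_mem_nhds hτ] with w hw using th_one hh (le_of_lt hw)
  unfold th'
  rw [this.deriv_eq]; simp

/-- `∫ r⁻¹ ∂_t W = ∫ r⁻¹ ω·∇W + r⁻² W` on the cone -/
theorem pt_ibp {W : ℝ × R3 → ℝ} (hW : ContDiff ℝ 1 W) (h0 : ∀ τ ≤ 0, ∀ y, W (τ, y) = 0)
    (t : ℝ) (x : R3) :
    ∫ z, ‖z‖⁻¹ * pt W (ret t x z)
      = ∫ z, (‖z‖⁻¹ * ∑ k, om k z * px k W (ret t x z) + ‖z‖⁻¹ ^ 2 * W (ret t x z)) := by
  have hpxc : ∀ k, Continuous (px k W) := fun k => (hW.continuous_fderiv (by norm_num)).clm_apply continuous_const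
  have hptc : Continuous (pt W) := (hW.continuous_fderiv (by norm_num)).clm_apply continuous_const
  have hpx0 : ∀ k, ∀ τ ≤ 0, ∀ y, px k W (τ, y) = 0 := fun k => px_zero h0 hW k
  have hpt0 : ∀ τ ≤ 0, ∀ y, pt W (τ, y) = 0 := pt_zero h0 hW
  have hdW : ∀ q, DifferentiableAt ℝ W q := fun q => (hW.differentiable (by norm_num)).differentiableAt
  let Φ : Fin 3 → R3 → ℝ := fun k z => ‖z‖⁻¹ * om k z * W (ret t x z)
  have hΦ : ∀ k, ContDiffOn ℝ 1 (Φ k) {0}ᶜ := fun k =>
    ((contDiffOn_rho (n := 1)).mul (contDiffOn_om (n := 1) k)).mul (contDiff_comp_ret (n := 1) hW t x)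
  have hD : ∀ z, z ≠ 0 → ∑ k, fderiv ℝ (Φ k) z (e k)
      = (‖z‖⁻¹ * ∑ k, om k z * px k W (ret t x z) + ‖z‖⁻¹ ^ 2 * W (ret t x z)) - ‖z‖⁻¹ * pt W (ret t x z) := by
    intro z hz
    have hline : ∀ k, HasDerivAt (fun s : ℝ => Φ k (z + s • e k))
        ((-(‖z‖⁻¹ ^ 2 * om k z) * om k z + ‖z‖⁻¹ * (‖z‖⁻¹ * (1 - om k z * om k z))) * W (ret t x z)
          + ‖z‖⁻¹ * om k z * (px k W (ret t x z) - om k z * pt W (ret t x z))) 0 := by
      intro k
      have hmain := ((hasDerivAt_rho hz k).mul (hasDerivAt_om hz k k)).mul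
        (hasDerivAt_ret (F := W) (t := t) (x := x) hz k (hdW _))
      convert! hmain using 1
      simp
    have h1 : ∀ k, fderiv ℝ (Φ k) z (e k) = _ := fun k =>
      fderiv_eq_of_line (((hΦ k).contDiffAt (isOpen_compl_singleton.mem_nhds hz)).differentiableAt (by norm_num)) (hline k)
    simp only [h1]
    have ho := sum_om_sq hz
    simp only [Fin.sum_univ_three] at ho ⊢
    linear_combination (-2 * ‖z‖⁻¹ ^ 2 * W (ret t x z) - ‖z‖⁻¹ * pt W (ret t x z)) * ho
  have hI1 : Integrable (fun z => ‖z‖⁻¹ * pt W (ret t x z)) :=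
    cone_kernel_integrable' hpt0 hptc t x (K := fun z => ‖z‖⁻¹) (C := 1) (contDiffOn_rho (n := 0)).continuousOn
      (fun z _ => by rw [abs_inv, abs_norm, one_mul])
  have hI2 : Integrable (fun z => ‖z‖⁻¹ ^ 2 * W (ret t x z)) :=
    cone_kernel_integrable h0 hW.continuous t x (K := fun z => ‖z‖⁻¹ ^ 2) (C := 1)
      ((contDiffOn_rho (n := 0)).continuousOn.pow 2)
      (fun z _ => by rw [abs_of_nonneg (by positivity), one_mul])
  have hI3 : Integrable (fun z => ‖z‖⁻¹ * ∑ k, om k z * px k W (ret t x z)) := by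
    have h1 : ∀ k, Integrable (fun z => (‖z‖⁻¹ * om k z) * px k W (ret t x z)) := fun k =>
      cone_kernel_integrable' (hpx0 k) (hpxc k) t x (C := 1)
        ((contDiffOn_rho (n := 0)).mul (contDiffOn_om (n := 0) k)).continuousOn
        (fun z _ => by
          rw [abs_mul, abs_inv, abs_norm, one_mul]
          exact mul_le_of_le_one_right (by positivity) (abs_om_le k z))
    have h2 := integrable_finsetSum Finset.univ (fun k _ => h1 k)
    refine h2.congr (Eventually.of_forall fun z => ?_)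
    simp only [Finset.mul_sum, mul_assoc]
  obtain ⟨M, hM0, hM⟩ := ret_bound h0 hW.continuous t x
  have hz := tip_zero (C := M) (ρ := t) hΦ
    (fun k z hz => by simp only [Φ, ret_zero h0 hz.le, mul_zero])
    (fun k z hz => by
      simp only [Φ]
      rw [abs_mul, abs_mul, abs_inv, abs_norm]
      calc ‖z‖⁻¹ * |om k z| * |W (ret t x z)| ≤ ‖z‖⁻¹ * 1 * M := by
            gcongr
            · exact abs_om_le k z
            · exact hM z
        _ = _ := by ring)
    hD ((hI3.add hI2).sub hI1)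
  have hz2 := integral_sub (hI3.add hI2) hI1
  simp only [Pi.add_apply] at hz2
  rw [hz2] at hz
  linarith

lemma pt_mul {a b : ℝ × R3 → ℝ} {q : ℝ × R3} (ha : DifferentiableAt ℝ a q) (hb : DifferentiableAt ℝ b q) :
    pt (fun q => a q * b q) q = pt a q * b q + a q * pt b q := by
  unfold pt
  rw [fderiv_fun_mul ha hb]
  simp
  ring

lemma px_mul {a b : ℝ × R3 → ℝ} {q : ℝ × R3} (ha : DifferentiableAt ℝ a q) (hb : DifferentiableAt ℝ b q) (k : Fin 3) :
    px k (fun q => a q * b q) q = px k a q * b q + a q * px k b q := by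
  unfold px
  rw [fderiv_fun_mul ha hb]
  simp
  ring

lemma hasFDerivAt_time {φ : ℝ → ℝ} {φ' : ℝ} {q : ℝ × R3} (h : HasDerivAt φ φ' q.1) :
    HasFDerivAt (fun q : ℝ × R3 => φ q.1) (φ' • ContinuousLinearMap.fst ℝ ℝ R3) q := by
  have h1 : HasFDerivAt (fun q : ℝ × R3 => q.1) (ContinuousLinearMap.fst ℝ ℝ R3) q := hasFDerivAt_fst
  exact h.comp_hasFDerivAt q h1

lemma pt_time {φ : ℝ → ℝ} {φ' : ℝ} {q : ℝ × R3} (h : HasDerivAt φ φ' q.1) :
    pt (fun q : ℝ × R3 => φ q.1) q = φ' := by
  unfold pt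
  rw [(hasFDerivAt_time h).fderiv]; simp

lemma px_time {φ : ℝ → ℝ} {φ' : ℝ} {q : ℝ × R3} (h : HasDerivAt φ φ' q.1) (k : Fin 3) :
    px k (fun q : ℝ × R3 => φ q.1) q = 0 := by
  unfold px
  rw [(hasFDerivAt_time h).fderiv]; simp

/-- Kirchhoff's formula with a time cut-off. -/
theorem kirchhoff_theta {u : ℝ × R3 → ℝ} (hu : ContDiff ℝ 2 u) {h t : ℝ} (hh : 0 < h) (ht : h ≤ t) (x : R3) :
    4 * Real.pi * u (t, x) = (∫ z, ‖z‖⁻¹ * (th h (t - ‖z‖) * box u (ret t x z)))
      + ∫ z, th' h (t - ‖z‖) * (‖z‖⁻¹ * (pt u (ret t x z) + ∑ k, om k z * px k u (ret t x z))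
          + ‖z‖⁻¹ ^ 2 * u (ret t x z)) := by
  have hu1 : ContDiff ℝ 1 u := hu.of_le (by norm_num)
  have hpx : ∀ k, ContDiff ℝ 1 (px k u) := fun k => px_contDiff2 hu k
  have hpt : ContDiff ℝ 1 (pt u) := pt_contDiff2 hu
  have hdu : ∀ q, DifferentiableAt ℝ u q := fun q => (hu1.differentiable (by norm_num)).differentiableAt
  have hdpx : ∀ (k : Fin 3) (q), DifferentiableAt ℝ (px k u) q := fun k q =>
    ((hpx k).differentiable (by norm_num)).differentiableAt
  have hdpt : ∀ q, DifferentiableAt ℝ (pt u) q := fun q =>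
    (hpt.differentiable (by norm_num)).differentiableAt
  have hthC : ∀ {n : ℕ∞}, ContDiff ℝ n (fun q : ℝ × R3 => th h q.1) := fun {n} => (th_contDiff h).comp contDiff_fst
  have hthC' : ∀ {n : ℕ∞}, ContDiff ℝ n (fun q : ℝ × R3 => th' h q.1) := fun {n} => (th'_contDiff h).comp contDiff_fst
  have hdth : ∀ q : ℝ × R3, DifferentiableAt ℝ (fun q : ℝ × R3 => th h q.1) q := fun q =>
    ((hthC (n := 1)).differentiable (by norm_num)).differentiableAt
  have hdth' : ∀ q : ℝ × R3, DifferentiableAt ℝ (fun q : ℝ × R3 => th' h q.1) q := fun q =>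
    ((hthC' (n := 1)).differentiable (by norm_num)).differentiableAt
  have hth'd : ∀ τ, HasDerivAt (th' h) (deriv (th' h) τ) τ := fun τ =>
    ((th'_contDiff h (n := 1)).differentiable (by norm_num)).differentiableAt.hasDerivAt
  set U : ℝ × R3 → ℝ := fun q => th h q.1 * u q with hU
  set W : ℝ × R3 → ℝ := fun q => th' h q.1 * u q with hW
  have hUC : ContDiff ℝ 2 U := (hthC (n := 2)).mul hu
  have hWC : ContDiff ℝ 1 W := (hthC' (n := 1)).mul hu1
  have hU0 : ∀ τ ≤ 0, ∀ y, U (τ, y) = 0 := fun τ hτ y => by simp [hU, th_zero hh hτ]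
  have hW0 : ∀ τ ≤ 0, ∀ y, W (τ, y) = 0 := fun τ hτ y => by simp [hW, th'_zero hh hτ]
  have hptU : pt U = fun q => th' h q.1 * u q + th h q.1 * pt u q := by
    ext q
    rw [hU, pt_mul (hdth q) (hdu q), pt_time (th_hasDerivAt h q.1)]
  have hpxU : ∀ k, px k U = fun q => th h q.1 * px k u q := by
    intro k
    ext q
    rw [hU, px_mul (hdth q) (hdu q), px_time (th_hasDerivAt h q.1), zero_mul, zero_add]
  have hboxU : ∀ q, box U q = th h q.1 * box u q + th' h q.1 * pt u q + pt W q := by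
    intro q
    unfold box
    rw [hptU]
    have h1 : pt (fun q => th' h q.1 * u q + th h q.1 * pt u q) q
        = pt W q + pt (fun q => th h q.1 * pt u q) q := by
      unfold pt
      have hd1 : DifferentiableAt ℝ W q := (hdth' q).mul (hdu q)
      have hd2 : DifferentiableAt ℝ (fun q => th h q.1 * pt u q) q := (hdth q).mul (hdpt q)
      have := fderiv_fun_add hd1 hd2
      have e1 : fderiv ℝ (fun q => th' h q.1 * u q + th h q.1 * (fderiv ℝ u q) (1, 0)) q
        = fderiv ℝ W q + fderiv ℝ (fun q => th h q.1 * pt u q) q := this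
      rw [e1]; rfl
    rw [h1, pt_mul (hdth q) (hdpt q), pt_time (th_hasDerivAt h q.1)]
    have h2 : ∀ k, px k (px k U) q = th h q.1 * px k (px k u) q := by
      intro k
      rw [hpxU k, px_mul (hdth q) (hdpx k q), px_time (th_hasDerivAt h q.1), zero_mul, zero_add]
    simp only [h2, Fin.sum_univ_three]
    ring
  have hK := kirchhoff hUC hU0 t x
  have hUt : U (t, x) = u (t, x) := by simp [hU, th_one hh ht]
  rw [hUt] at hK
  rw [← hK]
  -- integrability
  have hrho : ContinuousOn (fun z : R3 => ‖z‖⁻¹) {0}ᶜ := (contDiffOn_rho (n := 0)).continuousOn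
  have hboxc : Continuous (box u) := by
    have h1 : ∀ {F : ℝ × R3 → ℝ} (k : Fin 3), ContDiff ℝ 1 F → Continuous (px k F) := fun k hF =>
      (hF.continuous_fderiv (by norm_num)).clm_apply continuous_const
    have h2 : Continuous (pt (pt u)) := (hpt.continuous_fderiv (by norm_num)).clm_apply continuous_const
    exact h2.sub (continuous_finsetSum _ fun k _ => h1 k (hpx k))
  have hI1 : Integrable (fun z => ‖z‖⁻¹ * (th h (t - ‖z‖) * box u (ret t x z))) :=
    cone_kernel_integrable' (F := fun q => th h q.1 * box u q) (fun τ hτ y => by simp [th_zero hh hτ])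
      ((hthC (n := 0)).continuous.mul hboxc) t x (C := 1) hrho (fun z _ => by rw [abs_inv, abs_norm, one_mul])
  have hI2 : Integrable (fun z => ‖z‖⁻¹ * (th' h (t - ‖z‖) * pt u (ret t x z))) :=
    cone_kernel_integrable' (F := fun q => th' h q.1 * pt u q) (fun τ hτ y => by simp [th'_zero hh hτ])
      ((hthC' (n := 0)).continuous.mul hpt.continuous) t x (C := 1) hrho (fun z _ => by rw [abs_inv, abs_norm, one_mul])
  have hptWc : Continuous (pt W) := (hWC.continuous_fderiv (by norm_num)).clm_apply continuous_const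
  have hI3 : Integrable (fun z => ‖z‖⁻¹ * pt W (ret t x z)) :=
    cone_kernel_integrable' (pt_zero hW0 hWC) hptWc t x (C := 1) hrho (fun z _ => by rw [abs_inv, abs_norm, one_mul])
  have hI4 : Integrable (fun z => ‖z‖⁻¹ ^ 2 * W (ret t x z)) :=
    cone_kernel_integrable hW0 hWC.continuous t x (K := fun z => ‖z‖⁻¹ ^ 2) (C := 1)
      (hrho.pow 2) (fun z _ => by rw [abs_of_nonneg (by positivity), one_mul])
  have hpxW : ∀ k q, px k W q = th' h q.1 * px k u q := by
    intro k q
    rw [hW, px_mul (hdth' q) (hdu q), px_time (hth'd q.1), zero_mul, zero_add]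
  have hI5 : Integrable (fun z => ‖z‖⁻¹ * ∑ k, om k z * px k W (ret t x z)) := by
    have h1 : ∀ k, Integrable (fun z => (‖z‖⁻¹ * om k z) * px k W (ret t x z)) := fun k =>
      cone_kernel_integrable' (px_zero hW0 hWC k) ((hWC.continuous_fderiv (by norm_num)).clm_apply continuous_const) t x (C := 1)
        ((contDiffOn_rho (n := 0)).mul (contDiffOn_om (n := 0) k)).continuousOn
        (fun z _ => by
          rw [abs_mul, abs_inv, abs_norm, one_mul]
          exact mul_le_of_le_one_right (by positivity) (abs_om_le k z))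
    have h2 := integrable_finsetSum Finset.univ (fun k _ => h1 k)
    refine h2.congr (Eventually.of_forall fun z => ?_)
    simp only [Finset.mul_sum, mul_assoc]
  have hsplit : ∫ z, ‖z‖⁻¹ * box U (ret t x z)
      = (∫ z, ‖z‖⁻¹ * (th h (t - ‖z‖) * box u (ret t x z))) + (∫ z, ‖z‖⁻¹ * (th' h (t - ‖z‖) * pt u (ret t x z)))
        + ∫ z, ‖z‖⁻¹ * pt W (ret t x z) := by
    have a1 := integral_add hI1 hI2
    have a2 := integral_add (hI1.add hI2) hI3
    simp only [Pi.add_apply] at a1 a2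
    rw [← a1, ← a2]
    congr 1
    ext z
    rw [hboxU]
    simp only [ret]
    ring
  have a3 := integral_add hI2 (hI5.add hI4)
  simp only [Pi.add_apply] at a3
  rw [hsplit, pt_ibp hWC hW0 t x, add_assoc, ← a3]
  congr 1
  congr 1
  ext z
  simp only [hpxW]
  simp only [hW, ret, Fin.sum_univ_three]
  ring

/-- the total mass of the data layer -/
theorem layer_mass {h t : ℝ} (hh : 0 < h) (ht : h < t) :
    Integrable (fun z : R3 => th' h (t - ‖z‖) * (‖z‖⁻¹ + ‖z‖⁻¹ ^ 2)) ∧
    ∫ z : R3, th' h (t - ‖z‖) * (‖z‖⁻¹ + ‖z‖⁻¹ ^ 2) ≤ 4 * Real.pi * (t + 1) := by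
  have hcont : Continuous fun r : ℝ => th' h (t - r) := (th'_continuous h).comp (by fun_prop)
  have ht0 : 0 < t := by linarith
  constructor
  · apply integrable_of_bound (C := (t + 1) * (Classical.choose ((isCompact_Icc (a := (0:ℝ)) (b := t)).exists_bound_of_continuousOn hcont.continuousOn))) (ρ := t)
    · exact (hcont.comp continuous_norm).continuousOn.mul
        ((contDiffOn_rho (n := 0)).continuousOn.add ((contDiffOn_rho (n := 0)).continuousOn.pow 2))
    · intro z hz; rw [th'_zero hh (by linarith), zero_mul]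
    · intro z hz
      have hM := Classical.choose_spec ((isCompact_Icc (a := (0:ℝ)) (b := t)).exists_bound_of_continuousOn hcont.continuousOn)
      set M := Classical.choose ((isCompact_Icc (a := (0:ℝ)) (b := t)).exists_bound_of_continuousOn hcont.continuousOn)
      have hzp : 0 < ‖z‖ := norm_pos_iff.2 hz
      have hM0 : 0 ≤ M := (norm_nonneg _).trans (hM 0 ⟨le_rfl, by linarith⟩)
      by_cases hzt : t < ‖z‖
      · rw [th'_zero hh (by linarith), zero_mul, abs_zero]; positivity
      · have hr := rho_le hz (not_lt.1 hzt)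
        rw [abs_mul, abs_of_nonneg (by positivity : (0:ℝ) ≤ ‖z‖⁻¹ + ‖z‖⁻¹ ^ 2)]
        have h1 : |th' h (t - ‖z‖)| ≤ M := hM ‖z‖ ⟨norm_nonneg _, not_lt.1 hzt⟩
        calc |th' h (t - ‖z‖)| * (‖z‖⁻¹ + ‖z‖⁻¹ ^ 2) ≤ M * (t / ‖z‖ ^ 2 + 1 / ‖z‖ ^ 2) := by
              gcongr
              rw [inv_pow, one_div]
          _ = _ := by ring
  · rw [integral_fun_norm_addHaar (volume : Measure R3) (fun r : ℝ => th' h (t - r) * (r⁻¹ + r⁻¹ ^ 2))]
    have hvol : (volume : Measure R3).real (ball 0 1) = Real.pi * 4 / 3 := by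
      rw [Measure.real, EuclideanSpace.volume_ball_fin_three]
      simp
      positivity
    rw [hvol]
    have hfr : Module.finrank ℝ R3 = 3 := by simp
    rw [hfr]
    have hI : ∫ y in Ioi (0 : ℝ), y ^ (3 - 1) • (th' h (t - y) * (y⁻¹ + y⁻¹ ^ 2)) ≤ t + 1 := by
      have e1 : ∫ y in Ioi (0 : ℝ), y ^ (3 - 1) • (th' h (t - y) * (y⁻¹ + y⁻¹ ^ 2))
          = ∫ y in (0:ℝ)..t, th' h (t - y) * (y + 1) := by
        rw [intervalIntegral.integral_of_le (by linarith)]
        rw [← integral_indicator measurableSet_Ioi, ← integral_indicator measurableSet_Ioc]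
        congr 1
        ext y
        by_cases hy0 : 0 < y
        · by_cases hyt : y ≤ t
          · rw [indicator_of_mem (show y ∈ Ioi (0:ℝ) from hy0), indicator_of_mem (show y ∈ Ioc 0 t from ⟨hy0, hyt⟩)]
            simp only [smul_eq_mul]
            norm_num
            field_simp
          · rw [indicator_of_mem (show y ∈ Ioi (0:ℝ) from hy0), indicator_of_notMem (fun hm => hyt hm.2)]
            have hty : t - y ≤ 0 := by linarith [not_le.1 hyt]
            simp [th'_zero hh hty]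
        · rw [indicator_of_notMem (show y ∉ Ioi (0:ℝ) from hy0), indicator_of_notMem (show y ∉ Ioc (0:ℝ) t from fun hm => hy0 hm.1)]
      rw [e1]
      have e2 : ∫ y in (0:ℝ)..t, th' h (t - y) * (y + 1) ≤ ∫ y in (0:ℝ)..t, th' h (t - y) * (t + 1) := by
        apply intervalIntegral.integral_mono_on (by linarith)
        · exact (hcont.mul (by fun_prop)).intervalIntegrable _ _
        · exact (hcont.mul (by fun_prop)).intervalIntegrable _ _
        · intro y hy
          have := th'_nonneg hh (t - y)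
          have := hy.2
          gcongr
      refine e2.trans ?_
      rw [intervalIntegral.integral_mul_const]
      have e3 : ∫ y in (0:ℝ)..t, th' h (t - y) = 1 := by
        rw [intervalIntegral.integral_comp_sub_left (fun s => th' h s) t]
        simp only [sub_self, sub_zero]
        rw [intervalIntegral.integral_eq_sub_of_hasDerivAt (f := th h) (fun s _ => th_hasDerivAt h s)
          ((th'_continuous h).intervalIntegrable _ _)]
        rw [th_one hh ht.le, th_zero hh le_rfl, sub_zero]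
      rw [e3, one_mul]
    simp only [smul_eq_mul, nsmul_eq_mul] at hI ⊢
    have hp := Real.pi_pos
    calc ((3:ℕ):ℝ) * (Real.pi * 4 / 3 * ∫ y in Ioi (0 : ℝ), y ^ (3 - 1) * (th' h (t - y) * (y⁻¹ + y⁻¹ ^ 2)))
        ≤ ((3:ℕ):ℝ) * (Real.pi * 4 / 3 * (t + 1)) := by gcongr
      _ = _ := by norm_num; ring

end Crest.Agent.R106.Gsr
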