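/-
Row 106, node GSR (helper229 for helper801): the time layer near `τ = 0`: the integrand multiplying
`th' h (t - ‖z‖)` is bounded by the data.
-/
import Crest.Agent.R106.GsrTheta

set_option autoImplicit false

open MeasureTheory Set Filter Topology Metric
open Crest.AnalysisR.VecCalc3
open scoped ContDiff RealInnerProductSpace

namespace Crest.Agent.R106.Gsr

open Crest.Agent.R106.GSR (pt px box)

/-- tube lemma in the form needed for the layer -/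
lemma layer_tube {g : ℝ × R3 → ℝ} {O : Set (ℝ × R3)} (hO : IsOpen O) (hg : ContinuousOn g O)
    {S : Set R3} (hS : IsCompact S) (hSO : ∀ z ∈ S, ((0:ℝ), z) ∈ O) {M : ℝ}
    (hM : ∀ z ∈ S, |g (0, z)| ≤ M) :
    ∃ h0 > 0, ∀ τ : ℝ, 0 < τ → τ < h0 → ∀ z ∈ S, |g (τ, z)| ≤ M + 1 := by
  have hN : IsOpen (O ∩ (fun q => |g q|) ⁻¹' Iio (M + 1)) :=
    (hg.abs).isOpen_inter_preimage hO isOpen_Iio
  have hsub : ({0} : Set ℝ) ×ˢ S ⊆ O ∩ (fun q => |g q|) ⁻¹' Iio (M + 1) := by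
    rintro ⟨τ, z⟩ ⟨h1, h2⟩
    simp only [mem_singleton_iff] at h1
    subst h1
    exact ⟨hSO z h2, by simp only [mem_preimage, mem_Iio]; linarith [hM z h2]⟩
  obtain ⟨U, V, hU, -, h0U, hSV, hUV⟩ := generalized_tube_lemma isCompact_singleton hS hN hsub
  obtain ⟨r, hr, hball⟩ := Metric.isOpen_iff.1 hU 0 (h0U rfl)
  refine ⟨r, hr, fun τ h1 h2 z hz => ?_⟩
  have h3 : τ ∈ U := hball (by rw [Metric.mem_ball, dist_zero_right, Real.norm_of_nonneg h1.le]; exact h2)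
  exact (hUV (mk_mem_prod h3 (hSV hz))).2.le

/-- **layer bound** -/
theorem layer_bound {u : ℝ × R3 → ℝ} (hu : ContDiff ℝ 2 u) {f : ℝ → R3 → R3 → ℝ}
    (hf : Continuous (GSR.unc f)) {A R T CK : ℝ} (hA : 0 ≤ A) (hT : 0 < T)
    (hu0 : ∀ y, |u (0,y)| ≤ A ∧ |pt u (0,y)| ≤ A ∧ ∀ k, |px k u (0,y)| ≤ A)
    (hf0 : ∀ y p, |f 0 y p| ≤ A) (hfs : ∀ y p, A < ‖p‖ → f 0 y p = 0)
    (hR : ∀ τ ∈ Ioo 0 T, ∀ y p, R < ‖p‖ → f τ y p = 0) {K : R3 → R3 → ℝ}
    (hK : ContinuousOn (Function.uncurry K) ({0}ᶜ ×ˢ univ))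
    (hKb : ∀ z, z ≠ 0 → ∀ p, ‖p‖ ≤ A → |K z p| ≤ CK) {t : ℝ} (ht : 0 < t) (x : R3) :
    ∃ h0 > 0, ∀ z, 0 < t-‖z‖ → t-‖z‖ < h0 →
      |‖z‖⁻¹ * (pt u (ret t x z) + ∑ k, om k z * px k u (ret t x z)) + ‖z‖⁻¹^2 * u (ret t x z)
        + ‖z‖⁻¹ * ∫ p, K z p * f (t-‖z‖) (x+z) p|
      ≤ (4*(A+1) + (CK*A*(volume (closedBall (0:R3) A)).toReal + 1)) * (‖z‖⁻¹ + ‖z‖⁻¹^2) := by
  -- the compact set of directions
  set S : Set R3 := closedBall (0:R3) t \ ball 0 (t/2) with hSdef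
  have hS : IsCompact S := (isCompact_closedBall (0:R3) t).diff isOpen_ball
  have hSne : ∀ z ∈ S, z ≠ 0 := by
    rintro z hz rfl
    exact hz.2 (mem_ball_self (by positivity))
  have hcx : Continuous (fun q : ℝ × R3 => ((q.1, x + q.2) : ℝ × R3)) := by fun_prop
  obtain ⟨a0, ha0, Ha0⟩ := layer_tube (g := fun q => u (q.1, x + q.2)) isOpen_univ
    ((hu.continuous.comp hcx).continuousOn) hS (fun z _ => mem_univ _) (M := A)
    (fun z _ => (hu0 (x + z)).1)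
  obtain ⟨a1, ha1, Ha1⟩ := layer_tube (g := fun q => pt u (q.1, x + q.2)) isOpen_univ
    (((pt_contDiff2 hu).continuous.comp hcx).continuousOn) hS (fun z _ => mem_univ _) (M := A)
    (fun z _ => (hu0 (x + z)).2.1)
  have hk : ∀ k : Fin 3, ∃ b > 0, ∀ τ : ℝ, 0 < τ → τ < b → ∀ z ∈ S,
      |px k u (τ, x + z)| ≤ A + 1 := fun k =>
    layer_tube (g := fun q => px k u (q.1, x + q.2)) isOpen_univ
      (((px_contDiff2 hu k).continuous.comp hcx).continuousOn) hS (fun z _ => mem_univ _) (M := A)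
      (fun z _ => (hu0 (x + z)).2.2 k)
  obtain ⟨b0, hb0, Hb0⟩ := hk 0
  obtain ⟨b1, hb1, Hb1⟩ := hk 1
  obtain ⟨b2, hb2, Hb2⟩ := hk 2
  -- the momentum integral
  set J : ℝ × R3 → ℝ := fun q => ∫ p, K q.2 p * f (max q.1 0) (x + q.2) p with hJ
  have hO : IsOpen (Iio T ×ˢ ({0}ᶜ : Set R3)) := isOpen_Iio.prod isOpen_compl_singleton
  have hJc : ContinuousOn J (Iio T ×ˢ ({0}ᶜ : Set R3)) := by
    refine continuousOn_integral_of_compact_support
      (f := fun (q : ℝ × R3) p => K q.2 p * f (max q.1 0) (x + q.2) p)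
      (isCompact_closedBall (0:R3) (max R A)) ?_ ?_
    · refine ContinuousOn.mul ?_ ?_
      · exact hK.comp (f := fun w : (ℝ × R3) × R3 => ((w.1.2, w.2) : R3 × R3))
          (by fun_prop) (fun w hw => ⟨hw.1.2, mem_univ _⟩)
      · exact (hf.comp (g := GSR.unc f)
          (f := fun w : (ℝ × R3) × R3 => ((max w.1.1 0, x + w.1.2, w.2) : ℝ × R3 × R3))
          (by fun_prop)).continuousOn
    · intro q p hq hp
      have hp' : max R A < ‖p‖ := by
        simpa [mem_closedBall, dist_zero_right] using hp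
      have hz : f (max q.1 0) (x + q.2) p = 0 := by
        rcases le_or_gt q.1 0 with h | h
        · rw [max_eq_right h]
          exact hfs _ _ ((le_max_right _ _).trans_lt hp')
        · rw [max_eq_left h.le]
          exact hR _ ⟨h, hq.1⟩ _ _ ((le_max_left _ _).trans_lt hp')
      rw [hz, mul_zero]
  set M : ℝ := CK*A*(volume (closedBall (0:R3) A)).toReal with hMdef
  have hJ0 : ∀ z ∈ S, |J (0, z)| ≤ M := by
    intro z hz
    have hz0 := hSne z hz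
    have hCK : 0 ≤ CK := (abs_nonneg _).trans (hKb z hz0 0 (by simpa using hA))
    have h1 : J (0, z) = ∫ p in closedBall (0:R3) A, K z p * f 0 (x + z) p := by
      simp only [hJ, max_self]
      rw [setIntegral_eq_integral_of_forall_compl_eq_zero]
      intro p hp
      rw [hfs _ _ (by simpa [mem_closedBall, dist_zero_right] using hp), mul_zero]
    rw [h1]
    have h2 := norm_setIntegral_le_of_norm_le_const (μ := (volume : Measure R3))
      (s := closedBall (0:R3) A) (f := fun p => K z p * f 0 (x + z) p) (C := CK * A)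
      (measure_closedBall_lt_top) (fun p hp => by
        rw [norm_mul, Real.norm_eq_abs, Real.norm_eq_abs]
        exact mul_le_mul (hKb z hz0 p (by simpa [mem_closedBall, dist_zero_right] using hp))
          (hf0 _ _) (abs_nonneg _) hCK)
    rw [Real.norm_eq_abs] at h2
    exact h2
  obtain ⟨c, hc, Hc⟩ := layer_tube hO hJc hS (fun z hz => ⟨hT, hSne z hz⟩) hJ0
  -- conclusion
  refine ⟨min (min (min a0 a1) (min (min b0 b1) b2)) (min c (t/2)), by positivity, ?_⟩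
  intro z h1 h2
  simp only [lt_min_iff] at h2
  obtain ⟨⟨⟨h3, h4⟩, ⟨h5, h6⟩, h7⟩, h8, h9⟩ := h2
  have hzS : z ∈ S := by
    refine ⟨?_, ?_⟩
    · rw [mem_closedBall, dist_zero_right]; linarith
    · rw [mem_ball, dist_zero_right]; linarith
  have hz0 := hSne z hzS
  have hn : 0 < ‖z‖ := norm_pos_iff.2 hz0
  have e0 : |u (ret t x z)| ≤ A + 1 := Ha0 _ h1 h3 z hzS
  have e1 : |pt u (ret t x z)| ≤ A + 1 := Ha1 _ h1 h4 z hzS
  have e2 : |px 0 u (ret t x z)| ≤ A + 1 := Hb0 _ h1 h5 z hzS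
  have e3 : |px 1 u (ret t x z)| ≤ A + 1 := Hb1 _ h1 h6 z hzS
  have e4 : |px 2 u (ret t x z)| ≤ A + 1 := Hb2 _ h1 h7 z hzS
  have e5 : |∫ p, K z p * f (t-‖z‖) (x+z) p| ≤ M + 1 := by
    have := Hc _ h1 h8 z hzS
    simp only [hJ, max_eq_left h1.le] at this
    exact this
  have hom : ∀ (k : Fin 3) (a : ℝ), |a| ≤ A + 1 → |om k z * a| ≤ A + 1 := by
    intro k a ha
    rw [abs_mul]
    calc |om k z| * |a| ≤ 1 * (A + 1) :=
          mul_le_mul (abs_om_le k z) ha (abs_nonneg _) (by norm_num)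
      _ = A + 1 := one_mul _
  have e6 : |pt u (ret t x z) + ∑ k, om k z * px k u (ret t x z)| ≤ 4 * (A + 1) := by
    rw [Fin.sum_univ_three]
    have g0 := abs_le.1 (hom 0 _ e2)
    have g1 := abs_le.1 (hom 1 _ e3)
    have g2 := abs_le.1 (hom 2 _ e4)
    have g3 := abs_le.1 e1
    rw [abs_le]
    constructor <;> linarith [g0.1, g0.2, g1.1, g1.2, g2.1, g2.2, g3.1, g3.2]
  have hi : 0 < ‖z‖⁻¹ := by positivity
  have hi2 : 0 < ‖z‖⁻¹^2 := by positivity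
  have hM1 : 0 ≤ M + 1 := (abs_nonneg _).trans e5
  have t1 : |‖z‖⁻¹ * (pt u (ret t x z) + ∑ k, om k z * px k u (ret t x z))|
      ≤ ‖z‖⁻¹ * (4 * (A + 1)) := by
    rw [abs_mul, abs_of_pos hi]; exact mul_le_mul_of_nonneg_left e6 hi.le
  have t2 : |‖z‖⁻¹^2 * u (ret t x z)| ≤ ‖z‖⁻¹^2 * (A + 1) := by
    rw [abs_mul, abs_of_pos hi2]; exact mul_le_mul_of_nonneg_left e0 hi2.le
  have t3 : |‖z‖⁻¹ * ∫ p, K z p * f (t-‖z‖) (x+z) p| ≤ ‖z‖⁻¹ * (M + 1) := by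
    rw [abs_mul, abs_of_pos hi]; exact mul_le_mul_of_nonneg_left e5 hi.le
  calc _ ≤ |‖z‖⁻¹ * (pt u (ret t x z) + ∑ k, om k z * px k u (ret t x z))|
        + |‖z‖⁻¹^2 * u (ret t x z)| + |‖z‖⁻¹ * ∫ p, K z p * f (t-‖z‖) (x+z) p| := by
        refine (abs_add_le _ _).trans ?_
        gcongr
        exact abs_add_le _ _
    _ ≤ ‖z‖⁻¹ * (4 * (A + 1)) + ‖z‖⁻¹^2 * (A + 1) + ‖z‖⁻¹ * (M + 1) := by linarith
    _ ≤ (4*(A+1) + (M + 1)) * (‖z‖⁻¹ + ‖z‖⁻¹^2) := by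
        nlinarith [mul_nonneg hM1 hi2.le, mul_nonneg hA hi2.le]

end Crest.Agent.R106.Gsr
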