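/-
Row 106, node GSR (helper801), part 5: the representation at cut-off level `h`.
-/
import Crest.Agent.R106.GsrTheta
import Crest.Agent.R106.GsrInt

set_option autoImplicit false

open MeasureTheory Set Filter Topology Metric
open Crest.AnalysisR.VecCalc3 Crest.AnalysisR.PDE.RVM
open scoped ContDiff RealInnerProductSpace

namespace Crest.Agent.R106.Gsr

open Crest.Agent.R106.GSR (pt px box unc ft fx)

/-- kernel × (continuous function of the retarded phase-space point) is integrable -/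
lemma prod_int {K : R3 → R3 → ℝ} {F : ℝ × R3 × R3 → ℝ} {T t R CK : ℝ} (htT : t < T)
    (hK : ContinuousOn (Function.uncurry K) ({0}ᶜ ×ˢ univ))
    (hKb : ∀ z, z ≠ 0 → ‖z‖ < t → ∀ p, ‖p‖ ≤ R → |K z p| ≤ CK * ‖z‖⁻¹ ^ 2)
    (hF : Continuous F) (hF0 : ∀ τ ≤ 0, ∀ y p, F (τ, y, p) = 0)
    (hFR : ∀ τ ∈ Ioo 0 T, ∀ y p, R < ‖p‖ → F (τ, y, p) = 0) (x : R3) :
    Integrable (fun q : R3 × R3 => K q.1 q.2 * F (t - ‖q.1‖, x + q.1, q.2))
      ((volume : Measure R3).prod volume) := by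
  have hFz : ∀ z p, (t ≤ ‖z‖ ∨ R < ‖p‖) → F (t - ‖z‖, x + z, p) = 0 := by
    intro z p h
    by_cases hz : t ≤ ‖z‖
    · exact hF0 _ (by linarith) _ _
    · rcases h with h | h
      · exact absurd h hz
      · push Not at hz
        exact hFR _ ⟨by linarith, by linarith [norm_nonneg z]⟩ _ _ h
  -- bound of F
  obtain ⟨M, hM⟩ := ((isCompact_Icc (a := (0:ℝ)) (b := |t|)).prod
    ((isCompact_closedBall x |t|).prod (isCompact_closedBall (0 : R3) |R|))).exists_bound_of_continuousOn hF.continuousOn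
  have hM0 : 0 ≤ M := (norm_nonneg _).trans (hM (0, x, 0) ⟨⟨le_rfl, abs_nonneg _⟩, by simp, by simp⟩)
  have hFb : ∀ z p, |F (t - ‖z‖, x + z, p)| ≤ M := by
    intro z p
    by_cases h : t ≤ ‖z‖ ∨ R < ‖p‖
    · rw [hFz z p h, abs_zero]; exact hM0
    · push Not at h
      apply hM
      refine ⟨⟨by linarith, by linarith [norm_nonneg z, le_abs_self t]⟩, ?_, ?_⟩
      · simp only [mem_closedBall, dist_self_add_left]; linarith [le_abs_self t]
      · simp only [mem_closedBall, dist_zero_right]; linarith [le_abs_self R]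
  have hcm : Continuous (fun q : R3 × R3 => F (t - ‖q.1‖, x + q.1, q.2)) := hF.comp (by fun_prop)
  have hcont : ContinuousOn (fun q : R3 × R3 => K q.1 q.2 * F (t - ‖q.1‖, x + q.1, q.2)) ({0}ᶜ ×ˢ univ) :=
    hK.mul hcm.continuousOn
  have hms : MeasurableSet (({0}ᶜ : Set R3) ×ˢ (univ : Set R3)) :=
    (measurableSet_singleton (0:R3)).compl.prod MeasurableSet.univ
  have hae : (({0}ᶜ : Set R3) ×ˢ (univ : Set R3)) ∈ ae ((volume : Measure R3).prod volume) := by
    rw [mem_ae_iff]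
    have h1 : (({0}ᶜ : Set R3) ×ˢ (univ : Set R3))ᶜ = ({0} : Set R3) ×ˢ (univ : Set R3) := by
      ext ⟨a, b⟩; simp
    rw [h1, Measure.prod_prod]
    simp
  have hmeas : AEStronglyMeasurable (fun q : R3 × R3 => K q.1 q.2 * F (t - ‖q.1‖, x + q.1, q.2))
      ((volume : Measure R3).prod volume) := by
    have h1 := hcont.aestronglyMeasurable (μ := (volume : Measure R3).prod volume) hms
    have h2 : ((volume : Measure R3).prod volume).restrict (({0}ᶜ : Set R3) ×ˢ (univ : Set R3))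
        = (volume : Measure R3).prod volume := Measure.restrict_eq_self_of_ae_mem hae
    rwa [h2] at h1
  -- dominating function
  have hd1 : Integrable (fun z : R3 => (ball (0:R3) (|t| + 1)).indicator (fun z => |CK| * M / ‖z‖ ^ 2) z) := by
    rw [integrable_indicator_iff measurableSet_ball]
    refine (integrableOn_fun_norm_addHaar (volume : Measure R3) (f := fun r : ℝ => |CK| * M / r ^ 2) (r := |t| + 1)).2 ?_
    have h3 : IntegrableOn (fun _ : ℝ => |CK| * M) (Ioo 0 (|t| + 1)) := by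
      apply integrableOn_const
      · rw [Real.volume_Ioo]; exact ENNReal.ofReal_ne_top
      · exact enorm_ne_top
    refine h3.congr_fun ?_ measurableSet_Ioo
    intro y hy
    have hy0 : y ≠ 0 := hy.1.ne'
    simp only [finrank_euclideanSpace, Fintype.card_fin, smul_eq_mul]
    norm_num
    field_simp
  have hd2 : Integrable (fun p : R3 => (closedBall (0:R3) |R|).indicator (fun _ => (1:ℝ)) p) := by
    rw [integrable_indicator_iff isClosed_closedBall.measurableSet]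
    exact integrableOn_const (isCompact_closedBall _ _).measure_lt_top.ne (by simp)
  refine (hd1.mul_prod hd2).mono' hmeas ?_
  filter_upwards [hae] with q hq
  have hz : q.1 ≠ 0 := by simpa using hq
  have hzp : 0 < ‖q.1‖ := norm_pos_iff.2 hz
  by_cases h : t ≤ ‖q.1‖ ∨ R < ‖q.2‖
  · rw [hFz q.1 q.2 h, mul_zero, norm_zero]
    apply mul_nonneg
    · apply indicator_nonneg; intro a _; positivity
    · apply indicator_nonneg; intro a _; positivity
  · push Not at h
    rw [indicator_of_mem (by simpa using by linarith [le_abs_self t]),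
      indicator_of_mem (by simpa using by linarith [le_abs_self R]), mul_one, norm_mul, Real.norm_eq_abs, Real.norm_eq_abs]
    calc |K q.1 q.2| * |F (t - ‖q.1‖, x + q.1, q.2)| ≤ (|CK| * ‖q.1‖⁻¹ ^ 2) * M := by
          apply mul_le_mul _ (hFb _ _) (abs_nonneg _) (by positivity)
          refine (hKb q.1 hz h.1 q.2 h.2).trans ?_
          gcongr
          exact le_abs_self CK
      _ = |CK| * M / ‖q.1‖ ^ 2 := by field_simp

lemma fiber_int {K : R3 → R3 → ℝ} {F : ℝ × R3 × R3 → ℝ} {T t R : ℝ} (htT : t < T)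
    (hK : ContinuousOn (Function.uncurry K) ({0}ᶜ ×ˢ univ))
    (hF : Continuous F) (hF0 : ∀ τ ≤ 0, ∀ y p, F (τ, y, p) = 0)
    (hFR : ∀ τ ∈ Ioo 0 T, ∀ y p, R < ‖p‖ → F (τ, y, p) = 0) (x : R3) {z : R3} (hz : z ≠ 0) :
    Integrable (fun p : R3 => K z p * F (t - ‖z‖, x + z, p)) := by
  have hFz : ∀ p, (R < ‖p‖) → F (t - ‖z‖, x + z, p) = 0 := by
    intro p h
    by_cases hz : t ≤ ‖z‖
    · exact hF0 _ (by linarith) _ _
    · push Not at hz
      exact hFR _ ⟨by linarith, by linarith [norm_nonneg z]⟩ _ _ h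
  have h1 : Continuous (fun p => K z p) := by
    rw [← continuousOn_univ]
    exact hK.comp (f := fun p : R3 => ((z, p) : R3 × R3)) (by fun_prop) (fun p _ => ⟨hz, mem_univ _⟩)
  apply Continuous.integrable_of_hasCompactSupport
  · exact h1.mul (hF.comp (by fun_prop))
  · apply HasCompactSupport.intro (isCompact_closedBall (0 : R3) R)
    intro p hp
    rw [hFz p (by simpa using hp), mul_zero]

/-- the six coefficient kernels -/
noncomputable def kT (c : R3 → R3) (z p : R3) : ℝ :=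
  kap (relVel p) (c p) z * (1 - ‖relVel p‖ ^ 2) * (mm (relVel p) z)⁻¹ ^ 2 * ‖z‖⁻¹ ^ 2

noncomputable def kM (c : R3 → R3) (z p : R3) : ℝ :=
  kap (relVel p) (c p) z * (mm (relVel p) z)⁻¹ * ‖z‖⁻¹

noncomputable def kX (c : R3 → R3) (z p : R3) : ℝ := ‖z‖⁻¹ * (∑ i, c p i * relVel p i)

noncomputable def kC (c : R3 → R3) (i : Fin 3) (z p : R3) : ℝ := ‖z‖⁻¹ * c p i

noncomputable def kV (c : R3 → R3) (i : Fin 3) (z p : R3) : ℝ := kM c z p * relVel p i

lemma relVel_cont : Continuous relVel := Crest.Agent.R106.GSR.contDiff_relVel.continuous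
lemma relVel_lt (p : R3) : ‖relVel p‖ < 1 := Crest.Agent.R106.GSR.norm_relVel_lt p

section kernels
variable {c : R3 → R3} (hc : Continuous c)
include hc

lemma cont_om (i : Fin 3) : ContinuousOn (fun q : R3 × R3 => om i q.1) ({0}ᶜ ×ˢ univ) :=
  (contDiffOn_om (n := 0) i).continuousOn.comp continuous_fst.continuousOn (fun q hq => hq.1)

lemma cont_rho : ContinuousOn (fun q : R3 × R3 => ‖q.1‖⁻¹) ({0}ᶜ ×ˢ univ) :=
  (contDiffOn_rho (n := 0)).continuousOn.comp continuous_fst.continuousOn (fun q hq => hq.1)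

lemma cont_sdot {a : R3 → R3} (ha : Continuous a) :
    ContinuousOn (fun q : R3 × R3 => sdot (a q.2) q.1) ({0}ᶜ ×ˢ univ) := by
  unfold sdot
  apply continuousOn_finsetSum
  intro i _
  have h1 : Continuous (fun q : R3 × R3 => a q.2 i) :=
    (EuclideanSpace.proj (𝕜 := ℝ) i).continuous.comp (ha.comp continuous_snd)
  exact h1.continuousOn.mul (cont_om hc i)

lemma cont_mmi : ContinuousOn (fun q : R3 × R3 => (mm (relVel q.2) q.1)⁻¹) ({0}ᶜ ×ˢ univ) := by
  apply ContinuousOn.inv₀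
  · exact continuousOn_const.add (cont_sdot hc relVel_cont)
  · intro q _; exact (mm_pos (relVel_lt q.2) q.1).ne'

lemma cont_cv : Continuous (fun p : R3 => ∑ i, c p i * relVel p i) := by
  apply continuous_finsetSum
  intro i _
  exact ((EuclideanSpace.proj (𝕜 := ℝ) i).continuous.comp hc).mul
    ((EuclideanSpace.proj (𝕜 := ℝ) i).continuous.comp relVel_cont)

lemma cont_kap : ContinuousOn (fun q : R3 × R3 => kap (relVel q.2) (c q.2) q.1) ({0}ᶜ ×ˢ univ) :=
  (cont_sdot hc hc).add ((cont_cv hc).comp continuous_snd).continuousOn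

lemma cont_kM : ContinuousOn (Function.uncurry (kM c)) ({0}ᶜ ×ˢ univ) :=
  ((cont_kap hc).mul (cont_mmi hc)).mul (cont_rho hc)

lemma cont_kT : ContinuousOn (Function.uncurry (kT c)) ({0}ᶜ ×ˢ univ) := by
  have h1 : Continuous (fun q : R3 × R3 => 1 - ‖relVel q.2‖ ^ 2) :=
    continuous_const.sub ((relVel_cont.comp continuous_snd).norm.pow 2)
  exact (((cont_kap hc).mul h1.continuousOn).mul ((cont_mmi hc).pow 2)).mul ((cont_rho hc).pow 2)

lemma cont_kX : ContinuousOn (Function.uncurry (kX c)) ({0}ᶜ ×ˢ univ) :=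
  (cont_rho hc).mul ((cont_cv hc).comp continuous_snd).continuousOn

lemma cont_kC (i : Fin 3) : ContinuousOn (Function.uncurry (kC c i)) ({0}ᶜ ×ˢ univ) :=
  (cont_rho hc).mul ((EuclideanSpace.proj (𝕜 := ℝ) i).continuous.comp (hc.comp continuous_snd)).continuousOn

lemma cont_kV (i : Fin 3) : ContinuousOn (Function.uncurry (kV c i)) ({0}ᶜ ×ˢ univ) :=
  (cont_kM hc).mul ((EuclideanSpace.proj (𝕜 := ℝ) i).continuous.comp (relVel_cont.comp continuous_snd)).continuousOn

/-- bounds on `‖p‖ ≤ R`, `‖z‖ ≤ t` -/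
lemma kernel_bounds (R t : ℝ) : ∃ M, 0 ≤ M ∧ ∀ z, z ≠ 0 → ‖z‖ ≤ t → ∀ p, ‖p‖ ≤ R →
    |kT c z p| ≤ M * ‖z‖⁻¹ ^ 2 ∧ |kM c z p| ≤ M * ‖z‖⁻¹ ^ 2 ∧ |kX c z p| ≤ M * ‖z‖⁻¹ ^ 2 ∧
    (∀ i, |kC c i z p| ≤ M * ‖z‖⁻¹ ^ 2) ∧ (∀ i, |kV c i z p| ≤ M * ‖z‖⁻¹ ^ 2) := by
  obtain ⟨M1, hM1⟩ := (isCompact_closedBall (0 : R3) R).exists_bound_of_continuousOn hc.continuousOn
  obtain ⟨M2, hM2⟩ := (isCompact_closedBall (0 : R3) R).exists_bound_of_continuousOn (cont_cv hc).continuousOn
  have h3 : Continuous (fun p : R3 => (1 - ‖relVel p‖)⁻¹) := by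
    apply Continuous.inv₀ (continuous_const.sub relVel_cont.norm)
    intro p
    have := relVel_lt p
    have h4 : (0:ℝ) < 1 - ‖relVel p‖ := by linarith
    exact h4.ne'
  obtain ⟨M3, hM3⟩ := (isCompact_closedBall (0 : R3) R).exists_bound_of_continuousOn h3.continuousOn
  set N : ℝ := |M1| + |M2| with hN
  set N3 : ℝ := |M3| with hN3
  have hN0 : 0 ≤ N := by positivity
  have hN30 : 0 ≤ N3 := abs_nonneg _
  refine ⟨N * N3 ^ 2 + N * N3 * |t| + N * |t|, by positivity, ?_⟩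
  intro z hz hzt p hp
  have hzp : 0 < ‖z‖ := norm_pos_iff.2 hz
  have hp' : p ∈ closedBall (0 : R3) R := by simpa using hp
  have hr : ‖z‖⁻¹ ≤ |t| * ‖z‖⁻¹ ^ 2 := by
    have := rho_le hz (hzt.trans (le_abs_self t))
    rwa [div_eq_mul_inv, ← inv_pow] at this
  have hkap : |kap (relVel p) (c p) z| ≤ N := by
    have h1 : |sdot (c p) z| ≤ |M1| := (abs_sdot_le _ _).trans ((hM1 p hp').trans (le_abs_self _))
    have h2 : |∑ i, c p i * relVel p i| ≤ |M2| := (hM2 p hp').trans (le_abs_self _)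
    exact (abs_add_le _ _).trans (add_le_add h1 h2)
  have hv1 : 0 < 1 - ‖relVel p‖ := by linarith [relVel_lt p]
  have hmi0 : 0 ≤ (mm (relVel p) z)⁻¹ := inv_nonneg.2 (mm_pos (relVel_lt p) z).le
  have hmi : (mm (relVel p) z)⁻¹ ≤ N3 := by
    refine (inv_anti₀ hv1 (mm_ge z)).trans ?_
    have := hM3 p hp'
    rw [Real.norm_of_nonneg (inv_nonneg.2 hv1.le)] at this
    exact this.trans (le_abs_self _)
  have hv : |1 - ‖relVel p‖ ^ 2| ≤ 1 := by
    rw [abs_le]
    constructor <;> nlinarith [relVel_lt p, norm_nonneg (relVel p)]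
  have hr0 : 0 ≤ ‖z‖⁻¹ ^ 2 := by positivity
  have hkM : |kM c z p| ≤ N * N3 * (|t| * ‖z‖⁻¹ ^ 2) := by
    unfold kM
    rw [abs_mul, abs_mul, abs_of_nonneg hmi0, abs_inv, abs_norm]
    gcongr
  have hci : ∀ i, |c p i| ≤ N := by
    intro i
    have h1 : |c p i| ≤ ‖c p‖ := by
      have := PiLp.norm_apply_le (c p) i
      simpa using this
    have h2 := (hM1 p hp').trans (le_abs_self _)
    have : 0 ≤ |M2| := abs_nonneg _
    linarith
  have hvi : ∀ i, |relVel p i| ≤ 1 := by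
    intro i
    have h1 : |relVel p i| ≤ ‖relVel p‖ := by
      have := PiLp.norm_apply_le (relVel p) i
      simpa using this
    linarith [relVel_lt p]
  refine ⟨?_, ?_, ?_, ?_, ?_⟩
  · unfold kT
    rw [abs_mul, abs_mul, abs_mul, abs_of_nonneg (pow_nonneg hmi0 2), abs_of_nonneg hr0]
    calc |kap (relVel p) (c p) z| * |1 - ‖relVel p‖ ^ 2| * (mm (relVel p) z)⁻¹ ^ 2 * ‖z‖⁻¹ ^ 2
        ≤ N * 1 * N3 ^ 2 * ‖z‖⁻¹ ^ 2 := by gcongr
      _ ≤ _ := by
          have : 0 ≤ (N * N3 * |t| + N * |t|) * ‖z‖⁻¹ ^ 2 := by positivity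
          nlinarith
  · have : 0 ≤ (N * N3 ^ 2 + N * |t|) * ‖z‖⁻¹ ^ 2 := by positivity
    nlinarith
  · unfold kX
    rw [abs_mul, abs_inv, abs_norm]
    have h2 : |∑ i, c p i * relVel p i| ≤ N := ((hM2 p hp').trans (le_abs_self _)).trans (by rw [hN]; linarith [abs_nonneg M1])
    calc ‖z‖⁻¹ * |∑ i, c p i * relVel p i| ≤ (|t| * ‖z‖⁻¹ ^ 2) * N := by gcongr
      _ ≤ _ := by
          have : 0 ≤ (N * N3 ^ 2 + N * N3 * |t|) * ‖z‖⁻¹ ^ 2 := by positivity
          nlinarith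
  · intro i
    unfold kC
    rw [abs_mul, abs_inv, abs_norm]
    have := hci i
    calc ‖z‖⁻¹ * |c p i| ≤ (|t| * ‖z‖⁻¹ ^ 2) * N := by gcongr
      _ ≤ _ := by
          have : 0 ≤ (N * N3 ^ 2 + N * N3 * |t|) * ‖z‖⁻¹ ^ 2 := by positivity
          nlinarith
  · intro i
    unfold kV
    rw [abs_mul]
    have := hvi i
    calc |kM c z p| * |relVel p i| ≤ (N * N3 * (|t| * ‖z‖⁻¹ ^ 2)) * 1 := by gcongr
      _ ≤ _ := by
          have : 0 ≤ (N * N3 ^ 2 + N * |t|) * ‖z‖⁻¹ ^ 2 := by positivity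
          nlinarith

end kernels

end Crest.Agent.R106.Gsr
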