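/-
Row 106, node GSR (helper801), part 6: the representation at cut-off level `h` (abstract component form).
-/
import Crest.Agent.R106.GsrRep

set_option autoImplicit false

open MeasureTheory Set Filter Topology Metric
open Crest.AnalysisR.VecCalc3 Crest.AnalysisR.PDE.RVM
open scoped ContDiff RealInnerProductSpace

namespace Crest.Agent.R106.Gsr

open Crest.Agent.R106.GSR (pt px box unc ft fx)

section
variable {f : ℝ → R3 → R3 → ℝ}

lemma fx_cont (hf : ContDiff ℝ ∞ (unc f)) (i : Fin 3) : Continuous (fx i (unc f)) :=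
  (hf.continuous_fderiv (by simp)).clm_apply continuous_const

lemma ft_cont (hf : ContDiff ℝ ∞ (unc f)) : Continuous (ft (unc f)) :=
  (hf.continuous_fderiv (by simp)).clm_apply continuous_const

lemma fderiv_zero_of_supp {T R : ℝ} (hR : ∀ τ ∈ Ioo 0 T, ∀ y p, R < ‖p‖ → f τ y p = 0)
    {τ : ℝ} (hτ : τ ∈ Ioo 0 T) (y : R3) {p : R3} (hp : R < ‖p‖) : fderiv ℝ (unc f) (τ, y, p) = 0 := by
  have : unc f =ᶠ[𝓝 (τ, y, p)] fun _ => 0 := by
    have h1 : {q : ℝ × R3 × R3 | q.1 ∈ Ioo 0 T ∧ R < ‖q.2.2‖} ∈ 𝓝 (τ, y, p) := by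
      apply IsOpen.mem_nhds
      · exact (isOpen_Ioo.preimage continuous_fst).inter
          (isOpen_lt continuous_const (continuous_snd.comp continuous_snd).norm)
      · exact ⟨hτ, hp⟩
    filter_upwards [h1] with q hq
    exact hR q.1 hq.1 q.2.1 q.2.2 hq.2
  rw [this.fderiv_eq]; simp

/-- slice at fixed momentum -/
lemma slice_px (hf : ContDiff ℝ ∞ (unc f)) (p : R3) (i : Fin 3) (q : ℝ × R3) :
    px i (fun q : ℝ × R3 => f q.1 q.2 p) q = fx i (unc f) (q.1, q.2, p) := by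
  unfold px fx
  have h1 : HasFDerivAt (unc f) (fderiv ℝ (unc f) (q.1, q.2, p)) (q.1, q.2, p) :=
    (hf.differentiable (by simp)).differentiableAt.hasFDerivAt
  have h2 : HasFDerivAt (fun q : ℝ × R3 => ((q.1, q.2, p) : ℝ × R3 × R3))
      ((ContinuousLinearMap.fst ℝ ℝ R3).prod ((ContinuousLinearMap.snd ℝ ℝ R3).prod (0 : ℝ × R3 →L[ℝ] R3))) q :=
    hasFDerivAt_fst.prodMk (hasFDerivAt_snd.prodMk (hasFDerivAt_const p q))
  have h3 := h1.comp q h2
  have h4 : HasFDerivAt (fun q : ℝ × R3 => f q.1 q.2 p) _ q := h3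
  rw [h4.fderiv]
  simp

lemma slice_pt (hf : ContDiff ℝ ∞ (unc f)) (p : R3) (q : ℝ × R3) :
    pt (fun q : ℝ × R3 => f q.1 q.2 p) q = ft (unc f) (q.1, q.2, p) := by
  unfold pt ft
  have h1 : HasFDerivAt (unc f) (fderiv ℝ (unc f) (q.1, q.2, p)) (q.1, q.2, p) :=
    (hf.differentiable (by simp)).differentiableAt.hasFDerivAt
  have h2 : HasFDerivAt (fun q : ℝ × R3 => ((q.1, q.2, p) : ℝ × R3 × R3))
      ((ContinuousLinearMap.fst ℝ ℝ R3).prod ((ContinuousLinearMap.snd ℝ ℝ R3).prod (0 : ℝ × R3 →L[ℝ] R3))) q :=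
    hasFDerivAt_fst.prodMk (hasFDerivAt_snd.prodMk (hasFDerivAt_const p q))
  have h3 := h1.comp q h2
  have h4 : HasFDerivAt (fun q : ℝ × R3 => f q.1 q.2 p) _ q := h3
  rw [h4.fderiv]
  simp

lemma slice_contDiff (hf : ContDiff ℝ ∞ (unc f)) (p : R3) {n : ℕ∞} :
    ContDiff ℝ n (fun q : ℝ × R3 => f q.1 q.2 p) := by
  have h1 : ContDiff ℝ n (unc f) := hf.of_le (by exact_mod_cast le_top)
  exact h1.comp (contDiff_fst.prodMk (contDiff_snd.prodMk contDiff_const))

end

/-- the representation at level `h` -/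
theorem rep_h {f : ℝ → R3 → R3 → ℝ} (hf : ContDiff ℝ ∞ (unc f)) {u : ℝ × R3 → ℝ} (hu : ContDiff ℝ 2 u)
    {c : R3 → R3} (hc : Continuous c) {σ T R t h : ℝ} (hh : 0 < h) (ht : h ≤ t) (htT : t < T) (x : R3)
    (hR : ∀ τ ∈ Ioo 0 T, ∀ y p, R < ‖p‖ → f τ y p = 0)
    (hbox : ∀ τ ∈ Ioo 0 T, ∀ y, box u (τ, y) = σ * ∫ p, (∑ i, c p i * fx i (unc f) (τ, y, p)
      + (∑ i, c p i * relVel p i) * ft (unc f) (τ, y, p)))
    {S : R3 → R3 → ℝ} (hSc : ContinuousOn (Function.uncurry S) ({0}ᶜ ×ˢ univ)) {CS : ℝ}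
    (hSb : ∀ z, z ≠ 0 → ‖z‖ < t → ∀ p, ‖p‖ ≤ R → |S z p| ≤ CS * ‖z‖⁻¹ ^ 2)
    (hS : ∀ z, z ≠ 0 → ‖z‖ < t → ∫ p, σ * kM c z p * (ft (unc f) (t - ‖z‖, x + z, p)
      + ∑ i, relVel p i * fx i (unc f) (t - ‖z‖, x + z, p)) = ∫ p, f (t - ‖z‖) (x + z) p * S z p) :
    4 * Real.pi * u (t, x)
      = (∫ z, th h (t - ‖z‖) * ∫ p, f (t - ‖z‖) (x + z) p * (σ * kT c z p + S z p))
        + ∫ z, th' h (t - ‖z‖) * (‖z‖⁻¹ * (pt u (ret t x z) + ∑ k, om k z * px k u (ret t x z))
          + ‖z‖⁻¹ ^ 2 * u (ret t x z)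
          + ‖z‖⁻¹ * ∫ p, (σ * (kap (relVel p) (c p) z * (mm (relVel p) z)⁻¹ - ∑ i, c p i * relVel p i))
              * f (t - ‖z‖) (x + z) p) := by
  have ht0 : 0 < t := lt_of_lt_of_le hh ht
  -- the four density functions
  let F1 : Fin 3 → ℝ × R3 × R3 → ℝ := fun i q => th h q.1 * fx i (unc f) q
  let F2 : ℝ × R3 × R3 → ℝ := fun q => th h q.1 * ft (unc f) q
  let F3 : ℝ × R3 × R3 → ℝ := fun q => th' h q.1 * unc f q
  let F4 : ℝ × R3 × R3 → ℝ := fun q => th h q.1 * unc f q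
  have cth : Continuous (fun q : ℝ × R3 × R3 => th h q.1) := (th_contDiff h (n := 0)).continuous.comp continuous_fst
  have cth' : Continuous (fun q : ℝ × R3 × R3 => th' h q.1) := (th'_continuous h).comp continuous_fst
  have hF1c : ∀ i, Continuous (F1 i) := fun i => cth.mul (fx_cont hf i)
  have hF2c : Continuous F2 := cth.mul (ft_cont hf)
  have hF3c : Continuous F3 := cth'.mul hf.continuous
  have hF4c : Continuous F4 := cth.mul hf.continuous
  have hF1z : ∀ i, ∀ τ ≤ 0, ∀ y p, F1 i (τ, y, p) = 0 := fun i τ hτ y p => by simp [F1, th_zero hh hτ]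
  have hF2z : ∀ τ ≤ 0, ∀ y p, F2 (τ, y, p) = 0 := fun τ hτ y p => by simp [F2, th_zero hh hτ]
  have hF3z : ∀ τ ≤ 0, ∀ y p, F3 (τ, y, p) = 0 := fun τ hτ y p => by simp [F3, th'_zero hh hτ]
  have hF4z : ∀ τ ≤ 0, ∀ y p, F4 (τ, y, p) = 0 := fun τ hτ y p => by simp [F4, th_zero hh hτ]
  have hF1R : ∀ i, ∀ τ ∈ Ioo 0 T, ∀ y p, R < ‖p‖ → F1 i (τ, y, p) = 0 := fun i τ hτ y p hp => by
    simp [F1, fx, fderiv_zero_of_supp hR hτ y hp]
  have hF2R : ∀ τ ∈ Ioo 0 T, ∀ y p, R < ‖p‖ → F2 (τ, y, p) = 0 := fun τ hτ y p hp => by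
    simp [F2, ft, fderiv_zero_of_supp hR hτ y hp]
  have hF3R : ∀ τ ∈ Ioo 0 T, ∀ y p, R < ‖p‖ → F3 (τ, y, p) = 0 := fun τ hτ y p hp => by
    simp [F3, unc, hR τ hτ y p hp]
  have hF4R : ∀ τ ∈ Ioo 0 T, ∀ y p, R < ‖p‖ → F4 (τ, y, p) = 0 := fun τ hτ y p hp => by
    simp [F4, unc, hR τ hτ y p hp]
  obtain ⟨M, hM0, hMb⟩ := kernel_bounds hc R t
  -- product integrability
  have iC1 : ∀ i, Integrable (fun q : R3 × R3 => kC c i q.1 q.2 * F1 i (t - ‖q.1‖, x + q.1, q.2)) ((volume : Measure R3).prod volume) :=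
    fun i => prod_int htT (cont_kC hc i) (fun z hz hzt p hp => (hMb z hz hzt.le p hp).2.2.2.1 i) (hF1c i) (hF1z i) (hF1R i) x
  have iV1 : ∀ i, Integrable (fun q : R3 × R3 => kV c i q.1 q.2 * F1 i (t - ‖q.1‖, x + q.1, q.2)) ((volume : Measure R3).prod volume) :=
    fun i => prod_int htT (cont_kV hc i) (fun z hz hzt p hp => (hMb z hz hzt.le p hp).2.2.2.2 i) (hF1c i) (hF1z i) (hF1R i) x
  have iX2 : Integrable (fun q : R3 × R3 => kX c q.1 q.2 * F2 (t - ‖q.1‖, x + q.1, q.2)) ((volume : Measure R3).prod volume) :=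
    prod_int htT (cont_kX hc) (fun z hz hzt p hp => (hMb z hz hzt.le p hp).2.2.1) hF2c hF2z hF2R x
  have iM2 : Integrable (fun q : R3 × R3 => kM c q.1 q.2 * F2 (t - ‖q.1‖, x + q.1, q.2)) ((volume : Measure R3).prod volume) :=
    prod_int htT (cont_kM hc) (fun z hz hzt p hp => (hMb z hz hzt.le p hp).2.1) hF2c hF2z hF2R x
  have iX3 : Integrable (fun q : R3 × R3 => kX c q.1 q.2 * F3 (t - ‖q.1‖, x + q.1, q.2)) ((volume : Measure R3).prod volume) :=
    prod_int htT (cont_kX hc) (fun z hz hzt p hp => (hMb z hz hzt.le p hp).2.2.1) hF3c hF3z hF3R x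
  have iM3 : Integrable (fun q : R3 × R3 => kM c q.1 q.2 * F3 (t - ‖q.1‖, x + q.1, q.2)) ((volume : Measure R3).prod volume) :=
    prod_int htT (cont_kM hc) (fun z hz hzt p hp => (hMb z hz hzt.le p hp).2.1) hF3c hF3z hF3R x
  have iT4 : Integrable (fun q : R3 × R3 => kT c q.1 q.2 * F4 (t - ‖q.1‖, x + q.1, q.2)) ((volume : Measure R3).prod volume) :=
    prod_int htT (cont_kT hc) (fun z hz hzt p hp => (hMb z hz hzt.le p hp).1) hF4c hF4z hF4R x
  have iS4 : Integrable (fun q : R3 × R3 => S q.1 q.2 * F4 (t - ‖q.1‖, x + q.1, q.2)) ((volume : Measure R3).prod volume) :=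
    prod_int htT hSc hSb hF4c hF4z hF4R x
  -- the four groups
  let a1 : R3 × R3 → ℝ := fun q => (∑ i, kC c i q.1 q.2 * F1 i (t - ‖q.1‖, x + q.1, q.2)) + kX c q.1 q.2 * F2 (t - ‖q.1‖, x + q.1, q.2)
  let a2 : R3 × R3 → ℝ := fun q => kT c q.1 q.2 * F4 (t - ‖q.1‖, x + q.1, q.2)
  let a3 : R3 × R3 → ℝ := fun q => kM c q.1 q.2 * F3 (t - ‖q.1‖, x + q.1, q.2) - kX c q.1 q.2 * F3 (t - ‖q.1‖, x + q.1, q.2)
  let a4 : R3 × R3 → ℝ := fun q => (∑ i, kV c i q.1 q.2 * F1 i (t - ‖q.1‖, x + q.1, q.2)) + kM c q.1 q.2 * F2 (t - ‖q.1‖, x + q.1, q.2)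
  have i1 : Integrable a1 ((volume : Measure R3).prod volume) := (integrable_finsetSum Finset.univ fun i _ => iC1 i).add iX2
  have i2 : Integrable a2 ((volume : Measure R3).prod volume) := iT4
  have i3 : Integrable a3 ((volume : Measure R3).prod volume) := iM3.sub iX3
  have i4 : Integrable a4 ((volume : Measure R3).prod volume) := (integrable_finsetSum Finset.univ fun i _ => iV1 i).add iM2
  let H : R3 × R3 → ℝ := fun q => a1 q - a2 q - a3 q - a4 q
  have iH : Integrable H ((volume : Measure R3).prod volume) := ((i1.sub i2).sub i3).sub i4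
  -- for fixed momentum the z-integral vanishes
  have hzero : ∀ p : R3, ∫ z, H (z, p) = 0 := by
    intro p
    have hgd : ∀ q : ℝ × R3, DifferentiableAt ℝ (fun q : ℝ × R3 => f q.1 q.2 p) q := fun q =>
      ((slice_contDiff hf p (n := 1)).differentiable (by norm_num)).differentiableAt
    have hthd : ∀ q : ℝ × R3, DifferentiableAt ℝ (fun q : ℝ × R3 => th h q.1) q := fun q =>
      (((th_contDiff h (n := 1)).comp contDiff_fst).differentiable (by norm_num)).differentiableAt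
    let g : ℝ × R3 → ℝ := fun q => th h q.1 * f q.1 q.2 p
    have hg : ContDiff ℝ 1 g := ((th_contDiff h (n := 1)).comp contDiff_fst).mul (slice_contDiff hf p (n := 1))
    have hg0 : ∀ τ ≤ 0, ∀ y, g (τ, y) = 0 := fun τ hτ y => by simp [g, th_zero hh hτ]
    have hptg : ∀ q, pt g q = th' h q.1 * f q.1 q.2 p + th h q.1 * ft (unc f) (q.1, q.2, p) := by
      intro q
      rw [show g = fun q : ℝ × R3 => (fun q : ℝ × R3 => th h q.1) q * (fun q : ℝ × R3 => f q.1 q.2 p) q from rfl,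
        pt_mul (hthd q) (hgd q), pt_time (th_hasDerivAt h q.1), slice_pt hf p q]
    have hpxg : ∀ i q, px i g q = th h q.1 * fx i (unc f) (q.1, q.2, p) := by
      intro i q
      rw [show g = fun q : ℝ × R3 => (fun q : ℝ × R3 => th h q.1) q * (fun q : ℝ × R3 => f q.1 q.2 p) q from rfl,
        px_mul (hthd q) (hgd q), px_time (th_hasDerivAt h q.1), slice_px hf p i q, zero_mul, zero_add]
    obtain ⟨-, -, -, hz⟩ := cone_ibp_aux hg hg0 (relVel_lt p) (c p) t x
    rw [← hz]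
    congr 1
    ext z
    simp only [H, a1, a2, a3, a4, F1, F2, F3, F4, hptg, hpxg, kC, kV, kX, kM, kT, ret, unc, g, Fin.sum_univ_three]
    ring
  have hFub : ∫ z, ∫ p, H (z, p) = 0 := by
    rw [← integral_prod H iH, integral_prod_symm H iH]
    simp [hzero]
  -- fibers
  have hfib : ∀ z : R3, z ≠ 0 → σ * ∫ p, H (z, p)
      = ‖z‖⁻¹ * (th h (t - ‖z‖) * box u (ret t x z))
        - th h (t - ‖z‖) * (∫ p, f (t - ‖z‖) (x + z) p * (σ * kT c z p + S z p))
        - th' h (t - ‖z‖) * (‖z‖⁻¹ * ∫ p, (σ * (kap (relVel p) (c p) z * (mm (relVel p) z)⁻¹ - ∑ i, c p i * relVel p i))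
              * f (t - ‖z‖) (x + z) p) := by
    intro z hz
    by_cases hzt : t ≤ ‖z‖
    · have e1 : th h (t - ‖z‖) = 0 := th_zero hh (by linarith)
      have e2 : th' h (t - ‖z‖) = 0 := th'_zero hh (by linarith)
      have e3 : ∀ p, H (z, p) = 0 := fun p => by
        simp only [H, a1, a2, a3, a4, F1, F2, F3, F4, e1, e2]
        simp
      simp [e1, e2, e3]
    push Not at hzt
    have hzp : 0 < ‖z‖ := norm_pos_iff.2 hz
    have hτ : t - ‖z‖ ∈ Ioo 0 T := ⟨by linarith, by linarith⟩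
    have f1 : ∀ i, Integrable (fun p : R3 => kC c i z p * F1 i (t - ‖z‖, x + z, p)) := fun i =>
      fiber_int htT (cont_kC hc i) (hF1c i) (hF1z i) (hF1R i) x hz
    have f1' : ∀ i, Integrable (fun p : R3 => kV c i z p * F1 i (t - ‖z‖, x + z, p)) := fun i =>
      fiber_int htT (cont_kV hc i) (hF1c i) (hF1z i) (hF1R i) x hz
    have f2 : Integrable (fun p : R3 => kX c z p * F2 (t - ‖z‖, x + z, p)) := fiber_int htT (cont_kX hc) hF2c hF2z hF2R x hz
    have f2' : Integrable (fun p : R3 => kM c z p * F2 (t - ‖z‖, x + z, p)) := fiber_int htT (cont_kM hc) hF2c hF2z hF2R x hz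
    have f3 : Integrable (fun p : R3 => kX c z p * F3 (t - ‖z‖, x + z, p)) := fiber_int htT (cont_kX hc) hF3c hF3z hF3R x hz
    have f3' : Integrable (fun p : R3 => kM c z p * F3 (t - ‖z‖, x + z, p)) := fiber_int htT (cont_kM hc) hF3c hF3z hF3R x hz
    have f4 : Integrable (fun p : R3 => kT c z p * F4 (t - ‖z‖, x + z, p)) := fiber_int htT (cont_kT hc) hF4c hF4z hF4R x hz
    have f5 : Integrable (fun p : R3 => S z p * F4 (t - ‖z‖, x + z, p)) := fiber_int htT hSc hF4c hF4z hF4R x hz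
    have j1 : Integrable (fun p : R3 => a1 (z, p)) := (integrable_finsetSum Finset.univ fun i _ => f1 i).add f2
    have j2 : Integrable (fun p : R3 => a2 (z, p)) := f4
    have j3 : Integrable (fun p : R3 => a3 (z, p)) := f3'.sub f3
    have j4 : Integrable (fun p : R3 => a4 (z, p)) := (integrable_finsetSum Finset.univ fun i _ => f1' i).add f2'
    have hHs : ∫ p, H (z, p) = (∫ p, a1 (z, p)) - (∫ p, a2 (z, p)) - (∫ p, a3 (z, p)) - ∫ p, a4 (z, p) := by
      have s1 := integral_sub ((j1.sub j2).sub j3) j4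
      have s2 := integral_sub (j1.sub j2) j3
      have s3 := integral_sub j1 j2
      simp only [Pi.sub_apply] at s1 s2 s3
      simp only [H]
      rw [s1, s2, s3]
    have g1 : σ * ∫ p, a1 (z, p) = ‖z‖⁻¹ * (th h (t - ‖z‖) * box u (ret t x z)) := by
      have : ∫ p, a1 (z, p) = ‖z‖⁻¹ * th h (t - ‖z‖) * ∫ p, (∑ i, c p i * fx i (unc f) (t - ‖z‖, x + z, p)
          + (∑ i, c p i * relVel p i) * ft (unc f) (t - ‖z‖, x + z, p)) := by
        rw [← integral_const_mul]
        congr 1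
        ext p
        simp only [a1, kC, kX, F1, F2, Fin.sum_univ_three]
        ring
      rw [this]
      simp only [ret]
      rw [hbox _ hτ]
      ring
    have g4 : σ * ∫ p, a4 (z, p) = th h (t - ‖z‖) * ∫ p, f (t - ‖z‖) (x + z) p * S z p := by
      rw [← hS z hz hzt, ← integral_const_mul, ← integral_const_mul]
      congr 1
      ext p
      simp only [a4, kV, F1, F2, Fin.sum_univ_three]
      ring
    have g2 : σ * (∫ p, a2 (z, p)) + th h (t - ‖z‖) * (∫ p, f (t - ‖z‖) (x + z) p * S z p)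
        = th h (t - ‖z‖) * (∫ p, f (t - ‖z‖) (x + z) p * (σ * kT c z p + S z p)) := by
      rw [← integral_const_mul, ← integral_const_mul, ← integral_const_mul, ← integral_add]
      · congr 1
        ext p
        simp only [a2, F4, unc]
        ring
      · exact j2.const_mul σ
      · refine f5.congr (Eventually.of_forall fun p => ?_)
        simp only [F4, unc]
        ring
    have g3 : σ * ∫ p, a3 (z, p) = th' h (t - ‖z‖) * (‖z‖⁻¹ * ∫ p, (σ * (kap (relVel p) (c p) z * (mm (relVel p) z)⁻¹ - ∑ i, c p i * relVel p i))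
              * f (t - ‖z‖) (x + z) p) := by
      rw [← integral_const_mul, ← integral_const_mul, ← integral_const_mul]
      congr 1
      ext p
      simp only [a3, kM, kX, F3, unc, Fin.sum_univ_three]
      ring
    rw [hHs, mul_sub, mul_sub, mul_sub, g1, g3, g4, ← g2]
    ring
  -- integrability in z
  have hboxc : Continuous (box u) := by
    have hpx : ∀ k, ContDiff ℝ 1 (px k u) := fun k => px_contDiff2 hu k
    have hpt : ContDiff ℝ 1 (pt u) := pt_contDiff2 hu
    have h1 : ∀ {F : ℝ × R3 → ℝ} (k : Fin 3), ContDiff ℝ 1 F → Continuous (px k F) := fun k hF =>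
      (hF.continuous_fderiv (by norm_num)).clm_apply continuous_const
    have h2 : Continuous (pt (pt u)) := (hpt.continuous_fderiv (by norm_num)).clm_apply continuous_const
    exact h2.sub (continuous_finsetSum _ fun k _ => h1 k (hpx k))
  have cth2 : Continuous (fun q : ℝ × R3 => th h q.1) := (th_contDiff h (n := 0)).continuous.comp continuous_fst
  have cth2' : Continuous (fun q : ℝ × R3 => th' h q.1) := (th'_continuous h).comp continuous_fst
  have hrho : ContinuousOn (fun z : R3 => ‖z‖⁻¹) {0}ᶜ := (contDiffOn_rho (n := 0)).continuousOn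
  have hJ1 : Integrable (fun z => ‖z‖⁻¹ * (th h (t - ‖z‖) * box u (ret t x z))) :=
    cone_kernel_integrable' (F := fun q => th h q.1 * box u q) (fun τ hτ y => by simp [th_zero hh hτ])
      (cth2.mul hboxc) t x (C := 1) hrho (fun z _ => by rw [abs_inv, abs_norm, one_mul])
  have hae : ∀ᵐ z : R3, z ≠ 0 := by
    have : ({0}ᶜ : Set R3) ∈ ae (volume : Measure R3) := by
      rw [mem_ae_iff, compl_compl]; exact measure_singleton _
    exact this
  have hJ2 : Integrable (fun z => th h (t - ‖z‖) * (∫ p, f (t - ‖z‖) (x + z) p * (σ * kT c z p + S z p))) := by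
    have h1 := ((iT4.const_mul σ).add iS4).integral_prod_left
    refine h1.congr ?_
    filter_upwards [hae] with z hz
    rw [← integral_const_mul]
    congr 1
    ext p
    simp only [Pi.add_apply, F4, unc]
    ring
  have hJ3 : Integrable (fun z => th' h (t - ‖z‖) * (‖z‖⁻¹ * ∫ p, (σ * (kap (relVel p) (c p) z * (mm (relVel p) z)⁻¹ - ∑ i, c p i * relVel p i))
              * f (t - ‖z‖) (x + z) p)) := by
    have h1 := (i3.const_mul σ).integral_prod_left
    refine h1.congr ?_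
    filter_upwards [hae] with z hz
    rw [← integral_const_mul, ← integral_const_mul]
    congr 1
    ext p
    simp only [a3, kM, kX, F3, unc, Fin.sum_univ_three]
    ring
  have hcomb : ∫ z, ‖z‖⁻¹ * (th h (t - ‖z‖) * box u (ret t x z))
      = (∫ z, th h (t - ‖z‖) * (∫ p, f (t - ‖z‖) (x + z) p * (σ * kT c z p + S z p)))
        + ∫ z, th' h (t - ‖z‖) * (‖z‖⁻¹ * ∫ p, (σ * (kap (relVel p) (c p) z * (mm (relVel p) z)⁻¹ - ∑ i, c p i * relVel p i))
              * f (t - ‖z‖) (x + z) p) := by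
    have h1 : ∫ z, σ * ∫ p, H (z, p) = 0 := by rw [integral_const_mul, hFub, mul_zero]
    have h2 : ∫ z, σ * ∫ p, H (z, p) = ∫ z, (‖z‖⁻¹ * (th h (t - ‖z‖) * box u (ret t x z))
        - th h (t - ‖z‖) * (∫ p, f (t - ‖z‖) (x + z) p * (σ * kT c z p + S z p))
        - th' h (t - ‖z‖) * (‖z‖⁻¹ * ∫ p, (σ * (kap (relVel p) (c p) z * (mm (relVel p) z)⁻¹ - ∑ i, c p i * relVel p i))
              * f (t - ‖z‖) (x + z) p)) := by
      apply integral_congr_ae
      filter_upwards [hae] with z hz using hfib z hz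
    have s1 := integral_sub (hJ1.sub hJ2) hJ3
    have s2 := integral_sub hJ1 hJ2
    simp only [Pi.sub_apply] at s1 s2
    rw [h2, s1, s2] at h1
    linarith
  have hJ4 : Integrable (fun z => th' h (t - ‖z‖) * (‖z‖⁻¹ * (pt u (ret t x z) + ∑ k, om k z * px k u (ret t x z))
          + ‖z‖⁻¹ ^ 2 * u (ret t x z))) := by
    have hpx : ∀ k, ContDiff ℝ 1 (px k u) := fun k => px_contDiff2 hu k
    have hpt : ContDiff ℝ 1 (pt u) := pt_contDiff2 hu
    have b1 : Integrable (fun z => ‖z‖⁻¹ * (th' h (t - ‖z‖) * pt u (ret t x z))) :=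
      cone_kernel_integrable' (F := fun q => th' h q.1 * pt u q) (fun τ hτ y => by simp [th'_zero hh hτ])
        (cth2'.mul hpt.continuous) t x (C := 1) hrho (fun z _ => by rw [abs_inv, abs_norm, one_mul])
    have b2 : ∀ k, Integrable (fun z => (‖z‖⁻¹ * om k z) * (th' h (t - ‖z‖) * px k u (ret t x z))) := fun k =>
      cone_kernel_integrable' (F := fun q => th' h q.1 * px k u q) (fun τ hτ y => by simp [th'_zero hh hτ])
        (cth2'.mul (hpx k).continuous) t x (C := 1)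
        ((contDiffOn_rho (n := 0)).mul (contDiffOn_om (n := 0) k)).continuousOn
        (fun z _ => by
          rw [abs_mul, abs_inv, abs_norm, one_mul]
          exact mul_le_of_le_one_right (by positivity) (abs_om_le k z))
    have b3 : Integrable (fun z => ‖z‖⁻¹ ^ 2 * (th' h (t - ‖z‖) * u (ret t x z))) :=
      cone_kernel_integrable (F := fun q => th' h q.1 * u q) (fun τ hτ y => by simp [th'_zero hh hτ])
        (cth2'.mul hu.continuous) t x (K := fun z => ‖z‖⁻¹ ^ 2) (C := 1)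
        (hrho.pow 2) (fun z _ => by rw [abs_of_nonneg (by positivity), one_mul])
    refine ((b1.add (integrable_finsetSum Finset.univ fun k _ => b2 k)).add b3).congr (Eventually.of_forall fun z => ?_)
    simp only [Pi.add_apply, Fin.sum_univ_three]
    ring
  rw [kirchhoff_theta hu hh ht x, hcomb, add_assoc]
  congr 1
  rw [← integral_add hJ3 hJ4]
  congr 1
  ext z
  ring

end Crest.Agent.R106.Gsr
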