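/-
Row 106, node GSR (helper801), part 7: the limit `h → 0` and the component form of the representation.
-/
import Crest.Agent.R106.GsrRepH
import Crest.Agent.R106.GsrLayer

set_option autoImplicit false

open MeasureTheory Set Filter Topology Metric
open Crest.AnalysisR.VecCalc3 Crest.AnalysisR.PDE.RVM
open scoped ContDiff RealInnerProductSpace

namespace Crest.Agent.R106.Gsr

open Crest.Agent.R106.GSR (pt px box unc ft fx)

lemma limit_h {t : ℝ} (ht : 0 < t) {G L : R3 → ℝ} {U C : ℝ}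
    (hG : IntegrableOn G (ball 0 t))
    (hid : ∀ h ∈ Ioo 0 t, U = (∫ z, th h (t - ‖z‖) * G z) + ∫ z, th' h (t - ‖z‖) * L z)
    (hL : ∃ h0 > 0, ∀ z : R3, 0 < t - ‖z‖ → t - ‖z‖ < h0 → |L z| ≤ C * (‖z‖⁻¹ + ‖z‖⁻¹ ^ 2)) :
    |U - ∫ z in ball 0 t, G z| ≤ C * (4 * Real.pi * (t + 1)) := by
  obtain ⟨h0, hh0, hLb⟩ := hL
  have hC : 0 ≤ C := by
    -- choose a point with 0 < t - ‖z‖ < h0
    set r : ℝ := max (t / 2) (t - h0 / 2) with hr
    have hr0 : 0 < r := lt_of_lt_of_le (by linarith) (le_max_left _ _)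
    have hrt : r < t := max_lt (by linarith) (by linarith)
    have hn : ‖r • (e 0)‖ = r := by
      rw [norm_smul, Real.norm_of_nonneg hr0.le]; simp [e]
    have h1 := hLb (r • e 0) (by rw [hn]; linarith) (by rw [hn]; linarith [le_max_right (t / 2) (t - h0 / 2)])
    rw [hn] at h1
    have h2 : 0 ≤ C * (r⁻¹ + r⁻¹ ^ 2) := (abs_nonneg _).trans h1
    have h3 : 0 < r⁻¹ + r⁻¹ ^ 2 := by positivity
    exact nonneg_of_mul_nonneg_left h2 h3
  have hbound : ∀ h ∈ Ioo 0 (min t h0), |U - ∫ z, th h (t - ‖z‖) * G z| ≤ C * (4 * Real.pi * (t + 1)) := by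
    intro h hh
    have hht : h < t := lt_of_lt_of_le hh.2 (min_le_left _ _)
    have hhh0 : h < h0 := lt_of_lt_of_le hh.2 (min_le_right _ _)
    have h1 := hid h ⟨hh.1, hht⟩
    obtain ⟨hm1, hm2⟩ := layer_mass hh.1 hht
    have h2 : U - ∫ z, th h (t - ‖z‖) * G z = ∫ z, th' h (t - ‖z‖) * L z := by rw [h1]; ring
    rw [h2, ← Real.norm_eq_abs]
    calc ‖∫ z, th' h (t - ‖z‖) * L z‖ ≤ ∫ z : R3, C * (th' h (t - ‖z‖) * (‖z‖⁻¹ + ‖z‖⁻¹ ^ 2)) := by
          apply norm_integral_le_of_norm_le (hm1.const_mul C)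
          filter_upwards with z
          by_cases hz : t - ‖z‖ ≤ 0
          · rw [th'_zero hh.1 hz]; simp
          · by_cases hz2 : h < t - ‖z‖
            · rw [th'_zero' hh.1 hz2]; simp
            · have h3 := hLb z (not_le.1 hz) (lt_of_le_of_lt (not_lt.1 hz2) hhh0)
              have h4 := th'_nonneg hh.1 (t - ‖z‖)
              rw [norm_mul, Real.norm_of_nonneg h4, Real.norm_eq_abs]
              calc th' h (t - ‖z‖) * |L z| ≤ th' h (t - ‖z‖) * (C * (‖z‖⁻¹ + ‖z‖⁻¹ ^ 2)) := by gcongr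
                _ = _ := by ring
      _ = C * ∫ z : R3, (th' h (t - ‖z‖) * (‖z‖⁻¹ + ‖z‖⁻¹ ^ 2)) := integral_const_mul _ _
      _ ≤ _ := by gcongr
  have hset : ∀ h, 0 < h → ∫ z, th h (t - ‖z‖) * G z = ∫ z in ball 0 t, th h (t - ‖z‖) * G z := by
    intro h hh
    rw [setIntegral_eq_integral_of_forall_compl_eq_zero]
    intro z hz
    have : t ≤ ‖z‖ := by simpa using hz
    rw [th_zero hh (by linarith), zero_mul]
  have hlim : Tendsto (fun h : ℝ => ∫ z, th h (t - ‖z‖) * G z) (𝓝[>] 0) (𝓝 (∫ z in ball 0 t, G z)) := by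
    have h1 : Tendsto (fun h : ℝ => ∫ z in ball 0 t, th h (t - ‖z‖) * G z) (𝓝[>] 0) (𝓝 (∫ z in ball 0 t, G z)) := by
      apply tendsto_integral_filter_of_dominated_convergence (fun z => ‖G z‖)
      · filter_upwards with h
        have : Continuous fun z : R3 => th h (t - ‖z‖) := (th_contDiff h (n := 0)).continuous.comp (by fun_prop)
        exact this.aestronglyMeasurable.mul hG.1
      · filter_upwards with h
        filter_upwards with z
        rw [norm_mul, Real.norm_of_nonneg (th_nonneg _ _)]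
        exact mul_le_of_le_one_left (norm_nonneg _) (th_le_one _ _)
      · exact hG.norm
      · rw [ae_restrict_iff' measurableSet_ball]
        filter_upwards with z hz
        have hz' : 0 < t - ‖z‖ := by
          have : ‖z‖ < t := by simpa using hz
          linarith
        apply tendsto_const_nhds.congr'
        have : Ioo (0:ℝ) (t - ‖z‖) ∈ 𝓝[>] (0:ℝ) := Ioo_mem_nhdsGT hz'
        filter_upwards [this] with h hh
        rw [th_one hh.1 hh.2.le, one_mul]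
    refine h1.congr' ?_
    filter_upwards [self_mem_nhdsWithin] with h hh using (hset h hh).symm
  have hlim2 : Tendsto (fun h : ℝ => |U - ∫ z, th h (t - ‖z‖) * G z|) (𝓝[>] 0) (𝓝 |U - ∫ z in ball 0 t, G z|) :=
    (tendsto_const_nhds.sub hlim).abs
  apply le_of_tendsto hlim2
  have : Ioo (0:ℝ) (min t h0) ∈ 𝓝[>] (0:ℝ) := Ioo_mem_nhdsGT (lt_min ht hh0)
  filter_upwards [this] with h hh using hbound h hh

/-- component form of the representation -/
theorem comp_rep {f : ℝ → R3 → R3 → ℝ} (hf : ContDiff ℝ ∞ (unc f)) {u : ℝ × R3 → ℝ} (hu : ContDiff ℝ 2 u)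
    {c : R3 → R3} (hc : Continuous c) {σ T R t A CK : ℝ} (ht : 0 < t) (htT : t < T) (x : R3)
    (hR : ∀ τ ∈ Ioo 0 T, ∀ y p, R < ‖p‖ → f τ y p = 0)
    (hbox : ∀ τ ∈ Ioo 0 T, ∀ y, box u (τ, y) = σ * ∫ p, (∑ i, c p i * fx i (unc f) (τ, y, p)
      + (∑ i, c p i * relVel p i) * ft (unc f) (τ, y, p)))
    {S : R3 → R3 → ℝ} (hSc : ContinuousOn (Function.uncurry S) ({0}ᶜ ×ˢ univ)) {CS : ℝ}
    (hSb : ∀ z, z ≠ 0 → ‖z‖ < t → ∀ p, ‖p‖ ≤ R → |S z p| ≤ CS * ‖z‖⁻¹ ^ 2)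
    (hS : ∀ z, z ≠ 0 → ‖z‖ < t → ∫ p, σ * kM c z p * (ft (unc f) (t - ‖z‖, x + z, p)
      + ∑ i, relVel p i * fx i (unc f) (t - ‖z‖, x + z, p)) = ∫ p, f (t - ‖z‖) (x + z) p * S z p)
    (hA : 0 ≤ A) (hu0 : ∀ y, |u (0,y)| ≤ A ∧ |pt u (0,y)| ≤ A ∧ ∀ k, |px k u (0,y)| ≤ A)
    (hf0 : ∀ y p, |f 0 y p| ≤ A) (hfs : ∀ y p, A < ‖p‖ → f 0 y p = 0)
    (hKb : ∀ z, z ≠ 0 → ∀ p, ‖p‖ ≤ A →
      |σ * (kap (relVel p) (c p) z * (mm (relVel p) z)⁻¹ - ∑ i, c p i * relVel p i)| ≤ CK)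
    (hint : IntegrableOn (fun z => ∫ p, f (t - ‖z‖) (x + z) p * (σ * kT c z p + S z p)) (ball 0 t)) :
    |4 * Real.pi * u (t, x) - ∫ z in ball 0 t, ∫ p, f (t - ‖z‖) (x + z) p * (σ * kT c z p + S z p)|
      ≤ (4 * (A + 1) + (CK * A * (volume (closedBall (0:R3) A)).toReal + 1)) * (4 * Real.pi * (t + 1)) := by
  apply limit_h ht hint (L := fun z => ‖z‖⁻¹ * (pt u (ret t x z) + ∑ k, om k z * px k u (ret t x z))
          + ‖z‖⁻¹ ^ 2 * u (ret t x z)
          + ‖z‖⁻¹ * ∫ p, (σ * (kap (relVel p) (c p) z * (mm (relVel p) z)⁻¹ - ∑ i, c p i * relVel p i))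
              * f (t - ‖z‖) (x + z) p)
  · intro h hh
    exact rep_h hf hu hc hh.1 hh.2.le htT x hR hbox hSc hSb hS
  · have hK : ContinuousOn (Function.uncurry fun z p => σ * (kap (relVel p) (c p) z * (mm (relVel p) z)⁻¹ - ∑ i, c p i * relVel p i))
        ({0}ᶜ ×ˢ univ) :=
      continuousOn_const.mul (((cont_kap hc).mul (cont_mmi hc)).sub ((cont_cv hc).comp continuous_snd).continuousOn)
    exact layer_bound hu hf.continuous hA (ht.trans htT) hu0 hf0 hfs hR hK hKb ht x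

end Crest.Agent.R106.Gsr
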