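/-
Row 106, node GSR (helper246): the limit `h → 0` of the cut-off Kirchhoff identity and an
integrability criterion on the product.
-/
import Crest.Agent.R106.GsrTheta

set_option autoImplicit false

open MeasureTheory Set Filter Topology Metric
open Crest.AnalysisR.VecCalc3
open scoped ContDiff RealInnerProductSpace

namespace Crest.Agent.R106.Gsr

open Crest.Agent.R106.GSR (pt px box)

/-- the limit `h → 0` in the identity with time cut-off -/
theorem limit_h {t : ℝ} (ht : 0 < t) {G L : R3 → ℝ} {U C : ℝ} (hG : IntegrableOn G (ball 0 t))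
    (hid : ∀ h ∈ Ioo 0 t, U = (∫ z, th h (t - ‖z‖) * G z) + ∫ z, th' h (t - ‖z‖) * L z)
    (hL : ∃ h0 > 0, ∀ z : R3, 0 < t - ‖z‖ → t - ‖z‖ < h0 → |L z| ≤ C * (‖z‖⁻¹ + ‖z‖⁻¹ ^ 2)) :
    |U - ∫ z in ball 0 t, G z| ≤ C * (4 * Real.pi * (t + 1)) := by
  obtain ⟨h0, hh0, hL⟩ := hL
  -- `C ≥ 0`
  have hC : 0 ≤ C := by
    set m : ℝ := min h0 t / 2 with hm
    have hmin : 0 < min h0 t := lt_min hh0 ht
    have hm0 : 0 < m := by rw [hm]; linarith
    have hmt : m < t := by
      have := min_le_right h0 t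
      rw [hm]; linarith
    have hmh : m < h0 := by
      have := min_le_left h0 t
      rw [hm]; linarith
    obtain ⟨z, hz⟩ := exists_norm_eq R3 (show 0 ≤ t - m by linarith)
    have h1 := hL z (by rw [hz]; linarith) (by rw [hz]; linarith)
    rw [hz] at h1
    have h2 : 0 < (t - m)⁻¹ + (t - m)⁻¹ ^ 2 := by
      have : 0 < t - m := by linarith
      positivity
    by_contra hneg
    have h3 : C * ((t - m)⁻¹ + (t - m)⁻¹ ^ 2) < 0 := mul_neg_of_neg_of_pos (not_le.1 hneg) h2
    linarith [abs_nonneg (L z)]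
  -- the second term
  have hB : ∀ h ∈ Ioo 0 (min h0 t),
      |∫ z : R3, th' h (t - ‖z‖) * L z| ≤ C * (4 * Real.pi * (t + 1)) := by
    intro h hh
    have hhp : 0 < h := hh.1
    have hht : h < t := lt_of_lt_of_le hh.2 (min_le_right _ _)
    have hhh : h < h0 := lt_of_lt_of_le hh.2 (min_le_left _ _)
    obtain ⟨hi, hle⟩ := layer_mass hhp hht
    have h1 : ‖∫ z : R3, th' h (t - ‖z‖) * L z‖
        ≤ ∫ z : R3, C * (th' h (t - ‖z‖) * (‖z‖⁻¹ + ‖z‖⁻¹ ^ 2)) := by
      refine norm_integral_le_of_norm_le (hi.const_mul C) (Eventually.of_forall fun z => ?_)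
      by_cases hz1 : t - ‖z‖ ≤ 0
      · rw [th'_zero hhp hz1]; simp
      by_cases hz2 : h < t - ‖z‖
      · rw [th'_zero' hhp hz2]; simp
      have h2 := hL z (not_le.1 hz1) (lt_of_le_of_lt (not_lt.1 hz2) hhh)
      rw [norm_mul, Real.norm_eq_abs, Real.norm_eq_abs, abs_of_nonneg (th'_nonneg hhp _)]
      calc th' h (t - ‖z‖) * |L z| ≤ th' h (t - ‖z‖) * (C * (‖z‖⁻¹ + ‖z‖⁻¹ ^ 2)) :=
            mul_le_mul_of_nonneg_left h2 (th'_nonneg hhp _)
        _ = C * (th' h (t - ‖z‖) * (‖z‖⁻¹ + ‖z‖⁻¹ ^ 2)) := by ring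
    rw [integral_const_mul] at h1
    rw [Real.norm_eq_abs] at h1
    exact h1.trans (mul_le_mul_of_nonneg_left hle hC)
  -- the first term
  have hA : Tendsto (fun h => ∫ z, th h (t - ‖z‖) * G z) (𝓝[>] 0) (𝓝 (∫ z in ball 0 t, G z)) := by
    have h1 : (fun h => ∫ z, th h (t - ‖z‖) * G z)
        =ᶠ[𝓝[>] 0] fun h => ∫ z in ball (0 : R3) t, th h (t - ‖z‖) * G z := by
      filter_upwards [self_mem_nhdsWithin] with h hh
      rw [← integral_indicator measurableSet_ball]
      congr 1
      ext z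
      by_cases hz : z ∈ ball (0 : R3) t
      · rw [indicator_of_mem hz]
      · rw [indicator_of_notMem hz]
        rw [mem_ball_zero_iff, not_lt] at hz
        rw [th_zero hh (by linarith), zero_mul]
    refine Tendsto.congr' h1.symm ?_
    refine tendsto_integral_filter_of_dominated_convergence (fun z => ‖G z‖) ?_ ?_ hG.norm ?_
    · refine Eventually.of_forall fun h => ?_
      have hc : Continuous fun z : R3 => th h (t - ‖z‖) :=
        (th_contDiff h (n := 0)).continuous.comp (by fun_prop)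
      exact hc.aestronglyMeasurable.mul hG.aestronglyMeasurable
    · refine Eventually.of_forall fun h => Eventually.of_forall fun z => ?_
      rw [norm_mul, Real.norm_eq_abs, abs_of_nonneg (th_nonneg h _)]
      exact mul_le_of_le_one_left (norm_nonneg _) (th_le_one h _)
    · filter_upwards [ae_restrict_mem measurableSet_ball] with z hz
      rw [mem_ball_zero_iff] at hz
      have hzt : 0 < t - ‖z‖ := by linarith
      refine tendsto_const_nhds.congr' ?_
      filter_upwards [Ioc_mem_nhdsGT hzt] with h hh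
      rw [th_one hh.1 hh.2, one_mul]
  -- conclusion
  have hfin : ∀ᶠ h in 𝓝[>] (0 : ℝ), |(∫ z, th h (t - ‖z‖) * G z) - U| ≤ C * (4 * Real.pi * (t + 1)) := by
    filter_upwards [Ioo_mem_nhdsGT (lt_min hh0 ht)] with h hh
    have h1 := hid h ⟨hh.1, lt_of_lt_of_le hh.2 (min_le_right _ _)⟩
    have h2 : (∫ z : R3, th h (t - ‖z‖) * G z) - U = -∫ z : R3, th' h (t - ‖z‖) * L z := by
      linarith
    rw [h2, abs_neg]
    exact hB h hh
  rw [abs_sub_comm]
  exact le_of_tendsto ((hA.sub_const U).abs) hfin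

/-- integrability on the product of a function with compact support and an inverse-square
singularity at `z = 0` -/
theorem integrable_prod_of_bound {F : R3 × R3 → ℝ} {C ρ : ℝ}
    (hc : ContinuousOn F ({0}ᶜ ×ˢ univ)) (hs : ∀ z p, ρ < ‖z‖ ∨ ρ < ‖p‖ → F (z, p) = 0)
    (hb : ∀ z p, z ≠ 0 → |F (z, p)| ≤ C * ‖z‖⁻¹ ^ 2) :
    Integrable F ((volume : Measure R3).prod volume) := by
  have hnull : ((volume : Measure R3).prod (volume : Measure R3)) (({0}ᶜ ×ˢ univ : Set (R3 × R3))ᶜ) = 0 := by
    have h1 : (({0}ᶜ ×ˢ univ : Set (R3 × R3))ᶜ) = ({0} : Set R3) ×ˢ univ := by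
      ext ⟨z, p⟩; simp
    rw [h1, Measure.prod_prod]
    simp
  have hae : ∀ᵐ q ∂((volume : Measure R3).prod (volume : Measure R3)), q ∈ ({0}ᶜ ×ˢ univ : Set (R3 × R3)) :=
    measure_eq_zero_iff_ae_notMem.1 hnull |>.mono fun q hq => by
      by_contra h
      exact hq h
  have hms : MeasurableSet ({0}ᶜ ×ˢ univ : Set (R3 × R3)) :=
    (measurableSet_singleton (0 : R3)).compl.prod MeasurableSet.univ
  have hmeas : AEStronglyMeasurable F ((volume : Measure R3).prod volume) := by
    have h1 := hc.aestronglyMeasurable (μ := (volume : Measure R3).prod volume) hms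
    rwa [Measure.restrict_eq_self_of_ae_mem hae] at h1
  -- the dominating function
  have hk : Integrable (fun z : R3 => (closedBall (0 : R3) ρ).indicator (fun z => ‖z‖⁻¹ ^ 2) z) := by
    refine integrable_indicator_iff measurableSet_closedBall |>.2 ?_
    refine IntegrableOn.mono_set (t := ball (0 : R3) (|ρ| + 1)) ?_ ?_
    · rw [integrableOn_fun_norm_addHaar (μ := (volume : Measure R3)) (f := fun r => r⁻¹ ^ 2)]
      have hd : Module.finrank ℝ R3 - 1 = 2 := by simp
      rw [hd]
      refine IntegrableOn.congr_fun (f := fun _ => (1 : ℝ)) ?_ ?_ measurableSet_Ioo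
      · exact (integrableOn_const_iff (by simp)).2 (Or.inr (by simp))
      · intro r hr
        have hr0 : r ≠ 0 := hr.1.ne'
        simp only [smul_eq_mul]
        field_simp
    · intro z hz
      rw [mem_closedBall_zero_iff] at hz
      rw [mem_ball_zero_iff]
      linarith [le_abs_self ρ]
  have hp : Integrable (fun p : R3 => (closedBall (0 : R3) ρ).indicator (fun _ => (1 : ℝ)) p) :=
    (integrable_indicator_iff measurableSet_closedBall).2
      ((integrableOn_const_iff (by simp)).2 (Or.inr measure_closedBall_lt_top))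
  have hg := (hk.const_mul |C|).mul_prod hp
  refine hg.mono' hmeas ?_
  filter_upwards [hae] with q hq
  obtain ⟨z, p⟩ := q
  have hz : z ≠ 0 := hq.1
  by_cases h1 : ‖z‖ ≤ ρ
  · by_cases h2 : ‖p‖ ≤ ρ
    · dsimp only
      rw [indicator_of_mem (by rwa [mem_closedBall_zero_iff]),
        indicator_of_mem (by rwa [mem_closedBall_zero_iff]), mul_one, Real.norm_eq_abs]
      exact (hb z p hz).trans (mul_le_mul_of_nonneg_right (le_abs_self C) (by positivity))
    · rw [hs z p (Or.inr (not_le.1 h2)), norm_zero]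
      exact mul_nonneg (mul_nonneg (abs_nonneg _) (indicator_nonneg (fun _ _ => by positivity) _))
        (indicator_nonneg (fun _ _ => zero_le_one) _)
  · rw [hs z p (Or.inl (not_le.1 h1)), norm_zero]
    exact mul_nonneg (mul_nonneg (abs_nonneg _) (indicator_nonneg (fun _ _ => by positivity) _))
      (indicator_nonneg (fun _ _ => zero_le_one) _)

end Crest.Agent.R106.Gsr
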