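import Mathlib
import Crest.Prelude.Def_VlasovMaxwell
import Crest.Agent.R106.GSRDefs

/-!
Row 106, module GSR, file GsrWave (helper374): from the frozen `EquationsHoldAt` to Fréchet
derivative form; wave equations for E and B; derivatives of momentum integrals.
-/

set_option autoImplicit false

namespace Crest.Agent.R106.Gsr

open Crest.AnalysisR.VecCalc3 Crest.AnalysisR.PDE.RVM
open MeasureTheory Set Filter Topology
open scoped ContDiff

/-- standard basis vector of R3 -/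
noncomputable abbrev eb (i : Fin 3) : R3 := EuclideanSpace.single i (1 : ℝ)

/-- uncurried density -/
def unc3 (f : ℝ → R3 → R3 → ℝ) : ℝ × R3 × R3 → ℝ := fun q => f q.1 q.2.1 q.2.2

/-- uncurried component of a field -/
def uncI (E : ℝ → R3 → R3) (i : Fin 3) : ℝ × R3 → ℝ := fun q => E q.1 q.2 i

/-- uncurried scalar function -/
def unc2 (u : ℝ → R3 → ℝ) : ℝ × R3 → ℝ := fun q => u q.1 q.2

/-- derivative of a function on space-time in the direction `a` -/
noncomputable def dd (a : ℝ × R3) (u : ℝ × R3 → ℝ) : ℝ × R3 → ℝ := fun q => fderiv ℝ u q a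

/-- time derivative -/
noncomputable abbrev Dt (u : ℝ × R3 → ℝ) : ℝ × R3 → ℝ := dd (1, 0) u

/-- space derivative -/
noncomputable abbrev Dx (k : Fin 3) (u : ℝ × R3 → ℝ) : ℝ × R3 → ℝ := dd (0, eb k) u

/-- the d'Alembertian `∂ₜ² - Δ` -/
noncomputable def box (u : ℝ × R3 → ℝ) : ℝ × R3 → ℝ :=
  fun q => Dt (Dt u) q - ∑ k : Fin 3, Dx k (Dx k u) q

/-- the open slab -/
def slab (T : ℝ) : Set (ℝ × R3) := Ioo 0 T ×ˢ univ

/-- the open slab of phase space -/
def slab3 (T : ℝ) : Set (ℝ × R3 × R3) := Ioo 0 T ×ˢ univ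

lemma isOpen_slab (T : ℝ) : IsOpen (slab T) := isOpen_Ioo.prod isOpen_univ
lemma isOpen_slab3 (T : ℝ) : IsOpen (slab3 T) := isOpen_Ioo.prod isOpen_univ

lemma mem_slab {T : ℝ} {q : ℝ × R3} : q ∈ slab T ↔ 0 < q.1 ∧ q.1 < T := by
  simp [slab]

lemma mem_slab3 {T : ℝ} {q : ℝ × R3 × R3} : q ∈ slab3 T ↔ 0 < q.1 ∧ q.1 < T := by
  simp [slab3]

/-- A solution on the open slab, of class `C²`, in the sense needed for the representation. -/
structure Sol2 (T : ℝ) (f : ℝ → R3 → R3 → ℝ) (E B : ℝ → R3 → R3) : Prop where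
  hf : ContDiffOn ℝ 2 (unc3 f) (slab3 T)
  hE : ∀ i, ContDiffOn ℝ 2 (uncI E i) (slab T)
  hB : ∀ i, ContDiffOn ℝ 2 (uncI B i) (slab T)
  heq : ∀ t, 0 < t → t < T → ∀ x, EquationsHoldAt f E B t x
  hsupp : ∀ T' : ℝ, 0 ≤ T' → T' < T → ∃ R : ℝ, ∀ t ∈ Set.Icc 0 T', ∀ x v : R3,
      (R < ‖x‖ ∨ R < ‖v‖) → f t x v = 0

section calculus

variable {u w : ℝ × R3 → ℝ} {q : ℝ × R3} {a b : ℝ × R3} {T : ℝ}

lemma dd_congr {s : Set (ℝ × R3)} (hs : IsOpen s) (hq : q ∈ s) (h : EqOn u w s) :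
    dd a u q = dd a w q := by
  unfold dd
  have : u =ᶠ[𝓝 q] w := Filter.eventuallyEq_of_mem (hs.mem_nhds hq) h
  rw [this.fderiv_eq]

lemma dd_add (hu : DifferentiableAt ℝ u q) (hw : DifferentiableAt ℝ w q) :
    dd a (fun r => u r + w r) q = dd a u q + dd a w q := by
  unfold dd
  rw [fderiv_fun_add hu hw]; rfl

lemma dd_sub (hu : DifferentiableAt ℝ u q) (hw : DifferentiableAt ℝ w q) :
    dd a (fun r => u r - w r) q = dd a u q - dd a w q := by
  unfold dd
  rw [fderiv_fun_sub hu hw]; rfl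

lemma dd_sum3 {g : Fin 3 → ℝ × R3 → ℝ} (hg : ∀ k, DifferentiableAt ℝ (g k) q) :
    dd a (fun r => ∑ k : Fin 3, g k r) q = ∑ k : Fin 3, dd a (g k) q := by
  unfold dd
  rw [fderiv_fun_sum fun k _ => hg k]
  simp

lemma dd_neg : dd a (fun r => - u r) q = - dd a u q := by
  unfold dd
  rw [fderiv_fun_neg]; rfl

/-- directional derivatives commute -/
lemma dd_comm (hu : ContDiffAt ℝ 2 u q) : dd a (dd b u) q = dd b (dd a u) q := by
  have h2 : DifferentiableAt ℝ (fderiv ℝ u) q := by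
    have := hu.fderiv_right (m := 1) (by norm_num)
    exact this.differentiableAt (by norm_num)
  have key : ∀ c d : ℝ × R3, dd c (dd d u) q = (fderiv ℝ (fderiv ℝ u) q c) d := by
    intro c d
    unfold dd
    rw [fderiv_clm_apply h2 (differentiableAt_const d)]
    simp
  rw [key, key]
  have hs : IsSymmSndFDerivAt ℝ u q := hu.isSymmSndFDerivAt (by simp)
  exact hs a b

lemma ContDiffAt.dd_one {n : ℕ∞} (hu : ContDiffAt ℝ (n + 1) u q) : ContDiffAt ℝ n (dd a u) q := by
  have h : ContDiffAt ℝ n (fderiv ℝ u) q := hu.fderiv_right (le_refl _)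
  exact h.clm_apply contDiffAt_const

lemma differentiableAt_dd (hu : ContDiffAt ℝ 2 u q) : DifferentiableAt ℝ (dd a u) q := by
  have h : ContDiffAt ℝ 1 (fderiv ℝ u) q := hu.fderiv_right (by norm_num)
  exact (h.differentiableAt (by norm_num)).clm_apply (differentiableAt_const _)

end calculus

section bridge

variable {T : ℝ} {f : ℝ → R3 → R3 → ℝ} {E B : ℝ → R3 → R3}

/-- the time derivative of the frozen definition is the Fréchet derivative -/
lemma deriv_eq_Dt {E : ℝ → R3 → R3} {i : Fin 3} {t : ℝ} {x : R3}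
    (h : DifferentiableAt ℝ (uncI E i) (t, x)) :
    deriv (fun s => E s x i) t = Dt (uncI E i) (t, x) := by
  have h1 : HasDerivAt (fun s : ℝ => ((s, x) : ℝ × R3)) ((1 : ℝ), (0 : R3)) t :=
    (hasDerivAt_id t).prodMk (hasDerivAt_const t x)
  have h2 := h.hasFDerivAt.comp_hasDerivAt t h1
  exact h2.deriv

/-- the space derivative of the frozen definition is the Fréchet derivative -/
lemma pderiv_eq_Dx {E : ℝ → R3 → R3} {i k : Fin 3} {t : ℝ} {x : R3}
    (h : DifferentiableAt ℝ (uncI E i) (t, x)) :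
    pderiv (fun y => E t y i) k x = Dx k (uncI E i) (t, x) := by
  have h1 : HasFDerivAt (fun y : R3 => ((t, y) : ℝ × R3))
      (ContinuousLinearMap.inr ℝ ℝ R3) x := hasFDerivAt_prodMk_right t x
  have h2 := h.hasFDerivAt.comp x h1
  unfold pderiv
  have h3 : fderiv ℝ (fun y => E t y i) x
      = (fderiv ℝ (uncI E i) (t, x)).comp (ContinuousLinearMap.inr ℝ ℝ R3) := h2.fderiv
  rw [h3]
  simp [dd]

/-- the bridge for scalar functions -/
lemma pderiv_scalar {g : R3 → ℝ} {k : Fin 3} {x : R3} :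
    pderiv g k x = fderiv ℝ g x (eb k) := rfl

end bridge

section maxwell

variable {T : ℝ} {f : ℝ → R3 → R3 → ℝ} {E B : ℝ → R3 → R3}

lemma slab_diff {u : ℝ × R3 → ℝ} (hu : ContDiffOn ℝ 2 u (slab T)) {q : ℝ × R3} (hq : q ∈ slab T) :
    DifferentiableAt ℝ u q :=
  ((hu.contDiffAt ((isOpen_slab T).mem_nhds hq)).differentiableAt (by norm_num))

lemma slab_cda {u : ℝ × R3 → ℝ} (hu : ContDiffOn ℝ 2 u (slab T)) {q : ℝ × R3} (hq : q ∈ slab T) :
    ContDiffAt ℝ 2 u q :=
  hu.contDiffAt ((isOpen_slab T).mem_nhds hq)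

/-- the current component as a function on space-time -/
noncomputable def jI (f : ℝ → R3 → R3 → ℝ) (i : Fin 3) : ℝ × R3 → ℝ :=
  fun q => currentDensity f q.1 q.2 i

/-- the charge density as a function on space-time -/
noncomputable def rhoF (f : ℝ → R3 → R3 → ℝ) : ℝ × R3 → ℝ :=
  fun q => chargeDensity f q.1 q.2

/-- components of the curl of an uncurried field -/
noncomputable def curlI (E : ℝ → R3 → R3) (i : Fin 3) : ℝ × R3 → ℝ := fun q =>
  Dx (i + 1) (uncI E (i + 2)) q - Dx (i + 2) (uncI E (i + 1)) q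

lemma curl3_eq {E : ℝ → R3 → R3} (hE : ∀ i, ContDiffOn ℝ 2 (uncI E i) (slab T))
    {q : ℝ × R3} (hq : q ∈ slab T) (i : Fin 3) : curl3 (E q.1) q.2 i = curlI E i q := by
  have hd : ∀ i k, pderiv (fun y => E q.1 y i) k q.2 = Dx k (uncI E i) q := fun i k =>
    pderiv_eq_Dx (slab_diff (hE i) (q := (q.1, q.2)) hq)
  fin_cases i
  · simp only [curl3, curlI]
    simp only [hd]
    simp
  · simp only [curl3, curlI]
    simp only [hd]
    rfl
  · simp only [curl3, curlI]
    simp only [hd]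
    rfl

lemma ampere (h : Sol2 T f E B) {q : ℝ × R3} (hq : q ∈ slab T) (i : Fin 3) :
    Dt (uncI E i) q = curlI B i q - jI f i q := by
  obtain ⟨_, h1, _⟩ := h.heq q.1 (mem_slab.1 hq).1 (mem_slab.1 hq).2 q.2
  have := h1 i
  rw [deriv_eq_Dt (slab_diff (h.hE i) (q := (q.1, q.2)) hq), curl3_eq h.hB hq] at this
  simp only [jI]
  have e : ((q.1, q.2) : ℝ × R3) = q := rfl
  rw [e] at this
  linarith

lemma faraday (h : Sol2 T f E B) {q : ℝ × R3} (hq : q ∈ slab T) (i : Fin 3) :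
    Dt (uncI B i) q = - curlI E i q := by
  obtain ⟨_, _, h1, _⟩ := h.heq q.1 (mem_slab.1 hq).1 (mem_slab.1 hq).2 q.2
  have := h1 i
  rw [deriv_eq_Dt (slab_diff (h.hB i) (q := (q.1, q.2)) hq), curl3_eq h.hE hq] at this
  have e : ((q.1, q.2) : ℝ × R3) = q := rfl
  rw [e] at this
  linarith

lemma gauss (h : Sol2 T f E B) {q : ℝ × R3} (hq : q ∈ slab T) :
    ∑ k : Fin 3, Dx k (uncI E k) q = rhoF f q := by
  obtain ⟨_, _, _, h1, _⟩ := h.heq q.1 (mem_slab.1 hq).1 (mem_slab.1 hq).2 q.2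
  have hd : ∀ i k, pderiv (fun y => E q.1 y i) k q.2 = Dx k (uncI E i) q := fun i k =>
    pderiv_eq_Dx (slab_diff (h.hE i) (q := (q.1, q.2)) hq)
  simp only [div3, hd] at h1
  exact h1

lemma gaussB (h : Sol2 T f E B) {q : ℝ × R3} (hq : q ∈ slab T) :
    ∑ k : Fin 3, Dx k (uncI B k) q = 0 := by
  obtain ⟨_, _, _, _, h1⟩ := h.heq q.1 (mem_slab.1 hq).1 (mem_slab.1 hq).2 q.2
  have hd : ∀ i k, pderiv (fun y => B q.1 y i) k q.2 = Dx k (uncI B i) q := fun i k =>
    pderiv_eq_Dx (slab_diff (h.hB i) (q := (q.1, q.2)) hq)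
  simp only [div3, hd] at h1
  exact h1

lemma diff_dd {u : ℝ × R3 → ℝ} (hu : ContDiffOn ℝ 2 u (slab T)) {q : ℝ × R3} (hq : q ∈ slab T)
    (a : ℝ × R3) : DifferentiableAt ℝ (dd a u) q := differentiableAt_dd (slab_cda hu hq)

lemma diff_curlI {E : ℝ → R3 → R3} (hE : ∀ i, ContDiffOn ℝ 2 (uncI E i) (slab T))
    {q : ℝ × R3} (hq : q ∈ slab T) (i : Fin 3) : DifferentiableAt ℝ (curlI E i) q :=
  (diff_dd (hE _) hq _).sub (diff_dd (hE _) hq _)

lemma diff_jI (h : Sol2 T f E B) {q : ℝ × R3} (hq : q ∈ slab T) (i : Fin 3) :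
    DifferentiableAt ℝ (jI f i) q := by
  have h1 : DifferentiableAt ℝ (fun r => curlI B i r - Dt (uncI E i) r) q :=
    (diff_curlI h.hB hq i).sub (diff_dd (h.hE i) hq _)
  refine h1.congr_of_eventuallyEq ?_
  filter_upwards [(isOpen_slab T).mem_nhds hq] with r hr
  have := ampere h hr i
  linarith

lemma diff_rhoF (h : Sol2 T f E B) {q : ℝ × R3} (hq : q ∈ slab T) :
    DifferentiableAt ℝ (rhoF f) q := by
  have h1 : DifferentiableAt ℝ (fun r => ∑ k : Fin 3, Dx k (uncI E k) r) q :=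
    DifferentiableAt.fun_sum fun k _ => diff_dd (h.hE k) hq _
  refine h1.congr_of_eventuallyEq ?_
  filter_upwards [(isOpen_slab T).mem_nhds hq] with r hr
  exact (gauss h hr).symm

lemma dd_curlI {E : ℝ → R3 → R3} (hE : ∀ i, ContDiffOn ℝ 2 (uncI E i) (slab T))
    {q : ℝ × R3} (hq : q ∈ slab T) (i : Fin 3) (a : ℝ × R3) :
    dd a (curlI E i) q = Dx (i + 1) (dd a (uncI E (i + 2))) q - Dx (i + 2) (dd a (uncI E (i + 1))) q := by
  have e : dd a (curlI E i) q
      = dd a (Dx (i + 1) (uncI E (i + 2))) q - dd a (Dx (i + 2) (uncI E (i + 1))) q :=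
    dd_sub (diff_dd (hE _) hq _) (diff_dd (hE _) hq _)
  rw [e, dd_comm (slab_cda (hE _) hq), dd_comm (a := a) (slab_cda (hE _) hq)]

/-- **Wave equation for the electric field.** -/
theorem box_E (h : Sol2 T f E B) {q : ℝ × R3} (hq : q ∈ slab T) (i : Fin 3) :
    box (uncI E i) q = - Dx i (rhoF f) q - Dt (jI f i) q := by
  have hop := isOpen_slab T
  -- second time derivative
  have e1 : Dt (Dt (uncI E i)) q = Dt (curlI B i) q - Dt (jI f i) q := by
    rw [← dd_sub (diff_curlI h.hB hq i) (diff_jI h hq i)]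
    exact dd_congr hop hq fun r hr => ampere h hr i
  have e2 : Dt (curlI B i) q
      = Dx (i + 1) (Dt (uncI B (i + 2))) q - Dx (i + 2) (Dt (uncI B (i + 1))) q :=
    dd_curlI h.hB hq i _
  have e3 : ∀ k l : Fin 3, Dx k (Dt (uncI B l)) q = - Dx k (curlI E l) q := by
    intro k l
    rw [← dd_neg]
    exact dd_congr hop hq fun r hr => faraday h hr l
  have e4 : ∀ k l : Fin 3, Dx k (curlI E l) q
      = Dx k (Dx (l + 1) (uncI E (l + 2))) q - Dx k (Dx (l + 2) (uncI E (l + 1))) q := by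
    intro k l
    unfold curlI
    exact dd_sub (diff_dd (h.hE _) hq _) (diff_dd (h.hE _) hq _)
  have e5 : Dx i (rhoF f) q = ∑ k : Fin 3, Dx i (Dx k (uncI E k)) q := by
    have : Dx i (rhoF f) q = Dx i (fun r => ∑ k : Fin 3, Dx k (uncI E k) r) q :=
      dd_congr hop hq fun r hr => (gauss h hr).symm
    rw [this]
    exact dd_sum3 (fun k => diff_dd (h.hE k) hq _)
  have hc : ∀ k l m : Fin 3, Dx k (Dx l (uncI E m)) q = Dx l (Dx k (uncI E m)) q :=
    fun k l m => dd_comm (slab_cda (h.hE _) hq)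
  unfold box
  rw [e1, e2, e3, e3, e4, e4, e5]
  simp only [Fin.sum_univ_three]
  fin_cases i
  · simp only [Fin.zero_eta, Fin.isValue]
    have a1 : (0 : Fin 3) + 1 = 1 := rfl
    have a2 : (0 : Fin 3) + 2 = 2 := rfl
    have a3 : (2 : Fin 3) + 1 = 0 := rfl
    have a4 : (2 : Fin 3) + 2 = 1 := rfl
    have a5 : (1 : Fin 3) + 1 = 2 := rfl
    have a6 : (1 : Fin 3) + 2 = 0 := rfl
    simp only [a1, a2, a3, a4, a5, a6]
    rw [hc 1 0 1, hc 2 0 2]
    ring
  · simp only [Fin.mk_one, Fin.isValue]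
    have a1 : (0 : Fin 3) + 1 = 1 := rfl
    have a2 : (0 : Fin 3) + 2 = 2 := rfl
    have a3 : (2 : Fin 3) + 1 = 0 := rfl
    have a4 : (2 : Fin 3) + 2 = 1 := rfl
    have a5 : (1 : Fin 3) + 1 = 2 := rfl
    have a6 : (1 : Fin 3) + 2 = 0 := rfl
    simp only [a1, a2, a3, a4, a5, a6]
    rw [hc 2 1 2, hc 0 1 0]
    ring
  · simp only [Fin.reduceFinMk, Fin.isValue]
    have a1 : (0 : Fin 3) + 1 = 1 := rfl
    have a2 : (0 : Fin 3) + 2 = 2 := rfl
    have a3 : (2 : Fin 3) + 1 = 0 := rfl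
    have a4 : (2 : Fin 3) + 2 = 1 := rfl
    have a5 : (1 : Fin 3) + 1 = 2 := rfl
    have a6 : (1 : Fin 3) + 2 = 0 := rfl
    simp only [a1, a2, a3, a4, a5, a6]
    rw [hc 0 2 0, hc 1 2 1]
    ring

/-- **Wave equation for the magnetic field.** -/
theorem box_B (h : Sol2 T f E B) {q : ℝ × R3} (hq : q ∈ slab T) (i : Fin 3) :
    box (uncI B i) q = Dx (i + 1) (jI f (i + 2)) q - Dx (i + 2) (jI f (i + 1)) q := by
  have hop := isOpen_slab T
  have e1 : Dt (Dt (uncI B i)) q = - Dt (curlI E i) q := by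
    rw [← dd_neg]
    exact dd_congr hop hq fun r hr => faraday h hr i
  have e2 : Dt (curlI E i) q
      = Dx (i + 1) (Dt (uncI E (i + 2))) q - Dx (i + 2) (Dt (uncI E (i + 1))) q :=
    dd_curlI h.hE hq i _
  have e3 : ∀ k l : Fin 3, Dx k (Dt (uncI E l)) q = Dx k (curlI B l) q - Dx k (jI f l) q := by
    intro k l
    rw [← dd_sub (diff_curlI h.hB hq l) (diff_jI h hq l)]
    exact dd_congr hop hq fun r hr => ampere h hr l
  have e4 : ∀ k l : Fin 3, Dx k (curlI B l) q
      = Dx k (Dx (l + 1) (uncI B (l + 2))) q - Dx k (Dx (l + 2) (uncI B (l + 1))) q := by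
    intro k l
    unfold curlI
    exact dd_sub (diff_dd (h.hB _) hq _) (diff_dd (h.hB _) hq _)
  have e5 : ∑ k : Fin 3, Dx i (Dx k (uncI B k)) q = 0 := by
    have : Dx i (fun r => ∑ k : Fin 3, Dx k (uncI B k) r) q = 0 := by
      have h0 : Dx i (fun r => ∑ k : Fin 3, Dx k (uncI B k) r) q = Dx i (fun _ => (0 : ℝ)) q :=
        dd_congr hop hq fun r hr => gaussB h hr
      rw [h0]
      unfold Dx dd
      simp
    rw [← this]
    exact (dd_sum3 (fun k => diff_dd (h.hB k) hq _)).symm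
  have hc : ∀ k l m : Fin 3, Dx k (Dx l (uncI B m)) q = Dx l (Dx k (uncI B m)) q :=
    fun k l m => dd_comm (slab_cda (h.hB _) hq)
  unfold box
  rw [e1, e2, e3, e3, e4, e4]
  simp only [Fin.sum_univ_three] at e5 ⊢
  fin_cases i
  · simp only [Fin.zero_eta, Fin.isValue] at e5 ⊢
    have a1 : (0 : Fin 3) + 1 = 1 := rfl
    have a2 : (0 : Fin 3) + 2 = 2 := rfl
    have a3 : (2 : Fin 3) + 1 = 0 := rfl
    have a4 : (2 : Fin 3) + 2 = 1 := rfl
    have a5 : (1 : Fin 3) + 1 = 2 := rfl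
    have a6 : (1 : Fin 3) + 2 = 0 := rfl
    simp only [a1, a2, a3, a4, a5, a6]
    rw [hc 1 0 1, hc 2 0 2]
    linarith
  · simp only [Fin.mk_one, Fin.isValue] at e5 ⊢
    have a1 : (0 : Fin 3) + 1 = 1 := rfl
    have a2 : (0 : Fin 3) + 2 = 2 := rfl
    have a3 : (2 : Fin 3) + 1 = 0 := rfl
    have a4 : (2 : Fin 3) + 2 = 1 := rfl
    have a5 : (1 : Fin 3) + 1 = 2 := rfl
    have a6 : (1 : Fin 3) + 2 = 0 := rfl
    simp only [a1, a2, a3, a4, a5, a6]
    rw [hc 2 1 2, hc 0 1 0]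
    linarith
  · simp only [Fin.reduceFinMk, Fin.isValue] at e5 ⊢
    have a1 : (0 : Fin 3) + 1 = 1 := rfl
    have a2 : (0 : Fin 3) + 2 = 2 := rfl
    have a3 : (2 : Fin 3) + 1 = 0 := rfl
    have a4 : (2 : Fin 3) + 2 = 1 := rfl
    have a5 : (1 : Fin 3) + 1 = 2 := rfl
    have a6 : (1 : Fin 3) + 2 = 0 := rfl
    simp only [a1, a2, a3, a4, a5, a6]
    rw [hc 0 2 0, hc 1 2 1]
    linarith

end maxwell

section transport

variable {T : ℝ} {f : ℝ → R3 → R3 → ℝ} {E B : ℝ → R3 → R3}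

lemma slab3_diff {u : ℝ × R3 × R3 → ℝ} (hu : ContDiffOn ℝ 2 u (slab3 T)) {q : ℝ × R3 × R3}
    (hq : q ∈ slab3 T) : DifferentiableAt ℝ u q :=
  ((hu.contDiffAt ((isOpen_slab3 T).mem_nhds hq)).differentiableAt (by norm_num))

lemma clm_sum_R3 (L : R3 →L[ℝ] ℝ) (b : R3) : L b = ∑ i : Fin 3, b i * L (eb i) := by
  conv_lhs => rw [← (EuclideanSpace.basisFun (Fin 3) ℝ).sum_repr b]
  simp [map_sum]

/-- the transport equation in Fréchet form -/
theorem transport (h : Sol2 T f E B) {t : ℝ} (ht : 0 < t) (htT : t < T) (x v : R3) :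
    fderiv ℝ (unc3 f) (t, x, v) (1, relVel v, E t x + cross3 (relVel v) (B t x)) = 0 := by
  have hd : DifferentiableAt ℝ (unc3 f) (t, x, v) :=
    slab3_diff h.hf (mem_slab3.2 ⟨ht, htT⟩)
  obtain ⟨h1, _⟩ := h.heq t ht htT x
  have h2 := h1 v
  set L := fderiv ℝ (unc3 f) (t, x, v) with hL
  -- time derivative
  have e1 : deriv (fun s => f s x v) t = L (1, 0, 0) := by
    have c1 : HasDerivAt (fun s : ℝ => ((s, x, v) : ℝ × R3 × R3)) ((1 : ℝ), (0 : R3), (0 : R3)) t :=
      (hasDerivAt_id t).prodMk ((hasDerivAt_const t x).prodMk (hasDerivAt_const t v))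
    exact (hd.hasFDerivAt.comp_hasDerivAt t c1).deriv
  have e2 : ∀ i, pderiv (fun y => f t y v) i x = L (0, eb i, 0) := by
    intro i
    have c1 : HasFDerivAt (fun y : R3 => ((t, y, v) : ℝ × R3 × R3))
        ((ContinuousLinearMap.inr ℝ ℝ (R3 × R3)).comp (ContinuousLinearMap.inl ℝ R3 R3)) x :=
      (hasFDerivAt_prodMk_right t (x, v)).comp x (hasFDerivAt_prodMk_left x v)
    have c2 := (hd.hasFDerivAt.comp x c1).fderiv
    unfold pderiv
    have c3 : fderiv ℝ (fun y => f t y v) x = L.comp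
        ((ContinuousLinearMap.inr ℝ ℝ (R3 × R3)).comp (ContinuousLinearMap.inl ℝ R3 R3)) := c2
    rw [c3]
    simp
  have e3 : ∀ i, pderiv (fun w => f t x w) i v = L (0, 0, eb i) := by
    intro i
    have c1 : HasFDerivAt (fun w : R3 => ((t, x, w) : ℝ × R3 × R3))
        ((ContinuousLinearMap.inr ℝ ℝ (R3 × R3)).comp (ContinuousLinearMap.inr ℝ R3 R3)) v :=
      (hasFDerivAt_prodMk_right t (x, v)).comp v (hasFDerivAt_prodMk_right x v)
    have c2 := (hd.hasFDerivAt.comp v c1).fderiv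
    unfold pderiv
    have c3 : fderiv ℝ (fun w => f t x w) v = L.comp
        ((ContinuousLinearMap.inr ℝ ℝ (R3 × R3)).comp (ContinuousLinearMap.inr ℝ R3 R3)) := c2
    rw [c3]
    simp
  simp only [e1, e2, e3] at h2
  have s1 : L (0, relVel v, 0) = ∑ i : Fin 3, relVel v i * L (0, eb i, 0) := by
    have := clm_sum_R3 (L.comp ((ContinuousLinearMap.inr ℝ ℝ (R3 × R3)).comp
      (ContinuousLinearMap.inl ℝ R3 R3))) (relVel v)
    simpa using this
  have s2 : L (0, 0, E t x + cross3 (relVel v) (B t x))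
      = ∑ i : Fin 3, (E t x i + cross3 (relVel v) (B t x) i) * L (0, 0, eb i) := by
    have := clm_sum_R3 (L.comp ((ContinuousLinearMap.inr ℝ ℝ (R3 × R3)).comp
      (ContinuousLinearMap.inr ℝ R3 R3))) (E t x + cross3 (relVel v) (B t x))
    simpa using this
  have s3 : ((1 : ℝ), relVel v, E t x + cross3 (relVel v) (B t x))
      = (1, 0, 0) + (0, relVel v, 0) + (0, 0, E t x + cross3 (relVel v) (B t x)) := by
    simp
  rw [s3, map_add, map_add, s1, s2]
  exact h2

/-- derivative of a momentum integral -/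
theorem hasFDerivAt_momInt (hf : ContDiffOn ℝ 1 (unc3 f) (slab3 T))
    (hsupp : ∀ T' : ℝ, 0 ≤ T' → T' < T → ∃ R : ℝ, ∀ t ∈ Set.Icc 0 T', ∀ x v : R3,
      (R < ‖x‖ ∨ R < ‖v‖) → f t x v = 0)
    {w : R3 → ℝ} (hw : Continuous w) {t : ℝ} (ht : 0 < t) (htT : t < T) (x : R3) :
    HasFDerivAt (fun q : ℝ × R3 => ∫ p, f q.1 q.2 p * w p)
      (∫ p, w p • (fderiv ℝ (unc3 f) (t, x, p)).comp
        (ContinuousLinearMap.prodMap (ContinuousLinearMap.id ℝ ℝ)
          (ContinuousLinearMap.inl ℝ R3 R3))) (t, x) ∧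
    Integrable (fun p => w p • (fderiv ℝ (unc3 f) (t, x, p)).comp
        (ContinuousLinearMap.prodMap (ContinuousLinearMap.id ℝ ℝ)
          (ContinuousLinearMap.inl ℝ R3 R3))) := by
  set L : (ℝ × R3) →L[ℝ] ℝ × R3 × R3 := ContinuousLinearMap.prodMap (ContinuousLinearMap.id ℝ ℝ)
          (ContinuousLinearMap.inl ℝ R3 R3) with hL
  obtain ⟨δ, hδ, hδ1, hδ2⟩ : ∃ δ : ℝ, 0 < δ ∧ δ < t ∧ t + δ < T := by
    refine ⟨min (t / 2) ((T - t) / 2), ?_, ?_, ?_⟩
    · apply lt_min <;> linarith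
    · have := min_le_left (t / 2) ((T - t) / 2); linarith
    · have := min_le_right (t / 2) ((T - t) / 2); linarith
  obtain ⟨R, hR⟩ := hsupp (t + δ) (by linarith) hδ2
  have hopen := isOpen_slab3 T
  have hcf : ContinuousOn (fderiv ℝ (unc3 f)) (slab3 T) :=
    hf.continuousOn_fderiv_of_isOpen hopen (by norm_num)
  -- compact set
  set K : Set (ℝ × R3 × R3) := Icc (t - δ) (t + δ) ×ˢ (Metric.closedBall x δ ×ˢ Metric.closedBall 0 R)
    with hK
  have hKc : IsCompact K := isCompact_Icc.prod ((isCompact_closedBall x δ).prod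
    (isCompact_closedBall 0 R))
  have hKs : K ⊆ slab3 T := by
    rintro ⟨s, y, p⟩ ⟨⟨h1, h2⟩, _⟩
    exact mem_slab3.2 ⟨by simp only; linarith, by simp only; linarith⟩
  obtain ⟨C, hC⟩ := (hKc.image_of_continuousOn (hcf.mono hKs)).isBounded.exists_norm_le
  have hC' : ∀ q ∈ K, ‖fderiv ℝ (unc3 f) q‖ ≤ C := fun q hq => hC _ ⟨q, hq, rfl⟩
  have hnhds : Metric.ball ((t, x) : ℝ × R3) δ ∈ 𝓝 ((t, x) : ℝ × R3) := Metric.ball_mem_nhds _ hδ
  have hball : ∀ q ∈ Metric.ball ((t, x) : ℝ × R3) δ,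
      (t - δ < q.1 ∧ q.1 < t + δ) ∧ dist q.2 x < δ := by
    intro q hq
    rw [Metric.mem_ball, Prod.dist_eq, max_lt_iff] at hq
    rw [Real.dist_eq, abs_lt] at hq
    exact ⟨⟨by linarith [hq.1.1], by linarith [hq.1.2]⟩, hq.2⟩
  have hzero : ∀ q ∈ Metric.ball ((t, x) : ℝ × R3) δ, ∀ p : R3, R < ‖p‖ → f q.1 q.2 p = 0 := by
    intro q hq p hp
    have := hball q hq
    exact hR q.1 ⟨by linarith [this.1.1], by linarith [this.1.2]⟩ q.2 p (Or.inr hp)
  have hdiff : ∀ q ∈ Metric.ball ((t, x) : ℝ × R3) δ, ∀ p : R3,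
      HasFDerivAt (fun q : ℝ × R3 => f q.1 q.2 p * w p)
        (w p • (fderiv ℝ (unc3 f) (q.1, q.2, p)).comp L) q := by
    intro q hq p
    have hm : (q.1, q.2, p) ∈ slab3 T := by
      have := hball q hq
      exact mem_slab3.2 ⟨by simp only; linarith [this.1.1], by simp only; linarith [this.1.2]⟩
    have hd : DifferentiableAt ℝ (unc3 f) (q.1, q.2, p) :=
      (hf.contDiffAt (hopen.mem_nhds hm)).differentiableAt (by norm_num)
    have c1 : HasFDerivAt (fun q : ℝ × R3 => ((q.1, q.2, p) : ℝ × R3 × R3)) L q := by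
      have c2 : HasFDerivAt (fun q : ℝ × R3 => L q + ((0, 0, p) : ℝ × R3 × R3)) L q :=
        L.hasFDerivAt.add_const _
      refine c2.congr_of_eventuallyEq (Filter.Eventually.of_forall fun r => ?_)
      simp [hL, Prod.ext_iff]
    have c4 := (hd.hasFDerivAt.comp q c1).mul_const (w p)
    exact c4
  -- measurability
  have hmeasF : ∀ q ∈ Metric.ball ((t, x) : ℝ × R3) δ,
      AEStronglyMeasurable (fun p => f q.1 q.2 p * w p) volume := by
    intro q hq
    have hb := hball q hq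
    have hc : Continuous (fun p => f q.1 q.2 p) := by
      have : ContinuousOn (unc3 f) (slab3 T) := hf.continuousOn
      have h2 : Continuous (fun p : R3 => ((q.1, q.2, p) : ℝ × R3 × R3)) := by fun_prop
      have h3 := this.comp_continuous h2 (fun p => mem_slab3.2
        ⟨by simp only; linarith [hb.1.1], by simp only; linarith [hb.1.2]⟩)
      exact h3
    exact (hc.mul hw).aestronglyMeasurable
  have hcD : Continuous (fun p => w p • (fderiv ℝ (unc3 f) (t, x, p)).comp L) := by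
    have h2 : Continuous (fun p : R3 => ((t, x, p) : ℝ × R3 × R3)) := by fun_prop
    have h3 : Continuous (fun p : R3 => fderiv ℝ (unc3 f) (t, x, p)) :=
      hcf.comp_continuous h2 (fun p => mem_slab3.2 ⟨ht, htT⟩)
    exact hw.smul (h3.clm_comp continuous_const)
  have hx0 : ((t, x) : ℝ × R3) ∈ Metric.ball ((t, x) : ℝ × R3) δ := Metric.mem_ball_self hδ
  have hintF : Integrable (fun p => f t x p * w p) := by
    have hc : Continuous (fun p => f t x p * w p) := by
      have : ContinuousOn (unc3 f) (slab3 T) := hf.continuousOn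
      have h2 : Continuous (fun p : R3 => ((t, x, p) : ℝ × R3 × R3)) := by fun_prop
      have h3 : Continuous (fun p : R3 => f t x p) :=
        this.comp_continuous h2 (fun p => mem_slab3.2 ⟨ht, htT⟩)
      exact h3.mul hw
    refine hc.integrable_of_hasCompactSupport ?_
    refine HasCompactSupport.intro (isCompact_closedBall (0 : R3) R) fun p hp => ?_
    have : R < ‖p‖ := by simpa using hp
    rw [hzero (t, x) hx0 p this, zero_mul]
  have hbound : ∀ᵐ p ∂(volume : Measure R3), ∀ q ∈ Metric.ball ((t, x) : ℝ × R3) δ,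
      ‖w p • (fderiv ℝ (unc3 f) (q.1, q.2, p)).comp L‖
        ≤ (Metric.closedBall (0 : R3) R).indicator (fun p => |w p| * (|C| * ‖L‖)) p := by
    refine Filter.Eventually.of_forall fun p q hq => ?_
    by_cases hp : p ∈ Metric.closedBall (0 : R3) R
    · rw [Set.indicator_of_mem hp, norm_smul]
      refine mul_le_mul (le_of_eq (Real.norm_eq_abs _)) ?_ (norm_nonneg _) (abs_nonneg _)
      refine (ContinuousLinearMap.opNorm_comp_le _ _).trans ?_
      refine mul_le_mul_of_nonneg_right ?_ (norm_nonneg _)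
      have hb := hball q hq
      refine (hC' (q.1, q.2, p) ⟨⟨hb.1.1.le, hb.1.2.le⟩, ?_, hp⟩).trans (le_abs_self C)
      exact Metric.mem_closedBall.2 hb.2.le
    · rw [Set.indicator_of_notMem hp]
      have hp' : R < ‖p‖ := by simpa using hp
      -- the function vanishes near q
      have h0 : HasFDerivAt (fun q : ℝ × R3 => f q.1 q.2 p * w p) (0 : (ℝ × R3) →L[ℝ] ℝ) q := by
        have : (fun q : ℝ × R3 => f q.1 q.2 p * w p) =ᶠ[𝓝 q] fun _ => 0 := by
          filter_upwards [Metric.isOpen_ball.mem_nhds hq] with r hr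
          rw [hzero r hr p hp', zero_mul]
        exact (hasFDerivAt_const (0 : ℝ) q).congr_of_eventuallyEq this
      rw [(hdiff q hq p).unique h0]
      simp
  have hbint : Integrable ((Metric.closedBall (0 : R3) R).indicator
      (fun p => |w p| * (|C| * ‖L‖))) := by
    rw [integrable_indicator_iff Metric.isClosed_closedBall.measurableSet]
    exact (ContinuousOn.integrableOn_compact (isCompact_closedBall 0 R)
      (hw.abs.mul continuous_const).continuousOn)
  constructor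
  · exact hasFDerivAt_integral_of_dominated_of_fderiv_le (F := fun (q : ℝ × R3) (p : R3) =>
        f q.1 q.2 p * w p) (F' := fun q p => w p • (fderiv ℝ (unc3 f) (q.1, q.2, p)).comp L)
      (bound := (Metric.closedBall (0 : R3) R).indicator (fun p => |w p| * (|C| * ‖L‖)))
      (x₀ := ((t, x) : ℝ × R3)) hnhds
      (by filter_upwards [hnhds] with q hq using hmeasF q hq) hintF hcD.aestronglyMeasurable
      hbound hbint (Filter.Eventually.of_forall fun p q hq => hdiff q hq p)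
  · refine Integrable.mono' hbint hcD.aestronglyMeasurable ?_
    filter_upwards [hbound] with p hp using hp (t, x) hx0

/-- directional form of `hasFDerivAt_momInt` -/
theorem dd_momInt (hf : ContDiffOn ℝ 1 (unc3 f) (slab3 T))
    (hsupp : ∀ T' : ℝ, 0 ≤ T' → T' < T → ∃ R : ℝ, ∀ t ∈ Set.Icc 0 T', ∀ x v : R3,
      (R < ‖x‖ ∨ R < ‖v‖) → f t x v = 0)
    {w : R3 → ℝ} (hw : Continuous w) {t : ℝ} (ht : 0 < t) (htT : t < T) (x : R3) (a : ℝ) (b : R3) :
    dd (a, b) (fun q : ℝ × R3 => ∫ p, f q.1 q.2 p * w p) (t, x)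
      = ∫ p, fderiv ℝ (unc3 f) (t, x, p) (a, b, 0) * w p ∧
    Integrable (fun p => fderiv ℝ (unc3 f) (t, x, p) (a, b, 0) * w p) := by
  obtain ⟨h1, h2⟩ := hasFDerivAt_momInt hf hsupp hw ht htT x
  constructor
  · unfold dd
    rw [h1.fderiv, ContinuousLinearMap.integral_apply h2]
    refine integral_congr_ae (Filter.Eventually.of_forall fun p => ?_)
    simp [mul_comm]
  · have h3 := h2.apply_continuousLinearMap ((a, b) : ℝ × R3)
    refine h3.congr (Filter.Eventually.of_forall fun p => ?_)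
    simp [mul_comm]

end transport

section sources

variable {T : ℝ} {f : ℝ → R3 → R3 → ℝ} {E B : ℝ → R3 → R3}

lemma continuous_relVel : Continuous relVel := by
  have h1 : Continuous (fun v : R3 => Real.sqrt (1 + ‖v‖ ^ 2)) :=
    Real.continuous_sqrt.comp (continuous_const.add (continuous_norm.pow 2))
  have h2 : ∀ v : R3, Real.sqrt (1 + ‖v‖ ^ 2) ≠ 0 := fun v => by positivity
  exact (h1.inv₀ h2).smul continuous_id

lemma continuous_relVel_apply (i : Fin 3) : Continuous (fun p => relVel p i) := by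
  have h1 : Continuous (fun x : R3 => x i) := by fun_prop
  exact h1.comp continuous_relVel

/-- space-time derivatives of the charge density -/
theorem dd_rho (h : Sol2 T f E B) {t : ℝ} (ht : 0 < t) (htT : t < T) (x : R3) (a : ℝ) (b : R3) :
    dd (a, b) (rhoF f) (t, x) = ∫ p, fderiv ℝ (unc3 f) (t, x, p) (a, b, 0) := by
  have h1 := (dd_momInt (w := fun _ => (1 : ℝ)) (h.hf.of_le (by norm_num)) h.hsupp
    continuous_const ht htT x a b).1
  simp only [mul_one] at h1
  rw [← h1]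
  rfl

/-- the current density componentwise, at fixed time and position -/
lemma jI_eq (h : Sol2 T f E B) {q : ℝ × R3} (hq : q ∈ slab T) (i : Fin 3) :
    jI f i q = ∫ p, f q.1 q.2 p * relVel p i := by
  unfold jI currentDensity
  have hq' := mem_slab.1 hq
  obtain ⟨R, hR⟩ := h.hsupp q.1 hq'.1.le hq'.2
  have hc : Continuous (fun p => f q.1 q.2 p) := by
    have h1 : ContinuousOn (unc3 f) (slab3 T) := h.hf.continuousOn
    have h2 : Continuous (fun p : R3 => ((q.1, q.2, p) : ℝ × R3 × R3)) := by fun_prop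
    exact h1.comp_continuous h2 (fun p => mem_slab3.2 ⟨hq'.1, hq'.2⟩)
  have hint : Integrable (fun p => f q.1 q.2 p • relVel p) := by
    refine (hc.smul continuous_relVel).integrable_of_hasCompactSupport ?_
    refine HasCompactSupport.intro (isCompact_closedBall (0 : R3) R) fun p hp => ?_
    have : R < ‖p‖ := by simpa using hp
    change f q.1 q.2 p • relVel p = 0
    rw [hR q.1 ⟨hq'.1.le, le_refl _⟩ q.2 p (Or.inr this), zero_smul]
  have := (ContinuousLinearMap.integral_comp_comm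
    (EuclideanSpace.proj i : R3 →L[ℝ] ℝ) hint)
  simpa using this.symm

/-- space-time derivatives of the current density -/
theorem dd_j (h : Sol2 T f E B) {t : ℝ} (ht : 0 < t) (htT : t < T) (x : R3) (i : Fin 3)
    (a : ℝ) (b : R3) :
    dd (a, b) (jI f i) (t, x) = ∫ p, fderiv ℝ (unc3 f) (t, x, p) (a, b, 0) * relVel p i := by
  have h1 := (dd_momInt (w := fun p => relVel p i) (h.hf.of_le (by norm_num)) h.hsupp
    (continuous_relVel_apply i) ht htT x a b).1
  rw [← h1]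
  exact dd_congr (isOpen_slab T) (mem_slab.2 ⟨ht, htT⟩) fun r hr => jI_eq h hr i

/-- **Source of the wave equation for `E`** as a momentum integral:
`□ E_i = - ∫ (∂_i f + v_i ∂_t f) dp`. -/
theorem box_E' (h : Sol2 T f E B) {t : ℝ} (ht : 0 < t) (htT : t < T) (x : R3) (i : Fin 3) :
    box (uncI E i) (t, x)
      = - ∫ p, fderiv ℝ (unc3 f) (t, x, p) (relVel p i, eb i, 0) := by
  have hf1 : ContDiffOn ℝ 1 (unc3 f) (slab3 T) := h.hf.of_le (by norm_num)
  rw [box_E h (mem_slab.2 ⟨ht, htT⟩)]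
  have e1 : Dx i (rhoF f) (t, x) = ∫ p, fderiv ℝ (unc3 f) (t, x, p) (0, eb i, 0) :=
    dd_rho h ht htT x 0 (eb i)
  have e2 : Dt (jI f i) (t, x) = ∫ p, fderiv ℝ (unc3 f) (t, x, p) (1, 0, 0) * relVel p i :=
    dd_j h ht htT x i 1 0
  have i1 : Integrable (fun p => fderiv ℝ (unc3 f) (t, x, p) (0, eb i, 0)) := by
    have := (dd_momInt (w := fun _ => (1 : ℝ)) hf1 h.hsupp continuous_const ht htT x 0 (eb i)).2
    simpa using this
  have i2 := (dd_momInt (w := fun p => relVel p i) hf1 h.hsupp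
    (continuous_relVel_apply i) ht htT x 1 0).2
  rw [e1, e2, ← neg_add', ← integral_add i1 i2]
  congr 1
  refine integral_congr_ae (Filter.Eventually.of_forall fun p => ?_)
  simp only
  have e3 : ((relVel p i, eb i, 0) : ℝ × R3 × R3) = (0, eb i, 0) + relVel p i • ((1 : ℝ), (0 : R3), (0 : R3)) := by
    simp
  rw [e3, map_add, map_smul, smul_eq_mul, mul_comm (relVel p i)]

/-- **Source of the wave equation for `B`** as a momentum integral:
`□ B_i = ∫ (∇_x f × v)_i dp`. -/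
theorem box_B' (h : Sol2 T f E B) {t : ℝ} (ht : 0 < t) (htT : t < T) (x : R3) (i : Fin 3) :
    box (uncI B i) (t, x)
      = ∫ p, fderiv ℝ (unc3 f) (t, x, p)
          (0, relVel p (i + 2) • eb (i + 1) - relVel p (i + 1) • eb (i + 2), 0) := by
  have hf1 : ContDiffOn ℝ 1 (unc3 f) (slab3 T) := h.hf.of_le (by norm_num)
  rw [box_B h (mem_slab.2 ⟨ht, htT⟩)]
  have e1 : Dx (i + 1) (jI f (i + 2)) (t, x)
      = ∫ p, fderiv ℝ (unc3 f) (t, x, p) (0, eb (i + 1), 0) * relVel p (i + 2) :=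
    dd_j h ht htT x _ 0 _
  have e2 : Dx (i + 2) (jI f (i + 1)) (t, x)
      = ∫ p, fderiv ℝ (unc3 f) (t, x, p) (0, eb (i + 2), 0) * relVel p (i + 1) :=
    dd_j h ht htT x _ 0 _
  have i1 := (dd_momInt (w := fun p => relVel p (i + 2)) hf1 h.hsupp
    (continuous_relVel_apply _) ht htT x 0 (eb (i + 1))).2
  have i2 := (dd_momInt (w := fun p => relVel p (i + 1)) hf1 h.hsupp
    (continuous_relVel_apply _) ht htT x 0 (eb (i + 2))).2
  rw [e1, e2, ← integral_sub i1 i2]
  refine integral_congr_ae (Filter.Eventually.of_forall fun p => ?_)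
  simp only
  have e3 : ((0, relVel p (i + 2) • eb (i + 1) - relVel p (i + 1) • eb (i + 2), 0) : ℝ × R3 × R3)
      = relVel p (i + 2) • ((0 : ℝ), eb (i + 1), (0 : R3))
        - relVel p (i + 1) • ((0 : ℝ), eb (i + 2), (0 : R3)) := by
    simp
  rw [e3, map_sub, map_smul, map_smul, smul_eq_mul, smul_eq_mul, mul_comm (relVel p (i + 2)),
    mul_comm (relVel p (i + 1))]

end sources

section final

/-! Final statements in the notation of `GSRDefs`. -/

variable {T : ℝ} {f : ℝ → R3 → R3 → ℝ} {E B : ℝ → R3 → R3}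

lemma two_le_inf : (2 : WithTop ℕ∞) ≤ ∞ := by
  have : ((2 : ℕ∞) : WithTop ℕ∞) ≤ ((⊤ : ℕ∞) : WithTop ℕ∞) := by exact_mod_cast le_top
  exact this

/-- constructor of `Sol2` from globally smooth data -/
lemma Sol2.of_smooth (hf : ContDiff ℝ ∞ (GSR.unc f))
    (hE : ContDiff ℝ ∞ (fun q : ℝ × R3 => E q.1 q.2))
    (hB : ContDiff ℝ ∞ (fun q : ℝ × R3 => B q.1 q.2))
    (heq : ∀ t, 0 < t → t < T → ∀ x, EquationsHoldAt f E B t x)
    (hsupp : ∀ T' : ℝ, 0 ≤ T' → T' < T → ∃ R : ℝ, ∀ t ∈ Set.Icc 0 T', ∀ x v : R3,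
      (R < ‖x‖ ∨ R < ‖v‖) → f t x v = 0) : Sol2 T f E B := by
  have hp : ∀ i : Fin 3, ContDiff ℝ ∞ (fun x : R3 => x i) := fun i =>
    (EuclideanSpace.proj i : R3 →L[ℝ] ℝ).contDiff
  refine ⟨?_, ?_, ?_, heq, hsupp⟩
  · exact (hf.of_le two_le_inf).contDiffOn
  · intro i
    exact (((hp i).comp hE).of_le two_le_inf).contDiffOn
  · intro i
    exact (((hp i).comp hB).of_le two_le_inf).contDiffOn

/-- **Wave equation for `E`** -/
theorem wave_E (h : Sol2 T f E B) {t : ℝ} (ht : 0 < t) (htT : t < T) (x : R3) (i : Fin 3) :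
    GSR.box (GSR.cmp E i) (t, x)
      = - ∫ p, (GSR.fx i (GSR.unc f) (t, x, p) + relVel p i * GSR.ft (GSR.unc f) (t, x, p)) := by
  have h1 := box_E' h ht htT x i
  have h2 : GSR.box (GSR.cmp E i) (t, x) = box (uncI E i) (t, x) := rfl
  rw [h2, h1]
  congr 1
  refine integral_congr_ae (Filter.Eventually.of_forall fun p => ?_)
  simp only
  have e3 : ((relVel p i, eb i, 0) : ℝ × R3 × R3)
      = (0, eb i, 0) + relVel p i • ((1 : ℝ), (0 : R3), (0 : R3)) := by
    simp
  rw [e3, map_add, map_smul, smul_eq_mul]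
  rfl

/-- **Wave equation for `B`** -/
theorem wave_B (h : Sol2 T f E B) {t : ℝ} (ht : 0 < t) (htT : t < T) (x : R3) (i : Fin 3) :
    GSR.box (GSR.cmp B i) (t, x)
      = ∫ p, (relVel p (i + 2) * GSR.fx (i + 1) (GSR.unc f) (t, x, p)
          - relVel p (i + 1) * GSR.fx (i + 2) (GSR.unc f) (t, x, p)) := by
  have h1 := box_B' h ht htT x i
  have h2 : GSR.box (GSR.cmp B i) (t, x) = box (uncI B i) (t, x) := rfl
  rw [h2, h1]
  refine integral_congr_ae (Filter.Eventually.of_forall fun p => ?_)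
  simp only
  have e3 : ((0, relVel p (i + 2) • eb (i + 1) - relVel p (i + 1) • eb (i + 2), 0) : ℝ × R3 × R3)
      = relVel p (i + 2) • ((0 : ℝ), eb (i + 1), (0 : R3))
        - relVel p (i + 1) • ((0 : ℝ), eb (i + 2), (0 : R3)) := by
    simp
  rw [e3, map_sub, map_smul, map_smul, smul_eq_mul, smul_eq_mul]
  rfl

/-- **Transport equation** -/
theorem transport_ft (h : Sol2 T f E B) {t : ℝ} (ht : 0 < t) (htT : t < T) (x p : R3) :
    GSR.ft (GSR.unc f) (t, x, p) + ∑ j, relVel p j * GSR.fx j (GSR.unc f) (t, x, p)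
      = - fderiv ℝ (GSR.unc f) (t, x, p) (0, 0, GSR.lor E B t x p) := by
  have h1 := transport h ht htT x p
  have e1 : ((1 : ℝ), relVel p, E t x + cross3 (relVel p) (B t x))
      = (1, 0, 0) + (0, relVel p, 0) + (0, 0, E t x + cross3 (relVel p) (B t x)) := by
    simp
  rw [e1, map_add, map_add] at h1
  have s1 : fderiv ℝ (unc3 f) (t, x, p) (0, relVel p, 0)
      = ∑ i : Fin 3, relVel p i * fderiv ℝ (unc3 f) (t, x, p) (0, eb i, 0) := by
    have := clm_sum_R3 ((fderiv ℝ (unc3 f) (t, x, p)).comp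
      ((ContinuousLinearMap.inr ℝ ℝ (R3 × R3)).comp
      (ContinuousLinearMap.inl ℝ R3 R3))) (relVel p)
    simpa using this
  rw [s1] at h1
  have h2 : GSR.unc f = unc3 f := rfl
  have h3 : GSR.lor E B t x p = E t x + cross3 (relVel p) (B t x) := rfl
  rw [h2, h3]
  simp only [GSR.ft, GSR.fx]
  linarith

end final

end Crest.Agent.R106.Gsr
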