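/-
Row 106, node GSR (helper801), part 8: final assembly `repU : GSR.RepU`.
-/
import Crest.Agent.R106.GsrComp
import Crest.Agent.R106.GsrFin
import Crest.Agent.R106.GsrWave

set_option autoImplicit false

open MeasureTheory Set Filter Topology Metric
open Crest.AnalysisR.VecCalc3 Crest.AnalysisR.PDE.RVM
open scoped ContDiff RealInnerProductSpace

namespace Crest.Agent.R106.GsrU

open Crest.Agent.R106.GSR (pt px unc ft fx cmp lor gam acc eT eS nv cone DataBd lorF)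
open Crest.Agent.R106.Gsr (ret om mm kap kT kM kX sdot e)

lemma ae_ne_zero : ∀ᵐ z : R3, z ≠ 0 := by
  have : ({0}ᶜ : Set R3) ∈ ae (volume : Measure R3) := by
    rw [mem_ae_iff, compl_compl]; exact measure_singleton _
  exact this

lemma preimage_ball (x : R3) (t : ℝ) : (fun z : R3 => x + z) ⁻¹' (ball x t) = ball 0 t := by
  ext z; simp [dist_eq_norm]

lemma bridge {φ : R3 × R3 → ℝ} {x : R3} {t : ℝ} (hφ : Integrable φ (cone x t)) {ψ : R3 → R3 → ℝ}
    (h : ∀ z, z ≠ 0 → ∀ p, φ (x + z, p) = ψ z p) :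
    IntegrableOn (fun z => ∫ p, ψ z p) (ball 0 t) ∧ ∫ q, φ q ∂(cone x t) = ∫ z in ball 0 t, ∫ p, ψ z p := by
  have hmp : MeasurePreserving (fun z : R3 => x + z) volume volume := measurePreserving_add_left volume x
  have hme : MeasurableEmbedding (fun z : R3 => x + z) := (Homeomorph.addLeft x).measurableEmbedding
  have h1 : Integrable (fun y => ∫ p, φ (y, p)) ((volume : Measure R3).restrict (ball x t)) :=
    Integrable.integral_prod_left hφ
  have h2 : IntegrableOn (fun z => ∫ p, φ (x + z, p)) (ball 0 t) := by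
    have := (hmp.integrableOn_comp_preimage hme (f := fun y => ∫ p, φ (y, p)) (s := ball x t)).2 h1
    rw [preimage_ball] at this
    exact this
  have h3 : ∀ᵐ z ∂((volume : Measure R3).restrict (ball 0 t)), (∫ p, φ (x + z, p)) = ∫ p, ψ z p := by
    filter_upwards [ae_restrict_of_ae ae_ne_zero] with z hz
    congr 1
    ext p
    exact h z hz p
  constructor
  · exact Integrable.congr h2 h3
  · have h4 : ∫ q, φ q ∂(cone x t) = ∫ y in ball x t, ∫ p, φ (y, p) := by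
      unfold cone at hφ ⊢
      exact integral_prod φ hφ
    have h5 := hmp.setIntegral_preimage_emb hme (fun y => ∫ p, φ (y, p)) (ball x t)
    rw [preimage_ball] at h5
    rw [h4, ← h5]
    exact integral_congr_ae h3

lemma nv_apply (x z : R3) (i : Fin 3) : nv x (x + z) i = - om i z := by
  unfold nv om
  have h1 : x - (x + z) = -z := by abel
  rw [h1, norm_neg]
  simp
  ring

lemma norm_ret (x z : R3) : ‖x - (x + z)‖ = ‖z‖ := by
  have h1 : x - (x + z) = -z := by abel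
  rw [h1, norm_neg]

lemma mm_eq (x z v : R3) : mm v z = 1 - ⟪nv x (x + z), v⟫ := by
  unfold mm sdot
  rw [PiLp.inner_apply]
  simp only [Fin.sum_univ_three, nv_apply]
  simp
  ring

lemma one_sub_norm (p : R3) : 1 - ‖relVel p‖ ^ 2 = ((gam p) ^ 2)⁻¹ := by
  rw [GSR.norm_sq_relVel, inv_pow]; ring

lemma kT_eq (c : R3 → R3) (x z p : R3) :
    kT c z p = kap (relVel p) (c p) z * ((gam p) ^ 2 * (1 - ⟪nv x (x + z), relVel p⟫) ^ 2 * ‖x - (x + z)‖ ^ 2)⁻¹ := by
  unfold kT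
  rw [one_sub_norm, mm_eq x z, norm_ret, mul_inv, mul_inv, inv_pow, inv_pow]
  ring

/-! ### the two families of covectors -/

/-- electric: `c = e_i` -/
noncomputable def cE (i : Fin 3) : R3 → R3 := fun _ => e i
/-- magnetic: `c · w = (w × v)_i` -/
noncomputable def cB (i : Fin 3) : R3 → R3 := fun p => relVel p (i + 2) • e (i + 1) - relVel p (i + 1) • e (i + 2)

lemma kap_E (i : Fin 3) (x z p : R3) :
    kap (relVel p) (cE i p) z = -(nv x (x + z) i - relVel p i) := by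
  rw [nv_apply]
  unfold kap sdot cE
  fin_cases i <;> simp [Fin.sum_univ_three, e] <;> ring

lemma kap_B (i : Fin 3) (x z p : R3) :
    kap (relVel p) (cB i p) z = cross3 (nv x (x + z)) (nv x (x + z) - relVel p) i := by
  unfold kap sdot cB
  fin_cases i
  · show _ = cross3 (nv x (x + z)) (nv x (x + z) - relVel p) 0
    rw [GSR.cross3_0]
    simp only [PiLp.sub_apply, nv_apply]
    simp [Fin.sum_univ_three, e]
    ring
  · show _ = cross3 (nv x (x + z)) (nv x (x + z) - relVel p) 1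
    rw [GSR.cross3_1]
    simp only [PiLp.sub_apply, nv_apply]
    simp [Fin.sum_univ_three, e]
    ring
  · show _ = cross3 (nv x (x + z)) (nv x (x + z) - relVel p) 2
    rw [GSR.cross3_2]
    simp only [PiLp.sub_apply, nv_apply]
    simp [Fin.sum_univ_three, e]
    ring

lemma cE_dot (i : Fin 3) (p : R3) : ∑ j, cE i p j * relVel p j = relVel p i := by
  unfold cE
  fin_cases i <;> simp [Fin.sum_univ_three, e]

lemma cB_dot (i : Fin 3) (p : R3) : ∑ j, cB i p j * relVel p j = 0 := by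
  unfold cB
  fin_cases i <;> simp [Fin.sum_univ_three, e] <;> ring

lemma cE_cont (i : Fin 3) : Continuous (cE i) := continuous_const
lemma cB_cont (i : Fin 3) : Continuous (cB i) := by
  unfold cB
  have h : ∀ j : Fin 3, Continuous (fun p : R3 => relVel p j) := fun j =>
    (EuclideanSpace.proj (𝕜 := ℝ) j).continuous.comp Gsr.relVel_cont
  exact ((h _).smul continuous_const).sub ((h _).smul continuous_const)

lemma abs_apply_le (v : R3) (i : Fin 3) : |v i| ≤ ‖v‖ := by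
  have := PiLp.norm_apply_le v i
  simpa using this

lemma norm_cE (i : Fin 3) (p : R3) : ‖cE i p‖ ≤ 2 := by
  unfold cE; simp [e]

lemma norm_cB (i : Fin 3) (p : R3) : ‖cB i p‖ ≤ 2 := by
  unfold cB
  have h1 := abs_apply_le (relVel p) (i + 2)
  have h2 := abs_apply_le (relVel p) (i + 1)
  have h3 := Gsr.relVel_lt p
  calc _ ≤ ‖relVel p (i + 2) • e (i + 1)‖ + ‖relVel p (i + 1) • e (i + 2)‖ := norm_sub_le _ _
    _ = |relVel p (i + 2)| + |relVel p (i + 1)| := by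
        rw [norm_smul, norm_smul]; simp [e]
    _ ≤ 2 := by linarith

/-- bound of the layer kernel -/
lemma layer_kernel_bound {c : R3 → R3} {σ A M : ℝ} (hσ : |σ| = 1) (hc2 : ∀ p, ‖c p‖ ≤ 2)
    (hcv : ∀ p, |∑ i, c p i * relVel p i| ≤ 1) (hM : ∀ p ∈ closedBall (0:R3) A, ‖(1 - ‖relVel p‖)⁻¹‖ ≤ M)
    (z : R3) (p : R3) (hp : ‖p‖ ≤ A) :
    |σ * (kap (relVel p) (c p) z * (mm (relVel p) z)⁻¹ - ∑ i, c p i * relVel p i)| ≤ 3 * M + 1 := by
  rw [abs_mul, hσ, one_mul]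
  have h1 : |kap (relVel p) (c p) z| ≤ 3 := by
    have h1 : |sdot (c p) z| ≤ 2 := (Gsr.abs_sdot_le _ _).trans (hc2 p)
    calc _ ≤ |sdot (c p) z| + |∑ i, c p i * relVel p i| := abs_add_le _ _
      _ ≤ 3 := by linarith [hcv p]
  have hv1 : 0 < 1 - ‖relVel p‖ := by linarith [Gsr.relVel_lt p]
  have hmi0 : 0 ≤ (mm (relVel p) z)⁻¹ := inv_nonneg.2 (Gsr.mm_pos (Gsr.relVel_lt p) z).le
  have hmi : (mm (relVel p) z)⁻¹ ≤ M := by
    refine (inv_anti₀ hv1 (Gsr.mm_ge z)).trans ?_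
    have := hM p (by simpa using hp)
    rwa [Real.norm_of_nonneg (inv_nonneg.2 hv1.le)] at this
  refine (abs_sub _ _).trans ?_
  rw [abs_mul, abs_of_nonneg hmi0]
  have h2 := hcv p
  have : |kap (relVel p) (c p) z| * (mm (relVel p) z)⁻¹ ≤ 3 * M := by gcongr
  linarith

/-- one component -/
theorem one_comp {f : ℝ → R3 → R3 → ℝ} {E B : ℝ → R3 → R3} (hf : ContDiff ℝ ∞ (unc f))
    (hE : ContDiff ℝ ∞ (fun q : ℝ × R3 => E q.1 q.2)) (hB : ContDiff ℝ ∞ (fun q : ℝ × R3 => B q.1 q.2))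
    {u : ℝ × R3 → ℝ} (hu : ContDiff ℝ 2 u)
    {c : R3 → R3} (hc : Continuous c) {σ T R t A M : ℝ} (ht : 0 < t) (htT : t < T) (x : R3)
    (hσ : |σ| = 1) (hc2 : ∀ p, ‖c p‖ ≤ 2)
    (hcv : ∀ p, |∑ i, c p i * relVel p i| ≤ 1)
    (hR : ∀ τ ∈ Ioo 0 T, ∀ y p, R < ‖p‖ → f τ y p = 0)
    (htr : ∀ τ ∈ Ioo 0 T, ∀ y p, ft (unc f) (τ, y, p) + ∑ j, relVel p j * fx j (unc f) (τ, y, p)
      = - fderiv ℝ (unc f) (τ, y, p) (0, 0, lor E B τ y p))
    (hbox : ∀ τ ∈ Ioo 0 T, ∀ y, GSR.box u (τ, y) = σ * ∫ p, (∑ i, c p i * fx i (unc f) (τ, y, p)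
      + (∑ i, c p i * relVel p i) * ft (unc f) (τ, y, p)))
    {W : R3 → R3 → R3 → ℝ} -- W z p a : the acceleration kernel component
    (hWc : ContinuousOn (fun q : R3 × R3 => W q.1 q.2 (acc q.2 (lor E B (t - ‖q.1‖) (x + q.1) q.2))) ({0}ᶜ ×ˢ univ))
    (hWb : ∀ z, z ≠ 0 → ∀ p a, |W z p a| ≤ 32 * gam p ^ 4 * ‖a‖ * ‖z‖⁻¹)
    (hWibp : ∀ z, z ≠ 0 → ∀ φ : R3 → ℝ, ContDiff ℝ 1 φ → HasCompactSupport φ → ∀ E' B' : R3,
      ∫ p, (σ * kM c z p) * fderiv ℝ φ p (lorF E' B' p) = - ∫ p, φ p * W z p (acc p (lorF E' B' p)))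
    (hA : 0 ≤ A) (hu0 : ∀ y, |u (0,y)| ≤ A ∧ |pt u (0,y)| ≤ A ∧ ∀ k, |px k u (0,y)| ≤ A)
    (hf0 : ∀ y p, |f 0 y p| ≤ A) (hfs : ∀ y p, A < ‖p‖ → f 0 y p = 0)
    (hM : ∀ p ∈ closedBall (0:R3) A, ‖(1 - ‖relVel p‖)⁻¹‖ ≤ M)
    {φ : R3 × R3 → ℝ} (hφ : Integrable φ (cone x t))
    (hφe : ∀ z, z ≠ 0 → ∀ p, φ (x + z, p) = f (t - ‖z‖) (x + z) p *
      (σ * kT c z p + W z p (acc p (lor E B (t - ‖z‖) (x + z) p)))) :
    |4 * Real.pi * u (t, x) - ∫ q, φ q ∂(cone x t)|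
      ≤ (4 * (A + 1) + ((3 * M + 1) * A * (volume (closedBall (0:R3) A)).toReal + 1)) * (4 * Real.pi * (t + 1)) := by
  obtain ⟨hi, he⟩ := bridge hφ (ψ := fun z p => f (t - ‖z‖) (x + z) p *
      (σ * kT c z p + W z p (acc p (lor E B (t - ‖z‖) (x + z) p)))) hφe
  rw [he]
  obtain ⟨Ma, hMa0, hMa⟩ := GSR.exists_bound_acc hE.continuous hB.continuous t R x
  have hS : ∀ z, z ≠ 0 → ‖z‖ < t → ∫ p, σ * kM c z p * (ft (unc f) (t - ‖z‖, x + z, p)
      + ∑ i, relVel p i * fx i (unc f) (t - ‖z‖, x + z, p))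
      = ∫ p, f (t - ‖z‖) (x + z) p * W z p (acc p (lor E B (t - ‖z‖) (x + z) p)) := by
    intro z hz hzt
    have hτ : t - ‖z‖ ∈ Ioo 0 T := ⟨by linarith, by linarith [norm_nonneg z]⟩
    have hφ1 : ContDiff ℝ 1 (fun p => f (t - ‖z‖) (x + z) p) := by
      have h1 : ContDiff ℝ 1 (unc f) := hf.of_le (by exact_mod_cast le_top)
      exact h1.comp (contDiff_const.prodMk (contDiff_const.prodMk contDiff_id))
    have hφ2 : HasCompactSupport (fun p => f (t - ‖z‖) (x + z) p) := by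
      apply HasCompactSupport.intro (isCompact_closedBall (0 : R3) R)
      intro p hp
      exact hR _ hτ _ _ (by simpa using hp)
    have hib := hWibp z hz _ hφ1 hφ2 (E (t - ‖z‖) (x + z)) (B (t - ‖z‖) (x + z))
    have hfd : ∀ p w, fderiv ℝ (fun p => f (t - ‖z‖) (x + z) p) p w
        = fderiv ℝ (unc f) (t - ‖z‖, x + z, p) (0, 0, w) := by
      intro p w
      have h1 : HasFDerivAt (unc f) (fderiv ℝ (unc f) (t - ‖z‖, x + z, p)) (t - ‖z‖, x + z, p) :=
        (hf.differentiable (by simp)).differentiableAt.hasFDerivAt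
      have h2 : HasFDerivAt (fun p : R3 => ((t - ‖z‖, x + z, p) : ℝ × R3 × R3))
          ((0 : R3 →L[ℝ] ℝ).prod ((0 : R3 →L[ℝ] R3).prod (ContinuousLinearMap.id ℝ R3))) p :=
        (hasFDerivAt_const _ p).prodMk ((hasFDerivAt_const _ p).prodMk (hasFDerivAt_id p))
      have h3 := h1.comp p h2
      have h4 : HasFDerivAt (fun p => f (t - ‖z‖) (x + z) p) _ p := h3
      rw [h4.fderiv]
      simp
    have h1 : ∀ p, σ * kM c z p * (ft (unc f) (t - ‖z‖, x + z, p)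
      + ∑ i, relVel p i * fx i (unc f) (t - ‖z‖, x + z, p))
      = - (σ * kM c z p * fderiv ℝ (fun p => f (t - ‖z‖) (x + z) p) p (lorF (E (t - ‖z‖) (x + z)) (B (t - ‖z‖) (x + z)) p)) := by
      intro p
      rw [htr _ hτ, hfd]
      have : lor E B (t - ‖z‖) (x + z) p = lorF (E (t - ‖z‖) (x + z)) (B (t - ‖z‖) (x + z)) p := rfl
      rw [this]; ring
    simp only [h1]
    rw [integral_neg, hib, neg_neg]
    rfl
  refine Gsr.comp_rep hf hu hc ht htT x hR hbox (S := fun z p => W z p (acc p (lor E B (t - ‖z‖) (x + z) p)))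
    (CS := 32 * (1 + R ^ 2) ^ 2 * Ma * |t|) hWc ?_ hS hA hu0 hf0 hfs
    (fun z _ p hp => layer_kernel_bound hσ hc2 hcv hM z p hp) hi
  intro z hz hzt p hp
  have hzp : 0 < ‖z‖ := norm_pos_iff.2 hz
  have hr : ‖z‖⁻¹ ≤ |t| * ‖z‖⁻¹ ^ 2 := by
    have := Gsr.rho_le hz (hzt.le.trans (le_abs_self t))
    rwa [div_eq_mul_inv, ← inv_pow] at this
  have ha : ‖acc p (lor E B (t - ‖z‖) (x + z) p)‖ ≤ Ma := by
    have h1 := hMa (x + z) (by simpa [dist_eq_norm] using hzt) p hp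
    rwa [norm_ret] at h1
  have hg : gam p ^ 4 ≤ (1 + R ^ 2) ^ 2 := by
    have h1 := GSR.gam_sq p
    have h2 : gam p ^ 2 ≤ 1 + R ^ 2 := by
      rw [h1]; nlinarith [norm_nonneg p]
    calc gam p ^ 4 = (gam p ^ 2) ^ 2 := by ring
      _ ≤ (1 + R ^ 2) ^ 2 := by gcongr
  calc |W z p (acc p (lor E B (t - ‖z‖) (x + z) p))| ≤ 32 * gam p ^ 4 * ‖acc p (lor E B (t - ‖z‖) (x + z) p)‖ * ‖z‖⁻¹ :=
        hWb z hz p _
    _ ≤ 32 * (1 + R ^ 2) ^ 2 * Ma * (|t| * ‖z‖⁻¹ ^ 2) := by gcongr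
    _ = _ := by ring

/-- electric acceleration kernel component -/
noncomputable def WE (x : R3) (i : Fin 3) (z p a : R3) : ℝ := eS (nv x (x + z)) p a ‖x - (x + z)‖ i
/-- magnetic acceleration kernel component -/
noncomputable def WB (x : R3) (i : Fin 3) (z p a : R3) : ℝ :=
  cross3 (nv x (x + z)) (eS (nv x (x + z)) p a ‖x - (x + z)‖) i

lemma norm_nv' (x : R3) {z : R3} (hz : z ≠ 0) : ‖nv x (x + z)‖ = 1 := GSR.norm_nv (by simpa using hz)

lemma norm_WE (x : R3) (i : Fin 3) {z : R3} (hz : z ≠ 0) (p a : R3) :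
    |WE x i z p a| ≤ 32 * gam p ^ 4 * ‖a‖ * ‖z‖⁻¹ := by
  have hzp : 0 < ‖z‖ := norm_pos_iff.2 hz
  have h1 := GSR.norm_eS_le (norm_nv' x hz) p a (R := ‖x - (x + z)‖) (by rw [norm_ret]; exact hzp)
  rw [norm_ret] at h1
  have h2 : |WE x i z p a| ≤ ‖eS (nv x (x + z)) p a ‖x - (x + z)‖‖ := abs_apply_le _ i
  rw [norm_ret] at h2
  have : 0 ≤ 16 * gam p ^ 4 * ‖a‖ * ‖z‖⁻¹ := by
    have := GSR.gam_pos p
    positivity
  linarith

lemma norm_WB (x : R3) (i : Fin 3) {z : R3} (hz : z ≠ 0) (p a : R3) :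
    |WB x i z p a| ≤ 32 * gam p ^ 4 * ‖a‖ * ‖z‖⁻¹ := by
  have hzp : 0 < ‖z‖ := norm_pos_iff.2 hz
  have h1 := GSR.norm_eS_le (norm_nv' x hz) p a (R := ‖x - (x + z)‖) (by rw [norm_ret]; exact hzp)
  have h2 : |WB x i z p a| ≤ ‖cross3 (nv x (x + z)) (eS (nv x (x + z)) p a ‖x - (x + z)‖)‖ := abs_apply_le _ i
  have h3 := GSR.norm_cross3_le (nv x (x + z)) (eS (nv x (x + z)) p a ‖x - (x + z)‖)
  rw [norm_nv' x hz, one_mul] at h3
  rw [norm_ret] at h1 h2 h3
  have : 0 ≤ 16 * gam p ^ 4 * ‖a‖ * ‖z‖⁻¹ := by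
    have := GSR.gam_pos p
    positivity
  linarith

lemma cont_shift (x : R3) : MapsTo (fun q : R3 × R3 => ((x + q.1, q.2) : R3 × R3)) ({0}ᶜ ×ˢ univ) ({x}ᶜ ×ˢ univ) := by
  rintro ⟨z, p⟩ ⟨hz, -⟩
  refine ⟨?_, mem_univ _⟩
  simpa using hz

lemma cont_W {f : ℝ → R3 → R3 → ℝ} {E B : ℝ → R3 → R3}
    (hE : ContDiff ℝ ∞ (fun q : ℝ × R3 => E q.1 q.2)) (hB : ContDiff ℝ ∞ (fun q : ℝ × R3 => B q.1 q.2))
    (x : R3) (t : ℝ) (i : Fin 3) :
    ContinuousOn (fun q : R3 × R3 => WE x i q.1 q.2 (acc q.2 (lor E B (t - ‖q.1‖) (x + q.1) q.2))) ({0}ᶜ ×ˢ univ) ∧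
    ContinuousOn (fun q : R3 × R3 => WB x i q.1 q.2 (acc q.2 (lor E B (t - ‖q.1‖) (x + q.1) q.2))) ({0}ᶜ ×ˢ univ) := by
  have h1 := GSR.continuousOn_eS x (GSR.continuous_acc hE.continuous hB.continuous t x).continuousOn
  have h2 := GSR.continuous_cross3 (GSR.continuousOn_nv x) h1
  have hs : ContinuousOn (fun q : R3 × R3 => ((x + q.1, q.2) : R3 × R3)) ({0}ᶜ ×ˢ univ) := by fun_prop
  have h3 := h1.comp hs (cont_shift x)
  have h4 := h2.comp hs (cont_shift x)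
  constructor
  · have := (EuclideanSpace.proj (𝕜 := ℝ) i).continuous.comp_continuousOn h3
    refine this.congr ?_
    intro q _
    simp only [WE, Function.comp, norm_ret]
    rfl
  · have := (EuclideanSpace.proj (𝕜 := ℝ) i).continuous.comp_continuousOn h4
    refine this.congr ?_
    intro q _
    simp only [WB, Function.comp, norm_ret]
    rfl

lemma kM_E (i : Fin 3) (x : R3) {z : R3} (p : R3) :
    (-1) * kM (cE i) z p = GSR.kE (nv x (x + z)) i p / ‖x - (x + z)‖ := by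
  unfold kM GSR.kE
  rw [kap_E i x, mm_eq x, norm_ret]
  simp only [div_eq_mul_inv]
  ring

lemma kM_B (i : Fin 3) (x : R3) {z : R3} (p : R3) :
    1 * kM (cB i) z p = GSR.kB (nv x (x + z)) i p / ‖x - (x + z)‖ := by
  unfold kM GSR.kB
  rw [kap_B i x, mm_eq x, norm_ret]
  simp only [div_eq_mul_inv]
  ring

lemma norm_le_sum (w : R3) : ‖w‖ ≤ ∑ i, |w i| := by
  have h1 : w = ∑ i, w i • e i := by
    ext j
    fin_cases j <;> simp [Fin.sum_univ_three, e]
  calc ‖w‖ = ‖∑ i, w i • e i‖ := by rw [← h1]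
    _ ≤ ∑ i, ‖w i • e i‖ := norm_sum_le _ _
    _ = ∑ i, |w i| := by
        apply Finset.sum_congr rfl
        intro i _
        rw [norm_smul]; simp [e]

lemma comp_cone {F : R3 × R3 → R3} {x : R3} {t : ℝ} (hF : Integrable F (cone x t)) (i : Fin 3) :
    Integrable (fun q => F q i) (cone x t) ∧ (∫ q, F q ∂(cone x t)) i = ∫ q, F q i ∂(cone x t) := by
  constructor
  · exact (EuclideanSpace.proj (𝕜 := ℝ) i).integrable_comp hF
  · exact ((EuclideanSpace.proj (𝕜 := ℝ) i).integral_comp_comm hF).symm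

lemma final_norm {w v : R3} {C : ℝ} (h : ∀ i, |4 * Real.pi * w i - v i| ≤ C) :
    ‖w - (4 * Real.pi)⁻¹ • v‖ ≤ 3 * C := by
  have hp := Real.pi_gt_three
  refine (norm_le_sum _).trans ?_
  have h1 : ∀ i, |(w - (4 * Real.pi)⁻¹ • v) i| ≤ C := by
    intro i
    have h2 : (w - (4 * Real.pi)⁻¹ • v) i = (4 * Real.pi)⁻¹ * (4 * Real.pi * w i - v i) := by
      simp only [PiLp.sub_apply, PiLp.smul_apply, smul_eq_mul]
      field_simp
    rw [h2, abs_mul, abs_of_pos (by positivity)]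
    have h3 : (4 * Real.pi)⁻¹ ≤ 1 := inv_le_one_of_one_le₀ (by linarith)
    calc (4 * Real.pi)⁻¹ * |4 * Real.pi * w i - v i| ≤ 1 * C := by
          apply mul_le_mul h3 (h i) (abs_nonneg _) zero_le_one
      _ = C := one_mul C
  calc ∑ i, |(w - (4 * Real.pi)⁻¹ • v) i| ≤ ∑ _i : Fin 3, C := Finset.sum_le_sum fun i _ => h1 i
    _ = 3 * C := by simp

/-- **(R)**: the Glassey--Strauss representation, uniform constant. -/
theorem repU : GSR.RepU := by
  intro A T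
  have hcont : Continuous (fun p : R3 => (1 - ‖relVel p‖)⁻¹) := by
    apply Continuous.inv₀ (continuous_const.sub Gsr.relVel_cont.norm)
    intro p
    have := Gsr.relVel_lt p
    have h4 : (0:ℝ) < 1 - ‖relVel p‖ := by linarith
    exact h4.ne'
  obtain ⟨M, hM⟩ := (isCompact_closedBall (0 : R3) A).exists_bound_of_continuousOn hcont.continuousOn
  refine ⟨3 * ((4 * (A + 1) + ((3 * |M| + 1) * A * (volume (closedBall (0:R3) A)).toReal + 1)) * (4 * Real.pi * (T + 1))), ?_⟩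
  intro T' hT' hT'T f E B hf hE hB heq hsupp hd t ht x
  have hA := hd.A0
  have hM' : ∀ p ∈ closedBall (0:R3) A, ‖(1 - ‖relVel p‖)⁻¹‖ ≤ |M| := fun p hp => (hM p hp).trans (le_abs_self _)
  obtain ⟨ht0, htT⟩ := ht
  set T2 : ℝ := (t + T') / 2 with hT2
  have htT2 : t < T2 := by rw [hT2]; linarith
  have hT2T : T2 < T' := by rw [hT2]; linarith
  obtain ⟨R, hR⟩ := hsupp T2 (by linarith) hT2T
  have hR' : ∀ τ ∈ Ioo 0 T2, ∀ y p : R3, R < ‖p‖ → f τ y p = 0 := fun τ hτ y p hp =>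
    hR τ ⟨hτ.1.le, hτ.2.le⟩ y p (Or.inr hp)
  have hRc : ∀ s ∈ Icc 0 t, ∀ y p : R3, R < ‖p‖ → f s y p = 0 := fun s hs y p hp =>
    hR s ⟨hs.1, by linarith [hs.2]⟩ y p (Or.inr hp)
  have hsol : Gsr.Sol2 T' f E B := Gsr.Sol2.of_smooth hf hE hB heq hsupp
  have htr : ∀ τ ∈ Ioo 0 T2, ∀ y p, ft (unc f) (τ, y, p) + ∑ j, relVel p j * fx j (unc f) (τ, y, p)
      = - fderiv ℝ (unc f) (τ, y, p) (0, 0, lor E B τ y p) := fun τ hτ y p =>
    Gsr.transport_ft hsol hτ.1 (by linarith [hτ.2]) y p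
  have hcmp : ∀ {E : ℝ → R3 → R3} (i : Fin 3), ContDiff ℝ ∞ (fun q : ℝ × R3 => E q.1 q.2) → ContDiff ℝ 2 (cmp E i) := by
    intro E i hE
    have h1 : ContDiff ℝ ∞ (cmp E i) := (EuclideanSpace.proj i : R3 →L[ℝ] ℝ).contDiff.comp hE
    exact h1.of_le Gsr.two_le_inf
  have iT := GSR.integrable_eT hf.continuous hRc x
  have iS := GSR.integrable_eS hf.continuous hE.continuous hB.continuous hRc x
  have iE : Integrable (fun q : R3 × R3 => f (t - ‖x - q.1‖) q.1 q.2 • Field.eK E B t x q.1 q.2) (cone x t) := by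
    refine (iT.add iS).congr (Eventually.of_forall fun q => ?_)
    simp only [Pi.add_apply]
    rw [← smul_add]
    rfl
  have cross_smul : ∀ (a : ℝ) (n w : R3), cross3 n (a • w) = a • cross3 n w := by
    intro a n w
    ext j
    fin_cases j
    · show cross3 n (a • w) 0 = (a • cross3 n w) 0
      rw [PiLp.smul_apply, GSR.cross3_0, GSR.cross3_0]; simp; ring
    · show cross3 n (a • w) 1 = (a • cross3 n w) 1
      rw [PiLp.smul_apply, GSR.cross3_1, GSR.cross3_1]; simp; ring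
    · show cross3 n (a • w) 2 = (a • cross3 n w) 2
      rw [PiLp.smul_apply, GSR.cross3_2, GSR.cross3_2]; simp; ring
  have cross_add : ∀ (n w w' : R3), cross3 n (w + w') = cross3 n w + cross3 n w' := by
    intro n w w'
    ext j
    fin_cases j
    · show cross3 n (w + w') 0 = (cross3 n w + cross3 n w') 0
      rw [PiLp.add_apply, GSR.cross3_0, GSR.cross3_0, GSR.cross3_0]; simp; ring
    · show cross3 n (w + w') 1 = (cross3 n w + cross3 n w') 1
      rw [PiLp.add_apply, GSR.cross3_1, GSR.cross3_1, GSR.cross3_1]; simp; ring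
    · show cross3 n (w + w') 2 = (cross3 n w + cross3 n w') 2
      rw [PiLp.add_apply, GSR.cross3_2, GSR.cross3_2, GSR.cross3_2]; simp; ring
  have iB : Integrable (fun q : R3 × R3 => f (t - ‖x - q.1‖) q.1 q.2 •
      cross3 (Field.nn x q.1) (Field.eK E B t x q.1 q.2)) (cone x t) := by
    have h1 := GSR.integrable_cross iE
    refine h1.congr (Eventually.of_forall fun q => ?_)
    simp only
    rw [cross_smul]
    rfl
  have hC0 : 0 ≤ 4 * (A + 1) + ((3 * |M| + 1) * A * (volume (closedBall (0:R3) A)).toReal + 1) := by positivity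
  have hpi := Real.pi_pos
  have hmono : (4 * (A + 1) + ((3 * |M| + 1) * A * (volume (closedBall (0:R3) A)).toReal + 1)) * (4 * Real.pi * (t + 1))
      ≤ (4 * (A + 1) + ((3 * |M| + 1) * A * (volume (closedBall (0:R3) A)).toReal + 1)) * (4 * Real.pi * (T + 1)) := by
    gcongr
    linarith
  constructor
  · apply final_norm
    intro i
    have hcc := comp_cone iE i
    show |4 * Real.pi * E t x i - (∫ q, f (t - ‖x - q.1‖) q.1 q.2 • Field.eK E B t x q.1 q.2 ∂(cone x t)) i| ≤ _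
    rw [hcc.2]
    refine le_trans ?_ hmono
    refine one_comp hf hE hB (hcmp (E := E) i hE) (cE_cont i) (σ := -1) ht0 htT2 x (by simp) (norm_cE i) ?_ hR' htr ?_
      (W := WE x i) (cont_W (f := f) hE hB x t i).1 (fun z hz p a => norm_WE x i hz p a) ?_ hA
      (fun y => ⟨hd.leE y i, hd.ptE y i, fun k => hd.pxE y i k⟩) hd.lef hd.supp hM' hcc.1 ?_
    · intro p
      rw [cE_dot]
      exact (abs_apply_le _ i).trans (Gsr.relVel_lt p).le
    · intro τ hτ y
      rw [Gsr.wave_E hsol hτ.1 (by linarith [hτ.2]) y i, neg_one_mul]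
      congr 2
      ext p
      rw [cE_dot]
      congr 1
      unfold cE
      fin_cases i <;> simp [Fin.sum_univ_three, e]
    · intro z hz φ hφ hφc E' B'
      simp only [kM_E i x]
      exact GSR.ibp_E (norm_nv' x hz) i (by rw [norm_ret]; exact norm_ne_zero_iff.2 hz) hφ hφc E' B'
    · intro z hz p
      simp only [norm_ret, PiLp.smul_apply, smul_eq_mul]
      congr 1
      rw [kT_eq (cE i) x, kap_E i x]
      have h1 : Field.eK E B t x (x + z) p i = eT (nv x (x + z)) p ‖x - (x + z)‖ i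
        + eS (nv x (x + z)) p (acc p (lor E B (t - ‖x - (x + z)‖) (x + z) p)) ‖x - (x + z)‖ i := rfl
      rw [h1, GSR.eT_apply]
      unfold WE
      rw [norm_ret]
      ring
  · apply final_norm
    intro i
    have hcc := comp_cone iB i
    show |4 * Real.pi * B t x i - (∫ q, f (t - ‖x - q.1‖) q.1 q.2 •
      cross3 (Field.nn x q.1) (Field.eK E B t x q.1 q.2) ∂(cone x t)) i| ≤ _
    rw [hcc.2]
    refine le_trans ?_ hmono
    refine one_comp hf hE hB (hcmp (E := B) i hB) (cB_cont i) (σ := 1) ht0 htT2 x (by simp) (norm_cB i) ?_ hR' htr ?_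
      (W := WB x i) (cont_W (f := f) hE hB x t i).2 (fun z hz p a => norm_WB x i hz p a) ?_ hA
      (fun y => ⟨hd.leB y i, hd.ptB y i, fun k => hd.pxB y i k⟩) hd.lef hd.supp hM' hcc.1 ?_
    · intro p
      rw [cB_dot]
      simp
    · intro τ hτ y
      rw [Gsr.wave_B hsol hτ.1 (by linarith [hτ.2]) y i, one_mul]
      congr 1
      ext p
      rw [cB_dot, zero_mul, add_zero]
      unfold cB
      fin_cases i <;> simp [Fin.sum_univ_three, e] <;> ring
    · intro z hz φ hφ hφc E' B'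
      simp only [kM_B i x]
      exact GSR.ibp_B (norm_nv' x hz) i (by rw [norm_ret]; exact norm_ne_zero_iff.2 hz) hφ hφc E' B'
    · intro z hz p
      simp only [norm_ret, PiLp.smul_apply, smul_eq_mul]
      congr 1
      rw [kT_eq (cB i) x, kap_B i x]
      have h1 : cross3 (Field.nn x (x + z)) (Field.eK E B t x (x + z) p) i
        = cross3 (nv x (x + z)) (eT (nv x (x + z)) p ‖x - (x + z)‖) i
        + cross3 (nv x (x + z)) (eS (nv x (x + z)) p (acc p (lor E B (t - ‖x - (x + z)‖) (x + z) p)) ‖x - (x + z)‖) i := by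
        have := cross_add (nv x (x + z)) (eT (nv x (x + z)) p ‖x - (x + z)‖)
          (eS (nv x (x + z)) p (acc p (lor E B (t - ‖x - (x + z)‖) (x + z) p)) ‖x - (x + z)‖)
        have h2 := congrArg (fun w : R3 => w i) this
        exact h2
      rw [h1, GSR.cross_eT_apply]
      unfold WB
      rw [norm_ret]
      ring

end Crest.Agent.R106.GsrU
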