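import Mathlib
import Crest.Prelude.Def_VecCalc3

/-!
# Row 106, MIX: no collisions

Almost every source label never meets the test worldline: if the push-forward of the label measure
under `Y τ` is at most `C` times Lebesgue measure for every `τ ∈ [a, b]`, then for almost every
label `z` one has `Y τ z ≠ X τ` for all `τ ∈ [a, b]`.
-/

set_option autoImplicit false

open MeasureTheory Set Metric Filter
open scoped ENNReal NNReal Topology

namespace Crest.Agent.R106.Mix

open Crest.AnalysisR.VecCalc3

lemma finrank_R3 : Module.finrank ℝ R3 = 3 := by simp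

/-- `‖y‖⁻¹ ^ k` is integrable on balls of `ℝ³` for `k ≤ 2`. -/
lemma integrableOn_inv_norm_pow (k : ℕ) (hk : k ≤ 2) (r : ℝ) :
    IntegrableOn (fun y : R3 => (‖y‖⁻¹) ^ k) (ball (0 : R3) r) volume := by
  refine integrableOn_ball_of_norm_le_rpow (E := R3) (F := ℝ) (μ := volume)
    (C := 1) (α := (k : ℝ)) (by rw [finrank_R3]; norm_num) ?_ ?_ ?_
  · rw [finrank_R3]
    have : (k : ℝ) ≤ 2 := by exact_mod_cast hk
    push_cast
    linarith
  · refine Eventually.of_forall (fun y => ?_)
    rw [Real.norm_of_nonneg (by positivity), one_mul, Real.rpow_neg (norm_nonneg y),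
      Real.rpow_natCast, inv_pow]
  · exact (by fun_prop : Measurable (fun y : R3 => (‖y‖⁻¹) ^ k)).aestronglyMeasurable

lemma lintegral_inv_enorm_pow_lt_top (k : ℕ) (hk : k ≤ 2) (r : ℝ) :
    ∫⁻ y in ball (0 : R3) r, (‖y‖ₑ⁻¹) ^ k < ∞ := by
  have h := (integrableOn_inv_norm_pow k hk r).lintegral_lt_top
  refine lt_of_le_of_lt (le_of_eq ?_) h
  refine lintegral_congr_ae ?_
  refine ae_restrict_of_ae ?_
  have h0 : ∀ᵐ y : R3, y ≠ 0 := by
    rw [ae_iff]; simp
  filter_upwards [h0] with y hy
  have hy' : 0 < ‖y‖ := norm_pos_iff.mpr hy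
  rw [ENNReal.ofReal_pow (by positivity), ENNReal.ofReal_inv_of_pos hy', ofReal_norm]

/-- translated version -/
lemma lintegral_inv_enorm_pow_ball (k : ℕ) (r : ℝ) (x : R3) :
    ∫⁻ y in ball x r, (‖y - x‖ₑ⁻¹) ^ k
      = ∫⁻ y in ball (0 : R3) r, (‖y‖ₑ⁻¹) ^ k := by
  rw [← lintegral_indicator measurableSet_ball, ← lintegral_indicator measurableSet_ball]
  rw [← lintegral_sub_right_eq_self (μ := (volume : Measure R3))
    ((ball (0 : R3) r).indicator fun y => (‖y‖ₑ⁻¹) ^ k) x]
  refine lintegral_congr (fun y => ?_)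
  by_cases hy : y ∈ ball x r
  · have : y - x ∈ ball (0 : R3) r := by simpa [dist_eq_norm] using hy
    rw [indicator_of_mem hy, indicator_of_mem this]
  · have : y - x ∉ ball (0 : R3) r := by simpa [dist_eq_norm] using hy
    rw [indicator_of_notMem hy, indicator_of_notMem this]

/-- No collisions: almost every label never meets the test worldline. -/
theorem ae_no_collision {Z : Type*} [MeasurableSpace Z] (m : Measure Z) [SFinite m]
    (Y : ℝ → Z → R3) (hYm : Measurable (Function.uncurry Y)) (X : ℝ → R3) (hXm : Measurable X)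
    {a b : ℝ}
    (hX : ∀ s ∈ Icc a b, ∀ t ∈ Icc a b, ‖X s - X t‖ ≤ |s - t|)
    (hY : ∀ z, ∀ s ∈ Icc a b, ∀ t ∈ Icc a b, ‖Y s z - Y t z‖ ≤ |s - t|)
    (C : ℝ≥0∞) (hC : C ≠ ∞)
    (hdens : ∀ τ ∈ Icc a b, m.map (Y τ) ≤ C • volume) :
    ∀ᵐ z ∂m, ∀ τ ∈ Icc a b, Y τ z ≠ X τ := by
  have hYτ : ∀ τ, Measurable (Y τ) := fun τ => by
    have : Measurable (fun z => Function.uncurry Y (τ, z)) := hYm.comp measurable_prodMk_left
    exact this
  rcases le_or_gt b a with hab | hab
  · -- degenerate interval
    rcases hab.lt_or_eq with h | h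
    · refine Eventually.of_forall (fun z τ hτ => ?_)
      exact absurd (hτ.1.trans hτ.2) (not_le.mpr h)
    · subst h
      -- a single time: the map measure of a point is zero
      have h0 : m {z | Y b z = X b} = 0 := by
        have h1 : (m.map (Y b)) {X b} = 0 := by
          have := hdens b (by simp) {X b}
          simpa using this
        rwa [Measure.map_apply (hYτ b) (measurableSet_singleton _)] at h1
      have h2 : ∀ᵐ z ∂m, ¬ (Y b z = X b) := by
        rw [ae_iff]; simpa using h0
      filter_upwards [h2] with z hz τ hτ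
      have : τ = b := le_antisymm hτ.2 hτ.1
      subst this; exact hz
  · -- main case
    set g : ℝ → Z → ℝ≥0∞ := fun τ z =>
      (ball (0 : R3) 1).indicator (fun y => (‖y‖ₑ⁻¹) ^ 1) (Y τ z - X τ) with hg
    have hgm : Measurable (Function.uncurry g) := by
      have h1 : Measurable (fun y : R3 =>
          (ball (0 : R3) 1).indicator (fun y => (‖y‖ₑ⁻¹) ^ 1) y) := by
        refine Measurable.indicator ?_ measurableSet_ball
        fun_prop
      have h2 : Measurable (fun p : ℝ × Z => Y p.1 p.2 - X p.1) := by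
        exact hYm.sub (hXm.comp measurable_fst)
      exact h1.comp h2
    have hfin : ∫⁻ z, (∫⁻ τ in Icc a b, g τ z) ∂m < ∞ := by
      rw [lintegral_lintegral_swap]
      · have hle : ∫⁻ τ in Icc a b, ∫⁻ z, g τ z ∂m
            ≤ ∫⁻ τ in Icc a b, C * ∫⁻ y in ball (0 : R3) 1, (‖y‖ₑ⁻¹) ^ 1 := by
          refine setLIntegral_mono (by fun_prop) (fun τ hτ => ?_)
          have hm : Measurable (fun y : R3 =>
              (ball (X τ) 1).indicator (fun y => (‖y - X τ‖ₑ⁻¹) ^ 1) y) := by
            refine Measurable.indicator ?_ measurableSet_ball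
            fun_prop
          have h1 : ∫⁻ z, g τ z ∂m
              = ∫⁻ y, (ball (X τ) 1).indicator (fun y => (‖y - X τ‖ₑ⁻¹) ^ 1) y
                ∂(m.map (Y τ)) := by
            rw [lintegral_map hm (hYτ τ)]
            refine lintegral_congr (fun z => ?_)
            simp only [hg]
            by_cases hz : Y τ z ∈ ball (X τ) 1
            · have : Y τ z - X τ ∈ ball (0 : R3) 1 := by simpa [dist_eq_norm] using hz
              rw [indicator_of_mem hz, indicator_of_mem this]
            · have : Y τ z - X τ ∉ ball (0 : R3) 1 := by simpa [dist_eq_norm] using hz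
              rw [indicator_of_notMem hz, indicator_of_notMem this]
          rw [h1]
          calc _ ≤ ∫⁻ y, (ball (X τ) 1).indicator
                  (fun y => (‖y - X τ‖ₑ⁻¹) ^ 1) y ∂(C • (volume : Measure R3)) :=
                lintegral_mono' (hdens τ hτ) le_rfl
            _ = C * ∫⁻ y in ball (0 : R3) 1, (‖y‖ₑ⁻¹) ^ 1 := by
                rw [lintegral_smul_measure, lintegral_indicator measurableSet_ball,
                  lintegral_inv_enorm_pow_ball, smul_eq_mul]
        refine hle.trans_lt ?_
        rw [setLIntegral_const]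
        refine ENNReal.mul_lt_top (ENNReal.mul_lt_top hC.lt_top
          (lintegral_inv_enorm_pow_lt_top 1 (by norm_num) 1)) ?_
        simp
      · exact (hgm.comp measurable_swap).aemeasurable
    have hae : ∀ᵐ z ∂m, ∫⁻ τ in Icc a b, g τ z < ∞ := by
      refine ae_lt_top ?_ hfin.ne
      exact (hgm.comp measurable_swap).lintegral_prod_right'
    filter_upwards [hae] with z hz τs hτs hcol
    -- contradiction with non-integrability of `|τ - τs|⁻¹`
    have hnot : ¬ IntervalIntegrable (fun x => (x - τs)⁻¹) volume a b := by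
      rw [intervalIntegrable_sub_inv_iff]
      push Not
      refine ⟨hab.ne, ?_⟩
      rw [uIcc_of_le hab.le]; exact hτs
    apply hnot
    rw [intervalIntegrable_iff_integrableOn_Icc_of_le hab.le]
    -- dominate by `2 g + 2`
    have hmeas : AEStronglyMeasurable (fun x : ℝ => (x - τs)⁻¹) (volume.restrict (Icc a b)) :=
      (by fun_prop : Measurable (fun x : ℝ => (x - τs)⁻¹)).aestronglyMeasurable
    refine ⟨hmeas, ?_⟩
    rw [hasFiniteIntegral_iff_norm]
    have hdom : ∀ x ∈ Icc a b, ENNReal.ofReal ‖(x - τs)⁻¹‖ ≤ 2 * g x z + 2 := by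
      intro x hx
      have hdist : ‖Y x z - X x‖ ≤ 2 * |x - τs| := by
        have h1 := hY z x hx τs hτs
        have h2 := hX x hx τs hτs
        have h3 : Y x z - X x = (Y x z - Y τs z) - (X x - X τs) := by
          rw [hcol]; abel
        rw [h3]
        calc _ ≤ ‖Y x z - Y τs z‖ + ‖X x - X τs‖ := norm_sub_le _ _
          _ ≤ 2 * |x - τs| := by linarith
      rw [norm_inv, Real.norm_eq_abs]
      rcases lt_or_ge (2 * |x - τs|) 1 with hlt | hge
      · by_cases hx0 : x = τs
        · subst hx0; simp
        have hpos : 0 < |x - τs| := abs_pos.mpr (sub_ne_zero.mpr hx0)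
        have hmem : Y x z - X x ∈ ball (0 : R3) 1 := by
          rw [mem_ball_zero_iff]; linarith
        have hgx : g x z = (‖Y x z - X x‖ₑ⁻¹) ^ 1 := by
          simp only [hg]; rw [indicator_of_mem hmem]
        by_cases hn : ‖Y x z - X x‖ = 0
        · have : ‖Y x z - X x‖ₑ = 0 := by rw [← ofReal_norm, hn]; simp
          rw [hgx, this]; simp
        · have hn' : 0 < ‖Y x z - X x‖ := lt_of_le_of_ne (norm_nonneg _) (Ne.symm hn)
          rw [hgx, pow_one]
          have : |x - τs|⁻¹ ≤ 2 * ‖Y x z - X x‖⁻¹ := by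
            rw [← div_eq_mul_inv, le_div_iff₀ hn', inv_mul_le_iff₀ hpos]
            linarith
          calc ENNReal.ofReal (|x - τs|⁻¹) ≤ ENNReal.ofReal (2 * ‖Y x z - X x‖⁻¹) :=
                ENNReal.ofReal_le_ofReal this
            _ = 2 * ‖Y x z - X x‖ₑ⁻¹ := by
                rw [ENNReal.ofReal_mul (by norm_num), ENNReal.ofReal_inv_of_pos hn', ofReal_norm]
                simp
            _ ≤ _ := le_self_add
      · have : |x - τs|⁻¹ ≤ 2 := by
          rw [inv_le_comm₀ (by linarith) (by norm_num)]; linarith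
        calc ENNReal.ofReal (|x - τs|⁻¹) ≤ ENNReal.ofReal 2 := ENNReal.ofReal_le_ofReal this
          _ = 2 := by simp
          _ ≤ _ := le_add_self
    have hgz : Measurable (fun x => g x z) := by
      have : Measurable (fun x => Function.uncurry g (x, z)) := hgm.comp measurable_prodMk_right
      exact this
    calc ∫⁻ x in Icc a b, ENNReal.ofReal ‖(x - τs)⁻¹‖
        ≤ ∫⁻ x in Icc a b, (2 * g x z + 2) := setLIntegral_mono (by fun_prop) hdom
      _ = 2 * (∫⁻ x in Icc a b, g x z) + 2 * volume (Icc a b) := by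
          rw [lintegral_add_right _ measurable_const, lintegral_const_mul _ hgz, setLIntegral_const]
      _ < ∞ := by
          refine ENNReal.add_lt_top.mpr ⟨ENNReal.mul_lt_top (by simp) hz,
            ENNReal.mul_lt_top (by simp) (by simp)⟩

end Crest.Agent.R106.Mix
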