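/-
Row 106, node HSMALL (helper151): the nodes `LocP` and `LipP` of `MomIface` (version 2)
(for a fixed `T' < T`; the constants depend on the solution on `[0, T']`).
Only the classical-solution hypothesis is used.
-/
import Mathlib
import Crest.Prelude.Def_VlasovMaxwell
import Crest.Agent.R106.MomIface
import Crest.Agent.R106.MixNoColl

set_option autoImplicit false

open MeasureTheory Set Filter Topology Metric
open Crest.AnalysisR.VecCalc3 Crest.AnalysisR.PDE.RVM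
open scoped InnerProductSpace ENNReal ContDiff

noncomputable section

namespace Crest.Agent.R106.HSmall

open Crest.Agent.R106.GSR (gam acc lor)
open Crest.Agent.R106.Mom

/-! ### elementary vector facts -/

theorem norm_cross3_le (a b : R3) : ‖cross3 a b‖ ≤ ‖a‖ * ‖b‖ := by
  have h : ‖cross3 a b‖ ^ 2 ≤ (‖a‖ * ‖b‖) ^ 2 := by
    rw [mul_pow, EuclideanSpace.norm_sq_eq, EuclideanSpace.norm_sq_eq, EuclideanSpace.norm_sq_eq]
    simp only [Fin.sum_univ_three, Real.norm_eq_abs, sq_abs, cross3]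
    simp only [Matrix.cons_val_zero, Matrix.cons_val_one, Matrix.cons_val]
    nlinarith [sq_nonneg (a 0 * b 0 + a 1 * b 1 + a 2 * b 2)]
  exact le_of_sq_le_sq h (by positivity)

theorem gam_pos (v : R3) : 0 < gam v := Real.sqrt_pos.mpr (by positivity)

theorem one_le_gam (v : R3) : 1 ≤ gam v := Real.one_le_sqrt.mpr (by nlinarith [sq_nonneg ‖v‖])

theorem gam_sq (v : R3) : gam v ^ 2 = 1 + ‖v‖ ^ 2 := Real.sq_sqrt (by positivity)

theorem norm_lt_gam (v : R3) : ‖v‖ < gam v :=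
  Real.lt_sqrt_of_sq_lt (by linarith)

theorem gam_le_one_add (v : R3) : gam v ≤ 1 + ‖v‖ :=
  Real.sqrt_le_iff.mpr ⟨by positivity, by nlinarith [norm_nonneg v]⟩

theorem relVel_eq (v : R3) : relVel v = (gam v)⁻¹ • v := rfl

theorem norm_relVel (v : R3) : ‖relVel v‖ = ‖v‖ / gam v := by
  rw [relVel_eq, norm_smul, norm_inv, Real.norm_eq_abs, abs_of_pos (gam_pos v)]
  field_simp

theorem norm_relVel_lt (v : R3) : ‖relVel v‖ < 1 := by
  rw [norm_relVel, div_lt_one (gam_pos v)]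
  exact norm_lt_gam v

theorem one_sub_norm_relVel (v : R3) : 1 / (2 * gam v ^ 2) ≤ 1 - ‖relVel v‖ := by
  have h1 := gam_pos v
  have h2 := norm_lt_gam v
  have h3 := gam_sq v
  have h4 := norm_nonneg v
  rw [norm_relVel, div_le_iff₀ (by positivity)]
  have : (1 - ‖v‖ / gam v) * (2 * gam v ^ 2) = 2 * gam v * (gam v - ‖v‖) := by
    field_simp
  rw [this]
  nlinarith

theorem one_sub_inner_relVel {n : R3} (hn : ‖n‖ ≤ 1) (v : R3) :
    1 / (2 * gam v ^ 2) ≤ 1 - ⟪n, relVel v⟫_ℝ ∧ 1 - ⟪n, relVel v⟫_ℝ ≤ 2 := by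
  have h1 := abs_real_inner_le_norm n (relVel v)
  have h2 := one_sub_norm_relVel v
  have h3 := (norm_relVel_lt v).le
  have h4 : ‖n‖ * ‖relVel v‖ ≤ ‖relVel v‖ := by nlinarith [norm_nonneg (relVel v)]
  have h5 := (abs_le.mp (h1.trans h4))
  constructor <;> linarith [h5.1, h5.2]

theorem norm_lor_le (E B : ℝ → R3 → R3) (t : ℝ) (x p : R3) :
    ‖lor E B t x p‖ ≤ ‖E t x‖ + ‖B t x‖ := by
  unfold lor
  refine (norm_add_le _ _).trans (add_le_add le_rfl ((norm_cross3_le _ _).trans ?_))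
  have := (norm_relVel_lt p).le
  nlinarith [norm_nonneg (B t x)]

/-! ### bounds of the solution on compact time intervals -/

section Sol

variable {T : ℝ} {f₀ : R3 → R3 → ℝ} {E₀ B₀ : R3 → R3} {f : ℝ → R3 → R3 → ℝ} {E B : ℝ → R3 → R3}

theorem exists_field_bound (h : IsClassicalSolutionOn T f₀ E₀ B₀ f E B) {T' : ℝ}
    (hT' : T' < T) (R : ℝ) :
    ∃ M : ℝ, 0 ≤ M ∧ ∀ t ∈ Icc 0 T', ∀ x : R3, ‖x‖ ≤ R → ‖E t x‖ ≤ M ∧ ‖B t x‖ ≤ M := by
  have hc : IsCompact (Icc (0 : ℝ) T' ×ˢ closedBall (0 : R3) R) :=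
    isCompact_Icc.prod (isCompact_closedBall _ _)
  have hsub : Icc (0 : ℝ) T' ×ˢ closedBall (0 : R3) R ⊆ Ico 0 T ×ˢ univ :=
    prod_mono (fun t ht => ⟨ht.1, ht.2.trans_lt hT'⟩) (subset_univ _)
  obtain ⟨M1, hM1⟩ := hc.exists_bound_of_continuousOn (h.2.1.continuousOn.mono hsub)
  obtain ⟨M2, hM2⟩ := hc.exists_bound_of_continuousOn (h.2.2.1.continuousOn.mono hsub)
  refine ⟨max 0 (max M1 M2), le_max_left _ _, fun t ht x hx => ?_⟩
  have hm : ((t, x) : ℝ × R3) ∈ Icc (0 : ℝ) T' ×ˢ closedBall (0 : R3) R :=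
    ⟨ht, by simpa using hx⟩
  exact ⟨(hM1 _ hm).trans ((le_max_left _ _).trans (le_max_right _ _)),
    (hM2 _ hm).trans ((le_max_right _ _).trans (le_max_right _ _))⟩

theorem exists_f_bound (h : IsClassicalSolutionOn T f₀ E₀ B₀ f E B) {T' : ℝ}
    (h0 : 0 ≤ T') (hT' : T' < T) :
    ∃ M R : ℝ, 0 ≤ M ∧ 0 ≤ R ∧ (∀ t ∈ Icc 0 T', ∀ x v : R3, f t x v ≤ M) ∧
      ∀ t ∈ Icc 0 T', ∀ x v : R3, (R < ‖x‖ ∨ R < ‖v‖) → f t x v = 0 := by
  obtain ⟨R, hR⟩ := h.2.2.2.2.2.2.2.1 T' h0 hT'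
  have hc : IsCompact (Icc (0 : ℝ) T' ×ˢ (closedBall (0 : R3) R ×ˢ closedBall (0 : R3) R)) :=
    isCompact_Icc.prod ((isCompact_closedBall _ _).prod (isCompact_closedBall _ _))
  have hsub : Icc (0 : ℝ) T' ×ˢ (closedBall (0 : R3) R ×ˢ closedBall (0 : R3) R) ⊆
      Ico 0 T ×ˢ univ :=
    prod_mono (fun t ht => ⟨ht.1, ht.2.trans_lt hT'⟩) (subset_univ _)
  obtain ⟨M, hM⟩ := hc.exists_bound_of_continuousOn (h.1.continuousOn.mono hsub)
  refine ⟨max 0 M, max 0 R, le_max_left _ _, le_max_left _ _, fun t ht x v => ?_,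
    fun t ht x v hxv => ?_⟩
  · by_cases hxv : R < ‖x‖ ∨ R < ‖v‖
    · rw [hR t ht x v hxv]; exact le_max_left _ _
    · push Not at hxv
      have hm : ((t, x, v) : ℝ × R3 × R3) ∈
          Icc (0 : ℝ) T' ×ˢ (closedBall (0 : R3) R ×ˢ closedBall (0 : R3) R) :=
        ⟨ht, by simpa using hxv.1, by simpa using hxv.2⟩
      exact (le_abs_self _).trans ((hM _ hm).trans (le_max_right _ _))
  · exact hR t ht x v (hxv.imp (fun h => (le_max_right _ _).trans_lt h)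
      (fun h => (le_max_right _ _).trans_lt h))

/-- Lipschitz bound along a curve that is differentiable in the open interval. -/
theorem norm_sub_le_of_deriv {φ φ' : ℝ → R3} {C : ℝ} {a b : ℝ} (hab : a ≤ b)
    (hc : ContinuousOn φ (Icc a b)) (hd : ∀ s ∈ Ioo a b, HasDerivAt φ (φ' s) s)
    (hC : ∀ s ∈ Ioo a b, ‖φ' s‖ ≤ C) : ‖φ b - φ a‖ ≤ C * (b - a) := by
  rcases hab.eq_or_lt with rfl | hab
  · simp
  have key : ∀ s ∈ Ioo a b, ∀ t ∈ Ioo a b, ‖φ t - φ s‖ ≤ C * ‖t - s‖ := by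
    intro s hs t ht
    exact Convex.norm_image_sub_le_of_norm_hasDerivWithin_le
      (fun x hx => (hd x hx).hasDerivWithinAt) hC (convex_Ioo a b) hs ht
  have hcl : closure (Ioo a b) = Icc a b := closure_Ioo hab.ne
  -- fix t, let s → a
  have h1 : ∀ t ∈ Ioo a b, ‖φ t - φ a‖ ≤ C * ‖t - a‖ := by
    intro t ht
    have l1 : Tendsto (fun s => ‖φ t - φ s‖) (𝓝[Ioo a b] a) (𝓝 ‖φ t - φ a‖) := by
      have : Tendsto φ (𝓝[Ioo a b] a) (𝓝 (φ a)) :=
        (hc a (left_mem_Icc.mpr hab.le)).mono_left (nhdsWithin_mono _ Ioo_subset_Icc_self)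
      exact (tendsto_const_nhds.sub this).norm
    have l2 : Tendsto (fun s => C * ‖t - s‖) (𝓝[Ioo a b] a) (𝓝 (C * ‖t - a‖)) := by
      have : Continuous (fun s : ℝ => C * ‖t - s‖) := by fun_prop
      exact (this.tendsto a).mono_left nhdsWithin_le_nhds
    have : (𝓝[Ioo a b] a).NeBot := by
      rw [← mem_closure_iff_nhdsWithin_neBot, hcl]; exact left_mem_Icc.mpr hab.le
    exact le_of_tendsto_of_tendsto l1 l2
      (eventually_mem_nhdsWithin.mono fun s hs => key s hs t ht)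
  have l1 : Tendsto (fun t => ‖φ t - φ a‖) (𝓝[Ioo a b] b) (𝓝 ‖φ b - φ a‖) := by
    have : Tendsto φ (𝓝[Ioo a b] b) (𝓝 (φ b)) :=
      (hc b (right_mem_Icc.mpr hab.le)).mono_left (nhdsWithin_mono _ Ioo_subset_Icc_self)
    exact (this.sub tendsto_const_nhds).norm
  have l2 : Tendsto (fun t => C * ‖t - a‖) (𝓝[Ioo a b] b) (𝓝 (C * ‖b - a‖)) := by
    have : Continuous (fun t : ℝ => C * ‖t - a‖) := by fun_prop
    exact (this.tendsto b).mono_left nhdsWithin_le_nhds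
  have : (𝓝[Ioo a b] b).NeBot := by
    rw [← mem_closure_iff_nhdsWithin_neBot, hcl]; exact right_mem_Icc.mpr hab.le
  have := le_of_tendsto_of_tendsto l1 l2 (eventually_mem_nhdsWithin.mono h1)
  rwa [Real.norm_of_nonneg (sub_nonneg.mpr hab.le)] at this

/-- characteristics starting in the support stay in a fixed ball, and so does their momentum -/
theorem char_bounds (hT : 0 < T) (h : IsClassicalSolutionOn T f₀ E₀ B₀ f E B) {T' : ℝ}
    (h0 : 0 ≤ T') (hT' : T' < T) :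
    ∃ RX RP M : ℝ, 0 ≤ RX ∧ 0 ≤ RP ∧ 0 ≤ M ∧ ∀ X p : ℝ → R3, IsChar T f E B X p →
      ∀ s ∈ Icc 0 T', ‖X s‖ ≤ RX ∧ ‖p s‖ ≤ RP ∧ ‖lor E B s (X s) (p s)‖ ≤ M := by
  obtain ⟨-, R0, -, hR0, -, hsupp⟩ := exists_f_bound h le_rfl hT
  obtain ⟨M, hM0, hM⟩ := exists_field_bound h hT' (R0 + T')
  refine ⟨R0 + T', R0 + 2 * M * T', 2 * M, by positivity, by positivity, by positivity,
    fun X p hXp s hs => ?_⟩
  have hst : s < T := hs.2.trans_lt hT'
  -- starting point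
  have hstart : ‖X 0‖ ≤ R0 ∧ ‖p 0‖ ≤ R0 := by
    by_contra hcon
    apply hXp.supp
    apply hsupp 0 ⟨le_rfl, le_rfl⟩
    by_contra hh
    push Not at hh
    exact hcon hh
  -- positions
  have hX : ∀ t ∈ Icc 0 s, ‖X t‖ ≤ R0 + T' := by
    intro t ht
    have htT : t < T := ht.2.trans_lt hst
    have h1 : ‖X t - X 0‖ ≤ 1 * (t - 0) :=
      norm_sub_le_of_deriv ht.1
        (hXp.cX.mono fun r hr => ⟨hr.1, hr.2.trans_lt htT⟩)
        (fun r hr => hXp.dX r ⟨hr.1, hr.2.trans htT⟩) (fun r _ => (norm_relVel_lt _).le)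
    have h2 : ‖X t‖ ≤ ‖X 0‖ + ‖X t - X 0‖ := by
      calc ‖X t‖ = ‖X 0 + (X t - X 0)‖ := by congr 1; abel
        _ ≤ _ := norm_add_le _ _
    linarith [hstart.1, ht.2, hs.2]
  have hF : ∀ t ∈ Icc 0 s, ‖lor E B t (X t) (p t)‖ ≤ 2 * M := by
    intro t ht
    have := hM t ⟨ht.1, ht.2.trans hs.2⟩ (X t) (hX t ht)
    linarith [norm_lor_le E B t (X t) (p t), this.1, this.2]
  have hp : ‖p s - p 0‖ ≤ 2 * M * (s - 0) :=
    norm_sub_le_of_deriv hs.1 (hXp.cp.mono fun r hr => ⟨hr.1, hr.2.trans_lt hst⟩)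
      (fun r hr => hXp.dp r ⟨hr.1, hr.2.trans hst⟩) (fun r hr => hF r ⟨hr.1.le, hr.2.le⟩)
  have h2 : ‖p s‖ ≤ ‖p 0‖ + ‖p s - p 0‖ := by
    calc ‖p s‖ = ‖p 0 + (p s - p 0)‖ := by congr 1; abel
      _ ≤ _ := norm_add_le _ _
  refine ⟨hX s ⟨hs.1, le_rfl⟩, ?_, hF s ⟨hs.1, le_rfl⟩⟩
  have : 2 * M * (s - 0) ≤ 2 * M * T' := by
    apply mul_le_mul_of_nonneg_left _ (by positivity); linarith [hs.2]
  linarith [hstart.2]

/-- local bounds of the energies and of the force along characteristics -/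
theorem locEn (hT : 0 < T) (h : IsClassicalSolutionOn T f₀ E₀ B₀ f E B) :
    ∀ T' : ℝ, 0 ≤ T' → T' < T → ∃ C : ℝ, ∀ X p : ℝ → R3, IsChar T f E B X p →
      ∀ s ∈ Icc 0 T', gam (p s) ≤ C ∧ ‖lor E B s (X s) (p s)‖ ≤ C := by
  intro T' h0 hT'
  obtain ⟨RX, RP, M, -, hRP, hM0, hb⟩ := char_bounds hT h h0 hT'
  refine ⟨max (1 + RP) M, fun X p hXp s hs => ?_⟩
  obtain ⟨-, h2, h3⟩ := hb X p hXp s hs
  exact ⟨((gam_le_one_add _).trans (by linarith)).trans (le_max_left _ _),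
    h3.trans (le_max_right _ _)⟩

/-- node `LipP` of `MomIface`. -/
theorem lipP (hT : 0 < T) (h : IsClassicalSolutionOn T f₀ E₀ B₀ f E B) : LipP T f E B := by
  refine ⟨fun t ht => ?_, ?_⟩
  · rcases lt_or_ge t 0 with h0 | h0
    · refine ⟨0, fun ξ s hs => ?_⟩
      exact absurd (hs.1.trans hs.2) (not_le.mpr h0)
    · obtain ⟨RX, RP, M, -, -, hM0, hb⟩ := char_bounds hT h h0 ht
      refine ⟨M, fun ξ => ?_⟩
      have key : ∀ s ∈ Icc 0 t, ∀ s' ∈ Icc 0 t, s ≤ s' → ‖mom ξ s' - mom ξ s‖ ≤ M * (s' - s) := by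
        intro s hs s' hs' hss
        exact norm_sub_le_of_deriv hss
          (ξ.2.cp.mono fun r hr => ⟨hs.1.trans hr.1, (hr.2.trans hs'.2).trans_lt ht⟩)
          (fun r hr => ξ.2.dp r ⟨hs.1.trans_lt hr.1, (hr.2.trans_le hs'.2).trans ht⟩)
          (fun r hr => (hb ξ.1.1 ξ.1.2 ξ.2 r
            ⟨hs.1.trans hr.1.le, hr.2.le.trans hs'.2⟩).2.2)
      intro s hs s' hs'
      rcases le_total s s' with hss | hss
      · rw [norm_sub_rev, abs_sub_comm, abs_of_nonneg (sub_nonneg.mpr hss)]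
        exact key s hs s' hs' hss
      · rw [abs_of_nonneg (sub_nonneg.mpr hss)]
        exact key s' hs' s hs hss
  · obtain ⟨RX, RP, M, -, -, hM0, hb⟩ := char_bounds hT h le_rfl hT
    exact ⟨RP, fun ξ => (hb ξ.1.1 ξ.1.2 ξ.2 0 ⟨le_rfl, le_rfl⟩).2.1⟩

end Sol

/-! ### the kernels on a bounded region -/

section Kernel

variable {G d e g R : ℝ}

theorem inv_le_of_half {G e : ℝ} (hG : 1 ≤ G) (he : 1 / (2 * G ^ 2) ≤ e) : e⁻¹ ≤ 2 * G ^ 2 := by
  have h1 : 0 < 1 / (2 * G ^ 2) := by positivity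
  calc e⁻¹ ≤ (1 / (2 * G ^ 2))⁻¹ := inv_anti₀ h1 he
    _ = 2 * G ^ 2 := by rw [one_div, inv_inv]

theorem sqrt_mul_le_two (hd0 : 0 ≤ d) (hd : d ≤ 2) (he : e ≤ 2) : √(d * e) ≤ 2 := by
  rw [Real.sqrt_le_left (by norm_num)]
  nlinarith

theorem sqrt_le_two (hd : d ≤ 2) : √d ≤ 2 := by
  rw [Real.sqrt_le_left (by norm_num)]; linarith

theorem quad_le (hG : 1 ≤ G) (hd1 : 1 / (2 * G ^ 2) ≤ d) (hd : d ≤ 2)
    (he1 : 1 / (2 * G ^ 2) ≤ e) (he : e ≤ 2) (hg : 1 ≤ g) (hR : 0 < R) :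
    (e + √(d * e)) / (g ^ 2 * e ^ 2 * R ^ 2) ≤ 16 * G ^ 4 / R ^ 2 := by
  have hpos : 0 < 1 / (2 * G ^ 2) := by positivity
  have he0 : 0 < e := hpos.trans_le he1
  have hd0 : 0 < d := hpos.trans_le hd1
  have h1 := inv_le_of_half hG he1
  have h2 := sqrt_mul_le_two hd0.le hd he
  have h3 : (g ^ 2)⁻¹ ≤ 1 := inv_le_one_of_one_le₀ (by nlinarith)
  have h4 : (e⁻¹) ^ 2 ≤ (2 * G ^ 2) ^ 2 := pow_le_pow_left₀ (by positivity) h1 2
  have h5 : (e + √(d * e)) / (g ^ 2 * e ^ 2 * R ^ 2)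
      = (e + √(d * e)) * (g ^ 2)⁻¹ * (e⁻¹) ^ 2 / R ^ 2 := by
    field_simp
  rw [h5]
  refine div_le_div_of_nonneg_right ?_ (by positivity)
  calc (e + √(d * e)) * (g ^ 2)⁻¹ * (e⁻¹) ^ 2 ≤ (2 + 2) * 1 * (2 * G ^ 2) ^ 2 := by
        gcongr
    _ = 16 * G ^ 4 := by ring

theorem lin_le (hG : 1 ≤ G) (hd : d ≤ 2) (he1 : 1 / (2 * G ^ 2) ≤ e) (hg : 1 ≤ g) (hR : 0 < R)
    {S F M : ℝ} (hS : R ≤ S) (hF0 : 0 ≤ F) (hF : F ≤ M) :
    √d / (g * e * R) * F ≤ 4 * G ^ 2 * S * M / R ^ 2 := by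
  have hpos : 0 < 1 / (2 * G ^ 2) := by positivity
  have he0 : 0 < e := hpos.trans_le he1
  have h1 := inv_le_of_half hG he1
  have h2 := sqrt_le_two hd
  have h3 : g⁻¹ ≤ 1 := inv_le_one_of_one_le₀ hg
  have h5 : √d / (g * e * R) * F = √d * g⁻¹ * e⁻¹ * R * F / R ^ 2 := by
    field_simp
  rw [h5]
  refine div_le_div_of_nonneg_right ?_ (by positivity)
  have hS0 : 0 ≤ S := hR.le.trans hS
  calc √d * g⁻¹ * e⁻¹ * R * F ≤ 2 * 1 * (2 * G ^ 2) * S * M := by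
        gcongr
    _ = 4 * G ^ 2 * S * M := by ring

theorem kcut_le (hG : 1 ≤ G) (hd1 : 1 / (2 * G ^ 2) ≤ d) (he1 : 1 / (2 * G ^ 2) ≤ e)
    {D : ℝ} (hD : D ≤ 2) : kcut d e D R ≤ 2 * G / R ^ 2 := by
  have h1 := inv_le_of_half hG (le_min hd1 he1)
  have hpos : 0 < 1 / (2 * G ^ 2) := by positivity
  have hm : 0 < min d e := hpos.trans_le (le_min hd1 he1)
  unfold kcut
  gcongr
  rw [Real.sqrt_le_left (by positivity), div_eq_mul_inv]
  calc D * (min d e)⁻¹ ≤ 2 * (2 * G ^ 2) := by gcongr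
    _ = (2 * G) ^ 2 := by ring

end Kernel

/-! ### the `hden` bound -/

/-- constant in the bound of `hden` -/
def Ck (G S M : ℝ) : ℝ := 2 * (16 * G ^ 4 + 4 * G ^ 2 * S * M) + 2 * G

theorem Ck_pos {G S M : ℝ} (hG : 1 ≤ G) (hS : 0 ≤ S) (hM : 0 ≤ M) : 0 < Ck G S M := by
  unfold Ck; positivity

theorem norm_nn_le (X : ℝ → R3) (s : ℝ) (y : R3) : ‖nn X s y‖ ≤ 1 := by
  unfold nn
  rw [norm_smul, norm_inv, norm_norm]
  rcases eq_or_ne (‖X s - y‖) 0 with h | h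
  · simp [h]
  · rw [inv_mul_cancel₀ h]

theorem half_mono {G g : ℝ} (hg : 1 ≤ g) (hgG : g ≤ G) {e : ℝ} (he : 1 / (2 * g ^ 2) ≤ e) :
    1 / (2 * G ^ 2) ≤ e := by
  refine le_trans ?_ he
  apply one_div_le_one_div_of_le (by positivity)
  gcongr

theorem hden_le {E B : ℝ → R3 → R3} {lam Qs : ℝ} {X p : ℝ → R3} {s : ℝ} {q : R3 × R3}
    {G S M : ℝ} (hGp : gam (p s) ≤ G) (hGq : gam q.2 ≤ G)
    (hR : 0 < Rr X s q.1) (hS : Rr X s q.1 ≤ S)
    (hF : Fsrc E B X s q ≤ M) (hFt : Ftest E B X p s ≤ M) :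
    hden E B lam Qs X p s q ≤ Ck G S M / Rr X s q.1 ^ 2 := by
  have g1 := one_le_gam q.2
  have G1 := one_le_gam (p s)
  have hG : 1 ≤ G := g1.trans hGq
  have hn := norm_nn_le X s q.1
  obtain ⟨hd1, hd⟩ := one_sub_inner_relVel hn (p s)
  obtain ⟨he1, he⟩ := one_sub_inner_relVel hn q.2
  obtain ⟨-, hD⟩ := one_sub_inner_relVel (norm_relVel_lt (p s)).le q.2
  have hd1' := half_mono G1 hGp hd1
  have he1' := half_mono g1 hGq he1
  have hF0 : 0 ≤ Fsrc E B X s q := norm_nonneg _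
  have hFt0 : 0 ≤ Ftest E B X p s := norm_nonneg _
  have hS0 : 0 ≤ S := hR.le.trans hS
  have hM0 : 0 ≤ M := hF0.trans hF
  -- single kernels
  have b1 : kT (dl X p s q.1) (ep X s q.1 q.2) (gam q.2) (Rr X s q.1)
      ≤ 16 * G ^ 4 / Rr X s q.1 ^ 2 := quad_le hG hd1' hd he1' he g1 hR
  have b2 : kS (dl X p s q.1) (ep X s q.1 q.2) (gam q.2) (Rr X s q.1) * Fsrc E B X s q
      ≤ 4 * G ^ 2 * S * M / Rr X s q.1 ^ 2 := lin_le hG hd he1' g1 hR hS hF0 hF
  have b3 : kGam (dl X p s q.1) (ep X s q.1 q.2) (gam (p s)) (Rr X s q.1)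
      ≤ 16 * G ^ 4 / Rr X s q.1 ^ 2 := by
    have := quad_le (d := ep X s q.1 q.2) (e := dl X p s q.1) hG he1' he hd1' hd G1 hR
    unfold kGam
    rwa [mul_comm (dl X p s q.1) (ep X s q.1 q.2)]
  have b4 : kC (dl X p s q.1) (ep X s q.1 q.2) (gam (p s)) (Rr X s q.1) * Ftest E B X p s
      ≤ 4 * G ^ 2 * S * M / Rr X s q.1 ^ 2 := lin_le hG he hd1' G1 hR hS hFt0 hFt
  have b5 : kcut (dl X p s q.1) (ep X s q.1 q.2) (Dd p s q.2) (Rr X s q.1)
      ≤ 2 * G / Rr X s q.1 ^ 2 := kcut_le hG hd1' he1' hD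
  have hR2 : 0 < Rr X s q.1 ^ 2 := by positivity
  have n1 : 0 ≤ 16 * G ^ 4 / Rr X s q.1 ^ 2 := by positivity
  have n2 : 0 ≤ 4 * G ^ 2 * S * M / Rr X s q.1 ^ 2 := by positivity
  have n3 : 0 ≤ 2 * G / Rr X s q.1 ^ 2 := by positivity
  have hsum : Ck G S M / Rr X s q.1 ^ 2 =
      (16 * G ^ 4 / Rr X s q.1 ^ 2 + 4 * G ^ 2 * S * M / Rr X s q.1 ^ 2)
      + (16 * G ^ 4 / Rr X s q.1 ^ 2 + 4 * G ^ 2 * S * M / Rr X s q.1 ^ 2)
      + 2 * G / Rr X s q.1 ^ 2 := by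
    unfold Ck; ring
  rw [hsum]
  unfold hden
  refine add_le_add (add_le_add ?_ ?_) ?_
  · split_ifs
    · exact add_le_add b1 b2
    · positivity
  · split_ifs
    · exact add_le_add b3 b4
    · positivity
  · split_ifs
    · exact b5
    · positivity

/-! ### the singular integral -/

theorem lintegral_ball_inv_sq (x : R3) {s S : ℝ} (hs : s ≤ S) :
    ∫⁻ y in ball x s, (‖x - y‖ₑ⁻¹) ^ 2 ≤ ∫⁻ z in ball (0 : R3) S, (‖z‖ₑ⁻¹) ^ 2 := by
  rw [← lintegral_indicator measurableSet_ball, ← lintegral_indicator measurableSet_ball]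
  have h1 : ∀ y, (ball x s).indicator (fun y => (‖x - y‖ₑ⁻¹) ^ 2) y
      ≤ (ball (0 : R3) S).indicator (fun z => (‖z‖ₑ⁻¹) ^ 2) (x - y) := by
    intro y
    by_cases hy : y ∈ ball x s
    · have h2 : x - y ∈ ball (0 : R3) S := by
        rw [mem_ball, dist_comm, dist_eq_norm] at hy
        rw [mem_ball_zero_iff]
        linarith
      rw [indicator_of_mem hy, indicator_of_mem h2]
    · rw [indicator_of_notMem hy]; positivity
  calc _ ≤ ∫⁻ y, (ball (0 : R3) S).indicator (fun z => (‖z‖ₑ⁻¹) ^ 2) (x - y) := lintegral_mono h1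
    _ = _ := lintegral_sub_left_eq_self _ x

/-- domination of the cone measure -/
theorem kap_le {f : ℝ → R3 → R3 → ℝ} {X : ℝ → R3} {s T' Mf RP : ℝ} (hs : s ∈ Icc 0 T')
    (hf : ∀ t ∈ Icc 0 T', ∀ x v : R3, f t x v ≤ Mf)
    (hsupp : ∀ t ∈ Icc 0 T', ∀ x v : R3, RP < ‖v‖ → f t x v = 0) :
    kap f X s ≤ ENNReal.ofReal Mf •
      (volume : Measure (R3 × R3)).restrict (ball (X s) s ×ˢ closedBall (0 : R3) RP) := by
  have hms : MeasurableSet ((univ : Set R3) ×ˢ closedBall (0 : R3) RP) :=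
    MeasurableSet.univ.prod measurableSet_closedBall
  have hmb : MeasurableSet (ball (X s) s ×ˢ (univ : Set R3)) :=
    measurableSet_ball.prod MeasurableSet.univ
  have h1 : kap f X s ≤ ((volume : Measure (R3 × R3)).restrict (ball (X s) s ×ˢ univ)).withDensity
      (((univ : Set R3) ×ˢ closedBall (0 : R3) RP).indicator (fun _ => ENNReal.ofReal Mf)) := by
    apply withDensity_mono
    filter_upwards [ae_restrict_mem hmb] with q hq
    have hq1 : ‖X s - q.1‖ < s := by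
      have := hq.1
      rwa [mem_ball, dist_comm, dist_eq_norm] at this
    have hret : ret X s q.1 ∈ Icc 0 T' := by
      unfold ret
      constructor
      · linarith
      · linarith [norm_nonneg (X s - q.1), hs.2]
    by_cases hq2 : q.2 ∈ closedBall (0 : R3) RP
    · rw [indicator_of_mem (show q ∈ (univ : Set R3) ×ˢ closedBall (0 : R3) RP from ⟨mem_univ _, hq2⟩)]
      exact ENNReal.ofReal_le_ofReal (hf _ hret _ _)
    · rw [mem_closedBall_zero_iff, not_le] at hq2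
      rw [hsupp _ hret _ _ hq2]
      simp
  refine h1.trans ?_
  rw [withDensity_indicator hms, withDensity_const, Measure.restrict_restrict hms]
  refine le_of_eq ?_
  congr 2
  ext q
  simp only [mem_inter_iff, mem_prod, mem_univ, true_and, and_true]
  tauto

section Sol2

variable {T : ℝ} {f₀ : R3 → R3 → ℝ} {E₀ B₀ : R3 → R3} {f : ℝ → R3 → R3 → ℝ} {E B : ℝ → R3 → R3}

theorem locP (hT : 0 < T) (h : IsClassicalSolutionOn T f₀ E₀ B₀ f E B) : LocP T f E B := by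
  intro T' h0 hT'
  obtain ⟨RX, RP, M, hRX, hRP, hM0, hb⟩ := char_bounds hT h h0 hT'
  obtain ⟨Mf, Rf, hMf, hRf, hf, hsupp⟩ := exists_f_bound h h0 hT'
  obtain ⟨M2, hM20, hM2⟩ := exists_field_bound h hT' (RX + T')
  set G : ℝ := 1 + max RP Rf with hG
  set Mm : ℝ := max M (2 * M2) with hMm
  set J : ℝ≥0∞ := ∫⁻ z in ball (0 : R3) T', (‖z‖ₑ⁻¹) ^ 2 with hJ
  have hJt : J < ⊤ := Crest.Agent.R106.Mix.lintegral_inv_enorm_pow_lt_top 2 le_rfl T'
  have hG1 : 1 ≤ G := by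
    have : 0 ≤ max RP Rf := hRP.trans (le_max_left _ _)
    linarith
  have hMm0 : 0 ≤ Mm := hM0.trans (le_max_left _ _)
  have hCk0 : 0 < Ck G T' Mm := Ck_pos hG1 h0 hMm0
  have hCk : 0 ≤ Ck G T' Mm := hCk0.le
  set K : ℝ≥0∞ := 1 + ENNReal.ofReal Mf * (ENNReal.ofReal (Ck G T' Mm) *
    (J * volume (closedBall (0 : R3) Rf))) with hK
  have hKt : K ≠ ⊤ := by
    rw [hK]
    refine ENNReal.add_ne_top.mpr ⟨ENNReal.one_ne_top, ?_⟩
    exact ENNReal.mul_ne_top ENNReal.ofReal_ne_top (ENNReal.mul_ne_top ENNReal.ofReal_ne_top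
      (ENNReal.mul_ne_top hJt.ne measure_closedBall_lt_top.ne))
  refine ⟨K.toReal, ENNReal.toReal_nonneg, fun X p hXp lam Qs _ _ s hs => ?_⟩
  rw [ENNReal.ofReal_toReal hKt, hK]
  unfold hh
  refine add_le_add le_rfl ?_
  obtain ⟨b1, b2, b3⟩ := hb X p hXp s hs
  have hGp : gam (p s) ≤ G := by
    refine (gam_le_one_add _).trans ?_
    have := le_max_left RP Rf
    linarith
  calc ∫⁻ q, ENNReal.ofReal (hden E B lam Qs X p s q) ∂(kap f X s)
      ≤ ∫⁻ q, ENNReal.ofReal (hden E B lam Qs X p s q) ∂(ENNReal.ofReal Mf •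
        (volume : Measure (R3 × R3)).restrict (ball (X s) s ×ˢ closedBall (0 : R3) Rf)) :=
        lintegral_mono' (kap_le hs hf (fun t ht x v hv => hsupp t ht x v (Or.inr hv))) le_rfl
    _ = ENNReal.ofReal Mf * ∫⁻ q in ball (X s) s ×ˢ closedBall (0 : R3) Rf,
          ENNReal.ofReal (hden E B lam Qs X p s q) := by
        rw [lintegral_smul_measure, smul_eq_mul]
    _ ≤ ENNReal.ofReal Mf * ∫⁻ q in ball (X s) s ×ˢ closedBall (0 : R3) Rf,
          ENNReal.ofReal (Ck G T' Mm) * (‖X s - q.1‖ₑ⁻¹) ^ 2 := by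
        gcongr ENNReal.ofReal Mf * ?_
        apply setLIntegral_mono (by fun_prop)
        intro q hq
        have hq1 : ‖X s - q.1‖ < s := by
          have := hq.1
          rwa [mem_ball, dist_comm, dist_eq_norm] at this
        have hq2 : ‖q.2‖ ≤ Rf := by simpa using hq.2
        rcases eq_or_ne (‖X s - q.1‖) 0 with hz | hz
        · have hz' : ‖X s - q.1‖ₑ = 0 := by
            rw [enorm_eq_zero]; exact norm_eq_zero.mp hz
          rw [hz']
          simp [ENNReal.mul_top, hCk0]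
        · have hR : 0 < Rr X s q.1 := lt_of_le_of_ne (norm_nonneg _) (Ne.symm hz)
          have hret : ret X s q.1 ∈ Icc 0 T' := by
            unfold ret
            constructor
            · linarith
            · linarith [norm_nonneg (X s - q.1), hs.2]
          have hy : ‖q.1‖ ≤ RX + T' := by
            have : ‖q.1‖ ≤ ‖X s‖ + ‖X s - q.1‖ := by
              calc ‖q.1‖ = ‖X s - (X s - q.1)‖ := by congr 1; abel
                _ ≤ _ := norm_sub_le _ _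
            linarith [hs.2]
          have hFs : Fsrc E B X s q ≤ Mm := by
            have h1 := norm_lor_le E B (ret X s q.1) q.1 q.2
            obtain ⟨h2, h3⟩ := hM2 _ hret _ hy
            unfold Fsrc
            exact (h1.trans (by linarith)).trans (le_max_right _ _)
          have hgq : gam q.2 ≤ G := by
            refine (gam_le_one_add _).trans ?_
            have := le_max_right RP Rf
            linarith
          have hmain := hden_le (lam := lam) (Qs := Qs) (S := T') hGp hgq hR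
            (hq1.le.trans hs.2) hFs (b3.trans (le_max_left _ _))
          calc ENNReal.ofReal (hden E B lam Qs X p s q)
              ≤ ENNReal.ofReal (Ck G T' Mm / Rr X s q.1 ^ 2) := ENNReal.ofReal_le_ofReal hmain
            _ = ENNReal.ofReal (Ck G T' Mm) * (‖X s - q.1‖ₑ⁻¹) ^ 2 := by
                rw [div_eq_mul_inv, ENNReal.ofReal_mul hCk, ← inv_pow,
                  ENNReal.ofReal_pow (inv_nonneg.mpr hR.le), ENNReal.ofReal_inv_of_pos hR]
                congr 3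
                rw [Rr, ofReal_norm]
    _ = ENNReal.ofReal Mf * (ENNReal.ofReal (Ck G T' Mm) *
          ((∫⁻ y in ball (X s) s, (‖X s - y‖ₑ⁻¹) ^ 2) * volume (closedBall (0 : R3) Rf))) := by
        congr 1
        rw [lintegral_const_mul _ (by fun_prop)]
        congr 1
        rw [Measure.volume_eq_prod, ← Measure.prod_restrict, lintegral_prod _ (by fun_prop)]
        simp only [lintegral_const, Measure.restrict_apply_univ]
        rw [lintegral_mul_const _ (by fun_prop)]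
    _ ≤ _ := by
        gcongr
        exact lintegral_ball_inv_sq (X s) hs.2

end Sol2

end Crest.Agent.R106.HSmall
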