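/- Row 106, node ITER-B0/B1 (helper562): pure real analysis of the uniform bounds. -/
import Mathlib

set_option autoImplicit false
open MeasureTheory Set intervalIntegral

namespace Crest.Agent.R106.IterNum

/-- the fixed-point majorant of `m ↦ C (1 + |∫_0^t m|)` -/
noncomputable def mst (C t : ℝ) : ℝ := C * Real.exp (C * |t|)

theorem continuous_mst (C : ℝ) : Continuous (mst C) := by
  unfold mst; fun_prop

theorem mst_nonneg {C : ℝ} (hC : 0 ≤ C) (t : ℝ) : 0 ≤ mst C t :=
  mul_nonneg hC (Real.exp_pos _).le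

theorem mst_even (C t : ℝ) : mst C (-t) = mst C t := by simp [mst]

theorem integral_mst_pos (C : ℝ) {t : ℝ} (ht : 0 ≤ t) :
    ∫ s in (0:ℝ)..t, mst C s = Real.exp (C * t) - 1 := by
  have h1 : ∫ s in (0:ℝ)..t, mst C s = ∫ s in (0:ℝ)..t, C * Real.exp (C * s) := by
    apply intervalIntegral.integral_congr
    intro s hs
    rw [uIcc_of_le ht] at hs
    simp only [mst, abs_of_nonneg hs.1]
  rw [h1]
  have h2 : ∀ s ∈ uIcc 0 t, HasDerivAt (fun s => Real.exp (C * s)) (C * Real.exp (C * s)) s := by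
    intro s _
    have h3 : HasDerivAt (fun s : ℝ => C * s) C s := by
      simpa using (hasDerivAt_id s).const_mul C
    simpa [mul_comm] using h3.exp
  rw [integral_eq_sub_of_hasDerivAt h2 ((by fun_prop : Continuous fun s : ℝ =>
    C * Real.exp (C * s)).intervalIntegrable _ _)]
  simp

theorem abs_integral_even {m : ℝ → ℝ} (hm : ∀ t, m (-t) = m t) (t : ℝ) :
    |∫ s in (0:ℝ)..t, m s| = |∫ s in (0:ℝ)..|t|, m s| := by
  rcases le_total 0 t with h | h
  · rw [abs_of_nonneg h]
  · rw [abs_of_nonpos h]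
    have h1 : ∫ s in (0:ℝ)..(-t), m s = ∫ s in (0:ℝ)..(-t), m (-s) := by
      simp only [hm]
    rw [h1, intervalIntegral.integral_comp_neg]
    simp only [neg_neg, neg_zero]
    rw [intervalIntegral.integral_symm, abs_neg]

theorem abs_integral_mst {C : ℝ} (hC : 0 ≤ C) (t : ℝ) :
    |∫ s in (0:ℝ)..t, mst C s| = Real.exp (C * |t|) - 1 := by
  rw [abs_integral_even (mst_even C), integral_mst_pos C (abs_nonneg t)]
  apply abs_of_nonneg
  have : 0 ≤ C * |t| := by positivity
  linarith [Real.one_le_exp this]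

theorem mst_fix {C : ℝ} (hC : 0 ≤ C) (t : ℝ) :
    C * (1 + |∫ s in (0:ℝ)..t, mst C s|) = mst C t := by
  rw [abs_integral_mst hC, mst]; ring

theorem mst_le {C T t : ℝ} (hC : 0 ≤ C) (ht : t ∈ Icc (-T) T) :
    mst C t ≤ C * Real.exp (C * T) := by
  have : |t| ≤ T := abs_le.2 ht
  unfold mst
  gcongr

/-- uniform bound of a sequence satisfying the step inequality. -/
theorem iter_unif {α : Type*} {T C : ℝ} (hC : 0 ≤ C) (K : ℕ → ℝ → α → ℝ)
    (h0 : ∀ t ∈ Icc (-T) T, ∀ x, K 0 t x ≤ C)
    (hs : ∀ n, ∀ m : ℝ → ℝ, Continuous m → (∀ t, 0 ≤ m t) →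
      (∀ s ∈ Icc (-T) T, ∀ x, K n s x ≤ m s) →
      ∀ t ∈ Icc (-T) T, ∀ x, K (n + 1) t x ≤ C * (1 + |∫ s in (0:ℝ)..t, m s|))
    (n : ℕ) : ∀ t ∈ Icc (-T) T, ∀ x, K n t x ≤ mst C t := by
  induction n with
  | zero =>
    intro t ht x
    refine (h0 t ht x).trans ?_
    unfold mst
    have : 0 ≤ C * |t| := by positivity
    nlinarith [Real.one_le_exp this]
  | succ n ih =>
    intro t ht x
    have h := hs n (mst C) (continuous_mst C) (mst_nonneg hC) ih t ht x
    rwa [mst_fix hC] at h

/-- the choice of `ε` in the logarithmic estimate. -/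
theorem log_choice {t T n1 c1 I : ℝ} (ht : 0 < t) (htT : t ≤ T) (hn1 : 0 ≤ n1) (hc1 : 0 ≤ c1)
    (hI : 0 ≤ I) (h : n1 ≤ c1 * Real.exp I) :
    0 < min t (1 / (1 + n1)) ∧ min t (1 / (1 + n1)) ≤ t ∧
      min t (1 / (1 + n1)) * n1 ≤ 1 ∧
      0 ≤ Real.log (t / min t (1 / (1 + n1))) ∧
      Real.log (t / min t (1 / (1 + n1))) ≤ T + c1 + I := by
  have h1 : 0 < 1 / (1 + n1) := by positivity
  have hε : 0 < min t (1 / (1 + n1)) := lt_min ht h1
  have hle : min t (1 / (1 + n1)) ≤ t := min_le_left _ _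
  refine ⟨hε, hle, ?_, ?_, ?_⟩
  · calc min t (1 / (1 + n1)) * n1 ≤ 1 / (1 + n1) * n1 := by
          gcongr; exact min_le_right _ _
      _ ≤ 1 := by
          rw [div_mul_eq_mul_div, one_mul, div_le_one (by positivity)]
          linarith
  · apply Real.log_nonneg
    rw [le_div_iff₀ hε]
    linarith
  · have hT : 0 ≤ T := ht.le.trans htT
    have h2 : t / min t (1 / (1 + n1)) ≤ (1 + T) * (1 + c1) * Real.exp I := by
      rw [div_le_iff₀ hε]
      rcases le_total t (1 / (1 + n1)) with h3 | h3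
      · rw [min_eq_left h3]
        have h4 : 1 ≤ (1 + T) * (1 + c1) * Real.exp I := by
          have a1 : 1 ≤ 1 + T := by linarith
          have a2 : 1 ≤ 1 + c1 := by linarith
          have a3 : 1 ≤ Real.exp I := Real.one_le_exp hI
          have := one_le_mul_of_one_le_of_one_le (one_le_mul_of_one_le_of_one_le a1 a2) a3
          simpa using this
        nlinarith
      · rw [min_eq_right h3]
        have h5 : 1 + n1 ≤ (1 + c1) * Real.exp I := by
          have a3 : 1 ≤ Real.exp I := Real.one_le_exp hI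
          nlinarith
        calc t ≤ (1 + T) := by linarith
          _ = (1 + T) * ((1 + n1) * (1 / (1 + n1))) := by
              rw [mul_one_div, div_self (by positivity), mul_one]
          _ ≤ (1 + T) * (((1 + c1) * Real.exp I) * (1 / (1 + n1))) := by gcongr
          _ = (1 + T) * (1 + c1) * Real.exp I * (1 / (1 + n1)) := by ring
    have h6 : 0 < t / min t (1 / (1 + n1)) := by positivity
    calc Real.log (t / min t (1 / (1 + n1))) ≤ Real.log ((1 + T) * (1 + c1) * Real.exp I) :=
          Real.log_le_log h6 h2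
      _ = Real.log (1 + T) + Real.log (1 + c1) + I := by
          rw [Real.log_mul (by positivity) (Real.exp_pos _).ne', Real.log_mul (by positivity)
            (by positivity), Real.log_exp]
      _ ≤ T + c1 + I := by
          have b1 := Real.log_le_sub_one_of_pos (by positivity : (0:ℝ) < 1 + T)
          have b2 := Real.log_le_sub_one_of_pos (by positivity : (0:ℝ) < 1 + c1)
          linarith

/-- `|∫_0^t (1 + n)| = |t| + |∫_0^t n|` for `n ≥ 0`. -/
theorem abs_integral_one_add {n : ℝ → ℝ} (hn : Continuous n) (hn0 : ∀ s, 0 ≤ n s) (t : ℝ) :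
    |∫ s in (0:ℝ)..t, (1 + n s)| = |t| + |∫ s in (0:ℝ)..t, n s| := by
  rw [intervalIntegral.integral_add (by simp) (hn.intervalIntegrable _ _)]
  simp only [intervalIntegral.integral_const, sub_zero, smul_eq_mul, mul_one]
  rcases le_total 0 t with h | h
  · have h1 : 0 ≤ ∫ s in (0:ℝ)..t, n s := intervalIntegral.integral_nonneg h (fun s _ => hn0 s)
    rw [abs_of_nonneg h, abs_of_nonneg h1, abs_of_nonneg (by positivity)]
  · have h1 : ∫ s in (0:ℝ)..t, n s ≤ 0 := by
      rw [intervalIntegral.integral_symm]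
      have := intervalIntegral.integral_nonneg (μ := volume) h (fun s _ => hn0 s)
      linarith
    rw [abs_of_nonpos h, abs_of_nonpos h1, abs_of_nonpos (by linarith)]
    ring

end Crest.Agent.R106.IterNum
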