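/- Row 106, nodes ITER-B0, ITER-B1 (helper562): `B0 <= FB`, `B1 <= FBlog, Tr1`. -/
import Crest.Agent.R106.StdIface
import Crest.Agent.R106.IterNum

set_option autoImplicit false
open MeasureTheory Set Filter Topology
open scoped ContDiff
open Crest.AnalysisR.VecCalc3 Crest.AnalysisR.PDE.RVM

namespace Crest.Agent.R106.Std

theorem FBd.mono {k : ℕ} {E B : ℝ → R3 → R3} {t c c' : ℝ} (h : FBd k E B t c) (hc : c ≤ c') :
    FBd k E B t c' := fun x => ⟨(h x).1.trans hc, (h x).2.trans hc⟩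

theorem FBt.mono {E B : ℝ → R3 → R3} {t c c' : ℝ} (h : FBt E B t c) (hc : c ≤ c') :
    FBt E B t c' := fun x => ⟨(h x).1.trans hc, (h x).2.trans hc⟩

theorem fBd.mono {k : ℕ} {f : ℝ → R3 → R3 → ℝ} {t c c' : ℝ} (h : fBd k f t c) (hc : c ≤ c') :
    fBd k f t c' := fun z => (h z).trans hc

theorem FBd.nonneg {k : ℕ} {E B : ℝ → R3 → R3} {t c : ℝ} (h : FBd k E B t c) : 0 ≤ c :=
  (norm_nonneg _).trans (h 0).1

/-- a truncated force is bounded -/
theorem IsTrunc.bdd {P : ℝ} {G : R3 → (R3 × R3) →L[ℝ] R3} (hG : IsTrunc P G) :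
    ∃ C : ℝ, 0 ≤ C ∧ ∀ v, ‖G v‖ ≤ C := by
  have h1 : HasCompactSupport G := by
    apply HasCompactSupport.of_support_subset_isCompact (isCompact_closedBall (0 : R3) (2 * P))
    intro v hv
    rw [mem_closedBall_zero_iff]
    by_contra h
    exact hv (hG.supp v (not_le.1 h).le)
  obtain ⟨C, hC⟩ := h1.exists_bound_of_continuous hG.smooth.continuous
  exact ⟨C, (norm_nonneg _).trans (hC 0), hC⟩

/-- the source `G_i f` of one step -/
noncomputable def gsrc (G : R3 → (R3 × R3) →L[ℝ] R3) (E B : ℝ → R3 → R3) (f : ℝ → R3 → R3 → ℝ)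
    (i : Fin 3) (t : ℝ) (x v : R3) : ℝ := (G v (E t x, B t x)) i * f t x v

theorem contDiff_force {P : ℝ} {G : R3 → (R3 × R3) →L[ℝ] R3} (hG : IsTrunc P G)
    {E B : ℝ → R3 → R3} (hE : ContDiff ℝ ∞ (fun p : ℝ × R3 => E p.1 p.2))
    (hB : ContDiff ℝ ∞ (fun p : ℝ × R3 => B p.1 p.2)) :
    ContDiff ℝ ∞ (fun p : ℝ × R3 × R3 => G p.2.2 (E p.1 p.2.1, B p.1 p.2.1)) := by
  have h1 : ContDiff ℝ ∞ (fun p : ℝ × R3 × R3 => G p.2.2) :=
    hG.smooth.comp (contDiff_snd.comp contDiff_snd)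
  have h2 : ContDiff ℝ ∞ (fun p : ℝ × R3 × R3 => E p.1 p.2.1) :=
    hE.comp (contDiff_fst.prodMk (contDiff_fst.comp contDiff_snd))
  have h3 : ContDiff ℝ ∞ (fun p : ℝ × R3 × R3 => B p.1 p.2.1) :=
    hB.comp (contDiff_fst.prodMk (contDiff_fst.comp contDiff_snd))
  exact h1.clm_apply (h2.prodMk h3)

theorem contDiff_coord {X : Type*} [NormedAddCommGroup X] [NormedSpace ℝ X] {F : X → R3}
    {n : WithTop ℕ∞} (hF : ContDiff ℝ n F) (i : Fin 3) : ContDiff ℝ n (fun x => F x i) :=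
  (EuclideanSpace.proj (𝕜 := ℝ) i : R3 →L[ℝ] ℝ).contDiff.comp hF

theorem pc_gsrc {P : ℝ} {G : R3 → (R3 × R3) →L[ℝ] R3} (hG : IsTrunc P G)
    {E B : ℝ → R3 → R3} (hE : SF E) (hB : SF B) {f : ℝ → R3 → R3 → ℝ} (hf : PC f) (i : Fin 3) :
    PC (gsrc G E B f i) := by
  refine ⟨?_, fun T => ?_⟩
  · exact (contDiff_coord (contDiff_force hG hE.1 hB.1) i).mul hf.1
  · obtain ⟨R, hR⟩ := hf.2 T
    exact ⟨R, fun t ht x v h => by simp [gsrc, hR t ht x v h]⟩

/-- momentum divergence of `G f`. -/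
theorem div_gsrc {P : ℝ} {G : R3 → (R3 × R3) →L[ℝ] R3} (hG : IsTrunc P G)
    {E B : ℝ → R3 → R3} {f : ℝ → R3 → R3 → ℝ} (hf : PC f) (t : ℝ) (x v : R3) :
    ∑ i : Fin 3, pderiv (fun w => gsrc G E B f i t x w) i v = Gv G E B f t x v := by
  have hfv : DifferentiableAt ℝ (fun w => f t x w) v := by
    have h1 : ContDiff ℝ ∞ (fun w : R3 => f t x w) :=
      hf.1.comp (contDiff_const.prodMk (contDiff_const.prodMk contDiff_id))
    exact (h1.differentiable (by simp)) v
  have hGv : ∀ i : Fin 3, DifferentiableAt ℝ (fun w => (G w (E t x, B t x)) i) v := by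
    intro i
    have h1 : ContDiff ℝ ∞ (fun w : R3 => G w (E t x, B t x)) :=
      hG.smooth.clm_apply contDiff_const
    exact ((contDiff_coord h1 i).differentiable (by simp)) v
  have hdiv := hG.divfree (E t x, B t x) v
  unfold div3 at hdiv
  unfold Gv
  have h2 : ∀ i : Fin 3, pderiv (fun w => gsrc G E B f i t x w) i v
      = (G v (E t x, B t x)) i * pderiv (fun w => f t x w) i v
        + f t x v * pderiv (fun w => (G w (E t x, B t x)) i) i v := by
    intro i
    unfold pderiv gsrc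
    rw [fderiv_fun_mul (hGv i) hfv]
    simp
  rw [Finset.sum_congr rfl fun i _ => h2 i, Finset.sum_add_distrib, ← Finset.mul_sum, hdiv]
  simp

theorem b0_of_fb (hFB : FB) : B0 := by
  intro P G hG f₀ E₀ B₀ hd T
  obtain ⟨hpos, hsm, hcs, hEs, hBs, hbd, -, -, -, -⟩ := id hd
  -- support radius of f₀ in v
  obtain ⟨R0, hR0⟩ := hcs.isCompact.isBounded.subset_closedBall (0 : R3 × R3)
  have hR0' : ∀ x v : R3, R0 < ‖v‖ → f₀ x v = 0 := by
    intro x v hv
    by_contra hne
    have h1 : (x, v) ∈ tsupport (Function.uncurry f₀) := subset_tsupport _ hne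
    have h2 := hR0 h1
    rw [mem_closedBall_zero_iff] at h2
    exact absurd ((norm_snd_le (x, v)).trans h2) (not_le.2 hv)
  set R : ℝ := max (2 * P) R0 with hRdef
  obtain ⟨F0, hF0⟩ := hcs.exists_bound_of_continuous hsm.continuous
  have hF0n : 0 ≤ F0 := (norm_nonneg _).trans (hF0 0)
  obtain ⟨CG, hCG0, hCG⟩ := hG.bdd
  obtain ⟨C, hC0, hC⟩ := hFB f₀ E₀ B₀ hd 0 R T
  refine ⟨C * (1 + F0 * |T| + F0 * CG), by positivity, ?_⟩
  intro E B f E' B' φ hst hφ hφb t ht
  have key := hC f (gsrc G E B f) E' B' (fun s => F0 * (1 + CG * φ s)) hst.pc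
    (fun i => pc_gsrc hG hst.inE hst.inB hst.pc i) hst.outE hst.outB ?_ ?_ hst.maxwell
    hst.init hst.initE hst.initB (by fun_prop) ?_ t ht
  · refine key.mono ?_
    have hint : |∫ s in (0:ℝ)..t, F0 * (1 + CG * φ s)| ≤
        F0 * |T| + F0 * CG * |∫ s in (0:ℝ)..t, φ s| := by
      have e1 : ∫ s in (0:ℝ)..t, F0 * (1 + CG * φ s)
          = F0 * t + F0 * CG * ∫ s in (0:ℝ)..t, φ s := by
        have e2 : ∫ s in (0:ℝ)..t, ((1:ℝ) + CG * φ s)
            = (∫ _s in (0:ℝ)..t, (1:ℝ)) + ∫ s in (0:ℝ)..t, CG * φ s :=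
          intervalIntegral.integral_add (by simp)
            ((by fun_prop : Continuous fun s => CG * φ s).intervalIntegrable _ _)
        rw [intervalIntegral.integral_const_mul, e2, intervalIntegral.integral_const_mul]
        simp only [intervalIntegral.integral_const, sub_zero, smul_eq_mul, mul_one]
        ring
      rw [e1]
      refine (abs_add_le _ _).trans ?_
      rw [abs_mul, abs_mul, abs_mul, abs_of_nonneg hF0n, abs_of_nonneg hCG0]
      have : |t| ≤ |T| := ht.trans (le_abs_self T)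
      gcongr
    have hI : 0 ≤ |∫ s in (0:ℝ)..t, φ s| := abs_nonneg _
    calc C * (1 + |∫ s in (0:ℝ)..t, F0 * (1 + CG * φ s)|)
        ≤ C * (1 + (F0 * |T| + F0 * CG * |∫ s in (0:ℝ)..t, φ s|)) := by gcongr
      _ ≤ C * ((1 + F0 * |T| + F0 * CG) * (1 + |∫ s in (0:ℝ)..t, φ s|)) := by
          apply mul_le_mul_of_nonneg_left _ hC0
          have a2 : 0 ≤ F0 * |T| * |∫ s in (0:ℝ)..t, φ s| := by positivity
          have a3 : 0 ≤ F0 * CG := by positivity
          nlinarith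
      _ = C * (1 + F0 * |T| + F0 * CG) * (1 + |∫ s in (0:ℝ)..t, φ s|) := by ring
  · -- momentum support
    intro s x v hv
    have h1 := hst.suppv R (le_max_left _ _)
      (fun x v hv => hR0' x v (lt_of_le_of_lt (le_max_right _ _) hv)) s x v hv
    exact ⟨h1, fun i => by simp [gsrc, h1]⟩
  · -- transport
    intro s x v
    have h1 := hst.trans s x v
    unfold TransEq at h1
    rw [div_gsrc hG hst.pc]
    linarith
  · intro s hs x v
    have hφs : 0 ≤ φ s := (hφb s hs).nonneg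
    have hf : |f s x v| ≤ F0 := by
      obtain ⟨y, w, hyw⟩ := hst.values s x v
      rw [hyw]
      exact hF0 (y, w)
    refine ⟨?_, fun i => ?_⟩
    · rw [norm_iteratedFDeriv_zero, Real.norm_eq_abs]
      refine hf.trans ?_
      have : 0 ≤ F0 * (CG * φ s) := by positivity
      nlinarith
    · rw [norm_iteratedFDeriv_zero, Real.norm_eq_abs]
      unfold gsrc
      rw [abs_mul]
      have hE1 := (hφb s hs x).1
      have hB1 := (hφb s hs x).2
      rw [norm_iteratedFDeriv_zero] at hE1 hB1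
      have h3 : |(G v (E s x, B s x)) i| ≤ CG * φ s := by
        calc |(G v (E s x, B s x)) i| ≤ ‖G v (E s x, B s x)‖ := by
              have := EuclideanSpace.norm_eq (G v (E s x, B s x))
              exact (Real.norm_eq_abs _) ▸ (PiLp.norm_apply_le (G v (E s x, B s x)) i)
          _ ≤ ‖G v‖ * ‖((E s x, B s x) : R3 × R3)‖ := (G v).le_opNorm _
          _ ≤ CG * φ s := by
              refine mul_le_mul (hCG v) ?_ (norm_nonneg _) hCG0
              rw [Prod.norm_mk]
              exact max_le hE1 hB1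
      calc |(G v (E s x, B s x)) i| * |f s x v| ≤ (CG * φ s) * F0 := by gcongr
        _ ≤ F0 * (1 + CG * φ s) := by nlinarith

theorem b1_of (hL : FBlog) (hT : Tr1) : B1 := by
  intro P G hG f₀ E₀ B₀ hd T A
  obtain ⟨C1, hC1, h1⟩ := hT P G hG f₀ hd.2.1 hd.2.2.1 T A
  obtain ⟨C2, hC2, h2⟩ := hL P G hG f₀ E₀ B₀ hd T A
  refine ⟨max C1 (C2 * (1 + C1)), le_max_of_le_left hC1, ?_⟩
  intro E B f E' B' φ hst hφ hA hφb t ht
  have hφn : ∀ s, |s| ≤ T → 0 ≤ φ s := fun s hs => (hφb s hs).1.nonneg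
  have hf := h1 E B f φ hst.inE hst.inB hst.pc hst.init hst.trans hA hφ
    (fun s hs => (hφb s hs).1)
  have hI : 0 ≤ |∫ s in (0:ℝ)..t, φ s| := abs_nonneg _
  have hmono : ∀ s ∈ uIcc 0 t, |∫ r in (0:ℝ)..s, φ r| ≤ |∫ r in (0:ℝ)..t, φ r| := by
    intro s hs
    have hTt : ∀ r ∈ uIcc 0 t, |r| ≤ T := by
      intro r hr
      rcases le_total 0 t with h0 | h0
      · rw [uIcc_of_le h0] at hr
        rw [abs_of_nonneg h0] at ht
        rw [abs_of_nonneg hr.1]
        exact hr.2.trans ht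
      · rw [uIcc_of_ge h0] at hr
        rw [abs_of_nonpos h0] at ht
        rw [abs_of_nonpos hr.2]
        linarith [hr.1]
    rcases le_total 0 t with h0 | h0
    · rw [uIcc_of_le h0] at hs hTt
      have a1 : 0 ≤ ∫ r in (0:ℝ)..s, φ r := intervalIntegral.integral_nonneg hs.1
        (fun r hr => hφn r (hTt r ⟨hr.1, hr.2.trans hs.2⟩))
      have a2 : 0 ≤ ∫ r in s..t, φ r := intervalIntegral.integral_nonneg hs.2
        (fun r hr => hφn r (hTt r ⟨hs.1.trans hr.1, hr.2⟩))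
      have a3 := intervalIntegral.integral_add_adjacent_intervals
        (hφ.intervalIntegrable (μ := volume) 0 s) (hφ.intervalIntegrable s t)
      rw [abs_of_nonneg a1, ← a3, abs_of_nonneg (by positivity)]
      linarith
    · rw [uIcc_of_ge h0] at hs hTt
      have a1 : 0 ≤ ∫ r in s..(0:ℝ), φ r := intervalIntegral.integral_nonneg hs.2
        (fun r hr => hφn r (hTt r ⟨hs.1.trans hr.1, hr.2⟩))
      have a2 : 0 ≤ ∫ r in t..s, φ r := intervalIntegral.integral_nonneg hs.1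
        (fun r hr => hφn r (hTt r ⟨hr.1, hr.2.trans hs.2⟩))
      have a3 := intervalIntegral.integral_add_adjacent_intervals
        (hφ.intervalIntegrable (μ := volume) t s) (hφ.intervalIntegrable s 0)
      rw [intervalIntegral.integral_symm s 0, intervalIntegral.integral_symm t 0, abs_neg, abs_neg,
        abs_of_nonneg a1, ← a3, abs_of_nonneg (by positivity)]
      linarith
  have hlog := h2 E B f E' B' φ t (C1 * (1 + |∫ s in (0:ℝ)..t, φ s|)) hst ht (by positivity) hφ hA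
    hφb (fun s hs => by
      have hsT : |s| ≤ T := by
        rcases le_total 0 t with h0 | h0
        · rw [uIcc_of_le h0] at hs
          rw [abs_of_nonneg h0] at ht
          rw [abs_of_nonneg hs.1]
          exact hs.2.trans ht
        · rw [uIcc_of_ge h0] at hs
          rw [abs_of_nonpos h0] at ht
          rw [abs_of_nonpos hs.2]
          linarith [hs.1]
      refine (hf s hsT).mono (Real.exp_le_exp.2 ?_)
      apply mul_le_mul_of_nonneg_left _ hC1
      linarith [hmono s hs])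
  have hle : C2 * (1 + C1 * (1 + |∫ s in (0:ℝ)..t, φ s|) + |∫ s in (0:ℝ)..t, φ s|)
      ≤ max C1 (C2 * (1 + C1)) * (1 + |∫ s in (0:ℝ)..t, φ s|) := by
    calc C2 * (1 + C1 * (1 + |∫ s in (0:ℝ)..t, φ s|) + |∫ s in (0:ℝ)..t, φ s|)
        = (C2 * (1 + C1)) * (1 + |∫ s in (0:ℝ)..t, φ s|) := by ring
      _ ≤ _ := by
          gcongr
          exact le_max_right _ _
  refine ⟨(hf t ht).mono (Real.exp_le_exp.2 ?_), hlog.1.mono hle, hlog.2.mono hle⟩
  gcongr
  exact le_max_left _ _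

end Crest.Agent.R106.Std
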