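/- Row 106, node ITER-Bk (helper562): `Bk <= FB, Trk`. -/
import Crest.Agent.R106.IterB

set_option autoImplicit false
open MeasureTheory Set Filter Topology
open scoped ContDiff
open Crest.AnalysisR.VecCalc3 Crest.AnalysisR.PDE.RVM

namespace Crest.Agent.R106.Std

/-- The `x`-derivatives of a phase space function are bounded by the joint derivatives. -/
theorem norm_iteratedFDeriv_slice_x {f : R3 × R3 → ℝ} (hf : ContDiff ℝ ∞ f) (n : ℕ) (x v : R3) :
    ‖iteratedFDeriv ℝ n (fun y => f (y, v)) x‖ ≤ ‖iteratedFDeriv ℝ n f (x, v)‖ := by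
  set F' : R3 × R3 → ℝ := fun p => f (p + (0, v)) with hF'
  have hF's : ContDiff ℝ ∞ F' := hf.comp (contDiff_id.add contDiff_const)
  have h1 : (fun y => f (y, v)) = F' ∘ (ContinuousLinearMap.inl ℝ R3 R3) := by
    funext y; simp [hF']
  have h2 := (ContinuousLinearMap.inl ℝ R3 R3).iteratedFDeriv_comp_right (f := F') hF's x
    (i := n) (by exact_mod_cast le_top)
  have h3 : iteratedFDeriv ℝ n F' (x, 0) = iteratedFDeriv ℝ n f (x, v) := by
    have := iteratedFDeriv_comp_add_right (𝕜 := ℝ) (f := f) n ((0 : R3), v) (x, 0)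
    rw [hF']
    simpa using this
  rw [h1, h2]
  have h4 : (ContinuousLinearMap.inl ℝ R3 R3) x = (x, 0) := rfl
  rw [h4, h3]
  refine (ContinuousMultilinearMap.norm_compContinuousLinearMap_le _ _).trans ?_
  have h5 : ∏ _i : Fin n, ‖(ContinuousLinearMap.inl ℝ R3 R3)‖ ≤ 1 := by
    refine Finset.prod_le_one (fun _ _ => norm_nonneg _) (fun _ _ => ?_)
    exact ContinuousLinearMap.opNorm_le_bound _ zero_le_one (fun y => by simp [Prod.norm_def])
  calc _ ≤ ‖iteratedFDeriv ℝ n f (x, v)‖ * 1 :=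
        mul_le_mul_of_nonneg_left h5 (norm_nonneg _)
    _ = _ := mul_one _

/-- space derivatives of the source `G_i f` -/
theorem gsrc_deriv_le {P : ℝ} {G : R3 → (R3 × R3) →L[ℝ] R3} (_hG : IsTrunc P G) {CG : ℝ}
    (hCG0 : 0 ≤ CG) (hCG : ∀ v, ‖G v‖ ≤ CG) {E B : ℝ → R3 → R3} {f : ℝ → R3 → R3 → ℝ}
    (hE : SF E) (hB : SF B) (hf : PC f) (k : ℕ) (s : ℝ) (a b : ℕ → ℝ)
    (ha : ∀ j ≤ k, FBd j E B s (a j)) (hb : ∀ j ≤ k, fBd j f s (b j)) (i : Fin 3) (x v : R3) :
    ‖iteratedFDeriv ℝ k (fun y => gsrc G E B f i s y v) x‖ ≤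
      ∑ j ∈ Finset.range (k + 1), (k.choose j : ℝ) * (CG * a j) * b (k - j) := by
  have hEs : ContDiff ℝ ∞ (E s) := hE.1.comp (contDiff_const.prodMk contDiff_id)
  have hBs : ContDiff ℝ ∞ (B s) := hB.1.comp (contDiff_const.prodMk contDiff_id)
  have hEB : ContDiff ℝ ∞ (fun y => (E s y, B s y)) := hEs.prodMk hBs
  have hfs : ContDiff ℝ ∞ (fun z : R3 × R3 => f s z.1 z.2) :=
    hf.1.comp (contDiff_const.prodMk contDiff_id)
  have hfx : ContDiff ℝ ∞ (fun y => f s y v) :=
    hfs.comp (contDiff_id.prodMk contDiff_const)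
  set ℓ : (R3 × R3) →L[ℝ] ℝ := (EuclideanSpace.proj (𝕜 := ℝ) i : R3 →L[ℝ] ℝ).comp (G v) with hℓ
  have hℓn : ‖ℓ‖ ≤ CG := by
    refine ContinuousLinearMap.opNorm_le_bound _ hCG0 fun z => ?_
    calc ‖ℓ z‖ = ‖(G v z) i‖ := rfl
      _ ≤ ‖G v z‖ := PiLp.norm_apply_le _ _
      _ ≤ ‖G v‖ * ‖z‖ := (G v).le_opNorm z
      _ ≤ CG * ‖z‖ := by gcongr; exact hCG v
  have hg : (fun y => gsrc G E B f i s y v) = fun y => (ℓ (E s y, B s y)) * f s y v := rfl
  have hℓs : ContDiff ℝ ∞ (fun y => ℓ (E s y, B s y)) := ℓ.contDiff.comp hEB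
  rw [hg]
  refine (norm_iteratedFDeriv_mul_le hℓs hfx x (n := k) (by exact_mod_cast le_top)).trans ?_
  refine Finset.sum_le_sum fun j hj => ?_
  have hjk : j ≤ k := Nat.lt_succ_iff.1 (Finset.mem_range.1 hj)
  have h1 : ‖iteratedFDeriv ℝ j (fun y => ℓ (E s y, B s y)) x‖ ≤ CG * a j := by
    have e1 := ℓ.norm_iteratedFDeriv_comp_left (f := fun y => (E s y, B s y)) hEB.contDiffAt
      (x := x) (n := j) (by exact_mod_cast le_top)
    refine e1.trans ?_
    have e2 : ‖iteratedFDeriv ℝ j (fun y => (E s y, B s y)) x‖ ≤ a j := by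
      have e3 := iteratedFDeriv_prodMk (𝕜 := ℝ) (f := E s) (g := B s) (n := ∞) (x := x)
        hEs.contDiffAt hBs.contDiffAt (i := j) (by exact_mod_cast le_top)
      rw [e3, ContinuousMultilinearMap.opNorm_prod]
      exact max_le (ha j hjk x).1 (ha j hjk x).2
    exact mul_le_mul hℓn e2 (norm_nonneg _) hCG0
  have h2 : ‖iteratedFDeriv ℝ (k - j) (fun y => f s y v) x‖ ≤ b (k - j) :=
    (norm_iteratedFDeriv_slice_x hfs (k - j) x v).trans (hb (k - j) (Nat.sub_le _ _) (x, v))
  have h3 : 0 ≤ CG * a j := (norm_nonneg _).trans h1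
  have h4 : (0:ℝ) ≤ (k.choose j : ℝ) := Nat.cast_nonneg _
  have h5 : ((k.choose j : ℕ) : ℝ) * ‖iteratedFDeriv ℝ j (fun y => ℓ (E s y, B s y)) x‖ ≤
      (k.choose j : ℝ) * (CG * a j) := mul_le_mul_of_nonneg_left h1 h4
  exact mul_le_mul h5 h2 (norm_nonneg _) (mul_nonneg h4 h3)

/-- `|∫₀ˢ φ| ≤ |∫₀ᵗ φ|` for `s` between `0` and `t`. -/
theorem abs_integral_le_of_mem {φ : ℝ → ℝ} {T t : ℝ} (hφ : Continuous φ)
    (hφn : ∀ s, |s| ≤ T → 0 ≤ φ s) (ht : |t| ≤ T) {s : ℝ} (hs : s ∈ uIcc 0 t) :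
    |s| ≤ T ∧ |∫ r in (0:ℝ)..s, φ r| ≤ |∫ r in (0:ℝ)..t, φ r| := by
  have hTt : ∀ r ∈ uIcc 0 t, |r| ≤ T := by
    intro r hr
    rcases le_total 0 t with h0 | h0
    · rw [uIcc_of_le h0] at hr
      rw [abs_of_nonneg h0] at ht
      rw [abs_of_nonneg hr.1]
      exact hr.2.trans ht
    · rw [uIcc_of_ge h0] at hr
      rw [abs_of_nonpos h0] at ht
      rw [abs_of_nonpos hr.2]
      linarith [hr.1]
  refine ⟨hTt s hs, ?_⟩
  rcases le_total 0 t with h0 | h0
  · rw [uIcc_of_le h0] at hs hTt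
    have a1 : 0 ≤ ∫ r in (0:ℝ)..s, φ r := intervalIntegral.integral_nonneg hs.1
      (fun r hr => hφn r (hTt r ⟨hr.1, hr.2.trans hs.2⟩))
    have a2 : 0 ≤ ∫ r in s..t, φ r := intervalIntegral.integral_nonneg hs.2
      (fun r hr => hφn r (hTt r ⟨hs.1.trans hr.1, hr.2⟩))
    have a3 := intervalIntegral.integral_add_adjacent_intervals
      (hφ.intervalIntegrable (μ := volume) 0 s) (hφ.intervalIntegrable s t)
    rw [abs_of_nonneg a1, ← a3, abs_of_nonneg (by positivity)]
    linarith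
  · rw [uIcc_of_ge h0] at hs hTt
    have a1 : 0 ≤ ∫ r in s..(0:ℝ), φ r := intervalIntegral.integral_nonneg hs.2
      (fun r hr => hφn r (hTt r ⟨hs.1.trans hr.1, hr.2⟩))
    have a2 : 0 ≤ ∫ r in t..s, φ r := intervalIntegral.integral_nonneg hs.1
      (fun r hr => hφn r (hTt r ⟨hr.1, hr.2.trans hs.2⟩))
    have a3 := intervalIntegral.integral_add_adjacent_intervals
      (hφ.intervalIntegrable (μ := volume) t s) (hφ.intervalIntegrable s 0)
    rw [intervalIntegral.integral_symm s 0, intervalIntegral.integral_symm t 0, abs_neg, abs_neg,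
      abs_of_nonneg a1, ← a3, abs_of_nonneg (by positivity)]
    linarith

theorem bk_of (hFB : FB) (hTk : Trk) : Bk := by
  intro P G hG f₀ E₀ B₀ hd k T A hk
  obtain ⟨C1, hC1, h1⟩ := hTk P G hG f₀ hd.2.1 hd.2.2.1 k T A hk
  obtain ⟨-, hsm, hcs, -, -, -, -, -, -, -⟩ := id hd
  -- support radius of f₀ in v
  obtain ⟨R0, hR0⟩ := hcs.isCompact.isBounded.subset_closedBall (0 : R3 × R3)
  have hR0' : ∀ x v : R3, R0 < ‖v‖ → f₀ x v = 0 := by
    intro x v hv
    by_contra hne
    have h1 : (x, v) ∈ tsupport (Function.uncurry f₀) := subset_tsupport _ hne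
    have h2 := hR0 h1
    rw [mem_closedBall_zero_iff] at h2
    exact absurd ((norm_snd_le (x, v)).trans h2) (not_le.2 hv)
  set R : ℝ := max (2 * P) R0 with hRdef
  obtain ⟨CG, hCG0, hCG⟩ := hG.bdd
  obtain ⟨C2, hC2, h2⟩ := hFB f₀ E₀ B₀ hd k R T
  set K : ℝ := 2 ^ k * CG * |A| * (|A| + 1 + C1) + C1 with hKdef
  have hK0 : 0 ≤ K := by positivity
  refine ⟨max C1 (C2 * (1 + K * (1 + |T|))), le_max_of_le_left hC1, ?_⟩
  intro E B f E' B' φ hst hφ hA hφb t ht
  have hφn : ∀ s, |s| ≤ T → 0 ≤ φ s := fun s hs => (hφb s hs).nonneg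
  have hf := h1 E B f φ hst.inE hst.inB hst.pc hst.init hst.trans hA hφ hφb
  have hI : 0 ≤ |∫ s in (0:ℝ)..t, φ s| := abs_nonneg _
  have hcI : Continuous fun s => |∫ r in (0:ℝ)..s, φ r| :=
    (intervalIntegral.continuous_primitive (fun a b => hφ.intervalIntegrable a b) 0).abs
  refine ⟨(hf t ht).mono ?_, ?_⟩
  · exact mul_le_mul_of_nonneg_right (le_max_left _ _) (by positivity)
  have key := h2 f (gsrc G E B f) E' B' (fun s => K * (1 + φ s + |∫ r in (0:ℝ)..s, φ r|)) hst.pc
    (fun i => pc_gsrc hG hst.inE hst.inB hst.pc i) hst.outE hst.outB ?_ ?_ hst.maxwell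
    hst.init hst.initE hst.initB (by fun_prop) ?_ t ht
  · refine key.mono ?_
    have hint : |∫ s in (0:ℝ)..t, K * (1 + φ s + |∫ r in (0:ℝ)..s, φ r|)| ≤
        K * (|T| + |∫ s in (0:ℝ)..t, φ s| + |T| * |∫ s in (0:ℝ)..t, φ s|) := by
      have e1 : ∫ s in (0:ℝ)..t, K * (1 + φ s + |∫ r in (0:ℝ)..s, φ r|)
          = K * (t + (∫ s in (0:ℝ)..t, φ s) + ∫ s in (0:ℝ)..t, |∫ r in (0:ℝ)..s, φ r|) := by
        have i1 : IntervalIntegrable (fun _ : ℝ => (1:ℝ)) volume 0 t := by simp
        have i2 : IntervalIntegrable φ volume 0 t := hφ.intervalIntegrable _ _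
        have i3 : IntervalIntegrable (fun s => |∫ r in (0:ℝ)..s, φ r|) volume 0 t :=
          hcI.intervalIntegrable _ _
        rw [intervalIntegral.integral_const_mul, intervalIntegral.integral_add (i1.add i2) i3,
          intervalIntegral.integral_add i1 i2]
        simp
      rw [e1, abs_mul, abs_of_nonneg hK0]
      apply mul_le_mul_of_nonneg_left _ hK0
      have e2 : |∫ s in (0:ℝ)..t, (|∫ r in (0:ℝ)..s, φ r|)| ≤ |T| * |∫ s in (0:ℝ)..t, φ s| := by
        have e3 := intervalIntegral.norm_integral_le_of_norm_le_const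
          (a := (0:ℝ)) (b := t) (f := fun s => |∫ r in (0:ℝ)..s, φ r|)
          (C := |∫ s in (0:ℝ)..t, φ s|) (fun s hs => by
            rw [Real.norm_eq_abs, abs_abs]
            exact (abs_integral_le_of_mem hφ hφn ht (uIoc_subset_uIcc hs)).2)
        rw [Real.norm_eq_abs, sub_zero] at e3
        refine e3.trans ?_
        rw [mul_comm]
        exact mul_le_mul_of_nonneg_right (ht.trans (le_abs_self T)) hI
      have e4 : |t| ≤ |T| := ht.trans (le_abs_self T)
      refine (abs_add_le _ _).trans ?_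
      refine add_le_add ((abs_add_le _ _).trans ?_) e2
      linarith
    calc C2 * (1 + |∫ s in (0:ℝ)..t, K * (1 + φ s + |∫ r in (0:ℝ)..s, φ r|)|)
        ≤ C2 * (1 + K * (|T| + |∫ s in (0:ℝ)..t, φ s| + |T| * |∫ s in (0:ℝ)..t, φ s|)) := by
          gcongr
      _ ≤ C2 * ((1 + K * (1 + |T|)) * (1 + |∫ s in (0:ℝ)..t, φ s|)) := by
          apply mul_le_mul_of_nonneg_left _ hC2
          have a1 : 0 ≤ K * |T| := by positivity
          nlinarith
      _ = C2 * (1 + K * (1 + |T|)) * (1 + |∫ s in (0:ℝ)..t, φ s|) := by ring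
      _ ≤ max C1 (C2 * (1 + K * (1 + |T|))) * (1 + |∫ s in (0:ℝ)..t, φ s|) :=
          mul_le_mul_of_nonneg_right (le_max_right _ _) (by positivity)
  · -- momentum support
    intro s x v hv
    have h1 := hst.suppv R (le_max_left _ _)
      (fun x v hv => hR0' x v (lt_of_le_of_lt (le_max_right _ _) hv)) s x v hv
    exact ⟨h1, fun i => by simp [gsrc, h1]⟩
  · -- transport
    intro s x v
    have h1 := hst.trans s x v
    unfold TransEq at h1
    rw [div_gsrc hG hst.pc]
    linarith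
  · intro s hs x v
    have hφs : 0 ≤ φ s := hφn s hs
    have hIs : 0 ≤ |∫ r in (0:ℝ)..s, φ r| := abs_nonneg _
    have hA0 : 0 ≤ A := (hA s hs 0 (by omega)).1.nonneg
    have hfs : ContDiff ℝ ∞ (fun z : R3 × R3 => f s z.1 z.2) :=
      hst.pc.1.comp (contDiff_const.prodMk contDiff_id)
    have hfk := hf s hs
    refine ⟨?_, fun i => ?_⟩
    · refine (norm_iteratedFDeriv_slice_x hfs k x v).trans ((hfk (x, v)).trans ?_)
      have : C1 ≤ K := by
        rw [hKdef]
        have : 0 ≤ 2 ^ k * CG * |A| * (|A| + 1 + C1) := by positivity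
        linarith
      calc C1 * (1 + |∫ r in (0:ℝ)..s, φ r|) ≤ K * (1 + |∫ r in (0:ℝ)..s, φ r|) := by gcongr
        _ ≤ K * (1 + φ s + |∫ r in (0:ℝ)..s, φ r|) := by
            apply mul_le_mul_of_nonneg_left _ hK0
            linarith
    · set S : ℝ := A + φ s + C1 * (1 + |∫ r in (0:ℝ)..s, φ r|) with hS
      have hS0 : 0 ≤ S := by positivity
      set a : ℕ → ℝ := fun j => if j < k then A else φ s with ha
      set b : ℕ → ℝ := fun j => if j < k then A else C1 * (1 + |∫ r in (0:ℝ)..s, φ r|) with hb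
      have h3 := gsrc_deriv_le hG hCG0 hCG hst.inE hst.inB hst.pc k s a b
        (fun j hj => by
          by_cases hjk : j < k
          · simpa [ha, hjk] using (hA s hs j hjk).1
          · have : j = k := by omega
            subst this
            simpa [ha] using hφb s hs)
        (fun j hj => by
          by_cases hjk : j < k
          · simpa [hb, hjk] using (hA s hs j hjk).2
          · have : j = k := by omega
            subst this
            simpa [hb] using hfk) i x v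
      refine h3.trans ?_
      have h4 : ∀ j ∈ Finset.range (k + 1), (k.choose j : ℝ) * (CG * a j) * b (k - j) ≤
          (k.choose j : ℝ) * (CG * A * S) := by
        intro j hj
        have hjk : j ≤ k := Nat.lt_succ_iff.1 (Finset.mem_range.1 hj)
        rw [mul_assoc]
        apply mul_le_mul_of_nonneg_left _ (Nat.cast_nonneg _)
        have hb0 : 0 ≤ C1 * (1 + |∫ r in (0:ℝ)..s, φ r|) := by positivity
        by_cases hlt : j < k
        · have e1 : a j = A := by simp [ha, hlt]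
          have e2 : b (k - j) ≤ S := by
            simp only [hb]
            split_ifs
            · linarith
            · linarith
          rw [e1]
          exact mul_le_mul_of_nonneg_left e2 (by positivity)
        · have hjk' : j = k := by omega
          subst hjk'
          have e1 : a j = φ s := by simp [ha]
          have e2 : b (j - j) = A := by
            simp only [hb, Nat.sub_self]
            rw [if_pos (by omega)]
          rw [e1, e2]
          have e3 : φ s ≤ S := by linarith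
          calc CG * φ s * A = CG * A * φ s := by ring
            _ ≤ CG * A * S := mul_le_mul_of_nonneg_left e3 (by positivity)
      refine (Finset.sum_le_sum h4).trans ?_
      rw [← Finset.sum_mul]
      have h5 : ∑ j ∈ Finset.range (k + 1), (k.choose j : ℝ) = 2 ^ k := by
        have := Nat.sum_range_choose k
        exact_mod_cast this
      rw [h5]
      have hAA : |A| = A := abs_of_nonneg hA0
      have h6 : S ≤ (|A| + 1 + C1) * (1 + φ s + |∫ r in (0:ℝ)..s, φ r|) := by
        rw [hS, hAA]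
        have a1 : 0 ≤ A * φ s := by positivity
        have a2 : 0 ≤ A * |∫ r in (0:ℝ)..s, φ r| := by positivity
        have a3 : 0 ≤ C1 * φ s := by positivity
        nlinarith
      calc 2 ^ k * (CG * A * S) = 2 ^ k * CG * A * S := by ring
        _ ≤ 2 ^ k * CG * A * ((|A| + 1 + C1) * (1 + φ s + |∫ r in (0:ℝ)..s, φ r|)) := by
            apply mul_le_mul_of_nonneg_left h6 (by positivity)
        _ = (2 ^ k * CG * |A| * (|A| + 1 + C1)) * (1 + φ s + |∫ r in (0:ℝ)..s, φ r|) := by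
            rw [hAA]; ring
        _ ≤ K * (1 + φ s + |∫ r in (0:ℝ)..s, φ r|) := by
            apply mul_le_mul_of_nonneg_right _ (by positivity)
            rw [hKdef]
            linarith

end Crest.Agent.R106.Std
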