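/-
Row 106, node ITER-C (helper312), part 4: linearity lemmas for the classes `PC`, `SF`, the
transport operators and Maxwell's equations.
-/
import Mathlib
import Crest.Prelude.Def_VecCalc3
import Crest.Prelude.Def_VlasovMaxwell
import Crest.Agent.R106.StdDefs

set_option autoImplicit false
open MeasureTheory Set Filter Topology
open scoped ContDiff InnerProductSpace
open Crest.AnalysisR.VecCalc3 Crest.AnalysisR.PDE.RVM
open Crest.Agent.R106.Std

namespace Crest.Agent.R106.IterC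

/-! ### slices -/

lemma pc_t {g : ℝ → R3 → R3 → ℝ} (hg : ContDiff ℝ ∞ (fun p : ℝ × R3 × R3 => g p.1 p.2.1 p.2.2))
    (x v : R3) : ContDiff ℝ ∞ (fun s => g s x v) :=
  hg.comp (contDiff_id.prodMk (contDiff_const (c := (x, v))))

lemma pc_x {g : ℝ → R3 → R3 → ℝ} (hg : ContDiff ℝ ∞ (fun p : ℝ × R3 × R3 => g p.1 p.2.1 p.2.2))
    (t : ℝ) (v : R3) : ContDiff ℝ ∞ (fun y => g t y v) :=
  hg.comp ((contDiff_const (c := t)).prodMk (contDiff_id.prodMk (contDiff_const (c := v))))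

lemma pc_v {g : ℝ → R3 → R3 → ℝ} (hg : ContDiff ℝ ∞ (fun p : ℝ × R3 × R3 => g p.1 p.2.1 p.2.2))
    (t : ℝ) (x : R3) : ContDiff ℝ ∞ (fun w => g t x w) :=
  hg.comp ((contDiff_const (c := t)).prodMk ((contDiff_const (c := x)).prodMk contDiff_id))

lemma pc_z {g : ℝ → R3 → R3 → ℝ} (hg : ContDiff ℝ ∞ (fun p : ℝ × R3 × R3 => g p.1 p.2.1 p.2.2))
    (t : ℝ) : ContDiff ℝ ∞ (fun z : R3 × R3 => g t z.1 z.2) :=
  hg.comp ((contDiff_const (c := t)).prodMk (contDiff_fst.prodMk contDiff_snd))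

lemma sf_t {E : ℝ → R3 → R3} (hE : ContDiff ℝ ∞ (fun p : ℝ × R3 => E p.1 p.2)) (x : R3) :
    ContDiff ℝ ∞ (fun s => E s x) :=
  hE.comp (contDiff_id.prodMk (contDiff_const (c := x)))

lemma sf_x {E : ℝ → R3 → R3} (hE : ContDiff ℝ ∞ (fun p : ℝ × R3 => E p.1 p.2)) (t : ℝ) :
    ContDiff ℝ ∞ (E t) :=
  hE.comp ((contDiff_const (c := t)).prodMk contDiff_id)

lemma coord_contDiff {X : Type*} [NormedAddCommGroup X] [NormedSpace ℝ X] {n : WithTop ℕ∞}
    {F : X → R3} (hF : ContDiff ℝ n F) (i : Fin 3) : ContDiff ℝ n (fun y => F y i) :=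
  (EuclideanSpace.proj i : R3 →L[ℝ] ℝ).contDiff.comp hF

/-! ### the classes are linear -/

lemma PC_sub {f g : ℝ → R3 → R3 → ℝ} (hf : PC f) (hg : PC g) :
    PC (fun t x v => f t x v - g t x v) := by
  refine ⟨hf.1.sub hg.1, fun T => ?_⟩
  obtain ⟨R₁, h₁⟩ := hf.2 T
  obtain ⟨R₂, h₂⟩ := hg.2 T
  refine ⟨max R₁ R₂, fun t ht x v h => ?_⟩
  have e₁ : f t x v = 0 := h₁ t ht x v
    (h.imp (fun h => (le_max_left _ _).trans_lt h) (fun h => (le_max_left _ _).trans_lt h))
  have e₂ : g t x v = 0 := h₂ t ht x v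
    (h.imp (fun h => (le_max_right _ _).trans_lt h) (fun h => (le_max_right _ _).trans_lt h))
  simp [e₁, e₂]

lemma SF_sub {E F : ℝ → R3 → R3} (hE : SF E) (hF : SF F) : SF (fun t x => E t x - F t x) := by
  refine ⟨hE.1.sub hF.1, fun T k => ?_⟩
  obtain ⟨C₁, h₁⟩ := hE.2 T k
  obtain ⟨C₂, h₂⟩ := hF.2 T k
  refine ⟨C₁ + C₂, fun t ht x => ?_⟩
  have hk : ((k : ℕ∞) : WithTop ℕ∞) ≤ ∞ := by exact_mod_cast le_top
  have e : iteratedFDeriv ℝ k (fun x => E t x - F t x) x
      = iteratedFDeriv ℝ k (E t) x - iteratedFDeriv ℝ k (F t) x :=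
    iteratedFDeriv_sub_apply ((sf_x hE.1 t).of_le hk).contDiffAt ((sf_x hF.1 t).of_le hk).contDiffAt
  rw [e]
  exact (norm_sub_le _ _).trans (add_le_add (h₁ t ht x) (h₂ t ht x))

/-! ### the operators are linear -/

lemma pderiv_sub {f g : R3 → ℝ} {x : R3} (hf : DifferentiableAt ℝ f x)
    (hg : DifferentiableAt ℝ g x) (i : Fin 3) :
    pderiv (fun y => f y - g y) i x = pderiv f i x - pderiv g i x := by
  unfold pderiv
  rw [fderiv_fun_sub hf hg]
  simp

lemma one_le_inf : (1 : WithTop ℕ∞) ≤ ∞ := by exact_mod_cast le_top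

lemma diff_of {X Y : Type*} [NormedAddCommGroup X] [NormedSpace ℝ X] [NormedAddCommGroup Y]
    [NormedSpace ℝ Y] {F : X → Y} (hF : ContDiff ℝ ∞ F) : Differentiable ℝ F :=
  hF.differentiable (by simp)

lemma Tfree_sub {f g : ℝ → R3 → R3 → ℝ}
    (hf : ContDiff ℝ ∞ (fun p : ℝ × R3 × R3 => f p.1 p.2.1 p.2.2))
    (hg : ContDiff ℝ ∞ (fun p : ℝ × R3 × R3 => g p.1 p.2.1 p.2.2)) (t : ℝ) (x v : R3) :
    Tfree (fun t x v => f t x v - g t x v) t x v = Tfree f t x v - Tfree g t x v := by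
  unfold Tfree
  have h1 : deriv (fun s => f s x v - g s x v) t
      = deriv (fun s => f s x v) t - deriv (fun s => g s x v) t :=
    deriv_fun_sub (diff_of (pc_t hf x v) t) (diff_of (pc_t hg x v) t)
  have h2 : ∀ i, pderiv (fun y => f t y v - g t y v) i x
      = pderiv (fun y => f t y v) i x - pderiv (fun y => g t y v) i x := fun i =>
    pderiv_sub (diff_of (pc_x hf t v) x) (diff_of (pc_x hg t v) x) i
  simp only [h1, h2, mul_sub, Finset.sum_sub_distrib]
  ring

lemma Gv_sub {G : R3 → (R3 × R3) →L[ℝ] R3} {E B : ℝ → R3 → R3} {f g : ℝ → R3 → R3 → ℝ}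
    (hf : ContDiff ℝ ∞ (fun p : ℝ × R3 × R3 => f p.1 p.2.1 p.2.2))
    (hg : ContDiff ℝ ∞ (fun p : ℝ × R3 × R3 => g p.1 p.2.1 p.2.2)) (t : ℝ) (x v : R3) :
    Gv G E B (fun t x v => f t x v - g t x v) t x v = Gv G E B f t x v - Gv G E B g t x v := by
  unfold Gv
  have h2 : ∀ i, pderiv (fun w => f t x w - g t x w) i v
      = pderiv (fun w => f t x w) i v - pderiv (fun w => g t x w) i v := fun i =>
    pderiv_sub (diff_of (pc_v hf t x) v) (diff_of (pc_v hg t x) v) i
  simp only [h2, mul_sub, Finset.sum_sub_distrib]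

/-- momentum divergence of `(G v F) f`. -/
lemma div_G_mul {G : R3 → (R3 × R3) →L[ℝ] R3} (hG : ContDiff ℝ ∞ G) {P : ℝ} (hT : IsTrunc P G)
    (F : R3 × R3) {h : R3 → ℝ} (hh : ContDiff ℝ ∞ h) (v : R3) :
    ∑ i : Fin 3, pderiv (fun w => (G w F) i * h w) i v
      = ∑ i : Fin 3, (G v F) i * pderiv h i v := by
  have hGF : ContDiff ℝ ∞ (fun w => G w F) := hG.clm_apply contDiff_const
  have h1 : ∀ i, pderiv (fun w => (G w F) i * h w) i v
      = (G v F) i * pderiv h i v + h v * pderiv (fun w => (G w F) i) i v := by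
    intro i
    unfold pderiv
    rw [fderiv_fun_mul (diff_of (coord_contDiff hGF i) v) (diff_of hh v)]
    simp
  simp only [h1, Finset.sum_add_distrib, ← Finset.mul_sum]
  have h2 := hT.divfree F v
  unfold div3 at h2
  rw [h2]
  ring

/-- the source `g_i = (G v (E,B))_i f` is in the class `PC`. -/
lemma PC_G_mul {G : R3 → (R3 × R3) →L[ℝ] R3} (hG : ContDiff ℝ ∞ G) {E B : ℝ → R3 → R3}
    (hE : SF E) (hB : SF B) {f : ℝ → R3 → R3 → ℝ} (hf : PC f) (i : Fin 3) :
    PC (fun t x v => (G v (E t x, B t x)) i * f t x v) := by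
  refine ⟨?_, fun T => ?_⟩
  · have h1 : ContDiff ℝ ∞ (fun p : ℝ × R3 × R3 => G p.2.2) := hG.comp (contDiff_snd.comp contDiff_snd)
    have h2 : ContDiff ℝ ∞ (fun p : ℝ × R3 × R3 => (E p.1 p.2.1, B p.1 p.2.1)) := by
      have h3 : ContDiff ℝ ∞ (fun p : ℝ × R3 × R3 => ((p.1, p.2.1) : ℝ × R3)) :=
        contDiff_fst.prodMk (contDiff_fst.comp contDiff_snd)
      exact (hE.1.comp h3).prodMk (hB.1.comp h3)
    exact (coord_contDiff (h1.clm_apply h2) i).mul hf.1
  · obtain ⟨R, h⟩ := hf.2 T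
    exact ⟨R, fun t ht x v hv => by simp only; rw [h t ht x v hv, mul_zero]⟩

/-! ### Maxwell -/

lemma curl3_sub {E F : R3 → R3} (hE : ContDiff ℝ ∞ E) (hF : ContDiff ℝ ∞ F) (x : R3) :
    curl3 (fun y => E y - F y) x = curl3 E x - curl3 F x := by
  have h : ∀ i j : Fin 3, pderiv (fun y => E y i - F y i) j x
      = pderiv (fun y => E y i) j x - pderiv (fun y => F y i) j x := fun i j =>
    pderiv_sub (diff_of (coord_contDiff hE i) x) (diff_of (coord_contDiff hF i) x) j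
  ext i
  fin_cases i <;> simp [curl3, h] <;> ring

lemma div3_sub {E F : R3 → R3} (hE : ContDiff ℝ ∞ E) (hF : ContDiff ℝ ∞ F) (x : R3) :
    div3 (fun y => E y - F y) x = div3 E x - div3 F x := by
  have h : ∀ i j : Fin 3, pderiv (fun y => E y i - F y i) j x
      = pderiv (fun y => E y i) j x - pderiv (fun y => F y i) j x := fun i j =>
    pderiv_sub (diff_of (coord_contDiff hE i) x) (diff_of (coord_contDiff hF i) x) j
  simp [div3, h, Finset.sum_sub_distrib]

lemma pc_integrable {f : ℝ → R3 → R3 → ℝ} (hf : PC f) (t : ℝ) (x : R3) :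
    Integrable (fun v => f t x v) := by
  obtain ⟨R, h⟩ := hf.2 |t|
  apply (pc_v hf.1 t x).continuous.integrable_of_hasCompactSupport
  apply HasCompactSupport.of_support_subset_isCompact (isCompact_closedBall (0 : R3) R)
  intro v hv
  rw [mem_closedBall_zero_iff]
  by_contra hc
  exact hv (h t le_rfl x v (Or.inr (not_le.1 hc)))

lemma relVel_continuous : Continuous relVel := by
  have h : Continuous (fun v : R3 => (Real.sqrt (1 + ‖v‖ ^ 2))⁻¹ • v) := by
    have h1 : ∀ v : R3, Real.sqrt (1 + ‖v‖ ^ 2) ≠ 0 := fun v =>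
      (Real.sqrt_pos.2 (by positivity)).ne'
    fun_prop (disch := exact h1 _)
  exact h

lemma pc_integrable_smul {f : ℝ → R3 → R3 → ℝ} (hf : PC f) (t : ℝ) (x : R3) :
    Integrable (fun v => f t x v • relVel v) := by
  obtain ⟨R, h⟩ := hf.2 |t|
  apply ((pc_v hf.1 t x).continuous.smul relVel_continuous).integrable_of_hasCompactSupport
  apply HasCompactSupport.of_support_subset_isCompact (isCompact_closedBall (0 : R3) R)
  intro v hv
  rw [mem_closedBall_zero_iff]
  by_contra hc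
  exact hv (by
    show f t x v • relVel v = 0
    rw [h t le_rfl x v (Or.inr (not_le.1 hc)), zero_smul])

lemma chargeDensity_sub {f g : ℝ → R3 → R3 → ℝ} (hf : PC f) (hg : PC g) (t : ℝ) (x : R3) :
    chargeDensity (fun t x v => f t x v - g t x v) t x = chargeDensity f t x - chargeDensity g t x := by
  unfold chargeDensity
  exact integral_sub (pc_integrable hf t x) (pc_integrable hg t x)

lemma currentDensity_sub {f g : ℝ → R3 → R3 → ℝ} (hf : PC f) (hg : PC g) (t : ℝ) (x : R3) :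
    currentDensity (fun t x v => f t x v - g t x v) t x
      = currentDensity f t x - currentDensity g t x := by
  unfold currentDensity
  rw [← integral_sub (pc_integrable_smul hf t x) (pc_integrable_smul hg t x)]
  congr 1
  funext v
  rw [sub_smul]

lemma Maxwell_sub {f g : ℝ → R3 → R3 → ℝ} (hf : PC f) (hg : PC g) {E B E' B' : ℝ → R3 → R3}
    (hE : SF E) (hB : SF B) (hE' : SF E') (hB' : SF B') {t : ℝ} {x : R3}
    (h : MaxwellAt (chargeDensity f) (currentDensity f) E B t x)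
    (h' : MaxwellAt (chargeDensity g) (currentDensity g) E' B' t x) :
    MaxwellAt (chargeDensity (fun t x v => f t x v - g t x v))
      (currentDensity (fun t x v => f t x v - g t x v))
      (fun t x => E t x - E' t x) (fun t x => B t x - B' t x) t x := by
  obtain ⟨a1, a2, a3, a4⟩ := h
  obtain ⟨b1, b2, b3, b4⟩ := h'
  have hd : ∀ {F F' : ℝ → R3 → R3}, SF F → SF F' → ∀ i : Fin 3,
      deriv (fun s => (F s x - F' s x) i) t
        = deriv (fun s => F s x i) t - deriv (fun s => F' s x i) t := by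
    intro F F' hF hF' i
    have := deriv_fun_sub (diff_of (coord_contDiff (sf_t hF.1 x) i) t)
      (diff_of (coord_contDiff (sf_t hF'.1 x) i) t)
    simpa using this
  refine ⟨fun i => ?_, fun i => ?_, ?_, ?_⟩
  · have h1 := a1 i
    have h2 := b1 i
    rw [hd hE hE' i, curl3_sub (sf_x hB.1 t) (sf_x hB'.1 t), currentDensity_sub hf hg]
    simp only [PiLp.sub_apply]
    linarith
  · have h1 := a2 i
    have h2 := b2 i
    rw [hd hB hB' i, curl3_sub (sf_x hE.1 t) (sf_x hE'.1 t)]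
    simp only [PiLp.sub_apply]
    linarith
  · rw [div3_sub (sf_x hE.1 t) (sf_x hE'.1 t), chargeDensity_sub hf hg, a3, b3]
  · rw [div3_sub (sf_x hB.1 t) (sf_x hB'.1 t), a4, b4, sub_zero]

/-- the truncated force is bounded. -/
lemma G_bdd {G : R3 → (R3 × R3) →L[ℝ] R3} {P : ℝ} (hT : IsTrunc P G) :
    ∃ C : ℝ, 0 ≤ C ∧ ∀ v, ‖G v‖ ≤ C := by
  obtain ⟨C, hC⟩ := (isCompact_closedBall (0 : R3) (2 * P)).exists_bound_of_continuousOn
    hT.smooth.continuous.continuousOn
  refine ⟨max C 0, le_max_right _ _, fun v => ?_⟩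
  by_cases h : ‖v‖ ≤ 2 * P
  · exact (hC v (by simpa using h)).trans (le_max_left _ _)
  · rw [hT.supp v (not_le.1 h).le]
    simp

end Crest.Agent.R106.IterC
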