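/-
Row 106, node ITER-C (helper312), part 2: the bookkeeping of the difference of two Picard steps,
in the form of majorants (no suprema, no measurability).
-/
import Mathlib
import Crest.Agent.R106.IterCReal

set_option autoImplicit false
open MeasureTheory Set Filter Topology
open scoped Nat

namespace Crest.Agent.R106.IterC

/-- the primitive `|∫_0^t w|` of a continuous majorant is continuous. -/
lemma continuous_abs_integral {w : ℝ → ℝ} (hw : Continuous w) :
    Continuous fun t : ℝ => |∫ s in (0:ℝ)..t, w s| :=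
  (intervalIntegral.continuous_primitive (fun a b => hw.intervalIntegrable a b) 0).abs

/-- `|∫_0^t g| ≤ |t| M` if `|g| ≤ M` between `0` and `t`. -/
lemma abs_integral_le_mul {g : ℝ → ℝ} {t M : ℝ} (h : ∀ s ∈ uIcc 0 t, |g s| ≤ M) :
    |∫ s in (0:ℝ)..t, g s| ≤ M * |t| := by
  have := intervalIntegral.norm_integral_le_of_norm_le_const (a := (0:ℝ)) (b := t) (f := g) (C := M)
    (fun x hx => h x (uIoc_subset_uIcc hx))
  simpa using this

/-- `|∫_0^t |∫_0^s w| ds| ≤ |t| |∫_0^t w|`. -/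
lemma abs_integral_abs_integral_le {w : ℝ → ℝ} (hw : Continuous w) (h0 : ∀ s, 0 ≤ w s) (t : ℝ) :
    |(∫ s in (0:ℝ)..t, |(∫ r in (0:ℝ)..s, w r)|)| ≤ |t| * |∫ r in (0:ℝ)..t, w r| := by
  rw [mul_comm]
  apply abs_integral_le_mul
  intro s hs
  rw [abs_abs]
  exact abs_integral_mono hw h0 hs

/-- Bookkeeping of one difference step: `N = c₁|∫w|` bounds the density difference, `c₂ (w + N)`
bounds the source difference, and their integral is again bounded by `C |∫w|`. -/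
lemma abs_integral_majorant_le {w : ℝ → ℝ} (hw : Continuous w) (h0 : ∀ s, 0 ≤ w s)
    {c₁ c₂ T : ℝ} (hc₁ : 0 ≤ c₁) (hc₂ : 0 ≤ c₂) {t : ℝ} (ht : |t| ≤ T) :
    |∫ s in (0:ℝ)..t, (c₁ * |∫ r in (0:ℝ)..s, w r| + c₂ * (w s + c₁ * |∫ r in (0:ℝ)..s, w r|))|
      ≤ (c₁ * T + c₂ * (1 + c₁ * T)) * |∫ s in (0:ℝ)..t, w s| := by
  have hW := continuous_abs_integral hw
  have h1 : (∫ s in (0:ℝ)..t,
        (c₁ * |∫ r in (0:ℝ)..s, w r| + c₂ * (w s + c₁ * |∫ r in (0:ℝ)..s, w r|)))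
      = (c₁ + c₂ * c₁) * (∫ s in (0:ℝ)..t, |∫ r in (0:ℝ)..s, w r|)
        + c₂ * ∫ s in (0:ℝ)..t, w s := by
    rw [← intervalIntegral.integral_const_mul, ← intervalIntegral.integral_const_mul,
      ← intervalIntegral.integral_add ((hW.const_mul _).intervalIntegrable _ _ )
        ((hw.const_mul _).intervalIntegrable _ _)]
    apply intervalIntegral.integral_congr
    intro s _
    simp only
    ring
  rw [h1]
  have h2 := abs_integral_abs_integral_le hw h0 t
  have h3 : 0 ≤ |∫ s in (0:ℝ)..t, w s| := abs_nonneg _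
  have hT : 0 ≤ T := (abs_nonneg t).trans ht
  calc |(c₁ + c₂ * c₁) * (∫ s in (0:ℝ)..t, |∫ r in (0:ℝ)..s, w r|) + c₂ * ∫ s in (0:ℝ)..t, w s|
      ≤ (c₁ + c₂ * c₁) * |(∫ s in (0:ℝ)..t, |(∫ r in (0:ℝ)..s, w r)|)|
        + c₂ * |∫ s in (0:ℝ)..t, w s| := by
        refine (abs_add_le _ _).trans ?_
        rw [abs_mul, abs_mul, abs_of_nonneg hc₂, abs_of_nonneg (by positivity : 0 ≤ c₁ + c₂ * c₁)]
    _ ≤ (c₁ + c₂ * c₁) * (T * |∫ r in (0:ℝ)..t, w r|) + c₂ * |∫ s in (0:ℝ)..t, w s| := by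
        gcongr
        refine h2.trans ?_
        gcongr
    _ = (c₁ * T + c₂ * (1 + c₁ * T)) * |∫ s in (0:ℝ)..t, w s| := by ring

end Crest.Agent.R106.IterC
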