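/-
Row 106, node ITER-C (helper312): `cdiff : FBz → Tr0 → Cdiff`.
-/
import Mathlib
import Crest.Agent.R106.StdIface
import Crest.Agent.R106.IterCAux
import Crest.Agent.R106.IterCStep

set_option autoImplicit false
open MeasureTheory Set Filter Topology
open scoped ContDiff InnerProductSpace
open Crest.AnalysisR.VecCalc3 Crest.AnalysisR.PDE.RVM
open Crest.Agent.R106.Std

namespace Crest.Agent.R106.IterC

/-- momentum derivative from the phase space derivative -/
lemma norm_fderiv_v_le {h : R3 × R3 → ℝ} (hh : ContDiff ℝ ∞ h) (x v : R3) :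
    ‖fderiv ℝ (fun w => h (x, w)) v‖ ≤ ‖fderiv ℝ h (x, v)‖ := by
  have h1 : HasFDerivAt (fun w : R3 => ((x, w) : R3 × R3)) (ContinuousLinearMap.inr ℝ R3 R3) v :=
    hasFDerivAt_prodMk_right x v
  have h2 := ((diff_of hh (x, v)).hasFDerivAt.comp v h1).fderiv
  have h3 : (fun w => h (x, w)) = h ∘ (fun w : R3 => ((x, w) : R3 × R3)) := rfl
  rw [h3, h2]
  refine (ContinuousLinearMap.opNorm_comp_le _ _).trans ?_
  have h4 : ‖ContinuousLinearMap.inr ℝ R3 R3‖ ≤ 1 := ContinuousLinearMap.norm_inr_le_one ℝ R3 R3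
  calc _ ≤ ‖fderiv ℝ h (x, v)‖ * 1 := mul_le_mul_of_nonneg_left h4 (norm_nonneg _)
    _ = _ := mul_one _

lemma sum_coord_pderiv (h : R3 → ℝ) (v d : R3) :
    ∑ i : Fin 3, d i * pderiv h i v = fderiv ℝ h v d := by
  have hd : d = ∑ i : Fin 3, d i • (EuclideanSpace.single i (1:ℝ) : R3) := by
    ext j
    simp [Fin.sum_univ_three]
    fin_cases j <;> simp
  conv_rhs => rw [hd, map_sum]
  simp only [map_smul, smul_eq_mul, pderiv]

/-- a smooth function with compact support is bounded -/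
lemma f0_bdd {f₀ : R3 → R3 → ℝ} (h : ContDiff ℝ ∞ (Function.uncurry f₀))
    (hc : HasCompactSupport (Function.uncurry f₀)) : ∃ F : ℝ, 0 ≤ F ∧ ∀ x v, |f₀ x v| ≤ F := by
  obtain ⟨C, hC⟩ := h.continuous.bounded_above_of_compact_support hc
  exact ⟨max C 0, le_max_right _ _, fun x v => (hC (x, v)).trans (le_max_left _ _)⟩

lemma f0_supp {f₀ : R3 → R3 → ℝ} (hc : HasCompactSupport (Function.uncurry f₀)) :
    ∃ R : ℝ, ∀ x v, R < ‖v‖ → f₀ x v = 0 := by
  obtain ⟨R, hR⟩ := hc.isCompact.isBounded.subset_closedBall (0 : R3 × R3)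
  refine ⟨R, fun x v hv => ?_⟩
  by_contra hne
  have h1 : ((x, v) : R3 × R3) ∈ Metric.closedBall (0 : R3 × R3) R :=
    hR (subset_tsupport _ hne)
  rw [mem_closedBall_zero_iff] at h1
  have h2 : ‖v‖ ≤ ‖((x, v) : R3 × R3)‖ := norm_snd_le (x, v)
  linarith

theorem cdiff : FBz → Tr0 → Cdiff := by
  intro hFBz hTr0 P G hT f₀ E₀ B₀ hadm T A
  obtain ⟨CG, hCG0, hCG⟩ := G_bdd hT
  obtain ⟨F0, hF00, hF0⟩ := f0_bdd hadm.2.1 hadm.2.2.1
  obtain ⟨R0, hR0⟩ := f0_supp hadm.2.2.1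
  obtain ⟨CF, hCF0, hCF⟩ := hFBz 0 (max (2 * P) R0) T
  rcases lt_or_ge T 0 with hTneg | hTpos
  · refine ⟨0, le_rfl, ?_⟩
    intro _ _ _ _ _ _ _ _ _ _ _ _ _ _ _ _ t ht
    exact absurd ((abs_nonneg t).trans ht) (not_le.2 hTneg)
  set c₁ : ℝ := CG * |A| with hc₁
  have hc₁0 : 0 ≤ c₁ := by positivity
  set c₂ : ℝ := CG * (F0 + |A|) with hc₂
  have hc₂0 : 0 ≤ c₂ := by positivity
  refine ⟨max c₁ (CF * (c₁ * T + c₂ * (1 + c₁ * T))), hc₁0.trans (le_max_left _ _), ?_⟩
  intro E₁ B₁ f₁ E₁' B₁' E₂ B₂ f₂ E₂' B₂' φ s₁ s₂ hφ hA hd t ht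
  -- nonnegative version of the majorant
  set w : ℝ → ℝ := fun s => |φ s| with hw
  have hwc : Continuous w := hφ.abs
  have hw0 : ∀ s, 0 ≤ w s := fun s => abs_nonneg _
  have hφ0 : ∀ s, |s| ≤ T → 0 ≤ φ s := fun s hs => (norm_nonneg _).trans (hd s hs 0).1
  have hwφ : ∀ s, |s| ≤ T → w s = φ s := fun s hs => abs_of_nonneg (hφ0 s hs)
  have hint : ∀ s, |s| ≤ T → (∫ r in (0:ℝ)..s, w r) = ∫ r in (0:ℝ)..s, φ r := by
    intro s hs
    apply intervalIntegral.integral_congr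
    intro r hr
    apply hwφ
    rw [abs_le] at hs ⊢
    rw [mem_uIcc] at hr
    rcases hr with hr | hr
    · exact ⟨by linarith [hs.1, hr.1], by linarith [hs.2, hr.2]⟩
    · exact ⟨by linarith [hs.1, hr.1], by linarith [hs.2, hr.2]⟩
  have hFd : ∀ s, |s| ≤ T → ∀ x, ‖((E₁ s x - E₂ s x, B₁ s x - B₂ s x) : R3 × R3)‖ ≤ w s := by
    intro s hs x
    rw [hwφ s hs]
    exact max_le (hd s hs x).1 (hd s hs x).2
  -- the difference of the densities
  set r : ℝ → R3 → R3 → ℝ := fun t x v => f₁ t x v - f₂ t x v with hr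
  have hrPC : PC r := PC_sub s₁.pc s₂.pc
  have hr0 : ∀ x v, r 0 x v = 0 := by
    intro x v
    simp only [hr]
    rw [s₁.init, s₂.init, sub_self]
  have hfirst : ∀ s, |s| ≤ T → ∀ x v, |r s x v| ≤ c₁ * |∫ q in (0:ℝ)..s, w q| := by
    intro s hs x v
    have h1 := hTr0 P G hT E₁ B₁ s₁.inE s₁.inB r T 0 (fun q => c₁ * w q) hrPC
      (hwc.const_mul _) (fun x v => by rw [hr0 x v]; simp) (fun q hq x v => ?_) s hs x v
    · rw [zero_add, intervalIntegral.integral_const_mul, abs_mul, abs_of_nonneg hc₁0] at h1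
      exact h1
    · -- the equation of the difference
      have e1 : Tfree r q x v + Gv G E₁ B₁ r q x v
          = -(∑ i : Fin 3, (G v (E₁ q x - E₂ q x, B₁ q x - B₂ q x)) i
              * pderiv (fun w => f₂ q x w) i v) := by
        have h2 := Tfree_sub s₁.pc.1 s₂.pc.1 q x v
        have h3 := Gv_sub (G := G) (E := E₁) (B := B₁) s₁.pc.1 s₂.pc.1 q x v
        have h4 := s₁.trans q x v
        have h5 := s₂.trans q x v
        unfold TransEq at h4 h5
        have h6 : Gv G E₁ B₁ f₂ q x v - Gv G E₂ B₂ f₂ q x v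
            = ∑ i : Fin 3, (G v (E₁ q x - E₂ q x, B₁ q x - B₂ q x)) i
              * pderiv (fun w => f₂ q x w) i v := by
          unfold Gv
          rw [← Finset.sum_sub_distrib]
          apply Finset.sum_congr rfl
          intro i _
          have h7 : ((E₁ q x - E₂ q x, B₁ q x - B₂ q x) : R3 × R3)
              = (E₁ q x, B₁ q x) - (E₂ q x, B₂ q x) := rfl
          rw [h7, map_sub, PiLp.sub_apply]
          ring
        rw [h2, h3, ← h6]
        linarith
      rw [e1, abs_neg, sum_coord_pderiv]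
      have h2 : ‖fderiv ℝ (fun w => f₂ q x w) v‖ ≤ |A| := by
        have h3 := norm_fderiv_v_le (pc_z s₂.pc.1 q) x v
        have h4 := (hA q hq).2.2 (x, v)
        rw [norm_iteratedFDeriv_one] at h4
        exact h3.trans (h4.trans (le_abs_self A))
      have h3 : ‖G v (E₁ q x - E₂ q x, B₁ q x - B₂ q x)‖ ≤ CG * w q := by
        refine ((G v).le_opNorm _).trans ?_
        exact mul_le_mul (hCG v) (hFd q hq x) (norm_nonneg _) hCG0
      rw [← Real.norm_eq_abs]
      refine ((fderiv ℝ (fun w => f₂ q x w) v).le_opNorm _).trans ?_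
      calc ‖fderiv ℝ (fun w => f₂ q x w) v‖ * ‖G v (E₁ q x - E₂ q x, B₁ q x - B₂ q x)‖
          ≤ |A| * (CG * w q) := mul_le_mul h2 h3 (norm_nonneg _) (abs_nonneg _)
        _ = c₁ * w q := by rw [hc₁]; ring
  -- the source of the difference
  set g : Fin 3 → ℝ → R3 → R3 → ℝ := fun i t x v =>
    (G v (E₁ t x, B₁ t x)) i * f₁ t x v - (G v (E₂ t x, B₂ t x)) i * f₂ t x v with hg
  have hgPC : ∀ i, PC (g i) := fun i =>
    PC_sub (PC_G_mul hT.smooth s₁.inE s₁.inB s₁.pc i) (PC_G_mul hT.smooth s₂.inE s₂.inB s₂.pc i)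
  set ψ : ℝ → ℝ := fun s => c₁ * |∫ q in (0:ℝ)..s, w q| + c₂ * (w s + c₁ * |∫ q in (0:ℝ)..s, w q|)
    with hψ
  have hψc : Continuous ψ := by
    have := continuous_abs_integral hwc
    exact (this.const_mul _).add ((hwc.add (this.const_mul _)).const_mul _)
  have hsupp : ∀ (s : ℝ) (x v : R3), max (2 * P) R0 < ‖v‖ → f₁ s x v = 0 ∧ f₂ s x v = 0 := by
    intro s x v hv
    have h1 : ∀ x v : R3, max (2 * P) R0 < ‖v‖ → f₀ x v = 0 := fun x v hv =>
      hR0 x v ((le_max_right _ _).trans_lt hv)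
    exact ⟨s₁.suppv _ (le_max_left _ _) h1 s x v hv, s₂.suppv _ (le_max_left _ _) h1 s x v hv⟩
  have hG1 : ∀ (s : ℝ) (x v : R3) (i : Fin 3) (F : R3 × R3) (h : ℝ),
      |(G v F) i * h| ≤ CG * ‖F‖ * |h| := by
    intro s x v i F h
    rw [abs_mul]
    apply mul_le_mul_of_nonneg_right _ (abs_nonneg _)
    have h1 : ‖(G v F) i‖ ≤ ‖G v F‖ := PiLp.norm_apply_le (G v F) i
    rw [Real.norm_eq_abs] at h1
    exact h1.trans (((G v).le_opNorm F).trans (mul_le_mul_of_nonneg_right (hCG v) (norm_nonneg _)))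
  have hgb : ∀ s, |s| ≤ T → ∀ x v, |r s x v| ≤ ψ s ∧ ∀ i, |g i s x v| ≤ ψ s := by
    intro s hs x v
    have hI : 0 ≤ c₁ * |∫ q in (0:ℝ)..s, w q| := mul_nonneg hc₁0 (abs_nonneg _)
    have hws := hw0 s
    refine ⟨(hfirst s hs x v).trans ?_, fun i => ?_⟩
    · simp only [hψ]
      have : 0 ≤ c₂ * (w s + c₁ * |∫ q in (0:ℝ)..s, w q|) := mul_nonneg hc₂0 (add_nonneg hws hI)
      linarith
    · have e1 : g i s x v = (G v (E₁ s x - E₂ s x, B₁ s x - B₂ s x)) i * f₁ s x v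
          + (G v (E₂ s x, B₂ s x)) i * r s x v := by
        have h7 : ((E₁ s x - E₂ s x, B₁ s x - B₂ s x) : R3 × R3)
            = (E₁ s x, B₁ s x) - (E₂ s x, B₂ s x) := rfl
        simp only [hg, hr, h7, map_sub, PiLp.sub_apply]
        ring
      rw [e1]
      have h1 := hG1 s x v i (E₁ s x - E₂ s x, B₁ s x - B₂ s x) (f₁ s x v)
      have h2 := hG1 s x v i (E₂ s x, B₂ s x) (r s x v)
      have h3 : |f₁ s x v| ≤ F0 := by
        obtain ⟨y, z, hyz⟩ := s₁.values s x v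
        rw [hyz]; exact hF0 y z
      have h4 : ‖((E₂ s x, B₂ s x) : R3 × R3)‖ ≤ |A| := by
        have h5 := (hA s hs).2.1 x
        rw [norm_iteratedFDeriv_zero, norm_iteratedFDeriv_zero] at h5
        exact max_le (h5.1.trans (le_abs_self A)) (h5.2.trans (le_abs_self A))
      have h5 := hFd s hs x
      have h6 := hfirst s hs x v
      calc |(G v (E₁ s x - E₂ s x, B₁ s x - B₂ s x)) i * f₁ s x v
            + (G v (E₂ s x, B₂ s x)) i * r s x v|
          ≤ CG * w s * F0 + CG * |A| * (c₁ * |∫ q in (0:ℝ)..s, w q|) := by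
            refine (abs_add_le _ _).trans (add_le_add (h1.trans ?_) (h2.trans ?_))
            · gcongr
            · gcongr
        _ ≤ ψ s := by
            simp only [hψ, hc₂]
            have e2 : 0 ≤ CG * |A| * w s := by positivity
            have e3 : 0 ≤ CG * F0 * (c₁ * |∫ q in (0:ℝ)..s, w q|) := by positivity
            nlinarith
  have hFB := hCF r g (fun t x => E₁' t x - E₂' t x) (fun t x => B₁' t x - B₂' t x) ψ hrPC hgPC
    (SF_sub s₁.outE s₂.outE) (SF_sub s₁.outB s₂.outB)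
    (fun s x v hv => by
      obtain ⟨a1, a2⟩ := hsupp s x v hv
      simp [hr, hg, a1, a2])
    (fun s x v => by
      have h2 := Tfree_sub s₁.pc.1 s₂.pc.1 s x v
      have h4 := s₁.trans s x v
      have h5 := s₂.trans s x v
      unfold TransEq at h4 h5
      have h6 : ∀ i, pderiv (fun w => g i s x w) i v
          = pderiv (fun w => (G w (E₁ s x, B₁ s x)) i * f₁ s x w) i v
            - pderiv (fun w => (G w (E₂ s x, B₂ s x)) i * f₂ s x w) i v := by
        intro i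
        apply pderiv_sub
        · exact diff_of (pc_v (g := fun t x v => (G v (E₁ t x, B₁ t x)) i * f₁ t x v)
            (PC_G_mul hT.smooth s₁.inE s₁.inB s₁.pc i).1 s x) v
        · exact diff_of (pc_v (g := fun t x v => (G v (E₂ t x, B₂ t x)) i * f₂ t x v)
            (PC_G_mul hT.smooth s₂.inE s₂.inB s₂.pc i).1 s x) v
      rw [h2]
      simp only [h6, Finset.sum_sub_distrib]
      rw [div_G_mul hT.smooth hT (E₁ s x, B₁ s x) (pc_v s₁.pc.1 s x) v,
        div_G_mul hT.smooth hT (E₂ s x, B₂ s x) (pc_v s₂.pc.1 s x) v]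
      unfold Gv at h4 h5
      linarith)
    (fun s x => Maxwell_sub s₁.pc s₂.pc s₁.outE s₁.outB s₂.outE s₂.outB (s₁.maxwell s x)
      (s₂.maxwell s x))
    hr0
    (fun x => by rw [s₁.initE, s₂.initE, sub_self])
    (fun x => by rw [s₁.initB, s₂.initB, sub_self])
    hψc
    (fun s hs x v => by
      obtain ⟨a1, a2⟩ := hgb s hs x v
      refine ⟨?_, fun i => ?_⟩
      · rw [norm_iteratedFDeriv_zero]; exact a1
      · rw [norm_iteratedFDeriv_zero]; exact a2 i)
    t ht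
  have hmaj := abs_integral_majorant_le hwc hw0 hc₁0 hc₂0 ht
  have hI0 : 0 ≤ |∫ s in (0:ℝ)..t, w s| := abs_nonneg _
  have hψint : CF * |∫ s in (0:ℝ)..t, ψ s|
      ≤ max c₁ (CF * (c₁ * T + c₂ * (1 + c₁ * T))) * |∫ s in (0:ℝ)..t, w s| := by
    calc CF * |∫ s in (0:ℝ)..t, ψ s|
        ≤ CF * ((c₁ * T + c₂ * (1 + c₁ * T)) * |∫ s in (0:ℝ)..t, w s|) :=
          mul_le_mul_of_nonneg_left hmaj hCF0
      _ = (CF * (c₁ * T + c₂ * (1 + c₁ * T))) * |∫ s in (0:ℝ)..t, w s| := by ring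
      _ ≤ _ := mul_le_mul_of_nonneg_right (le_max_right _ _) hI0
  rw [← hint t ht]
  refine ⟨fun x v => ?_, fun x => ?_⟩
  · exact (hfirst t ht x v).trans (mul_le_mul_of_nonneg_right (le_max_left _ _) hI0)
  · have h1 := hFB x
    rw [norm_iteratedFDeriv_zero, norm_iteratedFDeriv_zero] at h1
    exact ⟨h1.1.trans hψint, h1.2.trans hψint⟩

end Crest.Agent.R106.IterC
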