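/-
Row 106, node ITER-C (helper312), part 3: difference of two transported densities.
-/
import Mathlib
import Crest.Prelude.Def_VecCalc3
import Crest.Prelude.Def_VlasovMaxwell
import Crest.Agent.R106.FlowGen
import Crest.Agent.R106.IterCStep

set_option autoImplicit false
open MeasureTheory Set Filter Topology
open scoped ContDiff InnerProductSpace
open Crest.AnalysisR.VecCalc3 Crest.AnalysisR.PDE.RVM

namespace Crest.Agent.R106.IterC

/-- partial derivatives of a function on phase space-time. -/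
lemma fderiv_ps {F : ℝ × R3 × R3 → ℝ} {t : ℝ} {x v : R3} (hF : DifferentiableAt ℝ F (t, x, v))
    (a : ℝ) (b c : R3) :
    fderiv ℝ F (t, x, v) (a, b, c) = a * deriv (fun s => F (s, x, v)) t
      + ∑ i : Fin 3, b i * pderiv (fun y => F (t, y, v)) i x
      + ∑ i : Fin 3, c i * pderiv (fun w => F (t, x, w)) i v := by
  set L := fderiv ℝ F (t, x, v) with hL
  have hF' : HasFDerivAt F L (t, x, v) := hF.hasFDerivAt
  have h1 : deriv (fun s => F (s, x, v)) t = L (1, 0, 0) := by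
    have h2 : HasDerivAt (fun s : ℝ => ((s, x, v) : ℝ × R3 × R3)) (1, 0, 0) t :=
      (hasDerivAt_id t).prodMk (hasDerivAt_const t (x, v))
    exact (hF'.comp_hasDerivAt t h2).deriv
  have h2 : ∀ i, pderiv (fun y => F (t, y, v)) i x = L (0, EuclideanSpace.single i 1, 0) := by
    intro i
    have h3 : HasFDerivAt (fun y : R3 => ((t, y, v) : ℝ × R3 × R3))
        ((0 : R3 →L[ℝ] ℝ).prod ((ContinuousLinearMap.id ℝ R3).prod (0 : R3 →L[ℝ] R3))) x :=
      (hasFDerivAt_const t x).prodMk ((hasFDerivAt_id x).prodMk (hasFDerivAt_const v x))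
    have h4 := (hF'.comp x h3).fderiv
    rw [pderiv]
    have h5 : (fun y => F (t, y, v)) = F ∘ (fun y : R3 => ((t, y, v) : ℝ × R3 × R3)) := rfl
    rw [h5, h4]
    simp
  have h3 : ∀ i, pderiv (fun w => F (t, x, w)) i v = L (0, 0, EuclideanSpace.single i 1) := by
    intro i
    have h3 : HasFDerivAt (fun w : R3 => ((t, x, w) : ℝ × R3 × R3))
        ((0 : R3 →L[ℝ] ℝ).prod ((0 : R3 →L[ℝ] R3).prod (ContinuousLinearMap.id ℝ R3))) v :=
      (hasFDerivAt_const t v).prodMk ((hasFDerivAt_const x v).prodMk (hasFDerivAt_id v))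
    have h4 := (hF'.comp v h3).fderiv
    rw [pderiv]
    have h5 : (fun w => F (t, x, w)) = F ∘ (fun w : R3 => ((t, x, w) : ℝ × R3 × R3)) := rfl
    rw [h5, h4]
    simp
  have hb : b = ∑ i : Fin 3, b i • (EuclideanSpace.single i (1:ℝ) : R3) := by
    ext j
    simp [Fin.sum_univ_three]
    fin_cases j <;> simp
  have hc : c = ∑ i : Fin 3, c i • (EuclideanSpace.single i (1:ℝ) : R3) := by
    ext j
    simp [Fin.sum_univ_three]
    fin_cases j <;> simp
  have h4 : ((a, b, c) : ℝ × R3 × R3) = a • ((1, 0, 0) : ℝ × R3 × R3)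
      + (∑ i : Fin 3, b i • ((0, EuclideanSpace.single i 1, 0) : ℝ × R3 × R3))
      + ∑ i : Fin 3, c i • ((0, 0, EuclideanSpace.single i 1) : ℝ × R3 × R3) := by
    ext1
    · simp [Prod.fst_sum]
    · ext1
      · simp [Prod.snd_sum, Prod.fst_sum]
        rw [← hb]
      · simp [Prod.snd_sum]
        rw [← hc]
  rw [h4, map_add, map_add, map_smul, map_sum, map_sum, h1]
  simp only [map_smul, smul_eq_mul, h2, h3]

/-- the phase space vector field `(u(v), G v (E s x) (B s x))`. -/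
noncomputable def VF (G : R3 → R3 → R3 → R3) (E B : ℝ → R3 → R3) (s : ℝ) (z : R3 × R3) : R3 × R3 :=
  (relVel z.2, G z.2 (E s z.1) (B s z.1))

/-- **Difference of two transported densities** (majorant form, both signs of time). -/
theorem trans_diff {G : R3 → R3 → R3 → R3} {f₁ f₂ : ℝ → R3 → R3 → ℝ} {E₁ B₁ E₂ B₂ : ℝ → R3 → R3}
    {T L M : ℝ} {w : ℝ → ℝ} (hL : 0 ≤ L)
    (hf₁ : ContDiff ℝ 1 (fun p : ℝ × R3 × R3 => f₁ p.1 p.2.1 p.2.2))
    (hf₂ : ContDiff ℝ 1 (fun p : ℝ × R3 × R3 => f₂ p.1 p.2.1 p.2.2))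
    (h1 : ∀ t x v, deriv (fun s => f₁ s x v) t
      + ∑ i : Fin 3, relVel v i * pderiv (fun y => f₁ t y v) i x
      + ∑ i : Fin 3, G v (E₁ t x) (B₁ t x) i * pderiv (fun w => f₁ t x w) i v = 0)
    (h2 : ∀ t x v, deriv (fun s => f₂ s x v) t
      + ∑ i : Fin 3, relVel v i * pderiv (fun y => f₂ t y v) i x
      + ∑ i : Fin 3, G v (E₂ t x) (B₂ t x) i * pderiv (fun w => f₂ t x w) i v = 0)
    (h0 : f₁ 0 = f₂ 0)
    (hV : Flow.Good 1 (VF G E₁ B₁) (-T - 1) (T + 1))
    (hG : ∀ v e b e' b', ‖G v e b - G v e' b'‖ ≤ L * (‖e - e'‖ + ‖b - b'‖))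
    (hM : ∀ s, |s| ≤ T → ∀ x v, ‖fderiv ℝ (fun w => f₂ s x w) v‖ ≤ M)
    (hw : Continuous w) (hw0 : ∀ s, 0 ≤ w s)
    (hdiff : ∀ s, |s| ≤ T → ∀ x, ‖E₁ s x - E₂ s x‖ + ‖B₁ s x - B₂ s x‖ ≤ w s)
    {t : ℝ} (ht : |t| ≤ T) (x v : R3) :
    |f₁ t x v - f₂ t x v| ≤ L * M * |∫ s in (0:ℝ)..t, w s| := by
  have hT : 0 ≤ T := (abs_nonneg t).trans ht
  have hM0 : 0 ≤ M := (norm_nonneg _).trans (hM 0 (by simpa using hT) 0 0)
  have htI : t ∈ Ioo (-T - 1) (T + 1) := by
    rw [abs_le] at ht; exact ⟨by linarith [ht.1], by linarith [ht.2]⟩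
  set c : ℝ → R3 × R3 := fun r => Flow.Φ (VF G E₁ B₁) (-T - 1) (T + 1) r t (x, v) with hc
  have hct : c t = (x, v) := Flow.Φ_self hV htI _
  have hmem : ∀ s ∈ uIcc 0 t, |s| ≤ T := by
    intro s hs
    rw [mem_uIcc] at hs
    rw [abs_le] at ht ⊢
    rcases hs with hs | hs
    · exact ⟨by linarith, by linarith⟩
    · exact ⟨by linarith, by linarith⟩
  have hmemI : ∀ s, |s| ≤ T → s ∈ Ioo (-T - 1) (T + 1) := by
    intro s hs; rw [abs_le] at hs; exact ⟨by linarith [hs.1], by linarith [hs.2]⟩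
  have hcd : ∀ s, |s| ≤ T → HasDerivAt c (VF G E₁ B₁ s (c s)) s := fun s hs =>
    Flow.hasDerivAt_Φ hV (hmemI s hs) htI _
  -- the total derivative of `f₁ - f₂` along the curve
  set F : ℝ × R3 × R3 → ℝ := fun p => f₁ p.1 p.2.1 p.2.2 - f₂ p.1 p.2.1 p.2.2 with hF
  have hFd : ContDiff ℝ 1 F := hf₁.sub hf₂
  set g : ℝ → ℝ := fun s => F (s, c s) with hg
  have hgd : ∀ s, |s| ≤ T → HasDerivAt g
      (-(∑ i : Fin 3, (G (c s).2 (E₁ s (c s).1) (B₁ s (c s).1)
        - G (c s).2 (E₂ s (c s).1) (B₂ s (c s).1)) i * pderiv (fun w => f₂ s (c s).1 w) i (c s).2)) s := by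
    intro s hs
    have h3 : HasDerivAt (fun r : ℝ => ((r, c r) : ℝ × R3 × R3)) (1, VF G E₁ B₁ s (c s)) s :=
      (hasDerivAt_id s).prodMk (hcd s hs)
    have h4 := ((hFd.differentiable one_ne_zero (s, c s)).hasFDerivAt).comp_hasDerivAt s h3
    have h5 : fderiv ℝ F (s, c s) (1, VF G E₁ B₁ s (c s))
        = -(∑ i : Fin 3, (G (c s).2 (E₁ s (c s).1) (B₁ s (c s).1)
        - G (c s).2 (E₂ s (c s).1) (B₂ s (c s).1)) i * pderiv (fun w => f₂ s (c s).1 w) i (c s).2) := by
      have h6 : fderiv ℝ F (s, c s) = fderiv ℝ (fun p : ℝ × R3 × R3 => f₁ p.1 p.2.1 p.2.2) (s, c s)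
          - fderiv ℝ (fun p : ℝ × R3 × R3 => f₂ p.1 p.2.1 p.2.2) (s, c s) :=
        fderiv_fun_sub (hf₁.differentiable one_ne_zero _) (hf₂.differentiable one_ne_zero _)
      rw [h6, sub_apply]
      have h7 := fderiv_ps (F := fun p : ℝ × R3 × R3 => f₁ p.1 p.2.1 p.2.2) (t := s)
        (x := (c s).1) (v := (c s).2) (hf₁.differentiable one_ne_zero _) 1 (relVel (c s).2)
        (G (c s).2 (E₁ s (c s).1) (B₁ s (c s).1))
      have h8 := fderiv_ps (F := fun p : ℝ × R3 × R3 => f₂ p.1 p.2.1 p.2.2) (t := s)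
        (x := (c s).1) (v := (c s).2) (hf₂.differentiable one_ne_zero _) 1 (relVel (c s).2)
        (G (c s).2 (E₁ s (c s).1) (B₁ s (c s).1))
      have h9 := h1 s (c s).1 (c s).2
      have h10 := h2 s (c s).1 (c s).2
      simp only [VF, Prod.mk.eta] at h7 h8 ⊢
      rw [h7, h8]
      simp only [Fin.sum_univ_three, PiLp.sub_apply] at h9 h10 ⊢
      linarith
    rw [h5] at h4
    exact h4
  have hbound : ∀ s ∈ uIcc 0 t, ‖-(∑ i : Fin 3, (G (c s).2 (E₁ s (c s).1) (B₁ s (c s).1)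
        - G (c s).2 (E₂ s (c s).1) (B₂ s (c s).1)) i * pderiv (fun w => f₂ s (c s).1 w) i (c s).2)‖
      ≤ L * M * w s := by
    intro s hs
    have hs' := hmem s hs
    have h3 : (∑ i : Fin 3, (G (c s).2 (E₁ s (c s).1) (B₁ s (c s).1)
        - G (c s).2 (E₂ s (c s).1) (B₂ s (c s).1)) i * pderiv (fun w => f₂ s (c s).1 w) i (c s).2)
        = fderiv ℝ (fun w => f₂ s (c s).1 w) (c s).2 (G (c s).2 (E₁ s (c s).1) (B₁ s (c s).1)
        - G (c s).2 (E₂ s (c s).1) (B₂ s (c s).1)) := by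
      set d := G (c s).2 (E₁ s (c s).1) (B₁ s (c s).1) - G (c s).2 (E₂ s (c s).1) (B₂ s (c s).1)
      have hd : d = ∑ i : Fin 3, d i • (EuclideanSpace.single i (1:ℝ) : R3) := by
        ext j
        simp [Fin.sum_univ_three]
        fin_cases j <;> simp
      conv_rhs => rw [hd, map_sum]
      simp only [map_smul, smul_eq_mul, pderiv]
    rw [norm_neg, h3]
    have h4 := (fderiv ℝ (fun w => f₂ s (c s).1 w) (c s).2).le_opNorm
      (G (c s).2 (E₁ s (c s).1) (B₁ s (c s).1) - G (c s).2 (E₂ s (c s).1) (B₂ s (c s).1))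
    have h5 := hG (c s).2 (E₁ s (c s).1) (B₁ s (c s).1) (E₂ s (c s).1) (B₂ s (c s).1)
    have h6 := hdiff s hs' (c s).1
    have h7 := hM s hs' (c s).1 (c s).2
    calc _ ≤ _ := h4
      _ ≤ M * (L * w s) := by
          apply mul_le_mul h7 (h5.trans (mul_le_mul_of_nonneg_left h6 hL)) (norm_nonneg _) hM0
      _ = L * M * w s := by ring
  have hg0 : g 0 = 0 := by
    simp only [hg, hF]
    rw [h0]
    simp
  -- comparison
  have hcont : ContinuousOn g (uIcc 0 t) := fun s hs => (hgd s (hmem s hs)).continuousAt.continuousWithinAt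
  have hW : ∀ s, HasDerivAt (fun r => ∫ q in (0:ℝ)..r, L * M * w q) (L * M * w s) s := fun s =>
    intervalIntegral.integral_hasDerivAt_right ((hw.const_mul _).intervalIntegrable _ _)
      ((hw.const_mul _).stronglyMeasurableAtFilter _ _) (hw.const_mul _).continuousAt
  have hgt : g t = f₁ t x v - f₂ t x v := by simp only [hg, hF, hct]
  rw [← hgt]
  have hconst : (∫ q in (0:ℝ)..t, L * M * w q) = L * M * ∫ q in (0:ℝ)..t, w q :=
    intervalIntegral.integral_const_mul _ _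
  rcases le_total 0 t with h | h
  · rw [uIcc_of_le h] at hbound hcont hmem
    have h3 := image_norm_le_of_norm_deriv_right_le_deriv_boundary (f := g)
      (f' := fun s => -(∑ i : Fin 3, (G (c s).2 (E₁ s (c s).1) (B₁ s (c s).1)
        - G (c s).2 (E₂ s (c s).1) (B₂ s (c s).1)) i * pderiv (fun w => f₂ s (c s).1 w) i (c s).2))
      (a := 0) (b := t) hcont
      (fun s hs => (hgd s (hmem s (Ico_subset_Icc_self hs))).hasDerivWithinAt)
      (B := fun r => ∫ q in (0:ℝ)..r, L * M * w q) (B' := fun s => L * M * w s)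
      (by simp [hg0]) hW (fun s hs => hbound s (Ico_subset_Icc_self hs)) (right_mem_Icc.2 h)
    have h4 : 0 ≤ ∫ q in (0:ℝ)..t, w q := intervalIntegral.integral_nonneg h fun r _ => hw0 r
    rw [abs_of_nonneg h4, ← hconst]
    simpa using h3
  · rw [uIcc_of_ge h] at hbound hcont hmem
    have h3 := image_norm_le_of_norm_deriv_right_le_deriv_boundary (f := fun s => g (-s))
      (f' := fun s => -(-(∑ i : Fin 3, (G (c (-s)).2 (E₁ (-s) (c (-s)).1) (B₁ (-s) (c (-s)).1)
        - G (c (-s)).2 (E₂ (-s) (c (-s)).1) (B₂ (-s) (c (-s)).1)) i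
          * pderiv (fun w => f₂ (-s) (c (-s)).1 w) i (c (-s)).2)))
      (a := 0) (b := -t)
      (hcont.comp continuous_neg.continuousOn (fun s hs => ⟨by linarith [hs.2], by linarith [hs.1]⟩))
      (fun s hs => by
        have h4 := hgd (-s) (hmem (-s) ⟨by linarith [hs.2], by linarith [hs.1]⟩)
        have h5 := h4.scomp s (hasDerivAt_neg s)
        simpa [Function.comp_def] using h5.hasDerivWithinAt)
      (B := fun r => ∫ q in (0:ℝ)..r, L * M * w (-q)) (B' := fun s => L * M * w (-s))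
      (by simp [hg0])
      (fun s => intervalIntegral.integral_hasDerivAt_right
        (((hw.comp continuous_neg).const_mul _).intervalIntegrable _ _)
        (((hw.comp continuous_neg).const_mul _).stronglyMeasurableAtFilter _ _)
        ((hw.comp continuous_neg).const_mul _).continuousAt)
      (fun s hs => by
        rw [norm_neg]
        exact hbound (-s) ⟨by linarith [hs.2], by linarith [hs.1]⟩)
      (right_mem_Icc.2 (by linarith : (0:ℝ) ≤ -t))
    have h4 : 0 ≤ ∫ q in t..(0:ℝ), w q := intervalIntegral.integral_nonneg h fun r _ => hw0 r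
    have h5 : (∫ q in (0:ℝ)..(-t), L * M * w (-q)) = ∫ q in t..(0:ℝ), L * M * w q := by
      rw [intervalIntegral.integral_comp_neg (fun q => L * M * w q)]
      simp
    rw [intervalIntegral.integral_symm, abs_neg, abs_of_nonneg h4,
      ← intervalIntegral.integral_const_mul, ← h5]
    simpa using h3

end Crest.Agent.R106.IterC
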