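import Crest.Agent.R106.PairAlg

/-!
# Row 106 (S0140): the conjugate identity (C), derivative form (node KER, helper868)

`n` unit vector from the source to the test, `R` the distance, `V, A` velocity and acceleration of
the test particle, `v, a` velocity and acceleration of the source.  Definitions: `PairAlg`
(helper898).  The derivative is with respect to the source time `τ`; `q = ds/dτ = ε/δ`.
-/

set_option autoImplicit false
set_option linter.unusedSimpArgs false

namespace Crest.Agent.R106.Pair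

open scoped RealInnerProductSpace

variable {E : Type*} [NormedAddCommGroup E] [InnerProductSpace ℝ E]

/-- derivative of the unit vector along the pair of trajectories, parametrised by the source
time `τ` (`q = ds/dτ = ε/δ`). -/
noncomputable def nd (n v V : E) (R q : ℝ) : E := (1 / R) • (q • V - v - (q - 1) • n)

theorem hasDerivAt_om {n V : ℝ → E} {n' V' : E} {τ : ℝ} (hn : HasDerivAt n n' τ)
    (hV : HasDerivAt V V' τ) :
    HasDerivAt (fun t => om (n t) (V t)) (-(⟪n τ, V'⟫ + ⟪n', V τ⟫)) τ := by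
  have := (hn.inner ℝ hV).const_sub 1
  exact this

/-- algebraic core of (C). -/
theorem coreC (n v V A a : E) (R : ℝ) (hn1 : ‖n‖ = 1) (hR : R ≠ 0) (hδ : om n V ≠ 0)
    (hε : om n v ≠ 0) (q δ' ε' D' : ℝ) (hq : q = om n v / om n V)
    (hδ' : δ' = -(⟪n, q • A⟫ + ⟪nd n v V R q, V⟫))
    (hε' : ε' = -(⟪n, a⟫ + ⟪nd n v V R q, v⟫))
    (hD' : D' = -(⟪V, a⟫ + ⟪q • A, v⟫)) :
    (1 / (om n V * om n v * R)) •
        (D' • n + om V v • nd n v V R q - (δ' • v + om n V • a) - (ε' • V + om n v • (q • A)))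
      + (-((δ' * om n v + om n V * ε') * R + om n V * om n v * (q - 1))
          / (om n V * om n v * R) ^ 2) •
        ((om V v) • n - (om n V) • v - (om n v) • V)
      = (1 / om n V) • (KT n v V R + KS n v V a R) - KC n v V A R := by
  have hnn : ⟪n, n⟫ = 1 := by rw [real_inner_self_eq_norm_sq, hn1]; norm_num
  have h1 : ⟪V, n⟫ = ⟪n, V⟫ := real_inner_comm _ _
  have h2 : ⟪v, n⟫ = ⟪n, v⟫ := real_inner_comm _ _
  have h3 : ⟪v, V⟫ = ⟪V, v⟫ := real_inner_comm _ _
  have h4 : ‖V‖ ^ 2 = ⟪V, V⟫ := (real_inner_self_eq_norm_sq _).symm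
  have h5 : ‖v‖ ^ 2 = ⟪v, v⟫ := (real_inner_self_eq_norm_sq _).symm
  simp only [nd, inner_smul_left, inner_smul_right, inner_sub_left, inner_sub_right,
    conj_trivial, hnn, h1, h2, h3] at hδ' hε' hD'
  simp only [KT, KS, lor, eT, eS, KC, nd, inner_smul_left, inner_smul_right,
    inner_sub_left, inner_sub_right, conj_trivial, hnn, h1, h2, h3, h4, h5]
  simp only [om] at *
  rw [hδ', hε', hD', hq]
  clear hδ' hε' hD' hq h1 h2 h3 h4 h5 hnn hn1
  generalize ⟪n, V⟫ = nV at *
  generalize ⟪n, v⟫ = nv at *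
  generalize ⟪V, v⟫ = Vv at *
  generalize ⟪V, V⟫ = VV at *
  generalize ⟪v, v⟫ = vv at *
  generalize ⟪n, A⟫ = nA at *
  generalize ⟪n, a⟫ = na at *
  generalize ⟪A, v⟫ = Av at *
  generalize ⟪V, a⟫ = Va at *
  match_scalars <;> field_simp <;> ring

/-- **Conjugate identity (C)**, derivative form. -/
theorem hasDerivAt_KG {n v V : ℝ → E} {R : ℝ → ℝ} {A a : E} {τ : ℝ}
    (hn1 : ‖n τ‖ = 1) (hR : R τ ≠ 0) (hδ : om (n τ) (V τ) ≠ 0) (hε : om (n τ) (v τ) ≠ 0)
    (hRd : HasDerivAt R (om (n τ) (v τ) / om (n τ) (V τ) - 1) τ)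
    (hnd : HasDerivAt n (nd (n τ) (v τ) (V τ) (R τ) (om (n τ) (v τ) / om (n τ) (V τ))) τ)
    (hVd : HasDerivAt V ((om (n τ) (v τ) / om (n τ) (V τ)) • A) τ)
    (hvd : HasDerivAt v a τ) :
    HasDerivAt (fun t => KG (n t) (v t) (V t) (R t))
      ((1 / om (n τ) (V τ)) • (KT (n τ) (v τ) (V τ) (R τ) + KS (n τ) (v τ) (V τ) a (R τ))
        - KC (n τ) (v τ) (V τ) A (R τ)) τ := by
  have hδd := hasDerivAt_om hnd hVd
  have hεd := hasDerivAt_om hnd hvd
  have hDd := hasDerivAt_om hVd hvd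
  have hden := ((hδd.mul hεd).mul hRd).fun_inv
    (mul_ne_zero (mul_ne_zero hδ hε) hR)
  have hnum := ((hDd.smul hnd).sub (hδd.smul hvd)).sub (hεd.smul hVd)
  have h := hden.smul hnum
  have hc := coreC (n τ) (v τ) (V τ) A a (R τ) hn1 hR hδ hε _ _ _ _ rfl rfl rfl rfl
  rw [← hc]
  have hf : (fun t => KG (n t) (v t) (V t) (R t)) =
      fun t => ((om (n t) (V t) * om (n t) (v t) * R t)⁻¹) •
        (om (V t) (v t) • n t - om (n t) (V t) • v t - om (n t) (v t) • V t) := by
    funext t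
    simp only [KG, one_div]
  rw [hf]
  refine h.congr_deriv ?_
  simp only [one_div, Pi.mul_apply, Pi.sub_apply, Pi.smul_apply']
  module

end Crest.Agent.R106.Pair
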