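import Crest.Agent.R106.PairKer
import Crest.Agent.R106.KerC

/-!
# Row 106 (S0140): rates of `ε`, `δ`, `log (ε/δ²)` along a pair and the cut-off bounds
(node PAIR, part of helper868)

`n` unit vector from the source to the test, `R` the distance, `V, A` velocity and acceleration of
the test particle, `v, a` velocity and acceleration of the source.
`dl = om n V`, `ep = om n v`, `D = om V v`, `q = ep/dl = ds/dτ`.

All derivative statements are given along an arbitrary parametrisation `σ` with `dτ/dσ = α`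
(so `α = 1`: source time, `α = dl/ep`: test time).
-/

set_option autoImplicit false
set_option linter.unusedSimpArgs false
set_option linter.unusedSectionVars false

namespace Crest.Agent.R106.Pair

open scoped RealInnerProductSpace

variable {E : Type*} [NormedAddCommGroup E] [InnerProductSpace ℝ E]

/-- **Conjugate identity (C)**, derivative form, arbitrary parametrisation (`dτ/dσ = α`). -/
theorem hasDerivAt_KG_gen {n v V : ℝ → E} {R : ℝ → ℝ} {A a : E} {τ α : ℝ}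
    (hn1 : ‖n τ‖ = 1) (hR : R τ ≠ 0) (hδ : om (n τ) (V τ) ≠ 0) (hε : om (n τ) (v τ) ≠ 0)
    (hRd : HasDerivAt R (α * (om (n τ) (v τ) / om (n τ) (V τ) - 1)) τ)
    (hnd : HasDerivAt n (α • nd (n τ) (v τ) (V τ) (R τ) (om (n τ) (v τ) / om (n τ) (V τ))) τ)
    (hVd : HasDerivAt V ((α * (om (n τ) (v τ) / om (n τ) (V τ))) • A) τ)
    (hvd : HasDerivAt v (α • a) τ) :
    HasDerivAt (fun t => KG (n t) (v t) (V t) (R t))
      (α • ((1 / om (n τ) (V τ)) • (KT (n τ) (v τ) (V τ) (R τ) + KS (n τ) (v τ) (V τ) a (R τ))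
        - KC (n τ) (v τ) (V τ) A (R τ))) τ := by
  have hδd := hasDerivAt_om hnd hVd
  have hεd := hasDerivAt_om hnd hvd
  have hDd := hasDerivAt_om hVd hvd
  have hden := ((hδd.mul hεd).mul hRd).fun_inv
    (mul_ne_zero (mul_ne_zero hδ hε) hR)
  have hnum := ((hDd.smul hnd).sub (hδd.smul hvd)).sub (hεd.smul hVd)
  have h := hden.smul hnum
  have hc := coreC (n τ) (v τ) (V τ) A a (R τ) hn1 hR hδ hε _ _ _ _ rfl rfl rfl rfl
  rw [← hc]
  have hf : (fun t => KG (n t) (v t) (V t) (R t)) =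
      fun t => ((om (n t) (V t) * om (n t) (v t) * R t)⁻¹) •
        (om (V t) (v t) • n t - om (n t) (V t) • v t - om (n t) (v t) • V t) := by
    funext t
    simp only [KG, one_div]
  rw [hf]
  refine h.congr_deriv ?_
  simp only [one_div, Pi.mul_apply, Pi.sub_apply, Pi.smul_apply', inner_smul_left,
    inner_smul_right, conj_trivial]
  module

/-- rate of `ε` per unit source time. -/
noncomputable def epR (n v V a : E) (R : ℝ) : ℝ :=
  -(om n v * (om n v / om n V - 1) - om n v / om n V * om V v + (1 - ‖v‖ ^ 2)) / R - ⟪n, a⟫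

/-- rate of `δ` per unit source time. -/
noncomputable def dlR (n v V A : E) (R : ℝ) : ℝ :=
  -(om n v - om n v / om n V * (1 - ‖V‖ ^ 2) - om n V + om V v) / R
    - om n v / om n V * ⟪n, A⟫

/-- geometric part (times `R`) of the rate of `log (ε/δ²)`. -/
noncomputable def geo (n v V : E) : ℝ :=
  (om n v / om n V - 1) + 3 * (om V v / om n V) - (1 - ‖v‖ ^ 2) / om n v
    - 2 * (om n v / om n V) * ((1 - ‖V‖ ^ 2) / om n V)

/-- rate of `log (ε/δ²)` per unit source time. -/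
noncomputable def rho (n v V a A : E) (R : ℝ) : ℝ :=
  geo n v V / R - ⟪n, a⟫ / om n v + 2 * (om n v / om n V) * (⟪n, A⟫ / om n V)

theorem inner_nd_v (n v V : E) (R q : ℝ) (hR : R ≠ 0) :
    ⟪nd n v V R q, v⟫ = ((q - 1) * om n v - q * om V v + (1 - ‖v‖ ^ 2)) / R := by
  unfold nd
  rw [inner_smul_left, inner_sub_left, inner_sub_left, inner_smul_left, inner_smul_left,
    real_inner_self_eq_norm_sq]
  simp only [conj_trivial, om]
  field_simp
  ring

theorem inner_nd_V (n v V : E) (R q : ℝ) (hR : R ≠ 0) :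
    ⟪nd n v V R q, V⟫ = (om V v - q * (1 - ‖V‖ ^ 2) + q * om n V - om n V) / R := by
  unfold nd
  rw [inner_smul_left, inner_sub_left, inner_sub_left, inner_smul_left, inner_smul_left,
    real_inner_self_eq_norm_sq]
  simp only [conj_trivial, om, real_inner_comm V v]
  field_simp
  ring

section rates

variable {n v V : ℝ → E} {R : ℝ → ℝ} {A a : E} {τ α : ℝ}

theorem hasDerivAt_ep
    (hR : R τ ≠ 0)
    (hnd : HasDerivAt n (α • nd (n τ) (v τ) (V τ) (R τ) (om (n τ) (v τ) / om (n τ) (V τ))) τ)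
    (hvd : HasDerivAt v (α • a) τ) :
    HasDerivAt (fun t => om (n t) (v t)) (α * epR (n τ) (v τ) (V τ) a (R τ)) τ := by
  refine (hasDerivAt_om hnd hvd).congr_deriv ?_
  rw [inner_smul_right, inner_smul_left, inner_nd_v _ _ _ _ _ hR]
  simp only [conj_trivial, epR]
  ring

theorem hasDerivAt_dl
    (hR : R τ ≠ 0) (hδ : om (n τ) (V τ) ≠ 0)
    (hnd : HasDerivAt n (α • nd (n τ) (v τ) (V τ) (R τ) (om (n τ) (v τ) / om (n τ) (V τ))) τ)
    (hVd : HasDerivAt V ((α * (om (n τ) (v τ) / om (n τ) (V τ))) • A) τ) :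
    HasDerivAt (fun t => om (n t) (V t)) (α * dlR (n τ) (v τ) (V τ) A (R τ)) τ := by
  refine (hasDerivAt_om hnd hVd).congr_deriv ?_
  rw [inner_smul_right, inner_smul_left, inner_nd_V _ _ _ _ _ hR]
  simp only [conj_trivial, dlR]
  have h : om (n τ) (v τ) / om (n τ) (V τ) * om (n τ) (V τ) = om (n τ) (v τ) :=
    div_mul_cancel₀ _ hδ
  rw [h]
  ring

theorem rho_eq (n v V a A : E) (R : ℝ) (hR : R ≠ 0) (hδ : om n V ≠ 0) (hε : om n v ≠ 0) :
    epR n v V a R / om n v - 2 * (dlR n v V A R / om n V) = rho n v V a A R := by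
  unfold epR dlR rho geo
  field_simp
  ring

/-- derivative of the cut-off variable `ε/(lam δ²)`. -/
theorem hasDerivAt_cut (lam : ℝ) (hlam : lam ≠ 0)
    (hR : R τ ≠ 0) (hδ : om (n τ) (V τ) ≠ 0) (hε : om (n τ) (v τ) ≠ 0)
    (hnd : HasDerivAt n (α • nd (n τ) (v τ) (V τ) (R τ) (om (n τ) (v τ) / om (n τ) (V τ))) τ)
    (hVd : HasDerivAt V ((α * (om (n τ) (v τ) / om (n τ) (V τ))) • A) τ)
    (hvd : HasDerivAt v (α • a) τ) :
    HasDerivAt (fun t => om (n t) (v t) / (lam * om (n t) (V t) ^ 2))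
      (α * (om (n τ) (v τ) / (lam * om (n τ) (V τ) ^ 2) *
        rho (n τ) (v τ) (V τ) a A (R τ))) τ := by
  have h1 := hasDerivAt_ep (a := a) hR hnd hvd
  have h2 := hasDerivAt_dl (A := A) hR hδ hnd hVd
  have h3 := h1.div ((h2.pow 2).const_mul lam) (mul_ne_zero hlam (pow_ne_zero 2 hδ))
  refine h3.congr_deriv ?_
  rw [← rho_eq (n τ) (v τ) (V τ) a A (R τ) hR hδ hε]
  simp only [Pi.pow_apply]
  field_simp
  ring

end rates

section bounds

variable {n v V : E} {R : ℝ}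

/-- `k_cut`: `sqrt(δ/ε)/R²` if `δ ≥ 4ε`, `sqrt(ε/δ)/R²` if `ε ≥ 4δ`, `sqrt(D/δ)/R²` otherwise. -/
noncomputable def kcut (n v V : E) (R : ℝ) : ℝ :=
  if 4 * om n v ≤ om n V then Real.sqrt (om n V / om n v) / R ^ 2
  else if 4 * om n V ≤ om n v then Real.sqrt (om n v / om n V) / R ^ 2
  else Real.sqrt (om V v / om n V) / R ^ 2

/-- `k_S = sqrt δ/(γ ε R)`. -/
noncomputable def kS (n v V : E) (R : ℝ) : ℝ :=
  Real.sqrt (om n V) * Real.sqrt (1 - ‖v‖ ^ 2) / (om n v * R)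

/-- `k_C = sqrt ε/(Γ δ R)`. -/
noncomputable def kC (n v V : E) (R : ℝ) : ℝ :=
  Real.sqrt (om n v) * Real.sqrt (1 - ‖V‖ ^ 2) / (om n V * R)

theorem kcut_nonneg (n v V : E) (R : ℝ) : 0 ≤ kcut n v V R := by
  unfold kcut
  split_ifs <;> positivity

theorem kS_nonneg (hn : ‖n‖ ≤ 1) (hv : ‖v‖ ≤ 1) (hR : 0 ≤ R) : 0 ≤ kS n v V R := by
  have := om_nonneg hn hv
  unfold kS; positivity

theorem kC_nonneg (hn : ‖n‖ ≤ 1) (hV : ‖V‖ ≤ 1) (hR : 0 ≤ R) : 0 ≤ kC n v V R := by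
  have := om_nonneg hn hV
  unfold kC; positivity

/-- zone 1 -/
theorem abs_geo_le_one (hn : ‖n‖ = 1) (hv : ‖v‖ < 1) (hV : ‖V‖ < 1)
    (h : 4 * om n v ≤ om n V) : |geo n v V| ≤ 8 := by
  have hε := om_pos hn hv
  have hδ := om_pos hn hV
  have hgv0 : 0 ≤ 1 - ‖v‖ ^ 2 := by nlinarith [norm_nonneg v]
  have hgV0 : 0 ≤ 1 - ‖V‖ ^ 2 := by nlinarith [norm_nonneg V]
  have hgv := gam_le_ep (n := n) (v := v) hn
  have hgV := gam_le_ep (n := n) (v := V) hn
  have hD := D_le_of (n := n) (v := v) (V := V) hn hv.le hV.le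
  have hD0 := (om_pos' hV hv).le
  have hq : om n v / om n V ≤ 1 / 4 := by
    rw [div_le_iff₀ hδ]; linarith
  have hq0 : 0 ≤ om n v / om n V := by positivity
  have hDd : om V v / om n V ≤ 5 / 2 := by
    rw [div_le_iff₀ hδ]; linarith
  have hDd0 : 0 ≤ om V v / om n V := by positivity
  have h1 : (1 - ‖v‖ ^ 2) / om n v ≤ 2 := by rw [div_le_iff₀ hε]; linarith
  have h10 : 0 ≤ (1 - ‖v‖ ^ 2) / om n v := by positivity
  have h2 : (1 - ‖V‖ ^ 2) / om n V ≤ 2 := by rw [div_le_iff₀ hδ]; linarith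
  have h20 : 0 ≤ (1 - ‖V‖ ^ 2) / om n V := by positivity
  have h3 : om n v / om n V * ((1 - ‖V‖ ^ 2) / om n V) ≤ 1 / 4 * 2 :=
    mul_le_mul hq h2 h20 (by norm_num)
  have h30 : 0 ≤ om n v / om n V * ((1 - ‖V‖ ^ 2) / om n V) := by positivity
  unfold geo
  rw [abs_le]
  constructor <;> nlinarith

/-- zone 2 -/
theorem abs_geo_le_two (hn : ‖n‖ = 1) (hv : ‖v‖ < 1) (hV : ‖V‖ < 1)
    (h : 4 * om n V ≤ om n v) : |geo n v V| ≤ 9 * (om n v / om n V) := by
  have hε := om_pos hn hv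
  have hδ := om_pos hn hV
  have hgv0 : 0 ≤ 1 - ‖v‖ ^ 2 := by nlinarith [norm_nonneg v]
  have hgV0 : 0 ≤ 1 - ‖V‖ ^ 2 := by nlinarith [norm_nonneg V]
  have hgv := gam_le_ep (n := n) (v := v) hn
  have hgV := gam_le_ep (n := n) (v := V) hn
  have hD := D_le_of (n := n) (v := v) (V := V) hn hv.le hV.le
  have hD0 := (om_pos' hV hv).le
  have hq : 4 ≤ om n v / om n V := by
    rw [le_div_iff₀ hδ]; linarith
  have hDd : om V v / om n V ≤ 5 / 2 * (om n v / om n V) := by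
    rw [← mul_div_assoc]
    apply div_le_div_of_nonneg_right _ hδ.le
    linarith
  have hDd0 : 0 ≤ om V v / om n V := by positivity
  have h1 : (1 - ‖v‖ ^ 2) / om n v ≤ 2 := by rw [div_le_iff₀ hε]; linarith
  have h10 : 0 ≤ (1 - ‖v‖ ^ 2) / om n v := by positivity
  have h2 : (1 - ‖V‖ ^ 2) / om n V ≤ 2 := by rw [div_le_iff₀ hδ]; linarith
  have h20 : 0 ≤ (1 - ‖V‖ ^ 2) / om n V := by positivity
  have h3 : om n v / om n V * ((1 - ‖V‖ ^ 2) / om n V) ≤ om n v / om n V * 2 :=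
    mul_le_mul_of_nonneg_left h2 (by positivity)
  have h30 : 0 ≤ om n v / om n V * ((1 - ‖V‖ ^ 2) / om n V) := by positivity
  unfold geo
  rw [abs_le]
  constructor <;> nlinarith

/-- zone 3 -/
theorem abs_geo_le_three (hn : ‖n‖ = 1) (hv : ‖v‖ < 1) (hV : ‖V‖ < 1)
    (h1' : om n V ≤ 4 * om n v) (h2' : om n v ≤ 4 * om n V) :
    |geo n v V| ≤ 91 * Real.sqrt (om V v / om n V) := by
  have hε := om_pos hn hv
  have hδ := om_pos hn hV
  have hgv0 : 0 ≤ 1 - ‖v‖ ^ 2 := by nlinarith [norm_nonneg v]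
  have hgV0 : 0 ≤ 1 - ‖V‖ ^ 2 := by nlinarith [norm_nonneg V]
  have hgD := gam_add_le_D (v := v) (V := V)
  have hD := D_le_of (n := n) (v := v) (V := V) hn hv.le hV.le
  have hD0 := (om_pos' hV hv)
  have hab := abs_ep_sub_dl_le (n := n) (v := v) (V := V) hn hv.le hV.le
  set z := om V v / om n V with hz
  have hz0 : 0 ≤ z := by positivity
  have hz10 : z ≤ 10 := by rw [hz, div_le_iff₀ hδ]; linarith
  set w := Real.sqrt z with hw
  have hw0 : 0 ≤ w := Real.sqrt_nonneg _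
  have hww : w * w = z := Real.mul_self_sqrt hz0
  have hw32 : w ≤ 16 / 5 := by
    rw [hw]; apply Real.sqrt_le_iff.mpr ⟨by norm_num, by linarith [show (10:ℝ) ≤ (16/5)^2 by norm_num]⟩
  have hzw : z ≤ 16 / 5 * w := by rw [← hww]; nlinarith
  -- |q - 1|
  have hq1 : |om n v / om n V - 1| ≤ 2 * w + z := by
    have e : om n v / om n V - 1 = (om n v - om n V) / om n V := by field_simp
    rw [e, abs_div, abs_of_pos hδ, div_le_iff₀ hδ]
    refine hab.trans (le_of_eq ?_)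
    have e2 : Real.sqrt (om n V * om V v) = w * om n V := by
      rw [hw, hz]
      rw [show om n V * om V v = (om V v / om n V) * (om n V) ^ 2 by field_simp]
      rw [Real.sqrt_mul (by positivity), Real.sqrt_sq hδ.le]
    rw [e2, add_mul, hz, div_mul_cancel₀ _ hδ.ne']
    ring
  have hq4 : om n v / om n V ≤ 4 := by rw [div_le_iff₀ hδ]; linarith
  have hq0 : 0 ≤ om n v / om n V := by positivity
  have hDv : om V v = z * om n V := by rw [hz, div_mul_cancel₀ _ hδ.ne']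
  have h1 : (1 - ‖v‖ ^ 2) / om n v ≤ 8 * z := by
    rw [div_le_iff₀ hε]
    have : z * om n V ≤ z * (4 * om n v) := mul_le_mul_of_nonneg_left h1' hz0
    nlinarith
  have h10 : 0 ≤ (1 - ‖v‖ ^ 2) / om n v := by positivity
  have h2 : (1 - ‖V‖ ^ 2) / om n V ≤ 2 * z := by
    rw [div_le_iff₀ hδ]; nlinarith
  have h20 : 0 ≤ (1 - ‖V‖ ^ 2) / om n V := by positivity
  have h3 : om n v / om n V * ((1 - ‖V‖ ^ 2) / om n V) ≤ 4 * (2 * z) :=
    mul_le_mul hq4 h2 h20 (by norm_num)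
  have h30 : 0 ≤ om n v / om n V * ((1 - ‖V‖ ^ 2) / om n V) := by positivity
  unfold geo
  rw [abs_le] at hq1 ⊢
  constructor
  · nlinarith [hq1.1]
  · nlinarith [hq1.2]

theorem sqrt_div_eq {x y : ℝ} (hx : 0 < x) (hy : 0 < y) :
    Real.sqrt (x / y) * (y / x) = Real.sqrt (y / x) := by
  have h1 : 0 < Real.sqrt x := Real.sqrt_pos.mpr hx
  have h2 : 0 < Real.sqrt y := Real.sqrt_pos.mpr hy
  rw [Real.sqrt_div hx.le, Real.sqrt_div hy.le]
  have e1 : x = Real.sqrt x * Real.sqrt x := (Real.mul_self_sqrt hx.le).symm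
  have e2 : y = Real.sqrt y * Real.sqrt y := (Real.mul_self_sqrt hy.le).symm
  rw [show y / x = (Real.sqrt y * Real.sqrt y) / (Real.sqrt x * Real.sqrt x) by rw [← e1, ← e2]]
  field_simp

/-- `δ |G| |geo|/R ≤ 1100 k_cut`. -/
theorem geo_part_le (hn : ‖n‖ = 1) (hv : ‖v‖ < 1) (hV : ‖V‖ < 1) (hR : 0 < R) :
    om n V * ‖KG n v V R‖ * (|geo n v V| / R) ≤ 1100 * kcut n v V R := by
  have hε := om_pos hn hv
  have hδ := om_pos hn hV
  have hG := dl_norm_KG_le hn hv hV hR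
  have hg0 : 0 ≤ |geo n v V| / R := by positivity
  have hstep : om n V * ‖KG n v V R‖ * (|geo n v V| / R) ≤
      6 * (Real.sqrt (om n V / om n v) / R) * (|geo n v V| / R) :=
    mul_le_mul_of_nonneg_right hG hg0
  refine hstep.trans ?_
  have hsq0 : 0 ≤ Real.sqrt (om n V / om n v) := Real.sqrt_nonneg _
  unfold kcut
  split_ifs with h1 h2
  · have h := abs_geo_le_one hn hv hV h1
    calc 6 * (Real.sqrt (om n V / om n v) / R) * (|geo n v V| / R)
        ≤ 6 * (Real.sqrt (om n V / om n v) / R) * (8 / R) := by gcongr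
      _ = 48 * (Real.sqrt (om n V / om n v) / R ^ 2) := by field_simp; ring
      _ ≤ _ := by
        have : 0 ≤ Real.sqrt (om n V / om n v) / R ^ 2 := by positivity
        linarith
  · have h := abs_geo_le_two hn hv hV h2
    calc 6 * (Real.sqrt (om n V / om n v) / R) * (|geo n v V| / R)
        ≤ 6 * (Real.sqrt (om n V / om n v) / R) * (9 * (om n v / om n V) / R) := by gcongr
      _ = 54 * (Real.sqrt (om n V / om n v) * (om n v / om n V) / R ^ 2) := by field_simp; ring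
      _ = 54 * (Real.sqrt (om n v / om n V) / R ^ 2) := by rw [sqrt_div_eq hδ hε]
      _ ≤ _ := by
        have : 0 ≤ Real.sqrt (om n v / om n V) / R ^ 2 := by positivity
        linarith
  · push Not at h1 h2
    have h := abs_geo_le_three hn hv hV h1.le h2.le
    have h4 : Real.sqrt (om n V / om n v) ≤ 2 := by
      apply Real.sqrt_le_iff.mpr ⟨by norm_num, ?_⟩
      rw [div_le_iff₀ hε]; linarith
    calc 6 * (Real.sqrt (om n V / om n v) / R) * (|geo n v V| / R)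
        ≤ 6 * (2 / R) * (91 * Real.sqrt (om V v / om n V) / R) := by gcongr
      _ = 1092 * (Real.sqrt (om V v / om n V) / R ^ 2) := by field_simp; ring
      _ ≤ _ := by
        have : 0 ≤ Real.sqrt (om V v / om n V) / R ^ 2 := by positivity
        linarith

/-- `δ |G| |n·a|/ε ≤ 9 k_S |F|`. -/
theorem a_part_le (hn : ‖n‖ = 1) (hv : ‖v‖ < 1) (hV : ‖V‖ < 1) (hR : 0 < R) (F : E) :
    om n V * ‖KG n v V R‖ * (|⟪n, acc v F⟫| / om n v) ≤ 9 * (kS n v V R * ‖F‖) := by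
  have hε := om_pos hn hv
  have hδ := om_pos hn hV
  have hG := dl_norm_KG_le hn hv hV hR
  have ha := abs_inner_n_acc_le hn hv.le F
  have hs2 := sqrt_two_mul_le hε.le
  have h1 : 0 < Real.sqrt (om n V) := Real.sqrt_pos.mpr hδ
  have h2 : 0 < Real.sqrt (om n v) := Real.sqrt_pos.mpr hε
  have e2 : om n v = Real.sqrt (om n v) * Real.sqrt (om n v) := (Real.mul_self_sqrt hε.le).symm
  have ha' : |⟪n, acc v F⟫| ≤ (3 / 2 * Real.sqrt (om n v)) * (Real.sqrt (1 - ‖v‖ ^ 2) * ‖F‖) :=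
    ha.trans (mul_le_mul_of_nonneg_right hs2 (by positivity))
  calc om n V * ‖KG n v V R‖ * (|⟪n, acc v F⟫| / om n v)
      ≤ 6 * (Real.sqrt (om n V / om n v) / R) *
        ((3 / 2 * Real.sqrt (om n v)) * (Real.sqrt (1 - ‖v‖ ^ 2) * ‖F‖) / om n v) := by
        gcongr
    _ = 9 * (kS n v V R * ‖F‖) := by
        unfold kS
        rw [Real.sqrt_div hδ.le]
        field_simp
        ring

/-- `δ |G| 2 (ε/δ) |n·A|/δ ≤ 18 k_C |F_t|`. -/
theorem A_part_le (hn : ‖n‖ = 1) (hv : ‖v‖ < 1) (hV : ‖V‖ < 1) (hR : 0 < R) (Ft : E) :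
    om n V * ‖KG n v V R‖ * (2 * (om n v / om n V) * (|⟪n, acc V Ft⟫| / om n V))
      ≤ 18 * (kC n v V R * ‖Ft‖) := by
  have hε := om_pos hn hv
  have hδ := om_pos hn hV
  have hG := dl_norm_KG_le hn hv hV hR
  have ha := abs_inner_n_acc_le hn hV.le Ft
  have hs2 := sqrt_two_mul_le hδ.le
  have h1 : 0 < Real.sqrt (om n V) := Real.sqrt_pos.mpr hδ
  have h2 : 0 < Real.sqrt (om n v) := Real.sqrt_pos.mpr hε
  have e1 : om n V = Real.sqrt (om n V) * Real.sqrt (om n V) := (Real.mul_self_sqrt hδ.le).symm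
  have e2 : om n v = Real.sqrt (om n v) * Real.sqrt (om n v) := (Real.mul_self_sqrt hε.le).symm
  have ha' : |⟪n, acc V Ft⟫| ≤ (3 / 2 * Real.sqrt (om n V)) * (Real.sqrt (1 - ‖V‖ ^ 2) * ‖Ft‖) :=
    ha.trans (mul_le_mul_of_nonneg_right hs2 (by positivity))
  calc om n V * ‖KG n v V R‖ * (2 * (om n v / om n V) * (|⟪n, acc V Ft⟫| / om n V))
      ≤ 6 * (Real.sqrt (om n V / om n v) / R) * (2 * (om n v / om n V) *
        ((3 / 2 * Real.sqrt (om n V)) * (Real.sqrt (1 - ‖V‖ ^ 2) * ‖Ft‖) / om n V)) := by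
        gcongr
    _ = 18 * ((Real.sqrt (om n V / om n v) * (om n v / om n V)) * (Real.sqrt (om n V) *
          (Real.sqrt (1 - ‖V‖ ^ 2) * ‖Ft‖) / (om n V * R))) := by
        field_simp
        ring
    _ = 18 * (kC n v V R * ‖Ft‖) := by
        unfold kC
        rw [sqrt_div_eq hδ hε, Real.sqrt_div hε.le]
        field_simp

/-- `δ |G| |F|/γ ≤ 9 k_S |F|` (for the energy cut-off). -/
theorem gam_part_le (hn : ‖n‖ = 1) (hv : ‖v‖ < 1) (hV : ‖V‖ < 1) (hR : 0 < R) :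
    om n V * ‖KG n v V R‖ * Real.sqrt (1 - ‖v‖ ^ 2) ≤ 9 * kS n v V R := by
  have hε := om_pos hn hv
  have hδ := om_pos hn hV
  have hG := dl_norm_KG_le hn hv hV hR
  have h1 : 0 < Real.sqrt (om n V) := Real.sqrt_pos.mpr hδ
  have h2 : 0 < Real.sqrt (om n v) := Real.sqrt_pos.mpr hε
  have hle : om n v ≤ 3 / 2 * Real.sqrt (om n v) :=
    le_sqrt_of_le_two hε.le (om_le_two hn.le hv.le)
  calc om n V * ‖KG n v V R‖ * Real.sqrt (1 - ‖v‖ ^ 2)
      ≤ 6 * (Real.sqrt (om n V / om n v) / R) * Real.sqrt (1 - ‖v‖ ^ 2) := by gcongr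
    _ = 6 * (Real.sqrt (om n V) * Real.sqrt (1 - ‖v‖ ^ 2) / (om n v * R)) *
        (om n v / Real.sqrt (om n v)) := by
        rw [Real.sqrt_div hδ.le]; field_simp
    _ ≤ 6 * (Real.sqrt (om n V) * Real.sqrt (1 - ‖v‖ ^ 2) / (om n v * R)) * (3 / 2) := by
        apply mul_le_mul_of_nonneg_left _ (by positivity)
        rw [div_le_iff₀ h2]; exact hle
    _ = 9 * kS n v V R := by unfold kS; ring

/-- **rate bound**: `δ |G| |d log(ε/δ²)/dτ| ≤ 1100 k_cut + 9 k_S |F| + 18 k_C |F_t|`. -/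
theorem rho_part_le (hn : ‖n‖ = 1) (hv : ‖v‖ < 1) (hV : ‖V‖ < 1) (hR : 0 < R) (F Ft : E) :
    om n V * ‖KG n v V R‖ * |rho n v V (acc v F) (acc V Ft) R|
      ≤ 1100 * kcut n v V R + 9 * (kS n v V R * ‖F‖) + 18 * (kC n v V R * ‖Ft‖) := by
  have hε := om_pos hn hv
  have hδ := om_pos hn hV
  have g1 := geo_part_le hn hv hV hR
  have g2 := a_part_le hn hv hV hR F
  have g3 := A_part_le hn hv hV hR Ft
  have hr : |rho n v V (acc v F) (acc V Ft) R| ≤ |geo n v V| / R + |⟪n, acc v F⟫| / om n v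
      + 2 * (om n v / om n V) * (|⟪n, acc V Ft⟫| / om n V) := by
    unfold rho
    refine (abs_add_le _ _).trans (add_le_add ((abs_sub _ _).trans (le_of_eq ?_)) (le_of_eq ?_))
    · rw [abs_div, abs_div, abs_of_pos hR, abs_of_pos hε]
    · rw [abs_mul, abs_mul, abs_div, abs_div, abs_of_pos hε, abs_of_pos hδ]
      norm_num
  have h0 : 0 ≤ om n V * ‖KG n v V R‖ := by positivity
  calc om n V * ‖KG n v V R‖ * |rho n v V (acc v F) (acc V Ft) R|
      ≤ om n V * ‖KG n v V R‖ * (|geo n v V| / R + |⟪n, acc v F⟫| / om n v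
      + 2 * (om n v / om n V) * (|⟪n, acc V Ft⟫| / om n V)) := mul_le_mul_of_nonneg_left hr h0
    _ = om n V * ‖KG n v V R‖ * (|geo n v V| / R)
        + om n V * ‖KG n v V R‖ * (|⟪n, acc v F⟫| / om n v)
        + om n V * ‖KG n v V R‖ * (2 * (om n v / om n V) * (|⟪n, acc V Ft⟫| / om n V)) := by ring
    _ ≤ _ := by linarith

end bounds

section chi

/-- the product cut-off `φ(ε/(lam δ²)) ψ(γ/Q)`: derivative along the pair (`dτ/dσ = α`,
`dγ/dτ = v·F`). -/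
theorem hasDerivAt_chi {n v V : ℝ → E} {R gm : ℝ → ℝ} {A a F : E} {τ α : ℝ}
    {φ ψ : ℝ → ℝ} {φ1 ψ1 lam Q : ℝ} (hlam : lam ≠ 0)
    (hR : R τ ≠ 0) (hδ : om (n τ) (V τ) ≠ 0) (hε : om (n τ) (v τ) ≠ 0)
    (hnd : HasDerivAt n (α • nd (n τ) (v τ) (V τ) (R τ) (om (n τ) (v τ) / om (n τ) (V τ))) τ)
    (hVd : HasDerivAt V ((α * (om (n τ) (v τ) / om (n τ) (V τ))) • A) τ)
    (hvd : HasDerivAt v (α • a) τ)
    (hgm : HasDerivAt gm (α * ⟪v τ, F⟫) τ)
    (hφ : HasDerivAt φ φ1 (om (n τ) (v τ) / (lam * om (n τ) (V τ) ^ 2)))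
    (hψ : HasDerivAt ψ ψ1 (gm τ / Q)) :
    HasDerivAt (fun t => φ (om (n t) (v t) / (lam * om (n t) (V t) ^ 2)) * ψ (gm t / Q))
      (α * ((φ1 * (om (n τ) (v τ) / (lam * om (n τ) (V τ) ^ 2))) *
          rho (n τ) (v τ) (V τ) a A (R τ) * ψ (gm τ / Q)
        + φ (om (n τ) (v τ) / (lam * om (n τ) (V τ) ^ 2)) * (ψ1 * (⟪v τ, F⟫ / Q)))) τ := by
  have h1 := hφ.comp τ (hasDerivAt_cut lam hlam hR hδ hε hnd hVd hvd)
  have h2 := hψ.comp τ (hgm.div_const Q)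
  refine (h1.mul h2).congr_deriv ?_
  simp only [Function.comp_apply]
  ring

/-- bound of the derivative of the cut-off times `δ |G|`. -/
theorem chi_part_le {n v V : E} {R : ℝ} (hn : ‖n‖ = 1) (hv : ‖v‖ < 1) (hV : ‖V‖ < 1)
    (hR : 0 < R) (F Ft : E) {u φ1 ψ1 cφ cψ M Q : ℝ} (hQ : 0 < Q)
    (hφ1 : |φ1 * u| ≤ M) (hψ0 : |cψ| ≤ 1) (hφ0 : |cφ| ≤ 1) (hψ1 : |ψ1| ≤ M)
    (hsupp : ψ1 ≠ 0 → 1 / Q ≤ Real.sqrt (1 - ‖v‖ ^ 2)) :
    om n V * ‖KG n v V R‖ *
      |(φ1 * u) * rho n v V (acc v F) (acc V Ft) R * cψ + cφ * (ψ1 * (⟪v, F⟫ / Q))|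
      ≤ M * (1100 * kcut n v V R + 18 * (kS n v V R * ‖F‖) + 18 * (kC n v V R * ‖Ft‖)) := by
  have hε := om_pos hn hv
  have hδ := om_pos hn hV
  have hM : 0 ≤ M := (abs_nonneg _).trans hψ1
  have h0 : 0 ≤ om n V * ‖KG n v V R‖ := by positivity
  have g1 := rho_part_le hn hv hV hR F Ft
  have g2 := gam_part_le hn hv hV hR
  have hvF : |⟪v, F⟫| ≤ ‖F‖ := (abs_real_inner_le_norm _ _).trans (by
    nlinarith [norm_nonneg F])
  have h2 : |ψ1| * (|⟪v, F⟫| / Q) ≤ M * (Real.sqrt (1 - ‖v‖ ^ 2) * ‖F‖) := by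
    by_cases hz : ψ1 = 0
    · rw [hz, abs_zero, zero_mul]; positivity
    · have hs := hsupp hz
      have : |⟪v, F⟫| / Q ≤ Real.sqrt (1 - ‖v‖ ^ 2) * ‖F‖ := by
        calc |⟪v, F⟫| / Q = (1 / Q) * |⟪v, F⟫| := by ring
          _ ≤ _ := mul_le_mul hs hvF (abs_nonneg _) (Real.sqrt_nonneg _)
      exact mul_le_mul hψ1 this (by positivity) hM
  have h3 : |(φ1 * u) * rho n v V (acc v F) (acc V Ft) R * cψ + cφ * (ψ1 * (⟪v, F⟫ / Q))|
      ≤ M * |rho n v V (acc v F) (acc V Ft) R| + M * (Real.sqrt (1 - ‖v‖ ^ 2) * ‖F‖) := by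
    refine (abs_add_le _ _).trans (add_le_add ?_ ?_)
    · rw [abs_mul, abs_mul]
      calc |φ1 * u| * |rho n v V (acc v F) (acc V Ft) R| * |cψ|
          ≤ M * |rho n v V (acc v F) (acc V Ft) R| * 1 := by gcongr
        _ = _ := by ring
    · rw [abs_mul, abs_mul, abs_div, abs_of_pos hQ]
      calc |cφ| * (|ψ1| * (|⟪v, F⟫| / Q)) ≤ 1 * (M * (Real.sqrt (1 - ‖v‖ ^ 2) * ‖F‖)) := by
            apply mul_le_mul hφ0 h2 (by positivity) (by norm_num)
        _ = _ := by ring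
  calc _ ≤ om n V * ‖KG n v V R‖ *
        (M * |rho n v V (acc v F) (acc V Ft) R| + M * (Real.sqrt (1 - ‖v‖ ^ 2) * ‖F‖)) :=
        mul_le_mul_of_nonneg_left h3 h0
    _ = M * (om n V * ‖KG n v V R‖ * |rho n v V (acc v F) (acc V Ft) R|) +
        M * ((om n V * ‖KG n v V R‖ * Real.sqrt (1 - ‖v‖ ^ 2)) * ‖F‖) := by ring
    _ ≤ M * (1100 * kcut n v V R + 9 * (kS n v V R * ‖F‖) + 18 * (kC n v V R * ‖Ft‖)) +
        M * ((9 * kS n v V R) * ‖F‖) := by gcongr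
    _ = _ := by ring

/-- **the derivative of `χ G`** along the pair, arbitrary parametrisation. -/
theorem hasDerivAt_chi_smul_KG {n v V : ℝ → E} {R gm : ℝ → ℝ} {A a F : E} {τ α : ℝ}
    {φ ψ : ℝ → ℝ} {φ1 ψ1 lam Q : ℝ} (hlam : lam ≠ 0)
    (hn1 : ‖n τ‖ = 1) (hR : R τ ≠ 0) (hδ : om (n τ) (V τ) ≠ 0) (hε : om (n τ) (v τ) ≠ 0)
    (hRd : HasDerivAt R (α * (om (n τ) (v τ) / om (n τ) (V τ) - 1)) τ)
    (hnd : HasDerivAt n (α • nd (n τ) (v τ) (V τ) (R τ) (om (n τ) (v τ) / om (n τ) (V τ))) τ)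
    (hVd : HasDerivAt V ((α * (om (n τ) (v τ) / om (n τ) (V τ))) • A) τ)
    (hvd : HasDerivAt v (α • a) τ)
    (hgm : HasDerivAt gm (α * ⟪v τ, F⟫) τ)
    (hφ : HasDerivAt φ φ1 (om (n τ) (v τ) / (lam * om (n τ) (V τ) ^ 2)))
    (hψ : HasDerivAt ψ ψ1 (gm τ / Q)) :
    HasDerivAt (fun t => (φ (om (n t) (v t) / (lam * om (n t) (V t) ^ 2)) * ψ (gm t / Q)) •
        KG (n t) (v t) (V t) (R t))
      ((φ (om (n τ) (v τ) / (lam * om (n τ) (V τ) ^ 2)) * ψ (gm τ / Q)) •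
        (α • ((1 / om (n τ) (V τ)) • (KT (n τ) (v τ) (V τ) (R τ) + KS (n τ) (v τ) (V τ) a (R τ))
        - KC (n τ) (v τ) (V τ) A (R τ)))
      + (α * ((φ1 * (om (n τ) (v τ) / (lam * om (n τ) (V τ) ^ 2))) *
          rho (n τ) (v τ) (V τ) a A (R τ) * ψ (gm τ / Q)
        + φ (om (n τ) (v τ) / (lam * om (n τ) (V τ) ^ 2)) * (ψ1 * (⟪v τ, F⟫ / Q)))) •
        KG (n τ) (v τ) (V τ) (R τ)) τ :=
  (hasDerivAt_chi hlam hR hδ hε hnd hVd hvd hgm hφ hψ).fun_smul
    (hasDerivAt_KG_gen hn1 hR hδ hε hRd hnd hVd hvd)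

end chi

end Crest.Agent.R106.Pair
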