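import Crest.Prelude.Def_VecCalc3

/-!
# Row 106, KIR (helper246): calculus of jointly smooth functions on `I × ℝ³`
-/

set_option autoImplicit false

open MeasureTheory Set Metric Filter Topology
open scoped ContDiff
open Crest.AnalysisR.VecCalc3

noncomputable section

namespace Crest.Agent.R106.Kir

/-- jointly smooth on `I × ℝ³` -/
def JSOn (I : Set ℝ) {V : Type*} [NormedAddCommGroup V] [NormedSpace ℝ V] (u : ℝ → R3 → V) : Prop :=
  ContDiffOn ℝ ∞ (fun p : ℝ × R3 => u p.1 p.2) (I ×ˢ univ)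

section
variable {I : Set ℝ} {V : Type*} [NormedAddCommGroup V] [NormedSpace ℝ V] {u : ℝ → R3 → V}

theorem openIU (hI : IsOpen I) : IsOpen (I ×ˢ (univ : Set R3)) := hI.prod isOpen_univ

theorem JSOn.at (hI : IsOpen I) (hu : JSOn I u) {t : ℝ} (ht : t ∈ I) (x : R3) :
    ContDiffAt ℝ ∞ (fun p : ℝ × R3 => u p.1 p.2) (t, x) :=
  (hu (t, x) ⟨ht, mem_univ _⟩).contDiffAt ((openIU hI).mem_nhds ⟨ht, mem_univ _⟩)

theorem JSOn.mono {J : Set ℝ} (hJ : J ⊆ I) (hu : JSOn I u) : JSOn J u :=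
  ContDiffOn.mono hu (prod_mono hJ (subset_univ _))

theorem JSOn.hasFDerivAt (hI : IsOpen I) (hu : JSOn I u) {t : ℝ} (ht : t ∈ I) (x : R3) :
    HasFDerivAt (fun p : ℝ × R3 => u p.1 p.2) (fderiv ℝ (fun p : ℝ × R3 => u p.1 p.2) (t, x)) (t, x) :=
  ((hu.at hI ht x).differentiableAt (by simp)).hasFDerivAt

theorem JSOn.hasDerivAt_time (hI : IsOpen I) (hu : JSOn I u) {t : ℝ} (ht : t ∈ I) (x : R3) :
    HasDerivAt (fun s => u s x) (fderiv ℝ (fun p : ℝ × R3 => u p.1 p.2) (t, x) (1, 0)) t := by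
  have h1 : HasDerivAt (fun s : ℝ => (s, x)) ((1 : ℝ), (0 : R3)) t :=
    (hasDerivAt_id t).prodMk (hasDerivAt_const t x)
  exact (hu.hasFDerivAt hI ht x).comp_hasDerivAt t h1

theorem JSOn.hasFDerivAt_space (hI : IsOpen I) (hu : JSOn I u) {t : ℝ} (ht : t ∈ I) (x : R3) :
    HasFDerivAt (fun y => u t y)
      ((fderiv ℝ (fun p : ℝ × R3 => u p.1 p.2) (t, x)).comp (ContinuousLinearMap.inr ℝ ℝ R3)) x := by
  have h1 : HasFDerivAt (fun y : R3 => (t, y)) (ContinuousLinearMap.inr ℝ ℝ R3) x :=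
    hasFDerivAt_prodMk_right t x
  exact (hu.hasFDerivAt hI ht x).comp x h1

theorem JSOn.deriv_eq (hI : IsOpen I) (hu : JSOn I u) {t : ℝ} (ht : t ∈ I) (x : R3) :
    deriv (fun s => u s x) t = fderiv ℝ (fun p : ℝ × R3 => u p.1 p.2) (t, x) (1, 0) :=
  (hu.hasDerivAt_time hI ht x).deriv

theorem JSOn.hasDerivAt (hI : IsOpen I) (hu : JSOn I u) {t : ℝ} (ht : t ∈ I) (x : R3) :
    HasDerivAt (fun s => u s x) (deriv (fun s => u s x) t) t := by
  rw [hu.deriv_eq hI ht x]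
  exact hu.hasDerivAt_time hI ht x

theorem JSOn.contDiff_space (hI : IsOpen I) (hu : JSOn I u) {t : ℝ} (ht : t ∈ I) :
    ContDiff ℝ ∞ (fun y => u t y) := by
  rw [contDiff_iff_contDiffAt]
  intro x
  exact (hu.at hI ht x).comp x (by fun_prop : ContDiffAt ℝ ∞ (fun y : R3 => (t, y)) x)

theorem JSOn.contDiffOn_time (hu : JSOn I u) (x : R3) :
    ContDiffOn ℝ ∞ (fun s => u s x) I :=
  ContDiffOn.comp hu (by fun_prop : ContDiffOn ℝ ∞ (fun s : ℝ => (s, x)) I)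
    (fun s hs => ⟨hs, mem_univ _⟩)

theorem JSOn.continuousOn (hu : JSOn I u) :
    ContinuousOn (fun p : ℝ × R3 => u p.1 p.2) (I ×ˢ univ) := ContDiffOn.continuousOn hu

theorem JSOn.congr {v : ℝ → R3 → V} (hu : JSOn I u) (h : ∀ t ∈ I, ∀ x, v t x = u t x) : JSOn I v :=
  ContDiffOn.congr hu fun p hp => h p.1 hp.1 p.2

theorem JSOn.add {v : ℝ → R3 → V} (hu : JSOn I u) (hv : JSOn I v) :
    JSOn I (fun t x => u t x + v t x) := ContDiffOn.add hu hv

theorem JSOn.sub {v : ℝ → R3 → V} (hu : JSOn I u) (hv : JSOn I v) :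
    JSOn I (fun t x => u t x - v t x) := ContDiffOn.sub hu hv

theorem JSOn.neg (hu : JSOn I u) : JSOn I (fun t x => - u t x) := ContDiffOn.neg hu

theorem JSOn.const_smul (c : ℝ) (hu : JSOn I u) : JSOn I (fun t x => c • u t x) :=
  ContDiffOn.const_smul c hu

theorem JSOn.sum {ι : Type*} {s : Finset ι} {v : ι → ℝ → R3 → V} (h : ∀ i ∈ s, JSOn I (v i)) :
    JSOn I (fun t x => ∑ i ∈ s, v i t x) := ContDiffOn.sum h

theorem JSOn.smul {c : ℝ → R3 → ℝ} (hc : JSOn I c) (hu : JSOn I u) :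
    JSOn I (fun t x => c t x • u t x) := ContDiffOn.smul hc hu

theorem JSOn.mul {c v : ℝ → R3 → ℝ} (hc : JSOn I c) (hv : JSOn I v) :
    JSOn I (fun t x => c t x * v t x) := ContDiffOn.mul hc hv

/-- the full derivative is jointly smooth -/
theorem JSOn.contDiffOn_fderiv (hI : IsOpen I) (hu : JSOn I u) :
    ContDiffOn ℝ ∞ (fderiv ℝ (fun p : ℝ × R3 => u p.1 p.2)) (I ×ˢ univ) :=
  ContDiffOn.fderiv_of_isOpen hu (openIU hI) (by simp)

theorem JSOn.dt (hI : IsOpen I) (hu : JSOn I u) : JSOn I (fun t x => deriv (fun s => u s x) t) := by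
  have h := (hu.contDiffOn_fderiv hI).clm_apply
    (contDiffOn_const (c := ((1 : ℝ), (0 : R3))))
  refine ContDiffOn.congr h ?_
  rintro ⟨t, x⟩ ⟨ht, -⟩
  exact hu.deriv_eq hI ht x

theorem JSOn.fderiv_space (hI : IsOpen I) (hu : JSOn I u) :
    JSOn I (fun t x => fderiv ℝ (u t) x) := by
  have h : ContDiffOn ℝ ∞ (fun p : ℝ × R3 =>
      (fderiv ℝ (fun p : ℝ × R3 => u p.1 p.2) p).comp (ContinuousLinearMap.inr ℝ ℝ R3))
      (I ×ˢ univ) := (hu.contDiffOn_fderiv hI).clm_comp contDiffOn_const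
  refine ContDiffOn.congr h ?_
  rintro ⟨t, x⟩ ⟨ht, -⟩
  exact (hu.hasFDerivAt_space hI ht x).fderiv

theorem JSOn.comp_clm {W : Type*} [NormedAddCommGroup W] [NormedSpace ℝ W] (L : V →L[ℝ] W)
    (hu : JSOn I u) : JSOn I (fun t x => L (u t x)) :=
  L.contDiff.comp_contDiffOn hu

end

section scalar
variable {I : Set ℝ} {u v : ℝ → R3 → ℝ}

theorem JSOn.pderiv_eq (hI : IsOpen I) (hu : JSOn I u) {t : ℝ} (ht : t ∈ I) (i : Fin 3) (x : R3) :
    pderiv (u t) i x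
      = fderiv ℝ (fun p : ℝ × R3 => u p.1 p.2) (t, x) (0, EuclideanSpace.single i 1) := by
  unfold pderiv
  rw [(hu.hasFDerivAt_space hI ht x).fderiv]
  simp

theorem JSOn.dx (hI : IsOpen I) (hu : JSOn I u) (i : Fin 3) :
    JSOn I (fun t x => pderiv (u t) i x) := by
  have h := (hu.contDiffOn_fderiv hI).clm_apply
    (contDiffOn_const (c := ((0 : ℝ), (EuclideanSpace.single i (1 : ℝ) : R3))))
  refine ContDiffOn.congr h ?_
  rintro ⟨t, x⟩ ⟨ht, -⟩
  exact hu.pderiv_eq hI ht i x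

theorem symm2 {F : ℝ × R3 → ℝ} {p : ℝ × R3} (hF : ContDiffAt ℝ ∞ F p) (v w : ℝ × R3) :
    fderiv ℝ (fun q => fderiv ℝ F q v) p w = fderiv ℝ (fun q => fderiv ℝ F q w) p v := by
  have hd : DifferentiableAt ℝ (fderiv ℝ F) p :=
    (hF.fderiv_right (m := ∞) (by simp)).differentiableAt (by simp)
  have e : ∀ v w : ℝ × R3, fderiv ℝ (fun q => fderiv ℝ F q v) p w
      = fderiv ℝ (fderiv ℝ F) p w v := by
    intro v w
    have := (hd.hasFDerivAt.clm_apply (hasFDerivAt_const v p)).fderiv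
    rw [this]
    simp
  rw [e, e]
  refine (hF.isSymmSndFDerivAt ?_).eq w v
  rw [minSmoothness_of_isRCLikeNormedField]
  exact WithTop.coe_le_coe.2 le_top

theorem JSOn.comm_dt_dx (hI : IsOpen I) (hu : JSOn I u) {t : ℝ} (ht : t ∈ I) (i : Fin 3) (x : R3) :
    deriv (fun s => pderiv (u s) i x) t = pderiv (fun y => deriv (fun s => u s y) t) i x := by
  set F : ℝ × R3 → ℝ := fun p => u p.1 p.2 with hF
  have hFs := hu.at hI ht x
  have hv := (openIU hI).mem_nhds (show (t, x) ∈ I ×ˢ (univ : Set R3) from ⟨ht, mem_univ _⟩)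
  rw [(hu.dx hI i).deriv_eq hI ht x, (hu.dt hI).pderiv_eq hI ht i x]
  have e1 : (fun p : ℝ × R3 => pderiv (u p.1) i p.2) =ᶠ[𝓝 (t, x)]
      fun p => fderiv ℝ F p (0, EuclideanSpace.single i 1) := by
    filter_upwards [hv] with p hp
    exact hu.pderiv_eq hI hp.1 i p.2
  have e2 : (fun p : ℝ × R3 => deriv (fun s => u s p.2) p.1) =ᶠ[𝓝 (t, x)]
      fun p => fderiv ℝ F p (1, 0) := by
    filter_upwards [hv] with p hp
    exact hu.deriv_eq hI hp.1 p.2
  rw [e1.fderiv_eq, e2.fderiv_eq]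
  exact symm2 hFs _ _

theorem JSOn.comm_dx_dx (hI : IsOpen I) (hu : JSOn I u) {t : ℝ} (ht : t ∈ I) (i j : Fin 3)
    (x : R3) :
    pderiv (fun y => pderiv (u t) i y) j x = pderiv (fun y => pderiv (u t) j y) i x := by
  set F : ℝ × R3 → ℝ := fun p => u p.1 p.2 with hF
  have hFs := hu.at hI ht x
  have hv := (openIU hI).mem_nhds (show (t, x) ∈ I ×ˢ (univ : Set R3) from ⟨ht, mem_univ _⟩)
  rw [(hu.dx hI i).pderiv_eq hI ht j x, (hu.dx hI j).pderiv_eq hI ht i x]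
  have e : ∀ i : Fin 3, (fun p : ℝ × R3 => pderiv (u p.1) i p.2) =ᶠ[𝓝 (t, x)]
      fun p => fderiv ℝ F p (0, EuclideanSpace.single i 1) := by
    intro i
    filter_upwards [hv] with p hp
    exact hu.pderiv_eq hI hp.1 i p.2
  rw [(e i).fderiv_eq, (e j).fderiv_eq]
  exact symm2 hFs _ _

theorem JSOn.diff_space (hI : IsOpen I) (hu : JSOn I u) {t : ℝ} (ht : t ∈ I) (x : R3) :
    DifferentiableAt ℝ (u t) x :=
  ((hu.contDiff_space hI ht).differentiable (by simp)) x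

end scalar

section pd
variable {φ ψ : R3 → ℝ} {x : R3} {i : Fin 3}

theorem pderiv_add (hφ : DifferentiableAt ℝ φ x) (hψ : DifferentiableAt ℝ ψ x) :
    pderiv (fun y => φ y + ψ y) i x = pderiv φ i x + pderiv ψ i x := by
  unfold pderiv
  rw [fderiv_fun_add hφ hψ]
  rfl

theorem pderiv_sub (hφ : DifferentiableAt ℝ φ x) (hψ : DifferentiableAt ℝ ψ x) :
    pderiv (fun y => φ y - ψ y) i x = pderiv φ i x - pderiv ψ i x := by
  unfold pderiv
  rw [fderiv_fun_sub hφ hψ]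
  rfl

theorem pderiv_neg : pderiv (fun y => - φ y) i x = - pderiv φ i x := by
  unfold pderiv
  rw [fderiv_fun_neg]
  rfl

theorem pderiv_const_mul (c : ℝ) (hφ : DifferentiableAt ℝ φ x) :
    pderiv (fun y => c * φ y) i x = c * pderiv φ i x := by
  unfold pderiv
  rw [fderiv_const_mul hφ]
  rfl

theorem pderiv_sum {ι : Type*} {s : Finset ι} {f : ι → R3 → ℝ}
    (h : ∀ k ∈ s, DifferentiableAt ℝ (f k) x) :
    pderiv (fun y => ∑ k ∈ s, f k y) i x = ∑ k ∈ s, pderiv (f k) i x := by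
  unfold pderiv
  rw [fderiv_fun_sum h]
  simp

theorem pderiv_congr (h : ∀ y, φ y = ψ y) : pderiv φ i x = pderiv ψ i x := by
  have : φ = ψ := funext h
  rw [this]

theorem pderiv_const (c : ℝ) : pderiv (fun _ => c) i x = 0 := by
  unfold pderiv
  simp

end pd

end Crest.Agent.R106.Kir
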