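import Crest.Agent.R106.KirSph

/-!
# Row 106, KIR (helper246): spherical means of smooth functions, Darboux equation
-/

set_option autoImplicit false

open MeasureTheory Set Metric Filter Topology
open scoped ContDiff ENNReal Pointwise
open Crest.AnalysisR.VecCalc3

noncomputable section

namespace Crest.Agent.R106.Kir

section param
variable {E : Type} [NormedAddCommGroup E] [NormedSpace ℝ E]
  {V : Type} [NormedAddCommGroup V] [NormedSpace ℝ V]

/-- partial derivative in the first variable -/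
abbrev dfst (g : E × R3 → V) (p : E × R3) : E →L[ℝ] V := R240.SmJ.dx g p

theorem mean_smooth {g : E × R3 → V} (hg : ContDiff ℝ ∞ g) :
    ContDiff ℝ ∞ (fun x => ∫ w, g (x, w) ∂sg) := by
  have h := R240.SmJ.contDiffOn_integral (E := E) (E' := R3) (s := univ) isOpen_univ (U := univ)
    isOpen_univ (K := S2) compS2 (subset_univ _) sg (g := g) hg.contDiffOn
  rw [contDiffOn_univ] at h
  simpa only [setIntegral_sg] using h

theorem mean_hasFDerivAt {g : E × R3 → V} (hg : ContDiff ℝ ∞ g) (x : E) :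
    HasFDerivAt (fun x => ∫ w, g (x, w) ∂sg) (∫ w, dfst g (x, w) ∂sg) x := by
  have h := R240.SmJ.hasFDerivAt_integral (E := E) (E' := R3) (s := univ) isOpen_univ (U := univ)
    isOpen_univ (K := S2) compS2 (subset_univ _) sg (g := g) hg.contDiffOn (mem_univ x)
  simpa only [setIntegral_sg] using h

theorem continuous_dfst {g : E × R3 → V} (hg : ContDiff ℝ ∞ g) : Continuous (dfst g) := by
  have h := (R240.SmJ.contDiffOn_dx (s := univ) isOpen_univ hg.contDiffOn).continuousOn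
  rwa [continuousOn_univ] at h

theorem dfst_apply {g : E × R3 → V} (hg : ContDiff ℝ ∞ g) (x : E) (w : R3) :
    HasFDerivAt (fun x => g (x, w)) (dfst g (x, w)) x :=
  R240.SmJ.hasFDerivAt_dx (p := (x, w)) ((hg.differentiable (by simp)) _)

theorem mean_hasDerivAt [CompleteSpace V] {g : ℝ × R3 → V} (hg : ContDiff ℝ ∞ g)
    {g' : R3 → V} {r : ℝ}
    (h : ∀ w, HasDerivAt (fun s => g (s, w)) (g' w) r) :
    HasDerivAt (fun s => ∫ w, g (s, w) ∂sg) (∫ w, g' w ∂sg) r := by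
  have h1 := (mean_hasFDerivAt hg r).hasDerivAt
  have h2 : (∫ w, dfst g (r, w) ∂sg) 1 = ∫ w, g' w ∂sg := by
    rw [ContinuousLinearMap.integral_apply]
    · refine integral_congr_ae (Eventually.of_forall fun w => ?_)
      exact ((dfst_apply hg r w).hasDerivAt).unique (h w)
    · refine integrable_sg ?_
      exact ((continuous_dfst hg).comp (by fun_prop : Continuous fun w : R3 => (r, w))).continuousOn
  rw [h2] at h1
  exact h1

/-- directional derivative in the parameter -/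
theorem mean_fderiv_apply [CompleteSpace V] {g : E × R3 → V} (hg : ContDiff ℝ ∞ g) (x v : E)
    {g' : R3 → V} (h : ∀ w, (fderiv ℝ (fun x => g (x, w)) x) v = g' w) :
    (fderiv ℝ (fun x => ∫ w, g (x, w) ∂sg) x) v = ∫ w, g' w ∂sg := by
  rw [(mean_hasFDerivAt hg x).fderiv, ContinuousLinearMap.integral_apply]
  · refine integral_congr_ae (Eventually.of_forall fun w => ?_)
    show dfst g (x, w) v = g' w
    rw [← h w, (dfst_apply hg x w).fderiv]
  · refine integrable_sg ?_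
    exact ((continuous_dfst hg).comp (by fun_prop : Continuous fun w : R3 => (x, w))).continuousOn

end param

/-- the Laplacian -/
def lap (φ : R3 → ℝ) (x : R3) : ℝ := ∑ i : Fin 3, pderiv (fun y => pderiv φ i y) i x

theorem contDiff_pderiv {φ : R3 → ℝ} (hφ : ContDiff ℝ ∞ φ) (i : Fin 3) :
    ContDiff ℝ ∞ (fun x => pderiv φ i x) := by
  unfold pderiv
  exact (hφ.fderiv_right (m := ∞) (by simp)).clm_apply contDiff_const

theorem contDiff_lap {φ : R3 → ℝ} (hφ : ContDiff ℝ ∞ φ) : ContDiff ℝ ∞ (lap φ) := by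
  unfold lap
  exact ContDiff.sum fun i _ => contDiff_pderiv (contDiff_pderiv hφ i) i

theorem contDiff_Mn {V : Type} [NormedAddCommGroup V] [NormedSpace ℝ V] {φ : R3 → V}
    (hφ : ContDiff ℝ ∞ φ) :
    ContDiff ℝ ∞ (fun p : ℝ × R3 => Mn φ p.1 p.2) := by
  unfold Mn
  refine mean_smooth (E := ℝ × R3) (g := fun q : (ℝ × R3) × R3 => φ (q.1.2 + q.1.1 • q.2)) ?_
  exact hφ.comp (by fun_prop)

/-- the radial derivative of the spherical mean -/
def Mr (φ : R3 → ℝ) (r : ℝ) (x : R3) : ℝ := ∫ w, fderiv ℝ φ (x + r • w) w ∂sg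

theorem contDiff_Mr {φ : R3 → ℝ} (hφ : ContDiff ℝ ∞ φ) :
    ContDiff ℝ ∞ (fun p : ℝ × R3 => Mr φ p.1 p.2) := by
  unfold Mr
  refine mean_smooth (E := ℝ × R3)
    (g := fun q : (ℝ × R3) × R3 => fderiv ℝ φ (q.1.2 + q.1.1 • q.2) q.2) ?_
  exact ((hφ.fderiv_right (m := ∞) (by simp)).comp (by fun_prop)).clm_apply (by fun_prop)

theorem hasDerivAt_Mn {φ : R3 → ℝ} (hφ : ContDiff ℝ ∞ φ) (r : ℝ) (x : R3) :
    HasDerivAt (fun r => Mn φ r x) (Mr φ r x) r := by
  unfold Mn Mr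
  refine mean_hasDerivAt (g := fun q : ℝ × R3 => φ (x + q.1 • q.2)) (hφ.comp (by fun_prop)) ?_
  intro w
  have h1 : HasDerivAt (fun s : ℝ => x + s • w) w r := by
    simpa using ((hasDerivAt_id r).smul_const w).const_add x
  exact ((hφ.differentiable (by simp)) (x + r • w)).hasFDerivAt.comp_hasDerivAt r h1

theorem fderiv_eq_sum (L : R3 →L[ℝ] ℝ) (v : R3) :
    L v = ∑ i : Fin 3, L (EuclideanSpace.single i 1) * v i := R202.SphDiv.fderiv_apply_sum L v

theorem flux {φ : R3 → ℝ} (hφ : ContDiff ℝ ∞ φ) {r : ℝ} (hr : 0 < r) (x : R3) :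
    HasDerivAt (fun r => r ^ 2 * Mr φ r x) (r ^ 2 * Mn (lap φ) r x) r := by
  set X : Fin 3 → R3 → ℝ := fun i y => pderiv φ i (x + y) with hX
  have hXs : ∀ i, ContDiff ℝ ∞ (X i) := fun i =>
    (contDiff_pderiv hφ i).comp (by fun_prop)
  have h := R202.SphDiv.flux_deriv (n := 3) (by norm_num) X
    (fun i => ((hXs i).of_le (by simp)).contDiffOn) hr
  have e1 : (fun r => r ^ 2 * Mr φ r x) = fun ρ : ℝ => (4 * Real.pi)⁻¹ * (ρ ^ (3 - 1) *
      ∫ z : R202.SphDiv.Sph 3, ∑ i, X i (ρ • (z : R3)) * (z : R3) i ∂(R202.SphDiv.sig 3)) := by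
    funext ρ
    unfold Mr
    rw [integral_sg]
    have : ∀ z : R202.SphDiv.Sph 3, fderiv ℝ φ (x + ρ • (z : R3)) (z : R3)
        = ∑ i, X i (ρ • (z : R3)) * (z : R3) i := fun z => fderiv_eq_sum _ _
    simp_rw [this]
    show ρ ^ 2 * ((4 * Real.pi)⁻¹ • _) = (4 * Real.pi)⁻¹ * (ρ ^ 2 * _)
    rw [smul_eq_mul]
    ring
  have e2 : r ^ 2 * Mn (lap φ) r x = (4 * Real.pi)⁻¹ * (r ^ (3 - 1) *
      ∫ z : R202.SphDiv.Sph 3, R202.SphDiv.dv X (r • (z : R3)) ∂(R202.SphDiv.sig 3)) := by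
    unfold Mn
    rw [integral_sg]
    have : ∀ z : R202.SphDiv.Sph 3, lap φ (x + r • (z : R3))
        = R202.SphDiv.dv X (r • (z : R3)) := by
      intro z
      unfold lap R202.SphDiv.dv
      refine Finset.sum_congr rfl fun i _ => ?_
      show fderiv ℝ (fun y => pderiv φ i y) (x + r • (z : R3)) (EuclideanSpace.single i 1)
        = fderiv ℝ (fun y => pderiv φ i (x + y)) (r • (z : R3)) (EuclideanSpace.single i 1)
      rw [fderiv_comp_add_left]
    simp_rw [this]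
    show r ^ 2 * ((4 * Real.pi)⁻¹ • _) = (4 * Real.pi)⁻¹ * (r ^ 2 * _)
    rw [smul_eq_mul]
    ring
  rw [e1, e2]
  exact h.const_mul _

/-- `S[φ](t,x) = t M_t φ(x)`: solution of the wave equation with data `(0, φ)` -/
def Sop (φ : R3 → ℝ) (t : ℝ) (x : R3) : ℝ := t * Mn φ t x

/-- `∂ₜ S[φ]`: solution of the wave equation with data `(φ, 0)` -/
def Sdot (φ : R3 → ℝ) (t : ℝ) (x : R3) : ℝ := Mn φ t x + t * Mr φ t x

theorem contDiff_Sop {φ : R3 → ℝ} (hφ : ContDiff ℝ ∞ φ) :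
    ContDiff ℝ ∞ (fun p : ℝ × R3 => Sop φ p.1 p.2) := contDiff_fst.mul (contDiff_Mn hφ)

theorem contDiff_Sdot {φ : R3 → ℝ} (hφ : ContDiff ℝ ∞ φ) :
    ContDiff ℝ ∞ (fun p : ℝ × R3 => Sdot φ p.1 p.2) :=
  (contDiff_Mn hφ).add (contDiff_fst.mul (contDiff_Mr hφ))

theorem hasDerivAt_Sop {φ : R3 → ℝ} (hφ : ContDiff ℝ ∞ φ) (t : ℝ) (x : R3) :
    HasDerivAt (fun t => Sop φ t x) (Sdot φ t x) t := by
  have h := (hasDerivAt_id t).mul (hasDerivAt_Mn hφ t x)
  have e : (fun t => Sop φ t x) = id * fun r => Mn φ r x := by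
    funext s
    rfl
  rw [e]
  refine h.congr_deriv ?_
  simp [Sdot]

theorem Mr_neg (φ : R3 → ℝ) (r : ℝ) (x : R3) : Mr φ (-r) x = - Mr φ r x := by
  unfold Mr
  rw [← integral_sg_neg, ← integral_neg]
  simp

theorem Sdot_neg (φ : R3 → ℝ) (t : ℝ) (x : R3) : Sdot φ (-t) x = Sdot φ t x := by
  unfold Sdot
  rw [Mn_neg, Mr_neg]
  ring

theorem hasDerivAt_Sdot_pos {φ : R3 → ℝ} (hφ : ContDiff ℝ ∞ φ) {t : ℝ} (ht : 0 < t) (x : R3) :
    HasDerivAt (fun t => Sdot φ t x) (Sop (lap φ) t x) t := by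
  have h1 := hasDerivAt_Mn hφ t x
  have h2 := (flux hφ ht x).mul (hasDerivAt_inv ht.ne')
  have h3 := h1.add h2
  have e : (fun t => Sdot φ t x) =ᶠ[𝓝 t]
      ((fun r => Mn φ r x) + ((fun r => r ^ 2 * Mr φ r x) * fun y => y⁻¹)) := by
    filter_upwards [Ioi_mem_nhds ht] with s hs
    have hs' : s ≠ 0 := ne_of_gt hs
    show Mn φ s x + s * Mr φ s x = Mn φ s x + (s ^ 2 * Mr φ s x) * s⁻¹
    field_simp
  refine (h3.congr_of_eventuallyEq e).congr_deriv ?_
  show Mr φ t x + (t ^ 2 * Mn (lap φ) t x * t⁻¹ + t ^ 2 * Mr φ t x * (-(t ^ 2)⁻¹)) = t * Mn (lap φ) t x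
  have ht' : t ≠ 0 := ne_of_gt ht
  field_simp
  ring

/-- `∂ₜ² S[φ] = S[Δφ]` -/
theorem hasDerivAt_Sdot {φ : R3 → ℝ} (hφ : ContDiff ℝ ∞ φ) (t : ℝ) (x : R3) :
    HasDerivAt (fun t => Sdot φ t x) (Sop (lap φ) t x) t := by
  -- off zero
  have hne : ∀ t : ℝ, t ≠ 0 → HasDerivAt (fun t => Sdot φ t x) (Sop (lap φ) t x) t := by
    intro t ht
    rcases lt_or_gt_of_ne ht with h | h
    · have h1 := hasDerivAt_Sdot_pos hφ (neg_pos.2 h) x
      have h2 := h1.comp t (hasDerivAt_neg t)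
      have e : ((fun t => Sdot φ t x) ∘ Neg.neg) = fun t => Sdot φ t x := by
        funext s
        exact Sdot_neg φ s x
      have h2' : HasDerivAt (fun t => Sdot φ t x) (Sop (lap φ) (-t) x * -1) t := by
        rw [← e]; exact h2
      refine h2'.congr_deriv ?_
      unfold Sop
      rw [Mn_neg]
      ring
    · exact hasDerivAt_Sdot_pos hφ h x
  have hsm : ContDiff ℝ ∞ (fun t => Sdot φ t x) :=
    (contDiff_Sdot hφ).comp (by fun_prop : ContDiff ℝ ∞ fun t : ℝ => (t, x))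
  have hc1 : Continuous (deriv fun t => Sdot φ t x) := hsm.continuous_deriv (by simp)
  have hc2 : Continuous (fun t => Sop (lap φ) t x) :=
    ((contDiff_Sop (contDiff_lap hφ)).continuous).comp (by fun_prop : Continuous fun t : ℝ => (t, x))
  have heq : (deriv fun t => Sdot φ t x) = fun t => Sop (lap φ) t x := by
    refine Continuous.ext_on (s := ({0}ᶜ : Set ℝ)) (dense_compl_singleton 0) hc1 hc2 ?_
    intro t ht
    exact (hne t ht).deriv
  have h := ((hsm.differentiable (by simp)) t).hasDerivAt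
  have h4 : deriv (fun t => Sdot φ t x) t = Sop (lap φ) t x := congrFun heq t
  rwa [h4] at h

@[simp] theorem Sop_zero (φ : R3 → ℝ) (x : R3) : Sop φ 0 x = 0 := by simp [Sop]

@[simp] theorem Sdot_zero (φ : R3 → ℝ) (x : R3) : Sdot φ 0 x = φ x := by simp [Sdot, Mn_zero]

end Crest.Agent.R106.Kir
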