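import Crest.Agent.R106.KirMean
import Crest.Agent.R106.KirCalc

/-!
# Row 106, KIR (helper246): the propagators `Sop`, `Sdot` : linearity, commutation with derivatives,
smooth dependence on parameters
-/

set_option autoImplicit false

open MeasureTheory Set Metric Filter Topology
open scoped ContDiff ENNReal Pointwise
open Crest.AnalysisR.VecCalc3

noncomputable section

namespace Crest.Agent.R106.Kir

/-- jointly smooth on `ℝ × ℝ³` -/
def JS {V : Type*} [NormedAddCommGroup V] [NormedSpace ℝ V] (u : ℝ → R3 → V) : Prop :=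
  ContDiff ℝ ∞ (fun p : ℝ × R3 => u p.1 p.2)

theorem js_iff {V : Type*} [NormedAddCommGroup V] [NormedSpace ℝ V] {u : ℝ → R3 → V} :
    JS u ↔ JSOn univ u := by
  unfold JS JSOn
  rw [univ_prod_univ, contDiffOn_univ]

theorem JS.on {V : Type*} [NormedAddCommGroup V] [NormedSpace ℝ V] {u : ℝ → R3 → V} (h : JS u) :
    JSOn univ u := js_iff.1 h

section
variable {V : Type*} [NormedAddCommGroup V] [NormedSpace ℝ V] {u v : ℝ → R3 → V}

theorem JS.space (h : JS u) (t : ℝ) : ContDiff ℝ ∞ (u t) := h.on.contDiff_space isOpen_univ (mem_univ t)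

theorem JS.time (h : JS u) (x : R3) : ContDiff ℝ ∞ (fun t => u t x) :=
  ContDiff.comp (g := fun p : ℝ × R3 => u p.1 p.2) h (by fun_prop : ContDiff ℝ ∞ fun t : ℝ => (t, x))

theorem JS.hasDerivAt (h : JS u) (t : ℝ) (x : R3) :
    HasDerivAt (fun s => u s x) (deriv (fun s => u s x) t) t :=
  h.on.hasDerivAt isOpen_univ (mem_univ t) x

theorem JS.dt (h : JS u) : JS (fun t x => deriv (fun s => u s x) t) := js_iff.2 (h.on.dt isOpen_univ)

theorem JS.add (hu : JS u) (hv : JS v) : JS (fun t x => u t x + v t x) := ContDiff.add hu hv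
theorem JS.sub (hu : JS u) (hv : JS v) : JS (fun t x => u t x - v t x) := ContDiff.sub hu hv
theorem JS.neg (hu : JS u) : JS (fun t x => - u t x) := ContDiff.neg hu

theorem JS.diff (h : JS u) (t : ℝ) (x : R3) : DifferentiableAt ℝ (u t) x :=
  ((h.space t).differentiable (by simp)) x

end

section
variable {u v : ℝ → R3 → ℝ}

theorem JS.dx (h : JS u) (i : Fin 3) : JS (fun t x => pderiv (u t) i x) :=
  js_iff.2 (h.on.dx isOpen_univ i)

theorem JS.mul (hu : JS u) (hv : JS v) : JS (fun t x => u t x * v t x) := ContDiff.mul hu hv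

theorem JS.sum {ι : Type*} {s : Finset ι} {w : ι → ℝ → R3 → ℝ} (h : ∀ i ∈ s, JS (w i)) :
    JS (fun t x => ∑ i ∈ s, w i t x) := ContDiff.sum h

theorem JS.lap (h : JS u) : JS (fun t x => lap (u t) x) := by
  unfold Kir.lap
  exact JS.sum fun i _ => (h.dx i).dx i

theorem JS.comm_dt_dx (hu : JS u) (t : ℝ) (i : Fin 3) (x : R3) :
    deriv (fun s => pderiv (u s) i x) t = pderiv (fun y => deriv (fun s => u s y) t) i x :=
  hu.on.comm_dt_dx isOpen_univ (mem_univ t) i x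

theorem JS.comm_dx_dx (hu : JS u) (t : ℝ) (i j : Fin 3) (x : R3) :
    pderiv (fun y => pderiv (u t) i y) j x = pderiv (fun y => pderiv (u t) j y) i x :=
  hu.on.comm_dx_dx isOpen_univ (mem_univ t) i j x

end

/-- partial derivative along the line -/
theorem hasDerivAt_line {f : R3 → ℝ} {x : R3} (hf : DifferentiableAt ℝ f x) (i : Fin 3) :
    HasDerivAt (fun s : ℝ => f (x + s • EuclideanSpace.single i (1 : ℝ))) (pderiv f i x) 0 := by
  have h1 : HasDerivAt (fun s : ℝ => x + s • (EuclideanSpace.single i (1 : ℝ) : R3))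
      (EuclideanSpace.single i (1 : ℝ)) 0 := by
    simpa using ((hasDerivAt_id (0 : ℝ)).smul_const (EuclideanSpace.single i (1 : ℝ) : R3)).const_add x
  have h2 : HasFDerivAt f (fderiv ℝ f x) (x + (0 : ℝ) • (EuclideanSpace.single i (1 : ℝ) : R3)) := by
    rw [zero_smul, add_zero]
    exact hf.hasFDerivAt
  exact h2.comp_hasDerivAt 0 h1

theorem hasDerivAt_line' {f : R3 → ℝ} (hf : Differentiable ℝ f) (x : R3) (i : Fin 3) (s : ℝ) :
    HasDerivAt (fun s : ℝ => f (x + s • EuclideanSpace.single i (1 : ℝ)))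
      (pderiv f i (x + s • EuclideanSpace.single i (1 : ℝ))) s := by
  have h1 : HasDerivAt (fun s : ℝ => x + s • (EuclideanSpace.single i (1 : ℝ) : R3))
      (EuclideanSpace.single i (1 : ℝ)) s := by
    simpa using ((hasDerivAt_id s).smul_const (EuclideanSpace.single i (1 : ℝ) : R3)).const_add x
  exact ((hf _).hasFDerivAt).comp_hasDerivAt s h1

/-- two-variable chain rule along `s ↦ (s, c - s)` -/
theorem hasDerivAt_diag {K : ℝ × ℝ → ℝ} {τ c A B : ℝ} (hK : DifferentiableAt ℝ K (τ, c - τ))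
    (hA : HasDerivAt (fun s => K (s, c - τ)) A τ) (hB : HasDerivAt (fun s => K (τ, s)) B (c - τ)) :
    HasDerivAt (fun s => K (s, c - s)) (A - B) τ := by
  have h1 : HasDerivAt (fun s : ℝ => (s, c - s)) ((1 : ℝ), (-1 : ℝ)) τ := by
    simpa using (hasDerivAt_id τ).prodMk ((hasDerivAt_id τ).const_sub c)
  have h2 := hK.hasFDerivAt.comp_hasDerivAt τ h1
  refine h2.congr_deriv ?_
  have ha : HasDerivAt (fun s : ℝ => (s, c - τ)) ((1 : ℝ), (0 : ℝ)) τ :=
    (hasDerivAt_id τ).prodMk (hasDerivAt_const τ _)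
  have hb : HasDerivAt (fun s : ℝ => (τ, s)) ((0 : ℝ), (1 : ℝ)) (c - τ) :=
    (hasDerivAt_const _ τ).prodMk (hasDerivAt_id _)
  have hA' : fderiv ℝ K (τ, c - τ) (1, 0) = A :=
    (hK.hasFDerivAt.comp_hasDerivAt τ ha).unique hA
  have hB' : fderiv ℝ K (τ, c - τ) (0, 1) = B :=
    (HasFDerivAt.comp_hasDerivAt (c - τ) (f := fun s : ℝ => (τ, s)) hK.hasFDerivAt hb).unique hB
  have e : ((1 : ℝ), (-1 : ℝ)) = (1, 0) - ((0 : ℝ), (1 : ℝ)) := by simp
  rw [e, map_sub, hA', hB']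

theorem symmE {E : Type*} [NormedAddCommGroup E] [NormedSpace ℝ E] {F : E → ℝ} {p : E}
    (hF : ContDiffAt ℝ ∞ F p) (v w : E) :
    fderiv ℝ (fun q => fderiv ℝ F q v) p w = fderiv ℝ (fun q => fderiv ℝ F q w) p v := by
  have hd : DifferentiableAt ℝ (fderiv ℝ F) p :=
    (hF.fderiv_right (m := ∞) (by simp)).differentiableAt (by simp)
  have e : ∀ v w : E, fderiv ℝ (fun q => fderiv ℝ F q v) p w
      = fderiv ℝ (fderiv ℝ F) p w v := by
    intro v w
    have := (hd.hasFDerivAt.clm_apply (hasFDerivAt_const v p)).fderiv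
    rw [this]
    simp
  rw [e, e]
  refine (hF.isSymmSndFDerivAt ?_).eq w v
  rw [minSmoothness_of_isRCLikeNormedField]
  exact WithTop.coe_le_coe.2 le_top

/-- symmetry of the mixed derivatives on `ℝ × ℝ` -/
theorem symmRR {K K1 K2 K12 : ℝ → ℝ → ℝ} (hK : ContDiff ℝ ∞ (fun p : ℝ × ℝ => K p.1 p.2))
    (h1 : ∀ a b, HasDerivAt (fun s => K s b) (K1 a b) a)
    (h2 : ∀ a b, HasDerivAt (fun s => K a s) (K2 a b) b)
    (h12 : ∀ a b, HasDerivAt (fun s => K1 a s) (K12 a b) b) (a b : ℝ) :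
    HasDerivAt (fun s => K2 s b) (K12 a b) a := by
  set F : ℝ × ℝ → ℝ := fun p => K p.1 p.2 with hF
  have hd : ∀ p, HasFDerivAt F (fderiv ℝ F p) p := fun p =>
    ((hK.differentiable (by simp)) p).hasFDerivAt
  have ha : ∀ a b : ℝ, HasDerivAt (fun s : ℝ => (s, b)) ((1 : ℝ), (0 : ℝ)) a := fun a b =>
    (hasDerivAt_id a).prodMk (hasDerivAt_const a _)
  have hb : ∀ a b : ℝ, HasDerivAt (fun s : ℝ => (a, s)) ((0 : ℝ), (1 : ℝ)) b := fun a b =>
    (hasDerivAt_const b a).prodMk (hasDerivAt_id b)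
  have e1 : ∀ a b, K1 a b = fderiv ℝ F (a, b) (1, 0) := fun a b =>
    (h1 a b).unique (HasFDerivAt.comp_hasDerivAt a (f := fun s : ℝ => (s, b)) (hd (a, b)) (ha a b))
  have e2 : ∀ a b, K2 a b = fderiv ℝ F (a, b) (0, 1) := fun a b =>
    (h2 a b).unique (HasFDerivAt.comp_hasDerivAt b (f := fun s : ℝ => (a, s)) (hd (a, b)) (hb a b))
  have hs : ContDiff ℝ ∞ (fderiv ℝ F) := hK.fderiv_right (by simp)
  have hsd : ∀ v : ℝ × ℝ, Differentiable ℝ (fun q => fderiv ℝ F q v) := fun v =>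
    (hs.clm_apply contDiff_const).differentiable (by simp)
  have e12 : K12 a b = fderiv ℝ (fun q => fderiv ℝ F q (1, 0)) (a, b) (0, 1) := by
    have h3 := HasFDerivAt.comp_hasDerivAt b (f := fun s : ℝ => (a, s))
      ((hsd (1, 0)) (a, b)).hasFDerivAt (hb a b)
    refine (h12 a b).unique ?_
    have : (fun s => K1 a s) = (fun q => fderiv ℝ F q (1, 0)) ∘ fun s => (a, s) := by
      funext s
      exact e1 a s
    rw [this]
    exact h3
  have h4 := HasFDerivAt.comp_hasDerivAt a (f := fun s : ℝ => (s, b))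
    ((hsd (0, 1)) (a, b)).hasFDerivAt (ha a b)
  have : (fun s => K2 s b) = (fun q => fderiv ℝ F q (0, 1)) ∘ fun s => (s, b) := by
    funext s
    exact e2 s b
  rw [this, e12, symmE hK.contDiffAt]
  exact h4

/-! ### linearity -/

section lin
variable {φ ψ : R3 → ℝ}

theorem integrable_line {V : Type} [NormedAddCommGroup V] [NormedSpace ℝ V] {φ : R3 → V}
    (hφ : Continuous φ) (r : ℝ) (x : R3) :
    Integrable (fun w => φ (x + r • w)) sg :=
  integrable_sg (hφ.comp (by fun_prop)).continuousOn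

theorem Mn_add (hφ : Continuous φ) (hψ : Continuous ψ) (r : ℝ) (x : R3) :
    Mn (fun y => φ y + ψ y) r x = Mn φ r x + Mn ψ r x :=
  integral_add (integrable_line hφ r x) (integrable_line hψ r x)

theorem Mn_const_mul (c : ℝ) (φ : R3 → ℝ) (r : ℝ) (x : R3) :
    Mn (fun y => c * φ y) r x = c * Mn φ r x := by
  unfold Mn
  rw [integral_const_mul]

theorem Mn_sum {ι : Type*} {s : Finset ι} {f : ι → R3 → ℝ} (h : ∀ k ∈ s, Continuous (f k))
    (r : ℝ) (x : R3) : Mn (fun y => ∑ k ∈ s, f k y) r x = ∑ k ∈ s, Mn (f k) r x := by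
  unfold Mn
  exact integral_finsetSum _ fun k hk => integrable_line (h k hk) r x

theorem Sop_add (hφ : Continuous φ) (hψ : Continuous ψ) (t : ℝ) (x : R3) :
    Sop (fun y => φ y + ψ y) t x = Sop φ t x + Sop ψ t x := by
  unfold Sop
  rw [Mn_add hφ hψ, mul_add]

theorem Sop_const_mul (c : ℝ) (φ : R3 → ℝ) (t : ℝ) (x : R3) :
    Sop (fun y => c * φ y) t x = c * Sop φ t x := by
  unfold Sop
  rw [Mn_const_mul]
  ring

theorem Sop_neg (φ : R3 → ℝ) (t : ℝ) (x : R3) : Sop (fun y => - φ y) t x = - Sop φ t x := by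
  have := Sop_const_mul (-1) φ t x
  simpa using this

theorem Sop_sub (hφ : Continuous φ) (hψ : Continuous ψ) (t : ℝ) (x : R3) :
    Sop (fun y => φ y - ψ y) t x = Sop φ t x - Sop ψ t x := by
  simp_rw [sub_eq_add_neg]
  rw [Sop_add hφ (show Continuous fun y => - ψ y from hψ.neg), Sop_neg]

theorem Sop_sum {ι : Type*} {s : Finset ι} {f : ι → R3 → ℝ} (h : ∀ k ∈ s, Continuous (f k))
    (t : ℝ) (x : R3) : Sop (fun y => ∑ k ∈ s, f k y) t x = ∑ k ∈ s, Sop (f k) t x := by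
  unfold Sop
  rw [Mn_sum h, Finset.mul_sum]

theorem Sdot_eq_deriv (hφ : ContDiff ℝ ∞ φ) (t : ℝ) (x : R3) :
    Sdot φ t x = deriv (fun t => Sop φ t x) t := (hasDerivAt_Sop hφ t x).deriv.symm

theorem Sdot_add (hφ : ContDiff ℝ ∞ φ) (hψ : ContDiff ℝ ∞ ψ) (t : ℝ) (x : R3) :
    Sdot (fun y => φ y + ψ y) t x = Sdot φ t x + Sdot ψ t x := by
  have h1 := hasDerivAt_Sop (hφ.add hψ) t x
  have h2 := (hasDerivAt_Sop hφ t x).add (hasDerivAt_Sop hψ t x)
  have e : (fun t => Sop (fun y => φ y + ψ y) t x)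
      = (fun t => Sop φ t x) + fun t => Sop ψ t x := by
    funext s
    exact Sop_add hφ.continuous hψ.continuous s x
  rw [e] at h1
  exact h1.unique h2

theorem Sdot_const_mul (hφ : ContDiff ℝ ∞ φ) (c t : ℝ) (x : R3) :
    Sdot (fun y => c * φ y) t x = c * Sdot φ t x := by
  have h1 := hasDerivAt_Sop (φ := fun y => c * φ y) (contDiff_const.mul hφ) t x
  have h2 := (hasDerivAt_Sop hφ t x).const_mul c
  simp_rw [Sop_const_mul] at h1
  exact h1.unique h2

theorem Sdot_neg' (hφ : ContDiff ℝ ∞ φ) (t : ℝ) (x : R3) :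
    Sdot (fun y => - φ y) t x = - Sdot φ t x := by
  have := Sdot_const_mul hφ (-1) t x
  simpa using this

theorem Sdot_sub (hφ : ContDiff ℝ ∞ φ) (hψ : ContDiff ℝ ∞ ψ) (t : ℝ) (x : R3) :
    Sdot (fun y => φ y - ψ y) t x = Sdot φ t x - Sdot ψ t x := by
  simp_rw [sub_eq_add_neg]
  rw [Sdot_add hφ (show ContDiff ℝ ∞ fun y => - ψ y from hψ.neg), Sdot_neg' hψ]

theorem Sdot_sum {ι : Type*} {s : Finset ι} {f : ι → R3 → ℝ} (h : ∀ k ∈ s, ContDiff ℝ ∞ (f k))
    (t : ℝ) (x : R3) : Sdot (fun y => ∑ k ∈ s, f k y) t x = ∑ k ∈ s, Sdot (f k) t x := by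
  have h1 := hasDerivAt_Sop (φ := fun y => ∑ k ∈ s, f k y) (ContDiff.sum h) t x
  have h2 := HasDerivAt.fun_sum (u := s) (A := fun k t => Sop (f k) t x)
    (A' := fun k => Sdot (f k) t x) (x := t) fun k hk => hasDerivAt_Sop (h k hk) t x
  have e : (fun t => Sop (fun y => ∑ k ∈ s, f k y) t x) = fun t => ∑ k ∈ s, Sop (f k) t x := by
    funext s'
    exact Sop_sum (fun k hk => (h k hk).continuous) s' x
  rw [e] at h1
  exact h1.unique h2

end lin

/-! ### smooth dependence on parameters -/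

theorem js_Sop {φ : R3 → ℝ} (hφ : ContDiff ℝ ∞ φ) : JS (fun t x => Sop φ t x) := contDiff_Sop hφ
theorem js_Sdot {φ : R3 → ℝ} (hφ : ContDiff ℝ ∞ φ) : JS (fun t x => Sdot φ t x) := contDiff_Sdot hφ

theorem contDiff_Sop_param {h : ℝ → R3 → ℝ} (hh : JS h) :
    ContDiff ℝ ∞ (fun p : ℝ × ℝ × R3 => Sop (h p.1) p.2.1 p.2.2) := by
  unfold Sop Mn
  refine (contDiff_fst.comp contDiff_snd).mul ?_
  refine mean_smooth (E := ℝ × ℝ × R3)
    (g := fun q : (ℝ × ℝ × R3) × R3 => h q.1.1 (q.1.2.2 + q.1.2.1 • q.2)) ?_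
  exact ContDiff.comp (g := fun p : ℝ × R3 => h p.1 p.2) hh
    (f := fun q : (ℝ × ℝ × R3) × R3 => (q.1.1, q.1.2.2 + q.1.2.1 • q.2)) (by fun_prop)

theorem contDiff_Sdot_param {h : ℝ → R3 → ℝ} (hh : JS h) :
    ContDiff ℝ ∞ (fun p : ℝ × ℝ × R3 => Sdot (h p.1) p.2.1 p.2.2) := by
  unfold Sdot Mn Mr
  refine ContDiff.add ?_ ?_
  · refine mean_smooth (E := ℝ × ℝ × R3)
      (g := fun q : (ℝ × ℝ × R3) × R3 => h q.1.1 (q.1.2.2 + q.1.2.1 • q.2)) ?_
    exact ContDiff.comp (g := fun p : ℝ × R3 => h p.1 p.2) hh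
      (f := fun q : (ℝ × ℝ × R3) × R3 => (q.1.1, q.1.2.2 + q.1.2.1 • q.2)) (by fun_prop)
  · refine (contDiff_fst.comp contDiff_snd).mul ?_
    refine mean_smooth (E := ℝ × ℝ × R3)
      (g := fun q : (ℝ × ℝ × R3) × R3 => fderiv ℝ (h q.1.1) (q.1.2.2 + q.1.2.1 • q.2) q.2) ?_
    have h1 : JS (fun t x => fderiv ℝ (h t) x) := js_iff.2 (hh.on.fderiv_space isOpen_univ)
    refine ContDiff.clm_apply ?_ contDiff_snd
    exact ContDiff.comp (g := fun p : ℝ × R3 => fderiv ℝ (h p.1) p.2) h1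
      (f := fun q : (ℝ × ℝ × R3) × R3 => (q.1.1, q.1.2.2 + q.1.2.1 • q.2)) (by fun_prop)

/-- derivative with respect to a parameter -/
theorem hasDerivAt_Sop_param {h : ℝ → R3 → ℝ} (hh : JS h) (τ r : ℝ) (x : R3) :
    HasDerivAt (fun s => Sop (h s) r x) (Sop (fun y => deriv (fun s => h s y) τ) r x) τ := by
  unfold Sop Mn
  refine HasDerivAt.const_mul r ?_
  refine mean_hasDerivAt (g := fun q : ℝ × R3 => h q.1 (x + r • q.2)) ?_ ?_
  · exact ContDiff.comp (g := fun p : ℝ × R3 => h p.1 p.2) hh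
      (f := fun q : ℝ × R3 => (q.1, x + r • q.2)) (by fun_prop)
  · intro w
    exact hh.hasDerivAt τ (x + r • w)

theorem hasDerivAt_Sdot_param {h : ℝ → R3 → ℝ} (hh : JS h) (τ r : ℝ) (x : R3) :
    HasDerivAt (fun s => Sdot (h s) r x) (Sdot (fun y => deriv (fun s => h s y) τ) r x) τ := by
  refine symmRR (K := fun s r => Sop (h s) r x)
    (K1 := fun s r => Sop (fun y => deriv (fun s => h s y) s) r x)
    (K2 := fun s r => Sdot (h s) r x)
    (K12 := fun s r => Sdot (fun y => deriv (fun s => h s y) s) r x) ?_ ?_ ?_ ?_ τ r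
  · exact ContDiff.comp (contDiff_Sop_param hh) (f := fun p : ℝ × ℝ => (p.1, p.2, x)) (by fun_prop)
  · exact fun a b => hasDerivAt_Sop_param hh a b x
  · exact fun a b => hasDerivAt_Sop (hh.space a) b x
  · exact fun a b => hasDerivAt_Sop (hh.dt.space a) b x

/-! ### commutation with space derivatives -/

theorem pderiv_Mn {φ : R3 → ℝ} (hφ : ContDiff ℝ ∞ φ) (r : ℝ) (i : Fin 3) (x : R3) :
    pderiv (fun y => Mn φ r y) i x = Mn (fun y => pderiv φ i y) r x := by
  unfold Mn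
  show fderiv ℝ _ x _ = _
  refine mean_fderiv_apply (E := R3) (g := fun q : R3 × R3 => φ (q.1 + r • q.2))
    (hφ.comp (by fun_prop)) x _ ?_
  intro w
  show fderiv ℝ (fun y => φ (y + r • w)) x _ = fderiv ℝ φ (x + r • w) _
  rw [fderiv_comp_add_right]

theorem pderiv_Sop {φ : R3 → ℝ} (hφ : ContDiff ℝ ∞ φ) (t : ℝ) (i : Fin 3) (x : R3) :
    pderiv (fun y => Sop φ t y) i x = Sop (fun y => pderiv φ i y) t x := by
  unfold Sop
  rw [pderiv_const_mul, pderiv_Mn hφ]
  have : ContDiff ℝ ∞ (fun y => Mn φ t y) :=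
    (contDiff_Mn hφ).comp (by fun_prop : ContDiff ℝ ∞ fun y : R3 => (t, y))
  exact (this.differentiable (by simp)) x

theorem pderiv_Sdot {φ : R3 → ℝ} (hφ : ContDiff ℝ ∞ φ) (t : ℝ) (i : Fin 3) (x : R3) :
    pderiv (fun y => Sdot φ t y) i x = Sdot (fun y => pderiv φ i y) t x := by
  have h := (js_Sop hφ).comm_dt_dx t i x
  have e1 : (fun s => pderiv (Sop φ s) i x) = fun s => Sop (fun y => pderiv φ i y) s x := by
    funext s
    exact pderiv_Sop hφ s i x
  have e2 : (fun y => deriv (fun s => Sop φ s y) t) = fun y => Sdot φ t y := by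
    funext y
    exact (hasDerivAt_Sop hφ t y).deriv
  have h' : deriv (fun s => pderiv (Sop φ s) i x) t
      = pderiv (fun y => deriv (fun s => Sop φ s y) t) i x := h
  rw [e1, e2] at h'
  rw [← h']
  exact (hasDerivAt_Sop (contDiff_pderiv hφ i) t x).deriv

theorem lap_Sop {φ : R3 → ℝ} (hφ : ContDiff ℝ ∞ φ) (t : ℝ) (x : R3) :
    lap (fun y => Sop φ t y) x = Sop (lap φ) t x := by
  unfold lap
  rw [Sop_sum fun i _ => (contDiff_pderiv (contDiff_pderiv hφ i) i).continuous]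
  refine Finset.sum_congr rfl fun i _ => ?_
  rw [← pderiv_Sop (contDiff_pderiv hφ i)]
  exact pderiv_congr fun y => pderiv_Sop hφ t i y

/-- sup bounds -/
theorem abs_Sop_le {φ : R3 → ℝ} {t : ℝ} {x : R3} {C : ℝ}
    (h : ∀ y : R3, ‖y - x‖ = |t| → |φ y| ≤ C) : |Sop φ t x| ≤ |t| * C := by
  unfold Sop
  rw [abs_mul]
  refine mul_le_mul_of_nonneg_left ?_ (abs_nonneg t)
  have := norm_Mn_le (g := φ) (r := t) (x := x) (C := C) (by simpa using h)
  simpa using this

theorem abs_Sdot_le {φ : R3 → ℝ} {t : ℝ} {x : R3} {C D : ℝ}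
    (h : ∀ y : R3, ‖y - x‖ = |t| → |φ y| ≤ C)
    (h' : ∀ y : R3, ‖y - x‖ = |t| → ‖fderiv ℝ φ y‖ ≤ D) : |Sdot φ t x| ≤ C + |t| * D := by
  unfold Sdot Mr
  refine (abs_add_le _ _).trans (add_le_add ?_ ?_)
  · have := norm_Mn_le (g := φ) (r := t) (x := x) (C := C) (by simpa using h)
    simpa using this
  · rw [abs_mul]
    refine mul_le_mul_of_nonneg_left ?_ (abs_nonneg t)
    have := norm_integral_sg_le (g := fun w => fderiv ℝ φ (x + t • w) w) (C := D) (fun w hw => by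
      have h1 := (fderiv ℝ φ (x + t • w)).le_opNorm w
      rw [hw, mul_one] at h1
      refine h1.trans (h' _ ?_)
      rw [add_sub_cancel_left, norm_smul, hw, mul_one, Real.norm_eq_abs])
    simpa using this

end Crest.Agent.R106.Kir
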