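import Crest.Agent.R106.KirOps

/-!
# Row 106, KIR (helper246): the Duhamel operator `W`, wave equation, Kirchhoff representation
-/

set_option autoImplicit false

open MeasureTheory Set Metric Filter Topology
open scoped ContDiff ENNReal Pointwise
open Crest.AnalysisR.VecCalc3

noncomputable section

namespace Crest.Agent.R106.Kir

/-- retarded potential: solution of `u_tt - Δu = h` with zero data (for `t` of both signs) -/
def W (h : ℝ → R3 → ℝ) (t : ℝ) (x : R3) : ℝ := ∫ τ in (0 : ℝ)..t, Sop (h τ) (t - τ) x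

/-- its time derivative -/
def Wd (h : ℝ → R3 → ℝ) (t : ℝ) (x : R3) : ℝ := ∫ τ in (0 : ℝ)..t, Sdot (h τ) (t - τ) x

/-! ### generic Leibniz rules -/

section leibniz
variable {k k' : ℝ → ℝ → ℝ}

theorem deriv_smooth (hk : ContDiff ℝ ∞ (fun p : ℝ × ℝ => k p.1 p.2))
    (hk' : ∀ t τ, HasDerivAt (fun s => k s τ) (k' t τ) t) :
    Continuous (fun p : ℝ × ℝ => k' p.1 p.2) := by
  have hd : ∀ p : ℝ × ℝ, HasFDerivAt (fun p : ℝ × ℝ => k p.1 p.2)
      (fderiv ℝ (fun p : ℝ × ℝ => k p.1 p.2) p) p := fun p =>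
    ((hk.differentiable (by simp)) p).hasFDerivAt
  have e : (fun p : ℝ × ℝ => k' p.1 p.2)
      = fun p => fderiv ℝ (fun p : ℝ × ℝ => k p.1 p.2) p (1, 0) := by
    funext p
    have ha : HasDerivAt (fun s : ℝ => (s, p.2)) ((1 : ℝ), (0 : ℝ)) p.1 :=
      (hasDerivAt_id _).prodMk (hasDerivAt_const _ _)
    exact (hk' p.1 p.2).unique
      (HasFDerivAt.comp_hasDerivAt p.1 (f := fun s : ℝ => (s, p.2)) (hd p) ha)
  rw [e]
  exact (hk.continuous_fderiv (by simp)).clm_apply continuous_const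

theorem hasDerivAt_param (hk : ContDiff ℝ ∞ (fun p : ℝ × ℝ => k p.1 p.2))
    (hk' : ∀ t τ, HasDerivAt (fun s => k s τ) (k' t τ) t) (a b t : ℝ) :
    HasDerivAt (fun s => ∫ τ in a..b, k s τ) (∫ τ in a..b, k' t τ) t := by
  have hc : Continuous (fun p : ℝ × ℝ => k p.1 p.2) := hk.continuous
  have hc' := deriv_smooth hk hk'
  obtain ⟨C, hC⟩ : ∃ C, ∀ p ∈ closedBall t 1 ×ˢ uIcc a b, ‖(fun p : ℝ × ℝ => k' p.1 p.2) p‖ ≤ C :=
    ((isCompact_closedBall t 1).prod isCompact_uIcc).exists_bound_of_continuousOn hc'.continuousOn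
  refine (intervalIntegral.hasDerivAt_integral_of_dominated_loc_of_deriv_le (μ := volume)
    (F := fun s τ => k s τ) (F' := fun s τ => k' s τ) (bound := fun _ => C) (s := ball t 1)
    (ball_mem_nhds t one_pos) ?_ ?_ ?_ ?_ ?_ ?_).2
  · exact Eventually.of_forall fun s =>
      (hc.comp (by fun_prop : Continuous fun τ : ℝ => (s, τ))).aestronglyMeasurable
  · exact (hc.comp (by fun_prop : Continuous fun τ : ℝ => (t, τ))).intervalIntegrable _ _
  · exact (hc'.comp (by fun_prop : Continuous fun τ : ℝ => (t, τ))).aestronglyMeasurable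
  · refine Eventually.of_forall fun τ hτ s hs => ?_
    exact hC (s, τ) ⟨ball_subset_closedBall hs, uIoc_subset_uIcc hτ⟩
  · exact intervalIntegrable_const
  · exact Eventually.of_forall fun τ _ s _ => hk' s τ

theorem leibniz (hk : ContDiff ℝ ∞ (fun p : ℝ × ℝ => k p.1 p.2))
    (hk' : ∀ t τ, HasDerivAt (fun s => k s τ) (k' t τ) t) (t : ℝ) :
    HasDerivAt (fun t => ∫ τ in (0 : ℝ)..t, k t τ) (k t t + ∫ τ in (0 : ℝ)..t, k' t τ) t := by
  set F : ℝ × ℝ → ℝ := fun p => ∫ τ in (0 : ℝ)..p.2, k p.1 τ with hF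
  have hFs : ContDiff ℝ ∞ F := R216.contDiff_param_primitive (n := ⊤) (P := ℝ) (h := k) 0 hk
  have hd := ((hFs.differentiable (by simp)) (t, t)).hasFDerivAt
  have hdiag : HasDerivAt (fun s : ℝ => (s, s)) ((1 : ℝ), (1 : ℝ)) t :=
    (hasDerivAt_id t).prodMk (hasDerivAt_id t)
  have ha : HasDerivAt (fun s : ℝ => (s, t)) ((1 : ℝ), (0 : ℝ)) t :=
    (hasDerivAt_id t).prodMk (hasDerivAt_const _ _)
  have hb : HasDerivAt (fun s : ℝ => (t, s)) ((0 : ℝ), (1 : ℝ)) t :=
    (hasDerivAt_const _ _).prodMk (hasDerivAt_id t)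
  have h1 : HasDerivAt (fun s => F (s, s)) (fderiv ℝ F (t, t) (1, 1)) t :=
    HasFDerivAt.comp_hasDerivAt t (f := fun s : ℝ => (s, s)) hd hdiag
  have e1 : fderiv ℝ F (t, t) (1, 0) = ∫ τ in (0 : ℝ)..t, k' t τ :=
    (HasFDerivAt.comp_hasDerivAt t (f := fun s : ℝ => (s, t)) hd ha).unique
      (hasDerivAt_param hk hk' 0 t t)
  have e2 : fderiv ℝ F (t, t) (0, 1) = k t t :=
    (HasFDerivAt.comp_hasDerivAt t (f := fun s : ℝ => (t, s)) hd hb).unique
      (R216.hasDerivAt_param_primitive (P := ℝ) (h := k) 0 hk.continuous t t)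
  refine h1.congr_deriv ?_
  rw [show ((1 : ℝ), (1 : ℝ)) = (0, 1) + (1, 0) by simp, map_add, e1, e2]

end leibniz

variable {h g : ℝ → R3 → ℝ}

/-! ### smoothness -/

theorem js_W (hh : JS h) : JS (fun t x => W h t x) := by
  have h1 : ContDiff ℝ ∞ (Function.uncurry fun (p : ℝ × R3) (τ : ℝ) => Sop (h τ) (p.1 - τ) p.2) :=
    ContDiff.comp (contDiff_Sop_param hh)
      (f := fun q : (ℝ × R3) × ℝ => (q.2, q.1.1 - q.2, q.1.2)) (by fun_prop)
  have h2 := R216.contDiff_param_primitive (n := ⊤) (P := ℝ × R3) 0 h1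
  exact ContDiff.comp (g := fun x : (ℝ × R3) × ℝ => ∫ t in (0:ℝ)..x.2, Sop (h t) (x.1.1 - t) x.1.2)
    h2 (f := fun p : ℝ × R3 => (p, p.1)) (by fun_prop)

theorem js_Wd (hh : JS h) : JS (fun t x => Wd h t x) := by
  have h1 : ContDiff ℝ ∞ (Function.uncurry fun (p : ℝ × R3) (τ : ℝ) => Sdot (h τ) (p.1 - τ) p.2) :=
    ContDiff.comp (contDiff_Sdot_param hh)
      (f := fun q : (ℝ × R3) × ℝ => (q.2, q.1.1 - q.2, q.1.2)) (by fun_prop)
  have h2 := R216.contDiff_param_primitive (n := ⊤) (P := ℝ × R3) 0 h1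
  exact ContDiff.comp (g := fun x : (ℝ × R3) × ℝ => ∫ t in (0:ℝ)..x.2, Sdot (h t) (x.1.1 - t) x.1.2)
    h2 (f := fun p : ℝ × R3 => (p, p.1)) (by fun_prop)

theorem smooth_kS (hh : JS h) (x : R3) :
    ContDiff ℝ ∞ (fun p : ℝ × ℝ => Sop (h p.2) (p.1 - p.2) x) :=
  ContDiff.comp (contDiff_Sop_param hh) (f := fun p : ℝ × ℝ => (p.2, p.1 - p.2, x)) (by fun_prop)

theorem smooth_kSd (hh : JS h) (x : R3) :
    ContDiff ℝ ∞ (fun p : ℝ × ℝ => Sdot (h p.2) (p.1 - p.2) x) :=
  ContDiff.comp (contDiff_Sdot_param hh) (f := fun p : ℝ × ℝ => (p.2, p.1 - p.2, x)) (by fun_prop)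

theorem cont_kS (hh : JS h) (t : ℝ) (x : R3) : Continuous fun τ : ℝ => Sop (h τ) (t - τ) x :=
  (smooth_kS hh x).continuous.comp (by fun_prop : Continuous fun τ : ℝ => (t, τ))

theorem cont_kSd (hh : JS h) (t : ℝ) (x : R3) : Continuous fun τ : ℝ => Sdot (h τ) (t - τ) x :=
  (smooth_kSd hh x).continuous.comp (by fun_prop : Continuous fun τ : ℝ => (t, τ))

/-! ### time derivatives -/

theorem hasDerivAt_W (hh : JS h) (t : ℝ) (x : R3) :
    HasDerivAt (fun t => W h t x) (Wd h t x) t := by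
  have := leibniz (k := fun t τ => Sop (h τ) (t - τ) x) (k' := fun t τ => Sdot (h τ) (t - τ) x)
    (smooth_kS hh x) (fun t τ => (hasDerivAt_Sop (hh.space τ) (t - τ) x).comp_sub_const t τ) t
  simpa [W, Wd] using this

theorem hasDerivAt_Wd (hh : JS h) (t : ℝ) (x : R3) :
    HasDerivAt (fun t => Wd h t x) (h t x + W (fun τ y => lap (h τ) y) t x) t := by
  have := leibniz (k := fun t τ => Sdot (h τ) (t - τ) x)
    (k' := fun t τ => Sop (lap (h τ)) (t - τ) x)
    (smooth_kSd hh x) (fun t τ => (hasDerivAt_Sdot (hh.space τ) (t - τ) x).comp_sub_const t τ) t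
  simpa [W, Wd] using this

theorem W_zero (h : ℝ → R3 → ℝ) (x : R3) : W h 0 x = 0 := by simp [W]
theorem Wd_zero (h : ℝ → R3 → ℝ) (x : R3) : Wd h 0 x = 0 := by simp [Wd]

theorem W_eq_sub (h : ℝ → R3 → ℝ) (t : ℝ) (x : R3) :
    W h t x = ∫ r in (0 : ℝ)..t, Sop (h (t - r)) r x := by
  unfold W
  have := intervalIntegral.integral_comp_sub_left (a := 0) (b := t)
    (fun τ => Sop (h τ) (t - τ) x) t
  simp only [sub_self, sub_zero, sub_sub_cancel] at this
  exact this.symm

/-- `∂ₜ W[h] = W[hₜ] + S[h(0)]` -/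
theorem Wd_eq (hh : JS h) (t : ℝ) (x : R3) :
    Wd h t x = W (fun τ y => deriv (fun s => h s y) τ) t x + Sop (h 0) t x := by
  have h1 := hasDerivAt_W hh t x
  have h2 := leibniz (k := fun t r => Sop (h (t - r)) r x)
    (k' := fun t r => Sop (fun y => deriv (fun s => h s y) (t - r)) r x)
    (ContDiff.comp (contDiff_Sop_param hh) (f := fun p : ℝ × ℝ => (p.1 - p.2, p.2, x))
      (by fun_prop)) (fun t r => (hasDerivAt_Sop_param hh (t - r) r x).comp_sub_const t r) t
  have e : (fun t => W h t x) = fun t => ∫ τ in (0 : ℝ)..t, Sop (h (t - τ)) τ x := by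
    funext s
    exact W_eq_sub h s x
  rw [e] at h1
  have h3 := h1.unique h2
  rw [h3, sub_self, W_eq_sub, add_comm]

/-! ### linearity -/

theorem W_add (hh : JS h) (hg : JS g) (t : ℝ) (x : R3) :
    W (fun τ y => h τ y + g τ y) t x = W h t x + W g t x := by
  unfold W
  rw [← intervalIntegral.integral_add ((cont_kS hh t x).intervalIntegrable _ _)
    ((cont_kS hg t x).intervalIntegrable _ _)]
  refine intervalIntegral.integral_congr fun τ _ => ?_
  exact Sop_add (hh.space τ).continuous (hg.space τ).continuous _ _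

theorem W_const_mul (c : ℝ) (h : ℝ → R3 → ℝ) (t : ℝ) (x : R3) :
    W (fun τ y => c * h τ y) t x = c * W h t x := by
  unfold W
  rw [← intervalIntegral.integral_const_mul]
  refine intervalIntegral.integral_congr fun τ _ => ?_
  exact Sop_const_mul c _ _ _

theorem W_neg (h : ℝ → R3 → ℝ) (t : ℝ) (x : R3) : W (fun τ y => - h τ y) t x = - W h t x := by
  have := W_const_mul (-1) h t x
  simpa using this

theorem W_sub (hh : JS h) (hg : JS g) (t : ℝ) (x : R3) :
    W (fun τ y => h τ y - g τ y) t x = W h t x - W g t x := by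
  unfold W
  rw [← intervalIntegral.integral_sub ((cont_kS hh t x).intervalIntegrable _ _)
    ((cont_kS hg t x).intervalIntegrable _ _)]
  refine intervalIntegral.integral_congr fun τ _ => ?_
  exact Sop_sub (hh.space τ).continuous (hg.space τ).continuous _ _

theorem W_sum {ι : Type*} {s : Finset ι} {f : ι → ℝ → R3 → ℝ} (hf : ∀ k ∈ s, JS (f k)) (t : ℝ)
    (x : R3) : W (fun τ y => ∑ k ∈ s, f k τ y) t x = ∑ k ∈ s, W (f k) t x := by
  unfold W
  rw [← intervalIntegral.integral_finsetSum fun k hk =>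
    (cont_kS (hf k hk) t x).intervalIntegrable _ _]
  refine intervalIntegral.integral_congr fun τ _ => ?_
  exact Sop_sum (fun k hk => ((hf k hk).space τ).continuous) _ _

/-! ### space derivatives -/

theorem pderiv_W (hh : JS h) (t : ℝ) (i : Fin 3) (x : R3) :
    pderiv (fun y => W h t y) i x = W (fun τ y => pderiv (h τ) i y) t x := by
  have h1 := hasDerivAt_line ((js_W hh).diff t x) i
  have h2 := hasDerivAt_param
    (k := fun s τ => Sop (h τ) (t - τ) (x + s • EuclideanSpace.single i (1 : ℝ)))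
    (k' := fun s τ => Sop (fun y => pderiv (h τ) i y) (t - τ)
      (x + s • EuclideanSpace.single i (1 : ℝ)))
    (ContDiff.comp (contDiff_Sop_param hh)
      (f := fun p : ℝ × ℝ => (p.2, t - p.2, x + p.1 • (EuclideanSpace.single i (1 : ℝ) : R3)))
      (by fun_prop)) (fun s τ => by
      have h3 := hasDerivAt_line' (f := fun y => Sop (h τ) (t - τ) y)
        (((js_Sop (hh.space τ)).space (t - τ)).differentiable (by simp)) x i s
      rwa [pderiv_Sop (hh.space τ)] at h3) 0 t 0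
  have h3 := h1.unique h2
  rw [h3]
  unfold W
  simp

theorem pderiv_Wd (hh : JS h) (t : ℝ) (i : Fin 3) (x : R3) :
    pderiv (fun y => Wd h t y) i x = Wd (fun τ y => pderiv (h τ) i y) t x := by
  have h1 := (js_W hh).comm_dt_dx t i x
  have e1 : (fun s => pderiv (fun y => W h s y) i x)
      = fun s => W (fun τ y => pderiv (h τ) i y) s x := by
    funext s
    exact pderiv_W hh s i x
  have e2 : (fun y => deriv (fun s => W h s y) t) = fun y => Wd h t y := by
    funext y
    exact (hasDerivAt_W hh t y).deriv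
  rw [e1, e2] at h1
  rw [← h1]
  exact (hasDerivAt_W (hh.dx i) t x).deriv

theorem lap_W (hh : JS h) (t : ℝ) (x : R3) :
    lap (fun y => W h t y) x = W (fun τ y => lap (h τ) y) t x := by
  unfold lap
  rw [W_sum fun i _ => (hh.dx i).dx i]
  refine Finset.sum_congr rfl fun i _ => ?_
  have h1 := pderiv_W (hh.dx i) t i x
  rw [← h1]
  exact pderiv_congr fun y => pderiv_W hh t i y

/-! ### the wave equation -/

theorem deriv_W (hh : JS h) (t : ℝ) (x : R3) : deriv (fun s => W h s x) t = Wd h t x :=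
  (hasDerivAt_W hh t x).deriv

/-- `□ W[h] = h` -/
theorem wave_W (hh : JS h) (t : ℝ) (x : R3) :
    deriv (fun s => deriv (fun s' => W h s' x) s) t - lap (fun y => W h t y) x = h t x := by
  have e : (fun s => deriv (fun s' => W h s' x) s) = fun s => Wd h s x := by
    funext s
    exact deriv_W hh s x
  rw [e, (hasDerivAt_Wd hh t x).deriv, lap_W hh]
  ring

/-- KIRCHHOFF REPRESENTATION: every smooth `u` is given by its data and `□u` -/
theorem kirchhoff {u : ℝ → R3 → ℝ} (hu : JS u) (t : ℝ) (x : R3) :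
    u t x = W (fun τ y => deriv (fun s => deriv (fun s' => u s' y) s) τ - lap (u τ) y) t x
      + Sop (fun y => deriv (fun s => u s y) 0) t x + Sdot (u 0) t x := by
  have hu1 : JS (fun τ y => deriv (fun s => u s y) τ) := hu.dt
  have hu2 : JS (fun τ y => deriv (fun s => deriv (fun s' => u s' y) s) τ) := hu1.dt
  set Φ : ℝ → ℝ := fun τ => Sdot (u τ) (t - τ) x + Sop (fun y => deriv (fun s => u s y) τ) (t - τ) x
    with hΦ
  have hA : ∀ τ, HasDerivAt (fun τ => Sdot (u τ) (t - τ) x)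
      (Sdot (fun y => deriv (fun s => u s y) τ) (t - τ) x - Sop (lap (u τ)) (t - τ) x) τ := by
    intro τ
    refine hasDerivAt_diag (K := fun p : ℝ × ℝ => Sdot (u p.1) p.2 x) ?_ ?_ ?_
    · exact ((ContDiff.comp (contDiff_Sdot_param hu) (f := fun p : ℝ × ℝ => (p.1, p.2, x))
        (by fun_prop)).differentiable (by simp)) _
    · exact hasDerivAt_Sdot_param hu τ (t - τ) x
    · exact hasDerivAt_Sdot (hu.space τ) (t - τ) x
  have hB : ∀ τ, HasDerivAt (fun τ => Sop (fun y => deriv (fun s => u s y) τ) (t - τ) x)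
      (Sop (fun y => deriv (fun s => deriv (fun s' => u s' y) s) τ) (t - τ) x
        - Sdot (fun y => deriv (fun s => u s y) τ) (t - τ) x) τ := by
    intro τ
    refine hasDerivAt_diag
      (K := fun p : ℝ × ℝ => Sop (fun y => deriv (fun s => u s y) p.1) p.2 x) ?_ ?_ ?_
    · exact ((ContDiff.comp (contDiff_Sop_param hu1) (f := fun p : ℝ × ℝ => (p.1, p.2, x))
        (by fun_prop)).differentiable (by simp)) _
    · exact hasDerivAt_Sop_param hu1 τ (t - τ) x
    · exact hasDerivAt_Sop (hu1.space τ) (t - τ) x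
  have hbox : JS (fun τ y => deriv (fun s => deriv (fun s' => u s' y) s) τ - lap (u τ) y) :=
    hu2.sub hu.lap
  have hΦd : ∀ τ, HasDerivAt Φ
      (Sop (fun y => deriv (fun s => deriv (fun s' => u s' y) s) τ - lap (u τ) y) (t - τ) x) τ := by
    intro τ
    refine ((hA τ).add (hB τ)).congr_deriv ?_
    rw [Sop_sub (hu2.space τ).continuous (hu.lap.space τ).continuous]
    show _ = Sop _ _ _ - Sop (lap (u τ)) (t - τ) x
    ring
  have hftc := intervalIntegral.integral_eq_sub_of_hasDerivAt (a := 0) (b := t)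
    (fun τ _ => hΦd τ) ((cont_kS hbox t x).intervalIntegrable _ _)
  have e1 : Φ t = u t x := by simp [hΦ]
  have e0 : Φ 0 = Sdot (u 0) t x + Sop (fun y => deriv (fun s => u s y) 0) t x := by simp [hΦ]
  rw [e1, e0] at hftc
  have e2 : W (fun τ y => deriv (fun s => deriv (fun s' => u s' y) s) τ - lap (u τ) y) t x
      = ∫ τ in (0 : ℝ)..t,
        Sop (fun y => deriv (fun s => deriv (fun s' => u s' y) s) τ - lap (u τ) y) (t - τ) x := rfl
  rw [e2, hftc]
  ring

/-- uniqueness for the wave equation in the smooth class -/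
theorem wave_unique {u v : ℝ → R3 → ℝ} (hu : JS u) (hv : JS v)
    (h0 : ∀ x, u 0 x = v 0 x)
    (h1 : ∀ x, deriv (fun s => u s x) 0 = deriv (fun s => v s x) 0)
    (hw : ∀ t x, deriv (fun s => deriv (fun s' => u s' x) s) t - lap (u t) x
      = deriv (fun s => deriv (fun s' => v s' x) s) t - lap (v t) x) (t : ℝ) (x : R3) :
    u t x = v t x := by
  rw [kirchhoff hu t x, kirchhoff hv t x]
  have e0 : u 0 = v 0 := funext h0
  have e1 : (fun y => deriv (fun s => u s y) 0) = fun y => deriv (fun s => v s y) 0 := funext h1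
  have e2 : (fun τ y => deriv (fun s => deriv (fun s' => u s' y) s) τ - lap (u τ) y)
      = fun τ y => deriv (fun s => deriv (fun s' => v s' y) s) τ - lap (v τ) y := by
    funext τ y
    exact hw τ y
  rw [e0, e1, e2]

/-! ### bounds -/

theorem abs_W_le {t : ℝ} (ht : 0 ≤ t) {x : R3} {M : ℝ → ℝ}
    (hM : IntervalIntegrable M volume 0 t)
    (hb : ∀ τ ∈ Icc 0 t, ∀ y : R3, ‖y - x‖ = t - τ → |h τ y| ≤ M τ) :
    |W h t x| ≤ ∫ τ in (0 : ℝ)..t, (t - τ) * M τ := by
  unfold W
  have h1 : IntervalIntegrable (fun τ => (t - τ) * M τ) volume 0 t :=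
    hM.continuousOn_mul (by fun_prop)
  have := intervalIntegral.norm_integral_le_of_norm_le (μ := volume) ht
    (f := fun τ => Sop (h τ) (t - τ) x) (g := fun τ => (t - τ) * M τ)
    (Eventually.of_forall fun τ hτ => by
      have hτ' : 0 ≤ t - τ := by linarith [hτ.2]
      have := abs_Sop_le (φ := h τ) (t := t - τ) (x := x) (C := M τ) (fun y hy => by
        rw [abs_of_nonneg hτ'] at hy
        exact hb τ ⟨hτ.1.le, hτ.2⟩ y hy)
      rwa [abs_of_nonneg hτ'] at this) h1
  simpa using this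

/-- domain of dependence -/
theorem W_congr {t : ℝ} {x : R3} (hb : ∀ τ ∈ uIcc 0 t, ∀ y : R3, ‖y - x‖ = |t - τ| → h τ y = g τ y) :
    W h t x = W g t x := by
  unfold W
  refine intervalIntegral.integral_congr fun τ hτ => ?_
  show (t - τ) * Mn (h τ) (t - τ) x = (t - τ) * Mn (g τ) (t - τ) x
  congr 1
  unfold Mn
  refine integral_sg_congr fun w hw => ?_
  refine hb τ hτ _ ?_
  rw [add_sub_cancel_left, norm_smul, hw, mul_one, Real.norm_eq_abs]

end Crest.Agent.R106.Kir
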