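import Crest.Prelude.Def_VlasovMaxwell

/-!
Row 106, module L2F (helper727): the L² clause of `IsClassicalSolutionOn` for C¹ solutions of the
Maxwell system with L² data and locally bounded compactly supported current.
-/

set_option autoImplicit false
open MeasureTheory Set Filter
open scoped ContDiff Topology
open Crest.AnalysisR.VecCalc3

namespace Crest.Agent.R106.L2F

/-! ### the cut-off -/

/-- `(s)₊²`. -/
noncomputable def pp (s : ℝ) : ℝ := (max 0 s) ^ 2

lemma pp_nonneg (s : ℝ) : 0 ≤ pp s := sq_nonneg _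

lemma pp_of_nonpos {s : ℝ} (hs : s ≤ 0) : pp s = 0 := by
  simp [pp, max_eq_left hs]

lemma pp_le_one {s : ℝ} (hs : s ≤ 1) : pp s ≤ 1 := by
  have h0 : 0 ≤ max 0 s := le_max_left _ _
  have h1 : max 0 s ≤ 1 := max_le zero_le_one hs
  unfold pp
  nlinarith

lemma hasDerivAt_pp (s : ℝ) : HasDerivAt pp (2 * max 0 s) s := by
  rcases lt_trichotomy s 0 with h | h | h
  · have : pp =ᶠ[𝓝 s] fun _ => (0 : ℝ) := by
      filter_upwards [Iio_mem_nhds h] with x hx
      exact pp_of_nonpos (le_of_lt hx)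
    rw [max_eq_left h.le, mul_zero]
    exact (hasDerivAt_const s (0 : ℝ)).congr_of_eventuallyEq this
  · subst h
    rw [hasDerivAt_iff_isLittleO]
    simp only [max_self, mul_zero, smul_zero, sub_zero]
    have h0 : pp 0 = 0 := pp_of_nonpos le_rfl
    rw [h0]
    simp only [sub_zero]
    rw [Asymptotics.isLittleO_iff]
    intro c hc
    filter_upwards [Metric.ball_mem_nhds (0 : ℝ) hc] with x hx
    rw [Metric.mem_ball, dist_zero_right, Real.norm_eq_abs] at hx
    rw [Real.norm_eq_abs, Real.norm_eq_abs, abs_of_nonneg (pp_nonneg x)]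
    have h1 : max 0 x ≤ |x| := max_le (abs_nonneg _) (le_abs_self _)
    have h2 : 0 ≤ max 0 x := le_max_left _ _
    unfold pp
    nlinarith [abs_nonneg x]
  · have : pp =ᶠ[𝓝 s] fun x => x ^ 2 := by
      filter_upwards [Ioi_mem_nhds h] with x hx
      have : (0:ℝ) ≤ x := le_of_lt hx
      simp [pp, max_eq_right this]
    rw [max_eq_right h.le]
    have h2 := (hasDerivAt_pow 2 s).congr_of_eventuallyEq this
    simpa using h2

lemma contDiff_pp : ContDiff ℝ 1 pp := by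
  rw [contDiff_one_iff_deriv]
  refine ⟨fun s => (hasDerivAt_pp s).differentiableAt, ?_⟩
  have : deriv pp = fun s => 2 * max 0 s := funext fun s => (hasDerivAt_pp s).deriv
  rw [this]
  fun_prop

/-- `√(1+‖x‖²)`. -/
noncomputable def jb (x : R3) : ℝ := Real.sqrt (1 + ‖x‖ ^ 2)

lemma jb_pos (x : R3) : 0 < jb x := Real.sqrt_pos.2 (by positivity)

lemma norm_le_jb (x : R3) : ‖x‖ ≤ jb x := by
  unfold jb
  apply Real.le_sqrt_of_sq_le
  linarith

lemma contDiff_jb : ContDiff ℝ 1 jb := by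
  unfold jb
  apply ContDiff.sqrt
  · exact contDiff_const.add (contDiff_norm_sq ℝ)
  · intro x; positivity

lemma hasFDerivAt_jb (x : R3) : HasFDerivAt jb ((jb x)⁻¹ • (innerSL ℝ x)) x := by
  have h1 : HasFDerivAt (fun y : R3 => 1 + ‖y‖ ^ 2) (2 • (innerSL ℝ x)) x := by
    have := (hasStrictFDerivAt_norm_sq x).hasFDerivAt
    exact (this.const_add 1)
  have h2 := h1.sqrt (by positivity)
  have h3 : (1 / (2 * √(1 + ‖x‖ ^ 2))) • (2 • (innerSL ℝ) x) = (jb x)⁻¹ • (innerSL ℝ x) := by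
    refine ContinuousLinearMap.ext fun y => ?_
    have := (jb_pos x).ne'
    have e : √(1 + ‖x‖ ^ 2) = jb x := rfl
    rw [e]
    simp only [smul_apply, nsmul_eq_mul, smul_eq_mul]
    push_cast
    field_simp
  rw [← h3]
  exact h2

/-- the moving cut-off. -/
noncomputable def psi (R t : ℝ) (x : R3) : ℝ := pp (1 - (jb x + t) / R)

/-- the positive part entering the derivative of the cut-off -/
noncomputable def mm (R t : ℝ) (x : R3) : ℝ := max 0 (1 - (jb x + t) / R)

lemma psi_nonneg (R t : ℝ) (x : R3) : 0 ≤ psi R t x := pp_nonneg _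

lemma mm_nonneg (R t : ℝ) (x : R3) : 0 ≤ mm R t x := le_max_left _ _

lemma mm_le_one {R t : ℝ} (hR : 0 < R) (ht : 0 ≤ t) (x : R3) : mm R t x ≤ 1 := by
  apply max_le zero_le_one
  have : 0 ≤ (jb x + t) / R := div_nonneg (add_nonneg (jb_pos x).le ht) hR.le
  linarith

lemma psi_le_one {R t : ℝ} (hR : 0 < R) (ht : 0 ≤ t) (x : R3) : psi R t x ≤ 1 := by
  apply pp_le_one
  have : 0 ≤ (jb x + t) / R := div_nonneg (add_nonneg (jb_pos x).le ht) hR.le
  linarith

lemma psi_eq_zero {R t : ℝ} (hR : 0 < R) (ht : 0 ≤ t) {x : R3} (hx : R < ‖x‖) :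
    psi R t x = 0 := by
  apply pp_of_nonpos
  have h1 : R ≤ jb x + t := by linarith [norm_le_jb x]
  have h2 : 1 ≤ (jb x + t) / R := by rwa [le_div_iff₀ hR, one_mul]
  linarith

lemma mm_eq_zero {R t : ℝ} (hR : 0 < R) (ht : 0 ≤ t) {x : R3} (hx : R < ‖x‖) :
    mm R t x = 0 := by
  apply max_eq_left
  have h1 : R ≤ jb x + t := by linarith [norm_le_jb x]
  have h2 : 1 ≤ (jb x + t) / R := by rwa [le_div_iff₀ hR, one_mul]
  linarith

lemma continuous_psi (R : ℝ) : Continuous (fun p : ℝ × R3 => psi R p.1 p.2) := by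
  unfold psi
  have h1 := contDiff_pp.continuous
  have h2 := contDiff_jb.continuous
  fun_prop

lemma continuous_mm (R : ℝ) : Continuous (fun p : ℝ × R3 => mm R p.1 p.2) := by
  unfold mm
  have h2 := contDiff_jb.continuous
  fun_prop

lemma contDiff_psi (R t : ℝ) : ContDiff ℝ 1 (psi R t) := by
  unfold psi
  have h1 := contDiff_pp
  have h2 := contDiff_jb
  apply h1.comp
  exact contDiff_const.sub ((h2.add contDiff_const).div_const _)

lemma hasCompactSupport_psi {R t : ℝ} (hR : 0 < R) (ht : 0 ≤ t) : HasCompactSupport (psi R t) := by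
  apply HasCompactSupport.intro (isCompact_closedBall (0:R3) R)
  intro x hx
  rw [Metric.mem_closedBall, dist_zero_right, not_le] at hx
  exact psi_eq_zero hR ht hx

lemma hasDerivAt_psi_t (R t : ℝ) (x : R3) :
    HasDerivAt (fun s => psi R s x) (-(2 / R) * mm R t x) t := by
  unfold psi
  have h1 : HasDerivAt (fun s : ℝ => 1 - (jb x + s) / R) (-(1 / R)) t := by
    have := (((hasDerivAt_id t).const_add (jb x)).div_const R).const_sub 1
    simpa using this
  have h2 := (hasDerivAt_pp (1 - (jb x + t) / R)).comp t h1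
  refine h2.congr_deriv ?_
  unfold mm; ring

lemma pderiv_psi (R t : ℝ) (i : Fin 3) (x : R3) :
    pderiv (psi R t) i x = -(2 / R) * mm R t x * ((jb x)⁻¹ * x i) := by
  have h1 : HasFDerivAt (fun y : R3 => 1 - (jb y + t) / R) (-(R⁻¹ • ((jb x)⁻¹ • innerSL ℝ x))) x := by
    have := ((hasFDerivAt_jb x).add_const t).mul_const R⁻¹
    have h3 := this.const_sub 1
    simpa only [div_eq_mul_inv] using h3
  have h2 := (hasDerivAt_pp (1 - (jb x + t) / R)).comp_hasFDerivAt x h1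
  have h3 : HasFDerivAt (psi R t) ((2 * max 0 (1 - (jb x + t) / R)) •
      -(R⁻¹ • ((jb x)⁻¹ • innerSL ℝ x))) x := h2
  unfold pderiv
  rw [h3.fderiv]
  simp only [smul_apply, neg_apply, smul_eq_mul, innerSL_apply_apply]
  have h4 : inner ℝ x (EuclideanSpace.single i (1:ℝ)) = x i := by
    rw [EuclideanSpace.inner_single_right]; simp
  rw [h4]
  unfold mm
  ring

/-! ### spatial integration by parts -/

lemma contDiff_coord {A : R3 → R3} (hA : ContDiff ℝ 1 A) (i : Fin 3) :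
    ContDiff ℝ 1 (fun y => A y i) := by
  exact (contDiff_euclidean.1 hA) i

lemma continuous_pderiv {v : R3 → ℝ} (hv : ContDiff ℝ 1 v) (i : Fin 3) :
    Continuous (fun x => pderiv v i x) := by
  unfold pderiv
  exact (hv.continuous_fderiv one_ne_zero).clm_apply continuous_const

lemma pderiv_mul {u v : R3 → ℝ} (hu : ContDiff ℝ 1 u) (hv : ContDiff ℝ 1 v) (i : Fin 3) (x : R3) :
    pderiv (fun y => u y * v y) i x = pderiv u i x * v x + u x * pderiv v i x := by
  unfold pderiv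
  have h1 := (hu.differentiable one_ne_zero) x
  have h2 := (hv.differentiable one_ne_zero) x
  rw [show (fun y => u y * v y) = u * v from rfl, fderiv_mul h1 h2]
  simp only [add_apply, smul_apply, smul_eq_mul]
  ring

lemma hasCompactSupport_pderiv {u : R3 → ℝ} (hc : HasCompactSupport u) (i : Fin 3) :
    HasCompactSupport (fun x => pderiv u i x) :=
  hc.fderiv_apply ℝ _

lemma ibp {u v : R3 → ℝ} (hu : ContDiff ℝ 1 u) (hv : ContDiff ℝ 1 v) (hc : HasCompactSupport u)
    (i : Fin 3) : ∫ x, (u x * pderiv v i x + pderiv u i x * v x) = 0 := by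
  have i1 : Integrable (fun x => u x * pderiv v i x) :=
    (hu.continuous.mul (continuous_pderiv hv i)).integrable_of_hasCompactSupport hc.mul_right
  have i2 : Integrable (fun x => pderiv u i x * v x) :=
    ((continuous_pderiv hu i).mul hv.continuous).integrable_of_hasCompactSupport
      (hasCompactSupport_pderiv hc i).mul_right
  have i3 : Integrable (fun x => u x * v x) :=
    (hu.continuous.mul hv.continuous).integrable_of_hasCompactSupport hc.mul_right
  have h := integral_mul_fderiv_eq_neg_fderiv_mul_of_integrable (𝕜 := ℝ) (μ := volume)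
    (f := u) (g := v) (v := EuclideanSpace.single i (1:ℝ)) i2 i1 i3
    (fun x _ => (hu.differentiable one_ne_zero) x) (fun x _ => (hv.differentiable one_ne_zero) x)
  rw [integral_add i1 i2]
  have h' : ∫ x, u x * pderiv v i x = - ∫ x, pderiv u i x * v x := h
  rw [h']; ring

/-- integrable with vanishing integral -/
def Zint (f : R3 → ℝ) : Prop := Integrable f ∧ ∫ x, f x = 0

lemma Zadd {f g : R3 → ℝ} (hf : Zint f) (hg : Zint g) : Zint (fun x => f x + g x) :=
  ⟨hf.1.add hg.1, by rw [integral_add hf.1 hg.1, hf.2, hg.2, add_zero]⟩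

lemma Zsub {f g : R3 → ℝ} (hf : Zint f) (hg : Zint g) : Zint (fun x => f x - g x) :=
  ⟨hf.1.sub hg.1, by rw [integral_sub hf.1 hg.1, hf.2, hg.2, sub_zero]⟩

/-- the elementary block of the Poynting identity -/
lemma ibp3 {ψ a c : R3 → ℝ} (hψ : ContDiff ℝ 1 ψ) (hc : HasCompactSupport ψ)
    (ha : ContDiff ℝ 1 a) (hcc : ContDiff ℝ 1 c) (k : Fin 3) :
    Zint (fun x => ψ x * a x * pderiv c k x + ψ x * c x * pderiv a k x
      + pderiv ψ k x * a x * c x) := by
  have h1 := ibp (hψ.mul ha) hcc hc.mul_right k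
  have e : (fun x => (ψ x * a x) * pderiv c k x + pderiv (fun y => ψ y * a y) k x * c x)
      = fun x => ψ x * a x * pderiv c k x + ψ x * c x * pderiv a k x + pderiv ψ k x * a x * c x := by
    funext x
    rw [pderiv_mul hψ ha]
    ring
  constructor
  · apply Continuous.integrable_of_hasCompactSupport
    · have := continuous_pderiv hψ k
      have := continuous_pderiv ha k
      have := continuous_pderiv hcc k
      have := hψ.continuous
      have := ha.continuous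
      have := hcc.continuous
      fun_prop
    · have : (fun x => ψ x * a x * pderiv c k x + ψ x * c x * pderiv a k x
        + pderiv ψ k x * a x * c x) = fun x => ψ x * (a x * pderiv c k x + c x * pderiv a k x)
        + pderiv ψ k x * (a x * c x) := by funext x; ring
      rw [this]
      exact (hc.mul_right).add (hasCompactSupport_pderiv hc k).mul_right
  · rw [← e]; exact h1

lemma poynting {ψ : R3 → ℝ} {A C : R3 → R3} (hψ : ContDiff ℝ 1 ψ) (hc : HasCompactSupport ψ)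
    (hA : ContDiff ℝ 1 A) (hC : ContDiff ℝ 1 C) :
    Zint (fun x => ψ x * (∑ i, A x i * curl3 C x i - ∑ i, C x i * curl3 A x i)
      - ∑ i, pderiv ψ i x * cross3 (A x) (C x) i) := by
  have P := fun i j k => ibp3 hψ hc (contDiff_coord hA i) (contDiff_coord hC j) k
  have e : (fun x => ψ x * (∑ i, A x i * curl3 C x i - ∑ i, C x i * curl3 A x i)
      - ∑ i, pderiv ψ i x * cross3 (A x) (C x) i) =
    fun x => ((ψ x * A x 0 * pderiv (fun y => C y 2) 1 x + ψ x * C x 2 * pderiv (fun y => A y 0) 1 x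
        + pderiv ψ 1 x * A x 0 * C x 2)
      - (ψ x * A x 0 * pderiv (fun y => C y 1) 2 x + ψ x * C x 1 * pderiv (fun y => A y 0) 2 x
        + pderiv ψ 2 x * A x 0 * C x 1)
      + (ψ x * A x 1 * pderiv (fun y => C y 0) 2 x + ψ x * C x 0 * pderiv (fun y => A y 1) 2 x
        + pderiv ψ 2 x * A x 1 * C x 0)
      - (ψ x * A x 1 * pderiv (fun y => C y 2) 0 x + ψ x * C x 2 * pderiv (fun y => A y 1) 0 x
        + pderiv ψ 0 x * A x 1 * C x 2)
      + (ψ x * A x 2 * pderiv (fun y => C y 1) 0 x + ψ x * C x 1 * pderiv (fun y => A y 2) 0 x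
        + pderiv ψ 0 x * A x 2 * C x 1))
      - (ψ x * A x 2 * pderiv (fun y => C y 0) 1 x + ψ x * C x 0 * pderiv (fun y => A y 2) 1 x
        + pderiv ψ 1 x * A x 2 * C x 0) := by
    funext x
    simp only [Fin.sum_univ_three, curl3, cross3]
    simp only [Matrix.cons_val_zero, Matrix.cons_val_one, Matrix.cons_val]
    ring
  rw [e]
  exact Zsub (Zadd (Zsub (Zadd (Zsub (P 0 2 1) (P 0 1 2)) (P 1 0 2)) (P 1 2 0)) (P 2 1 0)) (P 2 0 1)

/-! ### differentiation under the integral sign for compactly supported integrands -/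

lemma hasDerivAt_integral_cs {F F' : ℝ → R3 → ℝ} {a b R : ℝ}
    (hF : ∀ t ∈ Ioo a b, ∀ x, HasDerivAt (fun s => F s x) (F' t x) t)
    (hc : ContinuousOn (fun p : ℝ × R3 => F p.1 p.2) (Ioo a b ×ˢ univ))
    (hc' : ContinuousOn (fun p : ℝ × R3 => F' p.1 p.2) (Ioo a b ×ˢ univ))
    (hs : ∀ t ∈ Ioo a b, ∀ x, R < ‖x‖ → F t x = 0) {t : ℝ} (ht : t ∈ Ioo a b) :
    Integrable (F' t) ∧ HasDerivAt (fun s => ∫ x, F s x) (∫ x, F' t x) t := by
  -- slices are continuous
  have slc : ∀ {G : ℝ → R3 → ℝ}, ContinuousOn (fun p : ℝ × R3 => G p.1 p.2) (Ioo a b ×ˢ univ) →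
      ∀ s ∈ Ioo a b, Continuous (G s) := by
    intro G hG s hs
    have : ContinuousOn (fun x : R3 => G s x) univ :=
      hG.comp (f := fun x : R3 => ((s, x) : ℝ × R3)) (by fun_prop) (fun x _ => ⟨hs, mem_univ _⟩)
    exact continuousOn_univ.1 this
  -- the derivative vanishes outside the ball
  have hs' : ∀ s ∈ Ioo a b, ∀ x, R < ‖x‖ → F' s x = 0 := by
    intro s hs1 x hx
    have h1 := hF s hs1 x
    have h2 : (fun r => F r x) =ᶠ[𝓝 s] fun _ => (0:ℝ) := by
      filter_upwards [Ioo_mem_nhds hs1.1 hs1.2] with r hr using hs r hr x hx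
    exact (h1.congr_of_eventuallyEq h2.symm).unique (hasDerivAt_const s (0:ℝ))
  obtain ⟨c, hac, hct⟩ := exists_between ht.1
  obtain ⟨d, htd, hdb⟩ := exists_between ht.2
  have hsub : Icc c d ⊆ Ioo a b := fun r hr => ⟨lt_of_lt_of_le hac hr.1, lt_of_le_of_lt hr.2 hdb⟩
  have hK : IsCompact (Icc c d ×ˢ Metric.closedBall (0:R3) R) :=
    isCompact_Icc.prod (isCompact_closedBall _ _)
  obtain ⟨M, hM⟩ := hK.exists_bound_of_continuousOn
    (hc'.mono (prod_mono hsub (subset_univ _)))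
  have hint : ∀ {g : R3 → ℝ}, Continuous g → (∀ x, R < ‖x‖ → g x = 0) → Integrable g := by
    intro g hg h0
    apply hg.integrable_of_hasCompactSupport
    apply HasCompactSupport.intro (isCompact_closedBall (0:R3) R)
    intro x hx
    apply h0
    rw [Metric.mem_closedBall, dist_zero_right, not_le] at hx
    exact hx
  refine hasDerivAt_integral_of_dominated_loc_of_deriv_le (μ := volume) (s := Ioo c d)
    (bound := (Metric.closedBall (0:R3) R).indicator fun _ => M) (Ioo_mem_nhds hct htd) ?_ ?_ ?_ ?_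
    ?_ ?_
  · filter_upwards [Ioo_mem_nhds ht.1 ht.2] with s hs1
    exact (slc hc s hs1).aestronglyMeasurable
  · exact hint (slc hc t ht) (hs t ht)
  · exact (slc hc' t ht).aestronglyMeasurable
  · refine Eventually.of_forall fun x s hs1 => ?_
    by_cases hx : x ∈ Metric.closedBall (0:R3) R
    · rw [indicator_of_mem hx]
      exact hM (s, x) ⟨⟨hs1.1.le, hs1.2.le⟩, hx⟩
    · rw [indicator_of_notMem hx, hs' s (hsub ⟨hs1.1.le, hs1.2.le⟩) x, norm_zero]
      rwa [Metric.mem_closedBall, dist_zero_right, not_le] at hx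
  · rw [integrable_indicator_iff measurableSet_closedBall]
    exact integrableOn_const (isCompact_closedBall (0:R3) R).measure_ne_top
  · refine Eventually.of_forall fun x s hs1 => hF s (hsub ⟨hs1.1.le, hs1.2.le⟩) x

/-! ### slices and time derivatives of `C¹` fields on `[0,T) × ℝ³` -/

section fields

variable {T : ℝ} {E : ℝ → R3 → R3}

lemma slice_contDiff (hE : ContDiffOn ℝ 1 (fun p : ℝ × R3 => E p.1 p.2) (Ico 0 T ×ˢ univ))
    {t : ℝ} (ht : t ∈ Ico 0 T) : ContDiff ℝ 1 (E t) := by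
  have : ContDiffOn ℝ 1 (fun x : R3 => E t x) univ :=
    hE.comp (f := fun x : R3 => ((t, x) : ℝ × R3)) (by fun_prop) (fun x _ => ⟨ht, mem_univ _⟩)
  exact contDiffOn_univ.1 this

/-- the time derivative -/
noncomputable def Dt (E : ℝ → R3 → R3) (t : ℝ) (x : R3) : R3 :=
  fderiv ℝ (fun p : ℝ × R3 => E p.1 p.2) (t, x) (1, 0)

lemma continuousOn_Dt (hE : ContDiffOn ℝ 1 (fun p : ℝ × R3 => E p.1 p.2) (Ico 0 T ×ˢ univ)) :
    ContinuousOn (fun p : ℝ × R3 => Dt E p.1 p.2) (Ioo 0 T ×ˢ univ) := by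
  have h1 : ContDiffOn ℝ 1 (fun p : ℝ × R3 => E p.1 p.2) (Ioo 0 T ×ˢ univ) :=
    hE.mono (prod_mono Ioo_subset_Ico_self (subset_univ _))
  have h2 := h1.continuousOn_fderiv_of_isOpen (isOpen_Ioo.prod isOpen_univ) le_rfl
  exact h2.clm_apply continuousOn_const

lemma hasDerivAt_Dt (hE : ContDiffOn ℝ 1 (fun p : ℝ × R3 => E p.1 p.2) (Ico 0 T ×ˢ univ))
    {t : ℝ} (ht : t ∈ Ioo 0 T) (x : R3) : HasDerivAt (fun s => E s x) (Dt E t x) t := by
  have hmem : Ico 0 T ×ˢ (univ : Set R3) ∈ 𝓝 ((t, x) : ℝ × R3) :=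
    prod_mem_nhds (Ico_mem_nhds ht.1 ht.2) univ_mem
  have h1 : HasFDerivAt (fun p : ℝ × R3 => E p.1 p.2)
      (fderiv ℝ (fun p : ℝ × R3 => E p.1 p.2) (t, x)) (t, x) :=
    ((hE.contDiffAt hmem).differentiableAt one_ne_zero).hasFDerivAt
  have h2 : HasDerivAt (fun s : ℝ => ((s, x) : ℝ × R3)) (1, 0) t :=
    (hasDerivAt_id t).prodMk (hasDerivAt_const t x)
  exact h1.comp_hasDerivAt t h2

lemma Dt_coord (hE : ContDiffOn ℝ 1 (fun p : ℝ × R3 => E p.1 p.2) (Ico 0 T ×ˢ univ))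
    {t : ℝ} (ht : t ∈ Ioo 0 T) (x : R3) (i : Fin 3) :
    Dt E t x i = deriv (fun s => E s x i) t := by
  have h := hasDerivAt_Dt hE ht x
  have h2 : HasDerivAt (fun s => E s x i) (Dt E t x i) t := by
    have := (EuclideanSpace.proj (𝕜 := ℝ) i : EuclideanSpace ℝ (Fin 3) →L[ℝ] ℝ).hasFDerivAt
      (x := E t x) |>.comp_hasDerivAt t h
    exact this
  exact h2.deriv.symm

end fields

/-! ### the local energy -/

/-- energy density (without the factor 1/2) -/
noncomputable def en (E B : ℝ → R3 → R3) (t : ℝ) (x : R3) : ℝ := ‖E t x‖ ^ 2 + ‖B t x‖ ^ 2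

lemma en_nonneg (E B : ℝ → R3 → R3) (t : ℝ) (x : R3) : 0 ≤ en E B t x := by
  unfold en; positivity

lemma norm_cross_coord_sum (w a b : R3) :
    |∑ i, w i * cross3 a b i| ≤ ‖w‖ * (‖a‖ * ‖b‖) := by
  have hw := EuclideanSpace.real_norm_sq_eq w
  have ha := EuclideanSpace.real_norm_sq_eq a
  have hb := EuclideanSpace.real_norm_sq_eq b
  simp only [Fin.sum_univ_three] at hw ha hb
  apply abs_le_of_sq_le_sq' _ (by positivity) |> abs_le.2
  have e : (∑ i, w i * cross3 a b i) = w 0 * (a 1 * b 2 - a 2 * b 1)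
      + w 1 * (a 2 * b 0 - a 0 * b 2) + w 2 * (a 0 * b 1 - a 1 * b 0) := by
    simp only [Fin.sum_univ_three, cross3]
    simp only [Matrix.cons_val_zero, Matrix.cons_val_one, Matrix.cons_val]
  rw [e, mul_pow, mul_pow, hw, ha, hb]
  have hc : (w 0 * (a 1 * b 2 - a 2 * b 1) + w 1 * (a 2 * b 0 - a 0 * b 2)
      + w 2 * (a 0 * b 1 - a 1 * b 0)) ^ 2 ≤ (w 0 ^ 2 + w 1 ^ 2 + w 2 ^ 2) *
      ((a 1 * b 2 - a 2 * b 1) ^ 2 + (a 2 * b 0 - a 0 * b 2) ^ 2 + (a 0 * b 1 - a 1 * b 0) ^ 2) := by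
    nlinarith [sq_nonneg (w 0 * (a 2 * b 0 - a 0 * b 2) - w 1 * (a 1 * b 2 - a 2 * b 1)),
      sq_nonneg (w 0 * (a 0 * b 1 - a 1 * b 0) - w 2 * (a 1 * b 2 - a 2 * b 1)),
      sq_nonneg (w 1 * (a 0 * b 1 - a 1 * b 0) - w 2 * (a 2 * b 0 - a 0 * b 2))]
  refine hc.trans ?_
  apply mul_le_mul_of_nonneg_left _ (by positivity)
  have : (a 1 * b 2 - a 2 * b 1) ^ 2 + (a 2 * b 0 - a 0 * b 2) ^ 2 + (a 0 * b 1 - a 1 * b 0) ^ 2
      = (a 0 ^ 2 + a 1 ^ 2 + a 2 ^ 2) * (b 0 ^ 2 + b 1 ^ 2 + b 2 ^ 2)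
        - (a 0 * b 0 + a 1 * b 1 + a 2 * b 2) ^ 2 := by ring
  rw [this]
  nlinarith [sq_nonneg (a 0 * b 0 + a 1 * b 1 + a 2 * b 2)]

/-- the flux part is controlled by the energy density -/
lemma flux_bound (a b x : R3) :
    |2 * ∑ i, ((jb x)⁻¹ * x i) * cross3 a b i| ≤ ‖a‖ ^ 2 + ‖b‖ ^ 2 := by
  have h1 := norm_cross_coord_sum ((jb x)⁻¹ • x) a b
  have h2 : ‖(jb x)⁻¹ • x‖ ≤ 1 := by
    rw [norm_smul, norm_inv, Real.norm_of_nonneg (jb_pos x).le, inv_mul_le_iff₀ (jb_pos x), mul_one]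
    exact norm_le_jb x
  have h3 : (∑ i, ((jb x)⁻¹ • x) i * cross3 a b i) = ∑ i, ((jb x)⁻¹ * x i) * cross3 a b i := rfl
  rw [h3] at h1
  rw [abs_mul, abs_of_pos (by norm_num : (0:ℝ) < 2)]
  have h4 : ‖(jb x)⁻¹ • x‖ * (‖a‖ * ‖b‖) ≤ 1 * (‖a‖ * ‖b‖) :=
    mul_le_mul_of_nonneg_right h2 (by positivity)
  nlinarith [sq_nonneg (‖a‖ - ‖b‖)]

/-- hypotheses of this file: `C¹` Maxwell fields on `[0,T) × ℝ³` with continuous current `j` of
locally (in time) bounded support. -/
structure Fld (T : ℝ) (E B j : ℝ → R3 → R3) : Prop where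
  hE : ContDiffOn ℝ 1 (fun p : ℝ × R3 => E p.1 p.2) (Ico 0 T ×ˢ univ)
  hB : ContDiffOn ℝ 1 (fun p : ℝ × R3 => B p.1 p.2) (Ico 0 T ×ˢ univ)
  hj : ContinuousOn (fun p : ℝ × R3 => j p.1 p.2) (Ico 0 T ×ˢ univ)
  hjs : ∀ T', 0 ≤ T' → T' < T → ∃ R : ℝ, ∀ t ∈ Icc 0 T', ∀ x, R < ‖x‖ → j t x = 0
  h1 : ∀ t, 0 < t → t < T → ∀ (x : R3) (i : Fin 3),
    deriv (fun s => E s x i) t - curl3 (B t) x i = - j t x i
  h2 : ∀ t, 0 < t → t < T → ∀ (x : R3) (i : Fin 3),
    deriv (fun s => B s x i) t + curl3 (E t) x i = 0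

/-- local energy -/
noncomputable def Y (E B : ℝ → R3 → R3) (R t : ℝ) : ℝ := ∫ x, psi R t x * en E B t x

/-- density of the derivative of the local energy -/
noncomputable def gd (E B j : ℝ → R3 → R3) (R t : ℝ) (x : R3) : ℝ :=
  -(2 / R) * mm R t x * (en E B t x + 2 * ∑ i, ((jb x)⁻¹ * x i) * cross3 (E t x) (B t x) i)
    - 2 * psi R t x * ∑ i, E t x i * j t x i

variable {T : ℝ} {E B j : ℝ → R3 → R3}

lemma Fld.cE (h : Fld T E B j) : ContinuousOn (fun p : ℝ × R3 => E p.1 p.2) (Ico 0 T ×ˢ univ) :=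
  h.hE.continuousOn

lemma Fld.cB (h : Fld T E B j) : ContinuousOn (fun p : ℝ × R3 => B p.1 p.2) (Ico 0 T ×ˢ univ) :=
  h.hB.continuousOn

lemma Fld.cen (h : Fld T E B j) :
    ContinuousOn (fun p : ℝ × R3 => en E B p.1 p.2) (Ico 0 T ×ˢ univ) := by
  unfold en
  exact (h.cE.norm.pow 2).add (h.cB.norm.pow 2)

lemma Fld.cont_slice (h : Fld T E B j) {t : ℝ} (ht : t ∈ Ico 0 T) :
    Continuous (E t) ∧ Continuous (B t) ∧ Continuous (j t) := by
  refine ⟨(slice_contDiff h.hE ht).continuous, (slice_contDiff h.hB ht).continuous, ?_⟩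
  have : ContinuousOn (fun x : R3 => j t x) univ :=
    h.hj.comp (f := fun x : R3 => ((t, x) : ℝ × R3)) (by fun_prop) (fun x _ => ⟨ht, mem_univ _⟩)
  exact continuousOn_univ.1 this

lemma Fld.hasDerivAt_Y (h : Fld T E B j) {R t : ℝ} (hR : 0 < R) (ht : t ∈ Ioo 0 T) :
    Integrable (gd E B j R t) ∧ HasDerivAt (Y E B R) (∫ x, gd E B j R t x) t := by
  have hIoo : Ioo 0 T ×ˢ (univ : Set R3) ⊆ Ico 0 T ×ˢ univ :=
    prod_mono Ioo_subset_Ico_self (subset_univ _)
  set F : ℝ → R3 → ℝ := fun t x => psi R t x * en E B t x with hF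
  set F' : ℝ → R3 → ℝ := fun t x => -(2 / R) * mm R t x * en E B t x
    + psi R t x * (2 * inner ℝ (E t x) (Dt E t x) + 2 * inner ℝ (B t x) (Dt B t x)) with hF'
  have hder : ∀ t ∈ Ioo 0 T, ∀ x, HasDerivAt (fun s => F s x) (F' t x) t := by
    intro t ht x
    have e1 := (hasDerivAt_Dt h.hE ht x).norm_sq
    have e2 := (hasDerivAt_Dt h.hB ht x).norm_sq
    exact (hasDerivAt_psi_t R t x).mul (e1.add e2)
  have hc : ContinuousOn (fun p : ℝ × R3 => F p.1 p.2) (Ioo 0 T ×ˢ univ) :=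
    (continuous_psi R).continuousOn.mul (h.cen.mono hIoo)
  have hc' : ContinuousOn (fun p : ℝ × R3 => F' p.1 p.2) (Ioo 0 T ×ˢ univ) := by
    apply ContinuousOn.add
    · exact ((continuousOn_const.mul (continuous_mm R).continuousOn)).mul (h.cen.mono hIoo)
    · apply (continuous_psi R).continuousOn.mul
      exact ((continuousOn_const.mul ((h.cE.mono hIoo).inner (𝕜 := ℝ) (continuousOn_Dt h.hE)))).add
        (continuousOn_const.mul ((h.cB.mono hIoo).inner (𝕜 := ℝ) (continuousOn_Dt h.hB)))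
  have hs : ∀ t ∈ Ioo 0 T, ∀ x, R < ‖x‖ → F t x = 0 := by
    intro t ht x hx
    simp only [hF, psi_eq_zero hR ht.1.le hx, zero_mul]
  obtain ⟨i1, i2⟩ := hasDerivAt_integral_cs hder hc hc' hs ht
  have ht' : t ∈ Ico 0 T := ⟨ht.1.le, ht.2⟩
  obtain ⟨P1, P2⟩ := poynting (contDiff_psi R t) (hasCompactSupport_psi hR ht.1.le)
    (slice_contDiff h.hE ht') (slice_contDiff h.hB ht')
  have key : gd E B j R t = fun x => F' t x - 2 * (psi R t x *
      (∑ i, E t x i * curl3 (B t) x i - ∑ i, B t x i * curl3 (E t) x i)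
      - ∑ i, pderiv (psi R t) i x * cross3 (E t x) (B t x) i) := by
    funext x
    have a1 : ∀ i, Dt E t x i = curl3 (B t) x i - j t x i := by
      intro i
      rw [Dt_coord h.hE ht]; linarith [h.h1 t ht.1 ht.2 x i]
    have a2 : ∀ i, Dt B t x i = - curl3 (E t) x i := by
      intro i
      rw [Dt_coord h.hB ht]; linarith [h.h2 t ht.1 ht.2 x i]
    have a3 : inner ℝ (E t x) (Dt E t x) = ∑ i, E t x i * (curl3 (B t) x i - j t x i) := by
      rw [PiLp.inner_apply]
      apply Finset.sum_congr rfl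
      intro i _
      rw [← a1 i]
      simp [mul_comm]
    have a4 : inner ℝ (B t x) (Dt B t x) = ∑ i, B t x i * (- curl3 (E t) x i) := by
      rw [PiLp.inner_apply]
      apply Finset.sum_congr rfl
      intro i _
      rw [← a2 i]
      simp [mul_comm]
    simp only [hF', gd, a3, a4, pderiv_psi, Fin.sum_univ_three]
    ring
  rw [key]
  refine ⟨i1.sub (P1.const_mul 2), ?_⟩
  rw [integral_sub i1 (P1.const_mul 2), integral_const_mul, P2, mul_zero, sub_zero]
  exact i2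

lemma two_sum_mul_le (a b : R3) : |2 * ∑ i, a i * b i| ≤ ‖a‖ ^ 2 + ‖b‖ ^ 2 := by
  have h : (∑ i, a i * b i) = inner ℝ a b := by
    rw [PiLp.inner_apply]
    exact Finset.sum_congr rfl fun i _ => by simp [mul_comm]
  rw [h, abs_mul, abs_of_pos (by norm_num : (0:ℝ) < 2)]
  have := abs_real_inner_le_norm a b
  nlinarith [sq_nonneg (‖a‖ - ‖b‖)]

lemma gd_le (E B j : ℝ → R3 → R3) {R t : ℝ} (hR : 0 < R) (x : R3) :
    gd E B j R t x ≤ psi R t x * en E B t x + psi R t x * ‖j t x‖ ^ 2 := by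
  have f1 := flux_bound (E t x) (B t x) x
  have f2 := two_sum_mul_le (E t x) (j t x)
  rw [abs_le] at f1 f2
  have h1 : 0 ≤ en E B t x + 2 * ∑ i, ((jb x)⁻¹ * x i) * cross3 (E t x) (B t x) i := by
    unfold en; linarith [f1.1]
  have h2 : 0 ≤ (2 / R) * mm R t x := mul_nonneg (by positivity) (mm_nonneg _ _ _)
  have h3 : 0 ≤ psi R t x := psi_nonneg _ _ _
  have h4 : ‖E t x‖ ^ 2 ≤ en E B t x := by unfold en; nlinarith [sq_nonneg ‖B t x‖]
  unfold gd
  have h5 : psi R t x * (-(2 * ∑ i, E t x i * j t x i)) ≤ psi R t x * (en E B t x + ‖j t x‖ ^ 2) :=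
    mul_le_mul_of_nonneg_left (by linarith [f2.1]) h3
  nlinarith [mul_nonneg h2 h1]

lemma abs_gd_le (E B j : ℝ → R3 → R3) {R t : ℝ} (hR : 1 ≤ R) (ht : 0 ≤ t) (x : R3) :
    |gd E B j R t x| ≤ 5 * en E B t x + ‖j t x‖ ^ 2 := by
  have hR0 : 0 < R := by linarith
  have f1 := flux_bound (E t x) (B t x) x
  have f2 := two_sum_mul_le (E t x) (j t x)
  rw [abs_le] at f1 f2
  have hen : ‖E t x‖ ^ 2 + ‖B t x‖ ^ 2 = en E B t x := rfl
  rw [hen] at f1
  have h1 : 0 ≤ en E B t x + 2 * ∑ i, ((jb x)⁻¹ * x i) * cross3 (E t x) (B t x) i := by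
    linarith [f1.1]
  have h1' : en E B t x + 2 * ∑ i, ((jb x)⁻¹ * x i) * cross3 (E t x) (B t x) i
      ≤ 2 * en E B t x := by linarith [f1.2]
  have h2 : 0 ≤ (2 / R) * mm R t x := mul_nonneg (by positivity) (mm_nonneg _ _ _)
  have h2' : (2 / R) * mm R t x ≤ 2 := by
    have a1 : 2 / R ≤ 2 := by rw [div_le_iff₀ hR0]; linarith
    calc (2 / R) * mm R t x ≤ 2 * 1 :=
          mul_le_mul a1 (mm_le_one hR0 ht x) (mm_nonneg _ _ _) (by norm_num)
      _ = 2 := by norm_num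
  have h3 : 0 ≤ psi R t x := psi_nonneg _ _ _
  have h3' : psi R t x ≤ 1 := psi_le_one hR0 ht x
  have h4 : ‖E t x‖ ^ 2 ≤ en E B t x := by unfold en; nlinarith [sq_nonneg ‖B t x‖]
  have hen0 := en_nonneg E B t x
  have hj0 : 0 ≤ ‖j t x‖ ^ 2 := by positivity
  set S1 := en E B t x + 2 * ∑ i, ((jb x)⁻¹ * x i) * cross3 (E t x) (B t x) i
  set S2 := 2 * ∑ i, E t x i * j t x i
  have e : gd E B j R t x = -((2 / R) * mm R t x * S1) - psi R t x * S2 := by
    unfold gd; ring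
  rw [e]
  have g1 : (2 / R) * mm R t x * S1 ≤ 4 * en E B t x := by
    calc (2 / R) * mm R t x * S1 ≤ 2 * (2 * en E B t x) := mul_le_mul h2' h1' h1 (by norm_num)
      _ = _ := by ring
  have g1' : 0 ≤ (2 / R) * mm R t x * S1 := mul_nonneg h2 h1
  have g2 : |psi R t x * S2| ≤ en E B t x + ‖j t x‖ ^ 2 := by
    rw [abs_mul, abs_of_nonneg h3]
    have : |S2| ≤ en E B t x + ‖j t x‖ ^ 2 := abs_le.2 ⟨by linarith [f2.1], by linarith [f2.2]⟩
    calc psi R t x * |S2| ≤ 1 * |S2| := mul_le_mul_of_nonneg_right h3' (abs_nonneg _)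
      _ ≤ _ := by rw [one_mul]; exact this
  rw [abs_le] at g2 ⊢
  constructor <;> linarith [g2.1, g2.2]

lemma Fld.integrable_j (h : Fld T E B j) {T' : ℝ} (h0 : 0 ≤ T') (hT : T' < T) :
    ∃ J0 : ℝ, 0 ≤ J0 ∧ ∀ t ∈ Icc 0 T', Integrable (fun x => ‖j t x‖ ^ 2) ∧
      ∫ x, ‖j t x‖ ^ 2 ≤ J0 := by
  obtain ⟨R, hR⟩ := h.hjs T' h0 hT
  have hsub : Icc 0 T' ⊆ Ico 0 T := fun r hr => ⟨hr.1, lt_of_le_of_lt hr.2 hT⟩
  have hsup : ∀ t ∈ Icc 0 T', ∀ x ∉ Metric.closedBall (0:R3) R, ‖j t x‖ ^ 2 = 0 := by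
    intro t ht x hx
    rw [Metric.mem_closedBall, dist_zero_right, not_le] at hx
    rw [hR t ht x hx]; simp
  have hcont : ContinuousOn (fun t => ∫ x, ‖j t x‖ ^ 2) (Icc 0 T') := by
    apply continuousOn_integral_of_compact_support (k := Metric.closedBall (0:R3) R)
      (isCompact_closedBall _ _)
    · exact (h.hj.mono (prod_mono hsub (subset_univ _))).norm.pow 2
    · intro t x ht hx
      exact hsup t ht x hx
  obtain ⟨M, hM⟩ := isCompact_Icc.exists_bound_of_continuousOn hcont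
  refine ⟨max M 0, le_max_right _ _, fun t ht => ⟨?_, ?_⟩⟩
  · apply Continuous.integrable_of_hasCompactSupport
    · exact (h.cont_slice (hsub ht)).2.2.norm.pow 2
    · exact HasCompactSupport.intro (isCompact_closedBall (0:R3) R) (hsup t ht)
  · exact ((le_abs_self _).trans (hM t ht)).trans (le_max_left _ _)

lemma Fld.integrable_psi_mul (_h : Fld T E B j) {R t : ℝ} (hR : 0 < R) (ht : t ∈ Ico 0 T)
    {g : R3 → ℝ} (hg : Continuous g) : Integrable (fun x => psi R t x * g x) := by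
  apply Continuous.integrable_of_hasCompactSupport
  · exact (contDiff_psi R t).continuous.mul hg
  · exact (hasCompactSupport_psi hR ht.1).mul_right

lemma Fld.continuous_en (h : Fld T E B j) {t : ℝ} (ht : t ∈ Ico 0 T) :
    Continuous (en E B t) := by
  unfold en
  exact ((h.cont_slice ht).1.norm.pow 2).add ((h.cont_slice ht).2.1.norm.pow 2)

lemma Fld.continuousOn_Y (h : Fld T E B j) {R : ℝ} (hR : 0 < R) :
    ContinuousOn (Y E B R) (Ico 0 T) := by
  unfold Y
  apply continuousOn_integral_of_compact_support (k := Metric.closedBall (0:R3) R)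
    (isCompact_closedBall _ _)
  · exact (continuous_psi R).continuousOn.mul h.cen
  · intro t x ht hx
    rw [Metric.mem_closedBall, dist_zero_right, not_le] at hx
    simp only [psi_eq_zero hR ht.1 hx, zero_mul]

lemma Y_nonneg (E B : ℝ → R3 → R3) (R t : ℝ) : 0 ≤ Y E B R t :=
  integral_nonneg fun x => mul_nonneg (psi_nonneg _ _ _) (en_nonneg _ _ _ _)

lemma Fld.Y_le (h : Fld T E B j) {R T' J0 : ℝ} (hR : 0 < R) (hT : T' < T) (hJ : 0 ≤ J0)
    (hj0 : ∀ t ∈ Icc 0 T', Integrable (fun x => ‖j t x‖ ^ 2) ∧ ∫ x, ‖j t x‖ ^ 2 ≤ J0)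
    {t : ℝ} (ht : t ∈ Icc 0 T') :
    Y E B R t ≤ Real.exp t * (Y E B R 0 + J0 * t) := by
  have hsub : Icc 0 T' ⊆ Ico 0 T := fun r hr => ⟨hr.1, lt_of_le_of_lt hr.2 hT⟩
  have key : AntitoneOn (fun s => Real.exp (-s) * Y E B R s - J0 * s) (Icc 0 T') := by
    apply antitoneOn_of_deriv_nonpos (convex_Icc _ _)
    · apply ContinuousOn.sub
      · exact (by fun_prop : Continuous fun s : ℝ => Real.exp (-s)).continuousOn.mul
          ((h.continuousOn_Y hR).mono hsub)
      · fun_prop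
    · intro s hs
      rw [interior_Icc] at hs
      have hs' : s ∈ Ioo 0 T := ⟨hs.1, hs.2.trans hT⟩
      have d1 := (h.hasDerivAt_Y hR hs').2
      have d2 : HasDerivAt (fun s : ℝ => Real.exp (-s)) (-Real.exp (-s)) s := by
        simpa using (hasDerivAt_neg s).exp
      exact ((d2.mul d1).sub ((hasDerivAt_id s).const_mul J0)).differentiableAt.differentiableWithinAt
    · intro s hs
      rw [interior_Icc] at hs
      have hs' : s ∈ Ioo 0 T := ⟨hs.1, hs.2.trans hT⟩
      have hs2 : s ∈ Ico 0 T := ⟨hs.1.le, hs'.2⟩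
      obtain ⟨gi, d1⟩ := h.hasDerivAt_Y hR hs'
      have d2 : HasDerivAt (fun s : ℝ => Real.exp (-s)) (-Real.exp (-s)) s := by
        simpa using (hasDerivAt_neg s).exp
      have d3 := (d2.mul d1).sub ((hasDerivAt_id s).const_mul J0)
      have e3 : deriv (fun s => Real.exp (-s) * Y E B R s - J0 * s) s
          = -Real.exp (-s) * Y E B R s + Real.exp (-s) * (∫ x, gd E B j R s x) - J0 * 1 := d3.deriv
      rw [e3]
      have hj := hj0 s ⟨hs.1.le, hs.2.le⟩
      have ie : Integrable (fun x => psi R s x * en E B s x) :=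
        h.integrable_psi_mul hR hs2 (h.continuous_en hs2)
      have ij : Integrable (fun x => psi R s x * ‖j s x‖ ^ 2) :=
        h.integrable_psi_mul hR hs2 ((h.cont_slice hs2).2.2.norm.pow 2)
      have b1 : ∫ x, gd E B j R s x ≤ Y E B R s + J0 := by
        calc ∫ x, gd E B j R s x ≤ ∫ x, (psi R s x * en E B s x + psi R s x * ‖j s x‖ ^ 2) :=
              integral_mono gi (ie.add ij) fun x => gd_le E B j hR x
          _ = Y E B R s + ∫ x, psi R s x * ‖j s x‖ ^ 2 := integral_add ie ij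
          _ ≤ Y E B R s + J0 := by
              gcongr
              refine (integral_mono ij hj.1 fun x => ?_).trans hj.2
              have := psi_le_one hR hs.1.le x
              have h0 : 0 ≤ ‖j s x‖ ^ 2 := by positivity
              show psi R s x * ‖j s x‖ ^ 2 ≤ ‖j s x‖ ^ 2
              nlinarith
      have b2 : 0 < Real.exp (-s) := Real.exp_pos _
      have b3 : Real.exp (-s) ≤ 1 := by
        rw [Real.exp_le_one_iff]; linarith [hs.1]
      nlinarith [mul_le_mul_of_nonneg_left b1 b2.le, mul_le_mul_of_nonneg_right b3 hJ]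
  have h0 : (0:ℝ) ∈ Icc 0 T' := ⟨le_rfl, ht.1.trans ht.2⟩
  have := key h0 ht ht.1
  simp only [neg_zero, Real.exp_zero, one_mul, mul_zero, sub_zero] at this
  have e1 : Real.exp t * Real.exp (-t) = 1 := by rw [← Real.exp_add]; simp
  have e2 : Real.exp (-t) * Y E B R t ≤ Y E B R 0 + J0 * t := by linarith
  calc Y E B R t = Real.exp t * (Real.exp (-t) * Y E B R t) := by rw [← mul_assoc, e1, one_mul]
    _ ≤ _ := mul_le_mul_of_nonneg_left e2 (Real.exp_pos _).le

/-- the cut-off tends to one -/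
lemma tendsto_psi (t : ℝ) (x : R3) :
    Tendsto (fun n : ℕ => psi ((n:ℝ) + 1) t x) atTop (𝓝 1) := by
  have h1 : Tendsto (fun n : ℕ => 1 - (jb x + t) / ((n:ℝ) + 1)) atTop (𝓝 (1 - 0)) := by
    apply Tendsto.const_sub
    have := tendsto_one_div_add_atTop_nhds_zero_nat (𝕜 := ℝ)
    have h2 := this.const_mul (jb x + t)
    simpa [div_eq_mul_inv] using h2
  have h2 := (contDiff_pp.continuous.tendsto (1 - 0)).comp h1
  have h3 : pp (1 - 0) = 1 := by simp [pp]
  rw [h3] at h2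
  exact h2

/-- the energy is bounded on compact time intervals -/
lemma Fld.integrable_en (h : Fld T E B j) (h0 : Integrable (en E B 0)) {T' : ℝ} (hT0 : 0 ≤ T')
    (hT : T' < T) : ∃ C : ℝ, 0 ≤ C ∧ ∀ t ∈ Icc 0 T', Integrable (en E B t) ∧
      ∫ x, en E B t x ≤ C := by
  obtain ⟨J0, hJ, hj0⟩ := h.integrable_j hT0 hT
  have hsub : Icc 0 T' ⊆ Ico 0 T := fun r hr => ⟨hr.1, lt_of_le_of_lt hr.2 hT⟩
  have hE0 : 0 ≤ ∫ x, en E B 0 x := integral_nonneg fun x => en_nonneg _ _ _ _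
  refine ⟨Real.exp T' * ((∫ x, en E B 0 x) + J0 * T'), by positivity, fun t ht => ?_⟩
  have hT0' : (0:ℝ) ∈ Ico 0 T := ⟨le_rfl, lt_of_le_of_lt hT0 hT⟩
  have bound : ∀ n : ℕ, Y E B ((n:ℝ) + 1) t ≤ Real.exp T' * ((∫ x, en E B 0 x) + J0 * T') := by
    intro n
    have hn : (0:ℝ) < (n:ℝ) + 1 := by positivity
    have b1 := h.Y_le hn hT hJ hj0 ht
    have b2 : Y E B ((n:ℝ) + 1) 0 ≤ ∫ x, en E B 0 x := by
      apply integral_mono (h.integrable_psi_mul hn hT0' (h.continuous_en hT0')) h0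
      intro x
      have := psi_le_one hn le_rfl x
      have := en_nonneg E B 0 x
      show psi ((n:ℝ) + 1) 0 x * en E B 0 x ≤ en E B 0 x
      nlinarith
    refine b1.trans ?_
    have hy := Y_nonneg E B ((n:ℝ) + 1) 0
    have c1 : Real.exp t ≤ Real.exp T' := Real.exp_le_exp.2 ht.2
    have c2 : J0 * t ≤ J0 * T' := mul_le_mul_of_nonneg_left ht.2 hJ
    have c3 : 0 ≤ J0 * t := mul_nonneg hJ ht.1
    exact mul_le_mul c1 (by linarith) (by linarith) (Real.exp_pos _).le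
  have hcont := h.continuous_en (hsub ht)
  -- Fatou
  have fatou : ∫⁻ x, ENNReal.ofReal (en E B t x) ≤
      ENNReal.ofReal (Real.exp T' * ((∫ x, en E B 0 x) + J0 * T')) := by
    calc ∫⁻ x, ENNReal.ofReal (en E B t x)
        = ∫⁻ x, liminf (fun n : ℕ => ENNReal.ofReal (psi ((n:ℝ) + 1) t x * en E B t x)) atTop := by
          congr 1
          funext x
          have h1 : Tendsto (fun n : ℕ => ENNReal.ofReal (psi ((n:ℝ) + 1) t x * en E B t x)) atTop
              (𝓝 (ENNReal.ofReal (1 * en E B t x))) :=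
            (ENNReal.continuous_ofReal.tendsto _).comp ((tendsto_psi t x).mul_const _)
          rw [h1.liminf_eq, one_mul]
      _ ≤ liminf (fun n : ℕ => ∫⁻ x, ENNReal.ofReal (psi ((n:ℝ) + 1) t x * en E B t x)) atTop := by
          apply lintegral_liminf_le
          intro n
          exact (((contDiff_psi _ t).continuous.mul hcont).measurable).ennreal_ofReal
      _ ≤ ENNReal.ofReal (Real.exp T' * ((∫ x, en E B 0 x) + J0 * T')) := by
          apply liminf_le_of_le (by isBoundedDefault)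
          intro b hb
          obtain ⟨n, hn⟩ := hb.exists
          refine hn.trans ?_
          have hn1 : (0:ℝ) < (n:ℝ) + 1 := by positivity
          rw [← ofReal_integral_eq_lintegral_ofReal
            (h.integrable_psi_mul hn1 (hsub ht) hcont)
            (Eventually.of_forall fun x => mul_nonneg (psi_nonneg _ _ _) (en_nonneg _ _ _ _))]
          exact ENNReal.ofReal_le_ofReal (bound n)
  have hint : Integrable (en E B t) := by
    refine ⟨hcont.aestronglyMeasurable, ?_⟩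
    rw [hasFiniteIntegral_iff_ofReal (Eventually.of_forall fun x => en_nonneg _ _ _ _)]
    exact lt_of_le_of_lt fatou ENNReal.ofReal_lt_top
  refine ⟨hint, ?_⟩
  rw [← ofReal_integral_eq_lintegral_ofReal hint (Eventually.of_forall fun x => en_nonneg _ _ _ _)]
    at fatou
  exact (ENNReal.ofReal_le_ofReal_iff (by positivity)).1 fatou

/-- local energies converge to the energy -/
lemma Fld.tendsto_Y (h : Fld T E B j) {t : ℝ} (ht : t ∈ Ico 0 T) (hi : Integrable (en E B t)) :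
    Tendsto (fun n : ℕ => Y E B ((n:ℝ) + 1) t) atTop (𝓝 (∫ x, en E B t x)) := by
  unfold Y
  apply tendsto_integral_of_dominated_convergence (en E B t)
  · intro n
    exact ((contDiff_psi _ t).continuous.mul (h.continuous_en ht)).aestronglyMeasurable
  · exact hi
  · intro n
    refine Eventually.of_forall fun x => ?_
    have hn1 : (0:ℝ) < (n:ℝ) + 1 := by positivity
    have h1 := psi_le_one hn1 ht.1 x
    have h2 := psi_nonneg ((n:ℝ) + 1) t x
    have h3 := en_nonneg E B t x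
    rw [Real.norm_of_nonneg (mul_nonneg h2 h3)]
    nlinarith
  · refine Eventually.of_forall fun x => ?_
    have := (tendsto_psi t x).mul_const (en E B t x)
    simpa using this

/-- Lipschitz continuity of the energy in time -/
lemma Fld.energy_lipschitz (h : Fld T E B j) (h0 : Integrable (en E B 0)) {T' : ℝ} (hT0 : 0 ≤ T')
    (hT : T' < T) : ∃ C : ℝ, ∀ s ∈ Icc 0 T', ∀ t ∈ Icc 0 T',
      |(∫ x, en E B t x) - ∫ x, en E B s x| ≤ C * |t - s| := by
  obtain ⟨J0, hJ, hj0⟩ := h.integrable_j hT0 hT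
  obtain ⟨C, hC, hen⟩ := h.integrable_en h0 hT0 hT
  have hsub : Icc 0 T' ⊆ Ico 0 T := fun r hr => ⟨hr.1, lt_of_le_of_lt hr.2 hT⟩
  -- local version, for s ≤ t
  have loc : ∀ n : ℕ, ∀ s ∈ Icc 0 T', ∀ t ∈ Icc 0 T', s < t →
      |Y E B ((n:ℝ) + 1) t - Y E B ((n:ℝ) + 1) s| ≤ (5 * C + J0) * (t - s) := by
    intro n s hs t ht hst
    have hn : (1:ℝ) ≤ (n:ℝ) + 1 := by
      have : (0:ℝ) ≤ (n:ℝ) := Nat.cast_nonneg n
      linarith
    have hn0 : (0:ℝ) < (n:ℝ) + 1 := by linarith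
    obtain ⟨c, hc, hc'⟩ := exists_hasDerivAt_eq_slope (Y E B ((n:ℝ) + 1))
      (fun r => ∫ x, gd E B j ((n:ℝ) + 1) r x) hst
      ((h.continuousOn_Y hn0).mono fun r hr => hsub ⟨hs.1.trans hr.1, hr.2.trans ht.2⟩)
      (fun r hr => (h.hasDerivAt_Y hn0 ⟨lt_of_le_of_lt hs.1 hr.1,
        lt_of_lt_of_le hr.2 (ht.2.trans hT.le)⟩).2)
    have hcI : c ∈ Icc 0 T' := ⟨hs.1.trans hc.1.le, hc.2.le.trans ht.2⟩
    have hcpos : 0 < c := lt_of_le_of_lt hs.1 hc.1
    have hcT : c ∈ Ioo 0 T := ⟨hcpos, lt_of_le_of_lt hcI.2 hT⟩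
    have gi := (h.hasDerivAt_Y hn0 hcT).1
    have b : |∫ x, gd E B j ((n:ℝ) + 1) c x| ≤ 5 * C + J0 := by
      calc |∫ x, gd E B j ((n:ℝ) + 1) c x| ≤ ∫ x, |gd E B j ((n:ℝ) + 1) c x| :=
            abs_integral_le_integral_abs
        _ ≤ ∫ x, (5 * en E B c x + ‖j c x‖ ^ 2) := by
            apply integral_mono gi.abs (((hen c hcI).1.const_mul 5).add (hj0 c hcI).1)
            intro x
            exact abs_gd_le E B j hn hcI.1 x
        _ = 5 * (∫ x, en E B c x) + ∫ x, ‖j c x‖ ^ 2 := by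
            rw [integral_add ((hen c hcI).1.const_mul 5) (hj0 c hcI).1, integral_const_mul]
        _ ≤ _ := by linarith [(hen c hcI).2, (hj0 c hcI).2]
    have hts : 0 < t - s := by linarith
    have e : Y E B ((n:ℝ) + 1) t - Y E B ((n:ℝ) + 1) s
        = (∫ x, gd E B j ((n:ℝ) + 1) c x) * (t - s) := by
      rw [hc']; field_simp
    rw [e, abs_mul, abs_of_pos hts]
    exact mul_le_mul_of_nonneg_right b hts.le
  have lim : ∀ s ∈ Icc 0 T', ∀ t ∈ Icc 0 T', s < t →
      |(∫ x, en E B t x) - ∫ x, en E B s x| ≤ (5 * C + J0) * (t - s) := by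
    intro s hs t ht hst
    have l1 := h.tendsto_Y (hsub ht) (hen t ht).1
    have l2 := h.tendsto_Y (hsub hs) (hen s hs).1
    exact le_of_tendsto' (l1.sub l2).abs fun n => loc n s hs t ht hst
  refine ⟨5 * C + J0, fun s hs t ht => ?_⟩
  rcases lt_trichotomy s t with hst | hst | hst
  · rw [abs_of_pos (sub_pos.2 hst)]; exact lim s hs t ht hst
  · subst hst; simp
  · rw [abs_sub_comm, abs_sub_comm t s, abs_of_pos (sub_pos.2 hst)]; exact lim t ht s hs hst

/-- pointwise convergence and convergence of the energies give `L²` convergence (sequences) -/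
lemma l2_conv_seq {a b : ℕ → R3 → R3} {a0 b0 : R3 → R3}
    (ha : ∀ n, Continuous (a n)) (hb : ∀ n, Continuous (b n)) (ha0 : Continuous a0)
    (hb0 : Continuous b0) (hi : ∀ n, Integrable fun x => ‖a n x‖ ^ 2 + ‖b n x‖ ^ 2)
    (hi0 : Integrable fun x => ‖a0 x‖ ^ 2 + ‖b0 x‖ ^ 2)
    (hpa : ∀ x, Tendsto (fun n => a n x) atTop (𝓝 (a0 x)))
    (hpb : ∀ x, Tendsto (fun n => b n x) atTop (𝓝 (b0 x)))
    (hen : Tendsto (fun n => ∫ x, (‖a n x‖ ^ 2 + ‖b n x‖ ^ 2)) atTop
      (𝓝 (∫ x, (‖a0 x‖ ^ 2 + ‖b0 x‖ ^ 2)))) :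
    Tendsto (fun n => ∫ x, (‖a n x - a0 x‖ ^ 2 + ‖b n x - b0 x‖ ^ 2)) atTop (𝓝 0) := by
  set e : ℕ → R3 → ℝ := fun n x => ‖a n x‖ ^ 2 + ‖b n x‖ ^ 2 with he
  set e0 : R3 → ℝ := fun x => ‖a0 x‖ ^ 2 + ‖b0 x‖ ^ 2 with he0
  set d : ℕ → R3 → ℝ := fun n x => ‖a n x - a0 x‖ ^ 2 + ‖b n x - b0 x‖ ^ 2 with hd
  have hdc : ∀ n, Continuous (d n) := fun n =>
    (((ha n).sub ha0).norm.pow 2).add (((hb n).sub hb0).norm.pow 2)
  have hd0 : ∀ n x, 0 ≤ d n x := fun n x => by simp only [hd]; positivity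
  have par : ∀ u v : R3, ‖u - v‖ ^ 2 ≤ 2 * ‖u‖ ^ 2 + 2 * ‖v‖ ^ 2 := by
    intro u v
    have h1 := norm_sub_le u v
    have h2 : ‖u - v‖ ^ 2 ≤ (‖u‖ + ‖v‖) ^ 2 := pow_le_pow_left₀ (norm_nonneg _) h1 2
    nlinarith [sq_nonneg (‖u‖ - ‖v‖)]
  have hde : ∀ n x, d n x ≤ 2 * e n x + 2 * e0 x := by
    intro n x
    have h1 := par (a n x) (a0 x)
    have h2 := par (b n x) (b0 x)
    simp only [hd, he, he0]; linarith
  have hei : ∀ n, Integrable fun x => 2 * e n x + 2 * e0 x := fun n =>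
    ((hi n).const_mul 2).add (hi0.const_mul 2)
  have hdi : ∀ n, Integrable (d n) := by
    intro n
    apply (hei n).mono (hdc n).aestronglyMeasurable
    refine Eventually.of_forall fun x => ?_
    rw [Real.norm_of_nonneg (hd0 n x)]
    exact (hde n x).trans (le_abs_self _)
  have hgi : ∀ n, Integrable fun x => 2 * e n x + 2 * e0 x - d n x := fun n => (hei n).sub (hdi n)
  -- Fatou for `2 e_n + 2 e_0 - d_n ≥ 0`
  have hgc : ∀ n, Continuous fun x => 2 * e n x + 2 * e0 x - d n x := by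
    intro n
    have c1 : Continuous (e n) := ((ha n).norm.pow 2).add ((hb n).norm.pow 2)
    have c2 : Continuous e0 := (ha0.norm.pow 2).add (hb0.norm.pow 2)
    exact ((continuous_const.mul c1).add (continuous_const.mul c2)).sub (hdc n)
  have hplim : ∀ x, Tendsto (fun n => 2 * e n x + 2 * e0 x - d n x) atTop (𝓝 (4 * e0 x)) := by
    intro x
    have t1 : Tendsto (fun n => e n x) atTop (𝓝 (e0 x)) :=
      ((hpa x).norm.pow 2).add ((hpb x).norm.pow 2)
    have t2 : Tendsto (fun n => d n x) atTop (𝓝 (‖a0 x - a0 x‖ ^ 2 + ‖b0 x - b0 x‖ ^ 2)) :=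
      (((hpa x).sub_const _).norm.pow 2).add (((hpb x).sub_const _).norm.pow 2)
    have t3 := ((t1.const_mul 2).add_const (2 * e0 x)).sub t2
    have : 2 * e0 x + 2 * e0 x - (‖a0 x - a0 x‖ ^ 2 + ‖b0 x - b0 x‖ ^ 2) = 4 * e0 x := by
      simp; ring
    rw [this] at t3
    exact t3
  have fatou : ENNReal.ofReal (4 * ∫ x, e0 x) ≤
      liminf (fun n => ENNReal.ofReal (2 * (∫ x, e n x) + 2 * (∫ x, e0 x) - ∫ x, d n x)) atTop := by
    have h1 : ENNReal.ofReal (4 * ∫ x, e0 x) = ∫⁻ x, ENNReal.ofReal (4 * e0 x) := by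
      rw [← integral_const_mul, ofReal_integral_eq_lintegral_ofReal (hi0.const_mul 4)]
      exact Eventually.of_forall fun x => by simp only [he0, Pi.zero_apply]; positivity
    have h2 : ∀ n, ENNReal.ofReal (2 * (∫ x, e n x) + 2 * (∫ x, e0 x) - ∫ x, d n x)
        = ∫⁻ x, ENNReal.ofReal (2 * e n x + 2 * e0 x - d n x) := by
      intro n
      rw [← ofReal_integral_eq_lintegral_ofReal (hgi n)
        (Eventually.of_forall fun x => by simp only [Pi.zero_apply]; linarith [hde n x]),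
        integral_sub (hei n) (hdi n),
        integral_add ((hi n).const_mul 2) (hi0.const_mul 2), integral_const_mul, integral_const_mul]
    rw [h1]
    simp only [h2]
    calc ∫⁻ x, ENNReal.ofReal (4 * e0 x)
        = ∫⁻ x, liminf (fun n => ENNReal.ofReal (2 * e n x + 2 * e0 x - d n x)) atTop := by
          congr 1
          funext x
          exact (((ENNReal.continuous_ofReal.tendsto _).comp (hplim x)).liminf_eq).symm
      _ ≤ _ := lintegral_liminf_le fun n => (hgc n).measurable.ennreal_ofReal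
  -- conclude
  have hI0 : 0 ≤ ∫ x, e0 x := integral_nonneg fun x => by simp only [he0]; positivity
  rw [Metric.tendsto_atTop]
  intro ε hε
  have hlt : ENNReal.ofReal (4 * (∫ x, e0 x) - ε / 2) <
      liminf (fun n => ENNReal.ofReal (2 * (∫ x, e n x) + 2 * (∫ x, e0 x) - ∫ x, d n x)) atTop ∨
      4 * (∫ x, e0 x) ≤ 0 := by
    by_cases hz : 4 * (∫ x, e0 x) ≤ 0
    · right; exact hz
    · left
      push Not at hz
      refine lt_of_lt_of_le ?_ fatou
      rw [ENNReal.ofReal_lt_ofReal_iff hz]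
      linarith
  have hev2 : ∀ᶠ n in atTop, |(∫ x, e n x) - ∫ x, e0 x| < ε / 8 := by
    have := (Metric.tendsto_atTop.1 hen) (ε / 8) (by positivity)
    obtain ⟨N, hN⟩ := this
    filter_upwards [eventually_ge_atTop N] with n hn
    exact hN n hn
  have hev : ∀ᶠ n in atTop, 4 * (∫ x, e0 x) - ε / 2 <
      2 * (∫ x, e n x) + 2 * (∫ x, e0 x) - ∫ x, d n x := by
    rcases hlt with hlt | hz
    · have := eventually_lt_of_lt_liminf hlt
      filter_upwards [this] with n hn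
      by_contra hcon
      push Not at hcon
      exact absurd (ENNReal.ofReal_le_ofReal hcon) (not_le.2 hn)
    · filter_upwards [hev2] with n hn
      have i1 : ∫ x, d n x ≤ 2 * (∫ x, e n x) + 2 * ∫ x, e0 x := by
        rw [← integral_const_mul, ← integral_const_mul,
          ← integral_add ((hi n).const_mul 2) (hi0.const_mul 2)]
        exact integral_mono (hdi n) (hei n) (hde n)
      linarith
  obtain ⟨N, hN⟩ := (hev.and hev2).exists_forall_of_atTop
  refine ⟨N, fun n hn => ?_⟩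
  obtain ⟨h1, h2⟩ := hN n hn
  rw [abs_lt] at h2
  have hdn : 0 ≤ ∫ x, d n x := integral_nonneg fun x => hd0 n x
  rw [Real.dist_eq, sub_zero, abs_of_nonneg hdn]
  linarith [h2.2]

/-- time continuity of a slice (within `[0,T)`) -/
lemma tendsto_slice (hE : ContDiffOn ℝ 1 (fun p : ℝ × R3 => E p.1 p.2) (Ico 0 T ×ˢ univ))
    {t : ℝ} (ht : t ∈ Ico 0 T) (x : R3) : Tendsto (fun s => E s x) (𝓝[Ico 0 T] t) (𝓝 (E t x)) := by
  have h1 : ContinuousOn (fun s : ℝ => E s x) (Ico 0 T) :=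
    hE.continuousOn.comp (f := fun s : ℝ => ((s, x) : ℝ × R3)) (by fun_prop)
      (fun s hs => ⟨hs, mem_univ _⟩)
  exact h1 t ht

lemma eLpNorm_two_eq {u : R3 → R3} (hu : Continuous u) (hi : Integrable fun x => ‖u x‖ ^ 2) :
    eLpNorm u 2 volume = ENNReal.ofReal (Real.sqrt (∫ x, ‖u x‖ ^ 2)) := by
  have hm : MemLp u 2 volume := (memLp_two_iff_integrable_sq_norm hu.aestronglyMeasurable).2 hi
  rw [hm.eLpNorm_eq_integral_rpow_norm (by norm_num) (by norm_num)]
  congr 1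
  rw [Real.sqrt_eq_rpow]
  simp

/-- **The `L²` clause.** -/
theorem l2_clause {T : ℝ} {E B j : ℝ → R3 → R3} (h : Fld T E B j)
    (hE0 : MemLp (E 0) 2) (hB0 : MemLp (B 0) 2) :
    ∀ t ∈ Ico 0 T, MemLp (E t) 2 ∧ MemLp (B t) 2 ∧
      Tendsto (fun s => eLpNorm (E s - E t) 2 volume) (𝓝[Ico 0 T] t) (𝓝 0) ∧
      Tendsto (fun s => eLpNorm (B s - B t) 2 volume) (𝓝[Ico 0 T] t) (𝓝 0) := by
  intro t ht
  have hTpos : 0 < T := lt_of_le_of_lt ht.1 ht.2
  have h0I : (0:ℝ) ∈ Ico 0 T := ⟨le_rfl, hTpos⟩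
  have hen0 : Integrable (en E B 0) := by
    unfold en
    exact ((memLp_two_iff_integrable_sq_norm (h.cont_slice h0I).1.aestronglyMeasurable).1 hE0).add
      ((memLp_two_iff_integrable_sq_norm (h.cont_slice h0I).2.1.aestronglyMeasurable).1 hB0)
  -- integrability of the squares at every time
  have hsq : ∀ s ∈ Ico 0 T, Integrable (en E B s) ∧ Integrable (fun x => ‖E s x‖ ^ 2) ∧
      Integrable (fun x => ‖B s x‖ ^ 2) := by
    intro s hs
    obtain ⟨C, _, hC⟩ := h.integrable_en hen0 hs.1 hs.2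
    have hi := (hC s ⟨hs.1, le_rfl⟩).1
    refine ⟨hi, ?_, ?_⟩
    · apply hi.mono ((h.cont_slice hs).1.norm.pow 2).aestronglyMeasurable
      refine Eventually.of_forall fun x => ?_
      show ‖‖E s x‖ ^ 2‖ ≤ ‖en E B s x‖
      rw [Real.norm_of_nonneg (by positivity), Real.norm_of_nonneg (en_nonneg _ _ _ _)]
      unfold en; nlinarith [sq_nonneg ‖B s x‖]
    · apply hi.mono ((h.cont_slice hs).2.1.norm.pow 2).aestronglyMeasurable
      refine Eventually.of_forall fun x => ?_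
      show ‖‖B s x‖ ^ 2‖ ≤ ‖en E B s x‖
      rw [Real.norm_of_nonneg (by positivity), Real.norm_of_nonneg (en_nonneg _ _ _ _)]
      unfold en; nlinarith [sq_nonneg ‖E s x‖]
  have hEt := (h.cont_slice ht).1
  have hBt := (h.cont_slice ht).2.1
  refine ⟨(memLp_two_iff_integrable_sq_norm hEt.aestronglyMeasurable).2 (hsq t ht).2.1,
    (memLp_two_iff_integrable_sq_norm hBt.aestronglyMeasurable).2 (hsq t ht).2.2, ?_⟩
  -- continuity of the energy at `t`
  obtain ⟨T', htT', hT'T⟩ := exists_between ht.2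
  have hT'0 : 0 ≤ T' := ht.1.trans htT'.le
  obtain ⟨C, hC⟩ := h.energy_lipschitz hen0 hT'0 hT'T
  have hnear : ∀ᶠ s in 𝓝[Ico 0 T] t, s ∈ Icc 0 T' := by
    have h1 : ∀ᶠ s in 𝓝[Ico 0 T] t, s ∈ Ico 0 T := eventually_mem_nhdsWithin
    have h2 : ∀ᶠ s in 𝓝[Ico 0 T] t, s ∈ Iio T' :=
      mem_nhdsWithin_of_mem_nhds (Iio_mem_nhds htT')
    filter_upwards [h1, h2] with s hs1 hs2 using ⟨hs1.1, le_of_lt hs2⟩
  have hencont : Tendsto (fun s => ∫ x, en E B s x) (𝓝[Ico 0 T] t) (𝓝 (∫ x, en E B t x)) := by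
    rw [tendsto_iff_norm_sub_tendsto_zero]
    have hb : Tendsto (fun s => C * |s - t|) (𝓝[Ico 0 T] t) (𝓝 0) := by
      have : Tendsto (fun s => C * |s - t|) (𝓝 t) (𝓝 (C * |t - t|)) := by
        apply Continuous.tendsto; fun_prop
      simp only [sub_self, abs_zero, mul_zero] at this
      exact this.mono_left nhdsWithin_le_nhds
    refine squeeze_zero' (Eventually.of_forall fun _ => norm_nonneg _) ?_ hb
    filter_upwards [hnear] with s hs
    rw [Real.norm_eq_abs]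
    exact hC t ⟨ht.1, htT'.le⟩ s hs
  -- convergence of the squared distance
  have main : Tendsto (fun s => ∫ x, (‖E s x - E t x‖ ^ 2 + ‖B s x - B t x‖ ^ 2))
      (𝓝[Ico 0 T] t) (𝓝 0) := by
    rw [tendsto_iff_seq_tendsto]
    intro s hs
    -- replace the sequence by one that stays in `[0,T)`
    have hmem : ∀ᶠ n in atTop, s n ∈ Ico 0 T := hs.eventually eventually_mem_nhdsWithin
    obtain ⟨N, hN⟩ := hmem.exists_forall_of_atTop
    have hs' : Tendsto (fun n => s (n + N)) atTop (𝓝[Ico 0 T] t) :=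
      hs.comp (tendsto_add_atTop_nat N)
    have hmem' : ∀ n, s (n + N) ∈ Ico 0 T := fun n => hN _ (Nat.le_add_left _ _)
    have := l2_conv_seq (a := fun n => E (s (n + N))) (b := fun n => B (s (n + N)))
      (a0 := E t) (b0 := B t)
      (fun n => (h.cont_slice (hmem' n)).1) (fun n => (h.cont_slice (hmem' n)).2.1) hEt hBt
      (fun n => (hsq _ (hmem' n)).1) (hsq t ht).1
      (fun x => (tendsto_slice h.hE ht x).comp hs') (fun x => (tendsto_slice h.hB ht x).comp hs')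
      (hencont.comp hs')
    exact (tendsto_add_atTop_iff_nat N).1 this
  -- conclusion
  have hdist : ∀ s ∈ Ico 0 T,
      Integrable (fun x => ‖E s x - E t x‖ ^ 2) ∧ Integrable (fun x => ‖B s x - B t x‖ ^ 2) := by
    intro s hs
    have m1 : MemLp (fun x => E s x - E t x) 2 volume :=
      ((memLp_two_iff_integrable_sq_norm (h.cont_slice hs).1.aestronglyMeasurable).2
        (hsq s hs).2.1).sub
      ((memLp_two_iff_integrable_sq_norm hEt.aestronglyMeasurable).2 (hsq t ht).2.1)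
    have m2 : MemLp (fun x => B s x - B t x) 2 volume :=
      ((memLp_two_iff_integrable_sq_norm (h.cont_slice hs).2.1.aestronglyMeasurable).2
        (hsq s hs).2.2).sub
      ((memLp_two_iff_integrable_sq_norm hBt.aestronglyMeasurable).2 (hsq t ht).2.2)
    exact ⟨(memLp_two_iff_integrable_sq_norm m1.aestronglyMeasurable).1 m1,
      (memLp_two_iff_integrable_sq_norm m2.aestronglyMeasurable).1 m2⟩
  have hsqrt : Tendsto (fun s => ENNReal.ofReal
      (Real.sqrt (∫ x, (‖E s x - E t x‖ ^ 2 + ‖B s x - B t x‖ ^ 2)))) (𝓝[Ico 0 T] t) (𝓝 0) := by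
    have h1 := (Real.continuous_sqrt.tendsto 0).comp main
    rw [Real.sqrt_zero] at h1
    have h2 := (ENNReal.continuous_ofReal.tendsto 0).comp h1
    rw [ENNReal.ofReal_zero] at h2
    exact h2
  constructor
  · refine tendsto_of_tendsto_of_tendsto_of_le_of_le' tendsto_const_nhds hsqrt
      (Eventually.of_forall fun _ => bot_le) ?_
    filter_upwards [eventually_mem_nhdsWithin] with s hs
    have c : Continuous (E s - E t) := (h.cont_slice hs).1.sub hEt
    rw [eLpNorm_two_eq c (hdist s hs).1]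
    apply ENNReal.ofReal_le_ofReal
    apply Real.sqrt_le_sqrt
    apply integral_mono (hdist s hs).1 ((hdist s hs).1.add (hdist s hs).2)
    intro x
    show ‖E s x - E t x‖ ^ 2 ≤ ‖E s x - E t x‖ ^ 2 + ‖B s x - B t x‖ ^ 2
    nlinarith [sq_nonneg ‖B s x - B t x‖]
  · refine tendsto_of_tendsto_of_tendsto_of_le_of_le' tendsto_const_nhds hsqrt
      (Eventually.of_forall fun _ => bot_le) ?_
    filter_upwards [eventually_mem_nhdsWithin] with s hs
    have c : Continuous (B s - B t) := (h.cont_slice hs).2.1.sub hBt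
    rw [eLpNorm_two_eq c (hdist s hs).2]
    apply ENNReal.ofReal_le_ofReal
    apply Real.sqrt_le_sqrt
    apply integral_mono (hdist s hs).2 ((hdist s hs).1.add (hdist s hs).2)
    intro x
    show ‖B s x - B t x‖ ^ 2 ≤ ‖E s x - E t x‖ ^ 2 + ‖B s x - B t x‖ ^ 2
    nlinarith [sq_nonneg ‖E s x - E t x‖]

/-- the `L²` clause in the exact form announced (note 12382) -/
theorem l2_clause' {T : ℝ} {E B j : ℝ → R3 → R3}
    (hE : ContDiffOn ℝ 1 (fun p : ℝ × R3 => E p.1 p.2) (Set.Ico 0 T ×ˢ Set.univ))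
    (hB : ContDiffOn ℝ 1 (fun p : ℝ × R3 => B p.1 p.2) (Set.Ico 0 T ×ˢ Set.univ))
    (hjc : ContinuousOn (fun p : ℝ × R3 => j p.1 p.2) (Set.Ico 0 T ×ˢ Set.univ))
    (hjs : ∀ T', 0 ≤ T' → T' < T → ∃ R : ℝ, ∀ t ∈ Set.Icc 0 T', ∀ x, R < ‖x‖ → j t x = 0)
    (h1 : ∀ t, 0 < t → t < T → ∀ (x : R3) (i : Fin 3),
      deriv (fun s => E s x i) t - curl3 (B t) x i = - j t x i)
    (h2 : ∀ t, 0 < t → t < T → ∀ (x : R3) (i : Fin 3),
      deriv (fun s => B s x i) t + curl3 (E t) x i = 0)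
    (hE0 : MemLp (E 0) 2) (hB0 : MemLp (B 0) 2) :
    ∀ t ∈ Set.Ico 0 T, MemLp (E t) 2 ∧ MemLp (B t) 2 ∧
      Filter.Tendsto (fun s => eLpNorm (E s - E t) 2 volume) (nhdsWithin t (Set.Ico 0 T))
        (nhds 0) ∧
      Filter.Tendsto (fun s => eLpNorm (B s - B t) 2 volume) (nhdsWithin t (Set.Ico 0 T))
        (nhds 0) :=
  l2_clause ⟨hE, hB, hjc, hjs, h1, h2⟩ hE0 hB0

end Crest.Agent.R106.L2F
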