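import Mathlib
import Crest.Prelude.Def_VecCalc3
import Crest.Prelude.Def_VlasovMaxwell
import Crest.Agent.R106.Main0

/-!
# Row 106, node LIM (helper775): what the limit argument needs.

`TruncEx  <=  PicEx + SLim (SMOOTHLIM) + L2F`.
-/

set_option autoImplicit false
open MeasureTheory Set Filter Topology
open scoped ContDiff
open Crest.AnalysisR.VecCalc3 Crest.AnalysisR.PDE.RVM

namespace Crest.Agent.R106

/-- What LIM uses about the truncated force `G v e b` (node TRUNC). -/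
structure TruncForce (P : ℝ) (G : R3 → R3 → R3 → R3) : Prop where
  smooth : ContDiff ℝ ∞ (fun p : R3 × R3 × R3 => G p.1 p.2.1 p.2.2)
  bdd : ∃ C : ℝ, 0 ≤ C ∧ ∀ v e b, ‖G v e b‖ ≤ C * (‖e‖ + ‖b‖)
  agree : ∀ v e b, ‖v‖ ≤ P → G v e b = e + cross3 (relVel v) b

/-- The Picard sequence of the truncated system and everything LIM uses about it:
`f n` is transported by the fields `E n, B n`; `E (n+1), B (n+1)` solve Maxwell's equations with the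
moments of `f n`; all derivatives are bounded on `[-T,T]` uniformly in `n`; summable differences. -/
structure PicSeq (G : R3 → R3 → R3 → R3) (f₀ : R3 → R3 → ℝ) (E₀ B₀ : R3 → R3)
    (f : ℕ → ℝ → R3 → R3 → ℝ) (E B : ℕ → ℝ → R3 → R3) : Prop where
  fs : ∀ n, ContDiff ℝ ∞ (fun p : ℝ × R3 × R3 => f n p.1 p.2.1 p.2.2)
  Es : ∀ n, ContDiff ℝ ∞ (fun p : ℝ × R3 => E n p.1 p.2)
  Bs : ∀ n, ContDiff ℝ ∞ (fun p : ℝ × R3 => B n p.1 p.2)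
  f0 : ∀ n, f n 0 = f₀
  E0 : ∀ n, E (n + 1) 0 = E₀
  B0 : ∀ n, B (n + 1) 0 = B₀
  vlasov : ∀ n t x v, deriv (fun s => f n s x v) t
      + ∑ i : Fin 3, relVel v i * pderiv (fun y => f n t y v) i x
      + ∑ i : Fin 3, G v (E n t x) (B n t x) i * pderiv (fun w => f n t x w) i v = 0
  amp : ∀ n t x (i : Fin 3), deriv (fun s => E (n + 1) s x i) t - curl3 (B (n + 1) t) x i
      = - currentDensity (f n) t x i
  far : ∀ n t x (i : Fin 3), deriv (fun s => B (n + 1) s x i) t + curl3 (E (n + 1) t) x i = 0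
  gauss : ∀ n t x, div3 (E (n + 1) t) x = chargeDensity (f n) t x
  nomon : ∀ n t x, div3 (B (n + 1) t) x = 0
  supp : ∀ T : ℝ, ∃ R : ℝ, ∀ n, ∀ t ∈ Icc (-T) T, ∀ x v : R3, (R < ‖x‖ ∨ R < ‖v‖) → f n t x v = 0
  bdf : ∀ (T : ℝ) (k : ℕ), ∃ C : ℝ, ∀ n, ∀ t ∈ Icc (-T) T, ∀ x v : R3,
    ‖iteratedFDeriv ℝ k (fun p : ℝ × R3 × R3 => f n p.1 p.2.1 p.2.2) (t, x, v)‖ ≤ C
  bdE : ∀ (T : ℝ) (k : ℕ), ∃ C : ℝ, ∀ n, ∀ t ∈ Icc (-T) T, ∀ x : R3,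
    ‖iteratedFDeriv ℝ k (fun p : ℝ × R3 => E n p.1 p.2) (t, x)‖ ≤ C
  bdB : ∀ (T : ℝ) (k : ℕ), ∃ C : ℝ, ∀ n, ∀ t ∈ Icc (-T) T, ∀ x : R3,
    ‖iteratedFDeriv ℝ k (fun p : ℝ × R3 => B n p.1 p.2) (t, x)‖ ≤ C
  conv : ∀ T : ℝ, ∃ u : ℕ → ℝ, Summable u ∧ ∀ n, ∀ t ∈ Icc (-T) T, ∀ x : R3,
    ‖E (n + 1) t x - E n t x‖ ≤ u n ∧ ‖B (n + 1) t x - B n t x‖ ≤ u n ∧
    ∀ v : R3, |f (n + 1) t x v - f n t x v| ≤ u n

/-- Existence of the Picard sequence for every datum and every truncation. -/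
def PicEx : Prop :=
  ∀ P : ℝ, 0 < P → ∃ G, TruncForce P G ∧
    ∀ (f₀ : R3 → R3 → ℝ) (E₀ B₀ : R3 → R3), IsAdmissibleDatum f₀ E₀ B₀ →
      ∃ (f : ℕ → ℝ → R3 → R3 → ℝ) (E B : ℕ → ℝ → R3 → R3), PicSeq G f₀ E₀ B₀ f E B

/-- SMOOTHLIM, in the form used here. -/
def SLim (X Y : Type) [NormedAddCommGroup X] [NormedSpace ℝ X] [NormedAddCommGroup Y]
    [NormedSpace ℝ Y] : Prop :=
  ∀ (g : ℕ → X → Y) (h : X → Y), (∀ n, ContDiff ℝ ∞ (g n)) →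
    (∀ (k : ℕ) (K : Set X), IsCompact K → ∃ C : ℝ, ∀ n, ∀ x ∈ K, ‖iteratedFDeriv ℝ k (g n) x‖ ≤ C) →
    (∀ x, Tendsto (fun n => g n x) atTop (𝓝 (h x))) →
    ContDiff ℝ ∞ h ∧ ∀ x, Tendsto (fun n => fderiv ℝ (g n) x) atTop (𝓝 (fderiv ℝ h x))

/-- L2F (helper727), `l2_clause` as a Prop. -/
def L2Clause : Prop :=
  ∀ (T : ℝ) (E B j : ℝ → R3 → R3),
    ContDiffOn ℝ 1 (fun p : ℝ × R3 => E p.1 p.2) (Ico 0 T ×ˢ univ) →
    ContDiffOn ℝ 1 (fun p : ℝ × R3 => B p.1 p.2) (Ico 0 T ×ˢ univ) →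
    ContinuousOn (fun p : ℝ × R3 => j p.1 p.2) (Ico 0 T ×ˢ univ) →
    (∀ T', 0 ≤ T' → T' < T → ∃ R : ℝ, ∀ t ∈ Icc 0 T', ∀ x : R3, R < ‖x‖ → j t x = 0) →
    (∀ t, 0 < t → t < T → ∀ x : R3, ∀ i : Fin 3,
      deriv (fun s => E s x i) t - curl3 (B t) x i = - j t x i) →
    (∀ t, 0 < t → t < T → ∀ x : R3, ∀ i : Fin 3,
      deriv (fun s => B s x i) t + curl3 (E t) x i = 0) →
    MemLp (E 0) 2 → MemLp (B 0) 2 →
    ∀ t ∈ Ico 0 T, MemLp (E t) 2 ∧ MemLp (B t) 2 ∧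
      Tendsto (fun s => eLpNorm (E s - E t) 2 volume) (nhdsWithin t (Ico 0 T)) (nhds 0) ∧
      Tendsto (fun s => eLpNorm (B s - B t) 2 volume) (nhdsWithin t (Ico 0 T)) (nhds 0)

end Crest.Agent.R106
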