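import Crest.Agent.R106.L2F
import Crest.Agent.R106.LimDefs

set_option autoImplicit false

namespace Crest.Agent.R106

/-- node L2F in the form of `LimDefs.lean` -/
theorem l2Clause : L2Clause :=
  fun _ _ _ _ hE hB hjc hjs h1 h2 hE0 hB0 => L2F.l2_clause' hE hB hjc hjs h1 h2 hE0 hB0

end Crest.Agent.R106
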