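/-
Row 106 (S0140), node LPC (helper413): the exact exponent inequalities of the shell costs of note 12143.

All quantities are exponents relative to `P` (`Qt = P^g`, `Q = P^q`, `δ = P^(-x)`, `ε = P^(-y)`,
`D = P^(-d)`, `R = P^(-r)`, `l = P^(-lam)`, `l + 2R = P^ml`, `m = min ε D = P^(-mm)`, occupation
`μ = P^mu`, `μ_s = P^mus`, weight of the cut-off kernel `P^w`). One slack variable `s ≥ 0` absorbs all
constants and logarithms.
-/
import Mathlib.Tactic.Linarith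
import Mathlib.Data.Real.Basic

set_option autoImplicit false
set_option linter.unusedVariables false

namespace Crest.Agent.R106.LPC

/-- the common data of a shell: ranges of the exponents, zone, the bounds (a), (b), (c), (d) for the
occupation exponents. -/
structure Shell (g q x y d r lam ml mm mu mus w s : ℝ) : Prop where
  hs : 0 ≤ s
  g0 : 11/20 ≤ g + s
  g1 : g ≤ 1 + s
  q0 : 0 ≤ q + s
  q1 : q ≤ 1 + s
  x0 : 0 ≤ x + s
  x1 : x ≤ 2*g + s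
  y0 : 0 ≤ y + s
  y1 : y ≤ 2*q + s
  d0 : 0 ≤ d + s
  d1 : d ≤ 2*q + s
  d2 : d ≤ 2*g + s
  r0 : 0 ≤ r + s
  lam0 : 2*(1-g) ≤ lam + s
  ml0 : ml ≤ -lam + s ∨ ml ≤ -r + s
  mm1 : y ≤ mm + s
  mm2 : d ≤ mm + s
  a : mu ≤ -lam - 3*r - x + 3*q - mm + s
  b : mu ≤ -lam - q + y + s
  c : mu ≤ ml - q + x + s
  as' : mus ≤ -3*r - x + 3*q - mm + s
  bs : mus ≤ -q + y + s
  /-- zones: Z1 (`ε ≤ δ ~ D`), Z2 (`δ ≤ ε ~ D`), Z3 (`δ ~ ε ≥ D`), each with its form of (d) and of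
  the weight of the cut-off kernel. -/
  zone :
    (x ≤ y + s ∧ d ≤ x + s ∧ x ≤ d + s ∧ w ≤ (y-x)/2 + s ∧
      (11/20 ≤ q → 2/5 ≤ q - d/2 → 2/5 ≤ g - d/2 →
        mu ≤ d/2 - r - q + d + s ∨ mu ≤ d/2 + (ml + 2*(1-q)) - r - q + d + s)) ∨
    (y ≤ x + s ∧ d ≤ y + s ∧ y ≤ d + s ∧ w ≤ (x-y)/2 + s ∧
      (11/20 ≤ q → 2/5 ≤ q - d/2 → 2/5 ≤ g - d/2 →
        mu ≤ d/2 - r - q + d + s ∨ mu ≤ d/2 + (ml + 2*(1-q)) - r - q + d + s)) ∨
    (x ≤ y + s ∧ y ≤ x + s ∧ x ≤ d + s ∧ w ≤ (x-d)/2 + s ∧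
      (11/20 ≤ q → 2/5 ≤ q - d/2 → 2/5 ≤ g - d/2 →
        mu ≤ d/2 - r - q + (x+d)/2 + s ∨ mu ≤ d/2 + (ml + 2*(1-q)) - r - q + (x+d)/2 + s))

/-- exponent of the border `ε = P^(17/40 - 5/2 (1-g)) δ²` of the cut-off. -/
noncomputable def border (g x : ℝ) : ℝ := 2*x - 17/40 + 5/2*(1-g)

variable {g q x y d r lam ml mm mu mus w s : ℝ}

/-- availability of (d). -/
theorem avail {A B : Prop} (h : 11/20 ≤ q → 2/5 ≤ q - d/2 → 2/5 ≤ g - d/2 → A ∨ B) :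
    q ≤ 11/20 ∨ q - d/2 ≤ 2/5 ∨ g - d/2 ≤ 2/5 ∨ A ∨ B := by
  by_cases c1 : 11/20 ≤ q
  · by_cases c2 : 2/5 ≤ q - d/2
    · by_cases c3 : 2/5 ≤ g - d/2
      · rcases h c1 c2 c3 with h | h
        · exact Or.inr (Or.inr (Or.inr (Or.inl h)))
        · exact Or.inr (Or.inr (Or.inr (Or.inr h)))
      · exact Or.inr (Or.inr (Or.inl (le_of_lt (not_le.mp c3))))
    · exact Or.inr (Or.inl (le_of_lt (not_le.mp c2)))
  · exact Or.inl (le_of_lt (not_le.mp c1))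

set_option maxHeartbeats 4000000 in
/-- A (good part of the S-kernel), retarded region. -/
theorem A_E (h : Shell g q x y d r lam ml mm mu mus w s) (hE : q ≤ 11/20 + s ∨ y ≤ border g x + s) :
    -lam/2 + (q - mm - x + 2*y + 2*r + mu)/2 ≤ g - 1/176 + 30*s := by
  unfold border at hE
  obtain ⟨hs, g0, g1, q0, q1, x0, x1, y0, y1, d0, d1, d2, r0, lam0, ml0, mm1, mm2, a, b, c, as', bs,
    zone⟩ := h
  rcases zone with ⟨z1, z2, z3, hw, hd⟩ | ⟨z1, z2, z3, hw, hd⟩ | ⟨z1, z2, z3, hw, hd⟩ <;>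
  rcases avail hd with hd | hd | hd | hd | hd <;>
  rcases ml0 with ml0 | ml0 <;>
  rcases hE with hE | hE <;> linarith

set_option maxHeartbeats 4000000 in
/-- B (the `√ε |B|` part), retarded region. -/
theorem B_E (h : Shell g q x y d r lam ml mm mu mus w s) (hE : q ≤ 11/20 + s ∨ y ≤ border g x + s) :
    ml/2 + (q - mm + y + 2*r + mu)/2 ≤ g - 17/320 + 30*s := by
  unfold border at hE
  obtain ⟨hs, g0, g1, q0, q1, x0, x1, y0, y1, d0, d1, d2, r0, lam0, ml0, mm1, mm2, a, b, c, as', bs,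
    zone⟩ := h
  rcases zone with ⟨z1, z2, z3, hw, hd⟩ | ⟨z1, z2, z3, hw, hd⟩ | ⟨z1, z2, z3, hw, hd⟩ <;>
  rcases avail hd with hd | hd | hd | hd | hd <;>
  rcases ml0 with ml0 | ml0 <;>
  rcases hE with hE | hE <;> linarith

set_option maxHeartbeats 4000000 in
/-- T, term `ε`. -/
theorem T1_E (h : Shell g q x y d r lam ml mm mu mus w s) (hE : q ≤ 11/20 + s ∨ y ≤ border g x + s) :
    -2*q + y + 2*r + mu ≤ g - 4/15 + 30*s := by
  unfold border at hE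
  obtain ⟨hs, g0, g1, q0, q1, x0, x1, y0, y1, d0, d1, d2, r0, lam0, ml0, mm1, mm2, a, b, c, as', bs,
    zone⟩ := h
  rcases zone with ⟨z1, z2, z3, hw, hd⟩ | ⟨z1, z2, z3, hw, hd⟩ | ⟨z1, z2, z3, hw, hd⟩ <;>
  rcases avail hd with hd | hd | hd | hd | hd <;>
  rcases ml0 with ml0 | ml0 <;>
  rcases hE with hE | hE <;> linarith

set_option maxHeartbeats 4000000 in
/-- T, term `√(δε)`. -/
theorem T2_E (h : Shell g q x y d r lam ml mm mu mus w s) (hE : q ≤ 11/20 + s ∨ y ≤ border g x + s) :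
    -2*q + 2*y + 2*r - (x+y)/2 + mu ≤ g - 4/15 + 30*s := by
  unfold border at hE
  obtain ⟨hs, g0, g1, q0, q1, x0, x1, y0, y1, d0, d1, d2, r0, lam0, ml0, mm1, mm2, a, b, c, as', bs,
    zone⟩ := h
  rcases zone with ⟨z1, z2, z3, hw, hd⟩ | ⟨z1, z2, z3, hw, hd⟩ | ⟨z1, z2, z3, hw, hd⟩ <;>
  rcases avail hd with hd | hd | hd | hd | hd <;>
  rcases ml0 with ml0 | ml0 <;>
  rcases hE with hE | hE <;> linarith

set_option maxHeartbeats 4000000 in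
/-- T everywhere, term `ε`. -/
theorem T1_all (h : Shell g q x y d r lam ml mm mu mus w s)  :
    -2*q + y + 2*r + mu ≤ g + 30*s := by
  obtain ⟨hs, g0, g1, q0, q1, x0, x1, y0, y1, d0, d1, d2, r0, lam0, ml0, mm1, mm2, a, b, c, as', bs,
    zone⟩ := h
  rcases zone with ⟨z1, z2, z3, hw, hd⟩ | ⟨z1, z2, z3, hw, hd⟩ | ⟨z1, z2, z3, hw, hd⟩ <;>
  rcases avail hd with hd | hd | hd | hd | hd <;>
  rcases ml0 with ml0 | ml0 <;> linarith

set_option maxHeartbeats 4000000 in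
/-- T everywhere, term `√(δε)`. -/
theorem T2_all (h : Shell g q x y d r lam ml mm mu mus w s)  :
    -2*q + 2*y + 2*r - (x+y)/2 + mu ≤ g + 30*s := by
  obtain ⟨hs, g0, g1, q0, q1, x0, x1, y0, y1, d0, d1, d2, r0, lam0, ml0, mm1, mm2, a, b, c, as', bs,
    zone⟩ := h
  rcases zone with ⟨z1, z2, z3, hw, hd⟩ | ⟨z1, z2, z3, hw, hd⟩ | ⟨z1, z2, z3, hw, hd⟩ <;>
  rcases avail hd with hd | hd | hd | hd | hd <;>
  rcases ml0 with ml0 | ml0 <;> linarith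

set_option maxHeartbeats 4000000 in
/-- B, conjugate region. -/
theorem B_C (h : Shell g q x y d r lam ml mm mu mus w s) (hq : 11/20 ≤ q + s) (hy : border g x ≤ y + s) :
    ml/2 + (q - mm + y + 2*r + mu)/2 ≤ g + 30*s := by
  unfold border at hy
  obtain ⟨hs, g0, g1, q0, q1, x0, x1, y0, y1, d0, d1, d2, r0, lam0, ml0, mm1, mm2, a, b, c, as', bs,
    zone⟩ := h
  rcases zone with ⟨z1, z2, z3, hw, hd⟩ | ⟨z1, z2, z3, hw, hd⟩ | ⟨z1, z2, z3, hw, hd⟩ <;>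
  rcases avail hd with hd | hd | hd | hd | hd <;>
  rcases ml0 with ml0 | ml0 <;> linarith

set_option maxHeartbeats 4000000 in
/-- k_Gam, term `δ`. -/
theorem G2a_C (h : Shell g q x y d r lam ml mm mu mus w s) (hq : 11/20 ≤ q + s) (hy : border g x ≤ y + s) :
    -2*g + x + 2*r + mu ≤ g - 313/220 + 30*s := by
  unfold border at hy
  obtain ⟨hs, g0, g1, q0, q1, x0, x1, y0, y1, d0, d1, d2, r0, lam0, ml0, mm1, mm2, a, b, c, as', bs,
    zone⟩ := h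
  rcases zone with ⟨z1, z2, z3, hw, hd⟩ | ⟨z1, z2, z3, hw, hd⟩ | ⟨z1, z2, z3, hw, hd⟩ <;>
  rcases avail hd with hd | hd | hd | hd | hd <;>
  rcases ml0 with ml0 | ml0 <;> linarith

set_option maxHeartbeats 4000000 in
/-- k_Gam, term `√(δε)`. -/
theorem G2b_C (h : Shell g q x y d r lam ml mm mu mus w s) (hq : 11/20 ≤ q + s) (hy : border g x ≤ y + s) :
    -2*g + 2*x + 2*r - (x+y)/2 + mu ≤ g - 313/220 + 30*s := by
  unfold border at hy
  obtain ⟨hs, g0, g1, q0, q1, x0, x1, y0, y1, d0, d1, d2, r0, lam0, ml0, mm1, mm2, a, b, c, as', bs,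
    zone⟩ := h
  rcases zone with ⟨z1, z2, z3, hw, hd⟩ | ⟨z1, z2, z3, hw, hd⟩ | ⟨z1, z2, z3, hw, hd⟩ <;>
  rcases avail hd with hd | hd | hd | hd | hd <;>
  rcases ml0 with ml0 | ml0 <;> linarith

set_option maxHeartbeats 4000000 in
/-- boundary term. -/
theorem b_C (h : Shell g q x y d r lam ml mm mu mus w s) (hq : 11/20 ≤ q + s) (hy : border g x ≤ y + s) :
    -y/2 + x/2 + r + mus ≤ 59/160 + 30*s := by
  unfold border at hy
  obtain ⟨hs, g0, g1, q0, q1, x0, x1, y0, y1, d0, d1, d2, r0, lam0, ml0, mm1, mm2, a, b, c, as', bs,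
    zone⟩ := h
  rcases zone with ⟨z1, z2, z3, hw, hd⟩ | ⟨z1, z2, z3, hw, hd⟩ | ⟨z1, z2, z3, hw, hd⟩ <;>
  rcases avail hd with hd | hd | hd | hd | hd <;>
  rcases ml0 with ml0 | ml0 <;> linarith

set_option maxHeartbeats 4000000 in
/-- sup of `Φ`. -/
theorem phm_C (h : Shell g q x y d r lam ml mm mu mus w s) (hq : 11/20 ≤ q + s) (hy : border g x ≤ y + s) :
    -y/2 + x + r + mus ≤ g - 4/25 + 30*s := by
  unfold border at hy
  obtain ⟨hs, g0, g1, q0, q1, x0, x1, y0, y1, d0, d1, d2, r0, lam0, ml0, mm1, mm2, a, b, c, as', bs,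
    zone⟩ := h
  rcases zone with ⟨z1, z2, z3, hw, hd⟩ | ⟨z1, z2, z3, hw, hd⟩ | ⟨z1, z2, z3, hw, hd⟩ <;>
  rcases avail hd with hd | hd | hd | hd | hd <;>
  rcases ml0 with ml0 | ml0 <;> linarith

set_option maxHeartbeats 4000000 in
/-- L2 norm of `h2`. -/
theorem h2_C (h : Shell g q x y d r lam ml mm mu mus w s) (hq : 11/20 ≤ q + s) (hy : border g x ≤ y + s) :
    (q - mm - x + 2*y + 2*r + mu)/2 ≤ 1 + g/2 + 30*s := by
  unfold border at hy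
  obtain ⟨hs, g0, g1, q0, q1, x0, x1, y0, y1, d0, d1, d2, r0, lam0, ml0, mm1, mm2, a, b, c, as', bs,
    zone⟩ := h
  rcases zone with ⟨z1, z2, z3, hw, hd⟩ | ⟨z1, z2, z3, hw, hd⟩ | ⟨z1, z2, z3, hw, hd⟩ <;>
  rcases avail hd with hd | hd | hd | hd | hd <;>
  rcases ml0 with ml0 | ml0 <;> linarith

set_option maxHeartbeats 4000000 in
/-- L2 part of the conjugate A-term. -/
theorem L2_C (h : Shell g q x y d r lam ml mm mu mus w s) (hq : 11/20 ≤ q + s) (hy : border g x ≤ y + s) :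
    ((-y/2 + x + r + mus) + (-y/2 + x + r + mu))/2 + (1 + g/2) - g ≤ g - 1/130 + 30*s := by
  unfold border at hy
  obtain ⟨hs, g0, g1, q0, q1, x0, x1, y0, y1, d0, d1, d2, r0, lam0, ml0, mm1, mm2, a, b, c, as', bs,
    zone⟩ := h
  rcases zone with ⟨z1, z2, z3, hw, hd⟩ | ⟨z1, z2, z3, hw, hd⟩ | ⟨z1, z2, z3, hw, hd⟩ <;>
  rcases avail hd with hd | hd | hd | hd | hd <;>
  rcases ml0 with ml0 | ml0 <;> linarith

set_option maxHeartbeats 4000000 in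
/-- cut-off kernel, `R ≥ l P^(-1/50)`. -/
theorem CUT_far (h : Shell g q x y d r lam ml mm mu mus w s) (hq : 11/20 ≤ q + s) (hy : border g x ≤ y + s) (hy2 : y ≤ border g x + s) (hr : r ≤ lam + 1/50 + s) :
    2*r + mu + w ≤ g - 23/400 + 30*s := by
  unfold border at hy hy2
  obtain ⟨hs, g0, g1, q0, q1, x0, x1, y0, y1, d0, d1, d2, r0, lam0, ml0, mm1, mm2, a, b, c, as', bs,
    zone⟩ := h
  rcases zone with ⟨z1, z2, z3, hw, hd⟩ | ⟨z1, z2, z3, hw, hd⟩ | ⟨z1, z2, z3, hw, hd⟩ <;>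
  rcases avail hd with hd | hd | hd | hd | hd <;>
  rcases ml0 with ml0 | ml0 <;> linarith

set_option maxHeartbeats 4000000 in
/-- cut-off kernel, `D ≤ P^(-1/10)`. -/
theorem CUT_D (h : Shell g q x y d r lam ml mm mu mus w s) (hq : 11/20 ≤ q + s) (hy : border g x ≤ y + s) (hy2 : y ≤ border g x + s) (hd1 : 1/10 ≤ d + s) :
    2*r + mu + w ≤ g - 1/40 + 30*s := by
  unfold border at hy hy2
  obtain ⟨hs, g0, g1, q0, q1, x0, x1, y0, y1, d0, d1, d2, r0, lam0, ml0, mm1, mm2, a, b, c, as', bs,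
    zone⟩ := h
  rcases zone with ⟨z1, z2, z3, hw, hd⟩ | ⟨z1, z2, z3, hw, hd⟩ | ⟨z1, z2, z3, hw, hd⟩ <;>
  rcases avail hd with hd | hd | hd | hd | hd <;>
  rcases ml0 with ml0 | ml0 <;> linarith

end Crest.Agent.R106.LPC
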