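/-
Row 106 (S0140), node LPC (helper413): the numbers-level hypothesis `LPHyp` (uniform form of
helper676's notes 12359/12440) and its relation with `LPC.Shell`.

Exponents: `Qt = P^g`, `Q = P^q`, `δ = P^(-x)`, `ε = P^(-y)`, `D = P^(-d)`, `R = P^(-r)`,
`μ(Ω) = P^mu`, `sup_s μ_s(Ω) = P^mus`; (d) with `D' = √(D max(δ,D))`, cut-off weight
`√(D / min(δ,ε))`.
-/
import Crest.Agent.R106.LPC

set_option autoImplicit false
set_option linter.unusedVariables false

namespace Crest.Agent.R106.LPC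

/-- `lam = 2(1-g)`: exponent of the window length `l = P^(-lam)`. -/
noncomputable def lamx (g : ℝ) : ℝ := 2*(1-g)
/-- `ml`: exponent of `l + 2R`. -/
noncomputable def mlx (g r : ℝ) : ℝ := max (-lamx g) (-r)
/-- exponent of the bound (d), `D' = √(D max(δ,D)) = P^(-(d + min x d)/2)`. -/
noncomputable def ddx (g q x d r : ℝ) : ℝ :=
  d/2 + max 0 (mlx g r + 2*(1-q)) - r - q + (d + min x d)/2
/-- exponent of the weight `√(D/min(δ,ε))` of the cut-off kernel. -/
noncomputable def wx (x y d : ℝ) : ℝ := (max x y - d)/2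

/-- the hypothesis of all the exponent inequalities. -/
structure LPHyp (g q x y d r mu mus s : ℝ) : Prop where
  hs0 : 0 ≤ s
  g0 : 11/20 ≤ g
  g1 : g ≤ 1
  q0 : -s ≤ q
  q1 : q ≤ 1 + s
  x0 : -s ≤ x
  x1 : x ≤ 2*g + s
  y0 : -s ≤ y
  y1 : y ≤ 2*q + s
  d0 : -s ≤ d
  d1 : d ≤ 2*q + s
  d2 : d ≤ 2*g + s
  r0 : -s ≤ r
  a : mu ≤ -lamx g - 3*r - x + 3*q - max y d + s
  b : mu ≤ -lamx g - q + y + s
  c : mu ≤ mlx g r - q + x + s
  as' : mus ≤ -3*r - x + 3*q - max y d + s
  bs : mus ≤ -q + y + s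
  zone : (|d - x| ≤ s ∧ x - s ≤ y) ∨ (|d - y| ≤ s ∧ y - s ≤ x) ∨ (|x - y| ≤ s ∧ x - s ≤ d)
  dd : 11/20 ≤ q → 2/5 ≤ q - d/2 → 2/5 ≤ g - d/2 → mu ≤ ddx g q x d r + s

variable {g q x y d r mu mus s : ℝ}

private theorem dd_split {d' : ℝ} (h : mu ≤ ddx g q x d r + s) (hd' : (d + min x d)/2 ≤ d') :
    mu ≤ d/2 - r - q + d' + s ∨ mu ≤ d/2 + (mlx g r + 2*(1-q)) - r - q + d' + s := by
  unfold ddx at h
  rcases le_total 0 (mlx g r + 2*(1-q)) with h0 | h0
  · right; rw [max_eq_right h0] at h; linarith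
  · left; rw [max_eq_left h0] at h; linarith

/-- from `LPHyp` to `Shell`. -/
theorem LPHyp.shell (h : LPHyp g q x y d r mu mus s) :
    Shell g q x y d r (lamx g) (mlx g r) (max y d) mu mus (wx x y d) s := by
  have hs0 := h.hs0
  have g0 := h.g0; have g1 := h.g1
  have q0 := h.q0; have x0 := h.x0; have y0 := h.y0; have d0 := h.d0; have r0 := h.r0
  have hml : mlx g r ≤ -lamx g + s ∨ mlx g r ≤ -r + s := by
    unfold mlx
    rcases le_total (-lamx g) (-r) with h1 | h1
    · right; rw [max_eq_right h1]; linarith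
    · left; rw [max_eq_left h1]; linarith
  have hmm1 : y ≤ max y d + s := by linarith [le_max_left y d]
  have hmm2 : d ≤ max y d + s := by linarith [le_max_right y d]
  have hlam : 2*(1-g) ≤ lamx g + s := by unfold lamx; linarith
  have hmin1 : min x d ≤ d := min_le_right _ _
  have hmin2 : min x d ≤ x := min_le_left _ _
  refine ⟨hs0, by linarith, by linarith, by linarith, h.q1, by linarith, h.x1,
      by linarith, h.y1, by linarith, h.d1, h.d2, by linarith, hlam, hml, hmm1, hmm2, h.a, h.b,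
      h.c, h.as', h.bs, ?_⟩
  rcases h.zone with ⟨z1, z2⟩ | ⟨z1, z2⟩ | ⟨z1, z2⟩
  · rw [abs_le] at z1
    have hw : max x y ≤ y + s := max_le (by linarith) (by linarith)
    exact Or.inl ⟨by linarith, by linarith, by linarith, by unfold wx; linarith,
      fun h1 h2 h3 => dd_split (h.dd h1 h2 h3) (by linarith)⟩
  · rw [abs_le] at z1
    have hw : max x y ≤ x + s := max_le (by linarith) (by linarith)
    exact Or.inr (Or.inl ⟨by linarith, by linarith, by linarith, by unfold wx; linarith,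
      fun h1 h2 h3 => dd_split (h.dd h1 h2 h3) (by linarith)⟩)
  · rw [abs_le] at z1
    have hw : max x y ≤ x + s := max_le (by linarith) (by linarith)
    exact Or.inr (Or.inr ⟨by linarith, by linarith, by linarith, by unfold wx; linarith,
      fun h1 h2 h3 => dd_split (h.dd h1 h2 h3) (by linarith)⟩)

/-- region E (retarded representation). -/
def RegE (g q x y s : ℝ) : Prop := q ≤ 11/20 + s ∨ y ≤ border g x + s
/-- region C (conjugate representation). -/
def RegC (g q x y s : ℝ) : Prop := 11/20 - s ≤ q ∧ border g x - s ≤ y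
/-- border. -/
def RegB (g q x y s : ℝ) : Prop := 11/20 - s ≤ q ∧ |y - border g x| ≤ s

/-! ### exponents of the costs -/

/-- A-cost `l^{1/2} [(δ/(Q²ε²R²)) Q³ m μ]^{1/2}`. -/
noncomputable def cA (g q x y d r mu : ℝ) : ℝ := -lamx g/2 + (q - max y d - x + 2*y + 2*r + mu)/2
/-- B-cost `((l+2R)/δ)^{1/2} [(δ/(Q²εR²)) Q³ m μ]^{1/2}`. -/
noncomputable def cB (g q x y d r mu : ℝ) : ℝ := mlx g r/2 + (q - max y d + y + 2*r + mu)/2
/-- T-cost `(ε + √(δε)) μ/(Q²ε²R²)`. -/
noncomputable def cT (q x y r mu : ℝ) : ℝ := -2*q + 2*y + 2*r - min y ((x+y)/2) + mu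
/-- `k_Gam`-cost `(δ + √(δε)) μ/(Qt²δ²R²)`. -/
noncomputable def cG2 (g x y r mu : ℝ) : ℝ := -2*g + 2*x + 2*r - min x ((x+y)/2) + mu
/-- boundary cost `√(ε/δ) μ_s/R`. -/
noncomputable def cb (x y r mus : ℝ) : ℝ := -y/2 + x/2 + r + mus
/-- `sup Φ`: `√ε μ_s/(δR)`. -/
noncomputable def cphm (x y r mus : ℝ) : ℝ := -y/2 + x + r + mus
/-- `∫ Φ`: `√ε μ/(δR)`. -/
noncomputable def cphi (x y r mu : ℝ) : ℝ := -y/2 + x + r + mu
/-- norm of `h2`: `[(δ/(Q²ε²R²)) Q³ m μ]^{1/2}`. -/
noncomputable def ch2 (q x y d r mu : ℝ) : ℝ := (q - max y d - x + 2*y + 2*r + mu)/2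
/-- cut-off cost `√(D/min(δ,ε)) μ/R²`. -/
noncomputable def cCUT (x y d r mu : ℝ) : ℝ := 2*r + mu + wx x y d

theorem lp_A_E (h : LPHyp g q x y d r mu mus s) (hs : s ≤ 1/100000) (hE : RegE g q x y s) :
    cA g q x y d r mu ≤ g - 1/200 := by
  have := A_E h.shell hE; unfold cA; linarith

theorem lp_B_E (h : LPHyp g q x y d r mu mus s) (hs : s ≤ 1/100000) (hE : RegE g q x y s) :
    cB g q x y d r mu ≤ g - 1/200 := by
  have := B_E h.shell hE; unfold cB; linarith

theorem lp_T_E (h : LPHyp g q x y d r mu mus s) (hs : s ≤ 1/100000) (hE : RegE g q x y s) :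
    cT q x y r mu ≤ g - 1/200 := by
  have h1 := T1_E h.shell hE
  have h2 := T2_E h.shell hE
  unfold cT
  rcases le_total y ((x+y)/2) with h0 | h0
  · rw [min_eq_left h0]; linarith
  · rw [min_eq_right h0]; linarith

theorem lp_T_all (h : LPHyp g q x y d r mu mus s) (hs : s ≤ 1/100000) :
    cT q x y r mu ≤ g + 1/1000 := by
  have h1 := T1_all h.shell
  have h2 := T2_all h.shell
  unfold cT
  rcases le_total y ((x+y)/2) with h0 | h0
  · rw [min_eq_left h0]; linarith
  · rw [min_eq_right h0]; linarith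

theorem lp_B_C (h : LPHyp g q x y d r mu mus s) (hs : s ≤ 1/100000) (hC : RegC g q x y s) :
    cB g q x y d r mu ≤ g + 1/1000 := by
  have := B_C h.shell (by linarith [hC.1]) (by linarith [hC.2]); unfold cB; linarith

theorem lp_G2_C (h : LPHyp g q x y d r mu mus s) (hs : s ≤ 1/100000) (hC : RegC g q x y s) :
    cG2 g x y r mu ≤ g - 1 := by
  have h1 := G2a_C h.shell (by linarith [hC.1]) (by linarith [hC.2])
  have h2 := G2b_C h.shell (by linarith [hC.1]) (by linarith [hC.2])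
  unfold cG2
  rcases le_total x ((x+y)/2) with h0 | h0
  · rw [min_eq_left h0]; linarith
  · rw [min_eq_right h0]; linarith

theorem lp_b_C (h : LPHyp g q x y d r mu mus s) (hs : s ≤ 1/100000) (hC : RegC g q x y s) :
    cb x y r mus ≤ 3/8 := by
  have := b_C h.shell (by linarith [hC.1]) (by linarith [hC.2]); unfold cb; linarith

theorem lp_phm_C (h : LPHyp g q x y d r mu mus s) (hs : s ≤ 1/100000) (hC : RegC g q x y s) :
    cphm x y r mus ≤ g - 1/10 := by
  have := phm_C h.shell (by linarith [hC.1]) (by linarith [hC.2]); unfold cphm; linarith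

theorem lp_h2_C (h : LPHyp g q x y d r mu mus s) (hs : s ≤ 1/100000) (hC : RegC g q x y s) :
    ch2 q x y d r mu ≤ 1 + g/2 + 1/1000 := by
  have := h2_C h.shell (by linarith [hC.1]) (by linarith [hC.2]); unfold ch2; linarith

/-- `‖Φ‖₂² ≤ sup Φ · ∫ Φ`. -/
theorem lp_L2_C (h : LPHyp g q x y d r mu mus s) (hs : s ≤ 1/100000) (hC : RegC g q x y s) :
    (cphm x y r mus + cphi x y r mu)/2 + (1 + g/2) - g ≤ g - 1/150 := by
  have := L2_C h.shell (by linarith [hC.1]) (by linarith [hC.2])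
  unfold cphm cphi; linarith

/-- the same with `min (∫Φ) (l sup Φ)`. -/
theorem lp_L2min_C (h : LPHyp g q x y d r mu mus s) (hs : s ≤ 1/100000) (hC : RegC g q x y s) :
    (cphm x y r mus + min (cphi x y r mu) (cphm x y r mus - lamx g))/2 + (1 + g/2) - g
      ≤ g - 1/150 := by
  have := lp_L2_C h hs hC
  have h2 := min_le_left (cphi x y r mu) (cphm x y r mus - lamx g)
  linarith

/-- cut-off cost away from the critical range, `D ≤ P^(-1/10)`. -/
theorem lp_CUT_D (h : LPHyp g q x y d r mu mus s) (hs : s ≤ 1/100000) (hB : RegB g q x y s)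
    (hd : 1/10 ≤ d + s) : cCUT x y d r mu ≤ g - 1/100 := by
  have h3 := abs_le.mp hB.2
  have := CUT_D h.shell (by linarith [hB.1]) (by linarith) (by linarith) hd
  unfold cCUT; linarith

/-- cut-off cost away from the critical range, `R ≥ l P^(-1/50)`. -/
theorem lp_CUT_far (h : LPHyp g q x y d r mu mus s) (hs : s ≤ 1/100000) (hB : RegB g q x y s)
    (hr : r ≤ lamx g + 1/50 + s) : cCUT x y d r mu ≤ g - 1/100 := by
  have h3 := abs_le.mp hB.2
  have := CUT_far h.shell (by linarith [hB.1]) (by linarith) (by linarith) hr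
  unfold cCUT; linarith

end Crest.Agent.R106.LPC
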