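import Crest.Agent.R106.LimDefs
import Crest.Agent.R106.FlowGen

/-!
# Row 106, node LIM (helper775): the limit of the Picard sequence solves the truncated system.
-/

set_option autoImplicit false
open MeasureTheory Set Filter Topology
open scoped ContDiff
open Crest.AnalysisR.VecCalc3 Crest.AnalysisR.PDE.RVM

namespace Crest.Agent.R106.Lim

section DerivTools

lemma exists_lim {β : Type*} [NormedAddCommGroup β] [CompleteSpace β] (g : ℕ → β) (u : ℕ → ℝ)
    (hu : Summable u) (h : ∀ n, ‖g (n + 1) - g n‖ ≤ u n) : ∃ a, Tendsto g atTop (𝓝 a) := by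
  apply cauchySeq_tendsto_of_complete
  refine cauchySeq_of_dist_le_of_summable u (fun n => ?_) hu
  rw [dist_comm, dist_eq_norm]
  exact h n

/-- time derivative through the joint derivative, scalar function of `(t,x,v)` -/
lemma hasDerivAt_t3 {F : ℝ × R3 × R3 → ℝ} {t : ℝ} {x v : R3}
    (hF : DifferentiableAt ℝ F (t, x, v)) :
    HasDerivAt (fun s => F (s, x, v)) (fderiv ℝ F (t, x, v) (1, 0, 0)) t := by
  have h1 : HasDerivAt (fun s : ℝ => ((s, x, v) : ℝ × R3 × R3)) (1, 0, 0) t :=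
    (hasDerivAt_id t).prodMk ((hasDerivAt_const t x).prodMk (hasDerivAt_const t v))
  exact hF.hasFDerivAt.comp_hasDerivAt t h1

lemma pderiv_x3 {F : ℝ × R3 × R3 → ℝ} {t : ℝ} {x v : R3}
    (hF : DifferentiableAt ℝ F (t, x, v)) (i : Fin 3) :
    pderiv (fun y => F (t, y, v)) i x = fderiv ℝ F (t, x, v) (0, EuclideanSpace.single i 1, 0) := by
  have h1 : HasFDerivAt (fun y : R3 => ((t, y, v) : ℝ × R3 × R3))
      ((0 : R3 →L[ℝ] ℝ).prod ((ContinuousLinearMap.id ℝ R3).prod 0)) x :=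
    (hasFDerivAt_const t x).prodMk ((hasFDerivAt_id x).prodMk (hasFDerivAt_const v x))
  have h2 := hF.hasFDerivAt.comp x h1
  unfold pderiv
  have h3 : fderiv ℝ (fun y => F (t, y, v)) x
      = (fderiv ℝ F (t, x, v)).comp
        ((0 : R3 →L[ℝ] ℝ).prod ((ContinuousLinearMap.id ℝ R3).prod 0)) := h2.fderiv
  rw [h3]
  simp

lemma pderiv_v3 {F : ℝ × R3 × R3 → ℝ} {t : ℝ} {x v : R3}
    (hF : DifferentiableAt ℝ F (t, x, v)) (i : Fin 3) :
    pderiv (fun w => F (t, x, w)) i v = fderiv ℝ F (t, x, v) (0, 0, EuclideanSpace.single i 1) := by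
  have h1 : HasFDerivAt (fun w : R3 => ((t, x, w) : ℝ × R3 × R3))
      ((0 : R3 →L[ℝ] ℝ).prod ((0 : R3 →L[ℝ] R3).prod (ContinuousLinearMap.id ℝ R3))) v :=
    (hasFDerivAt_const t v).prodMk ((hasFDerivAt_const x v).prodMk (hasFDerivAt_id v))
  have h2 := hF.hasFDerivAt.comp v h1
  unfold pderiv
  have h3 : fderiv ℝ (fun w => F (t, x, w)) v
      = (fderiv ℝ F (t, x, v)).comp
        ((0 : R3 →L[ℝ] ℝ).prod ((0 : R3 →L[ℝ] R3).prod (ContinuousLinearMap.id ℝ R3))) := h2.fderiv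
  rw [h3]
  simp

lemma hasDerivAt_t2 {F : ℝ × R3 → R3} {t : ℝ} {x : R3}
    (hF : DifferentiableAt ℝ F (t, x)) (i : Fin 3) :
    HasDerivAt (fun s => F (s, x) i) ((fderiv ℝ F (t, x) (1, 0)) i) t := by
  have h1 : HasDerivAt (fun s : ℝ => ((s, x) : ℝ × R3)) (1, 0) t :=
    (hasDerivAt_id t).prodMk (hasDerivAt_const t x)
  have h2 := hF.hasFDerivAt.comp_hasDerivAt t h1
  exact (EuclideanSpace.proj (𝕜 := ℝ) i : R3 →L[ℝ] ℝ).hasFDerivAt.comp_hasDerivAt t h2

lemma pderiv_x2 {F : ℝ × R3 → R3} {t : ℝ} {x : R3}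
    (hF : DifferentiableAt ℝ F (t, x)) (i j : Fin 3) :
    pderiv (fun y => F (t, y) j) i x = (fderiv ℝ F (t, x) (0, EuclideanSpace.single i 1)) j := by
  have h1 : HasFDerivAt (fun y : R3 => ((t, y) : ℝ × R3))
      ((0 : R3 →L[ℝ] ℝ).prod (ContinuousLinearMap.id ℝ R3)) x :=
    (hasFDerivAt_const t x).prodMk (hasFDerivAt_id x)
  have h2 := hF.hasFDerivAt.comp x h1
  have h4 := (EuclideanSpace.proj (𝕜 := ℝ) j : R3 →L[ℝ] ℝ).hasFDerivAt.comp x h2
  unfold pderiv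
  have h3 : fderiv ℝ (fun y => F (t, y) j) x
      = (EuclideanSpace.proj (𝕜 := ℝ) j : R3 →L[ℝ] ℝ).comp
        ((fderiv ℝ F (t, x)).comp ((0 : R3 →L[ℝ] ℝ).prod (ContinuousLinearMap.id ℝ R3))) :=
    h4.fderiv
  rw [h3]
  simp

/-- joint derivatives converge -/
structure DLim (F : ℕ → ℝ × R3 → R3) (F' : ℝ × R3 → R3) : Prop where
  d : ∀ n p, DifferentiableAt ℝ (F n) p
  d' : ∀ p, DifferentiableAt ℝ F' p
  lim : ∀ p, Tendsto (fun n => fderiv ℝ (F n) p) atTop (𝓝 (fderiv ℝ F' p))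

lemma tendsto_apply {F : ℕ → ℝ × R3 → R3} {F' : ℝ × R3 → R3} (h : DLim F F') (p q : ℝ × R3)
    (i : Fin 3) :
    Tendsto (fun n => (fderiv ℝ (F n) p q) i) atTop (𝓝 ((fderiv ℝ F' p q) i)) := by
  have h1 : Continuous fun L : (ℝ × R3) →L[ℝ] R3 => (L q) i := by
    have h2 : Continuous fun L : (ℝ × R3) →L[ℝ] R3 => L q := by fun_prop
    exact (EuclideanSpace.proj (𝕜 := ℝ) i : R3 →L[ℝ] ℝ).continuous.comp h2
  exact (h1.tendsto _).comp (h.lim p)

lemma tendsto_deriv {F : ℕ → ℝ × R3 → R3} {F' : ℝ × R3 → R3} (h : DLim F F') (t : ℝ) (x : R3)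
    (i : Fin 3) :
    Tendsto (fun n => deriv (fun s => F n (s, x) i) t) atTop
      (𝓝 (deriv (fun s => F' (s, x) i) t)) := by
  have h1 := tendsto_apply h (t, x) (1, 0) i
  rw [(hasDerivAt_t2 (h.d' (t, x)) i).deriv]
  refine h1.congr (fun n => ?_)
  rw [(hasDerivAt_t2 (h.d n (t, x)) i).deriv]

lemma tendsto_pderiv {F : ℕ → ℝ × R3 → R3} {F' : ℝ × R3 → R3} (h : DLim F F') (t : ℝ) (x : R3)
    (i j : Fin 3) :
    Tendsto (fun n => pderiv (fun y => F n (t, y) j) i x) atTop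
      (𝓝 (pderiv (fun y => F' (t, y) j) i x)) := by
  have h1 := tendsto_apply h (t, x) (0, EuclideanSpace.single i 1) j
  rw [pderiv_x2 (h.d' (t, x)) i j]
  refine h1.congr (fun n => ?_)
  rw [pderiv_x2 (h.d n (t, x)) i j]

lemma tendsto_curl {F : ℕ → ℝ × R3 → R3} {F' : ℝ × R3 → R3} (h : DLim F F') (t : ℝ) (x : R3)
    (i : Fin 3) :
    Tendsto (fun n => curl3 (fun y => F n (t, y)) x i) atTop
      (𝓝 (curl3 (fun y => F' (t, y)) x i)) := by
  fin_cases i
  · simpa [curl3] using (tendsto_pderiv h t x 1 2).sub (tendsto_pderiv h t x 2 1)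
  · simpa [curl3] using (tendsto_pderiv h t x 2 0).sub (tendsto_pderiv h t x 0 2)
  · simpa [curl3] using (tendsto_pderiv h t x 0 1).sub (tendsto_pderiv h t x 1 0)

lemma tendsto_div {F : ℕ → ℝ × R3 → R3} {F' : ℝ × R3 → R3} (h : DLim F F') (t : ℝ) (x : R3) :
    Tendsto (fun n => div3 (fun y => F n (t, y)) x) atTop
      (𝓝 (div3 (fun y => F' (t, y)) x)) := by
  unfold div3
  exact tendsto_finsetSum _ (fun i _ => tendsto_pderiv h t x i i)

/-- joint derivatives converge, scalar function of `(t,x,v)` -/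
structure DLim3 (F : ℕ → ℝ × R3 × R3 → ℝ) (F' : ℝ × R3 × R3 → ℝ) : Prop where
  d : ∀ n p, DifferentiableAt ℝ (F n) p
  d' : ∀ p, DifferentiableAt ℝ F' p
  lim : ∀ p, Tendsto (fun n => fderiv ℝ (F n) p) atTop (𝓝 (fderiv ℝ F' p))

lemma tendsto_apply3 {F : ℕ → ℝ × R3 × R3 → ℝ} {F' : ℝ × R3 × R3 → ℝ} (h : DLim3 F F')
    (p q : ℝ × R3 × R3) :
    Tendsto (fun n => fderiv ℝ (F n) p q) atTop (𝓝 (fderiv ℝ F' p q)) := by
  have h1 : Continuous fun L : (ℝ × R3 × R3) →L[ℝ] ℝ => L q := by fun_prop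
  exact (h1.tendsto _).comp (h.lim p)

end DerivTools

section Main

variable {P : ℝ} {G : R3 → R3 → R3 → R3} {f₀ : R3 → R3 → ℝ} {E₀ B₀ : R3 → R3}
  {f : ℕ → ℝ → R3 → R3 → ℝ} {E B : ℕ → ℝ → R3 → R3}

lemma mem_Icc_abs (t : ℝ) : t ∈ Icc (-|t|) |t| := ⟨neg_abs_le t, le_abs_self t⟩

lemma continuous_relVel : Continuous relVel := by
  have h : Continuous fun v : R3 => Real.sqrt (1 + ‖v‖ ^ 2) := by fun_prop
  have h1 : Continuous fun v : R3 => (Real.sqrt (1 + ‖v‖ ^ 2))⁻¹ • v :=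
    (h.inv₀ (fun v => (Real.sqrt_pos.2 (by positivity : (0 : ℝ) < 1 + ‖v‖ ^ 2)).ne')).smul
      continuous_id
  exact h1

lemma norm_relVel_le (v : R3) : ‖relVel v‖ ≤ 1 := by
  unfold relVel
  have h0 : (0 : ℝ) < 1 + ‖v‖ ^ 2 := by positivity
  have h1 : 0 < Real.sqrt (1 + ‖v‖ ^ 2) := Real.sqrt_pos.2 h0
  have h2 : ‖v‖ ≤ Real.sqrt (1 + ‖v‖ ^ 2) := by
    apply Real.le_sqrt_of_sq_le
    linarith
  rw [norm_smul, norm_inv, Real.norm_of_nonneg h1.le, inv_mul_le_iff₀ h1]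
  linarith

/-- a global smooth solution of the truncated system -/
structure TruncSol (G : R3 → R3 → R3 → R3) (f₀ : R3 → R3 → ℝ) (E₀ B₀ : R3 → R3)
    (f : ℝ → R3 → R3 → ℝ) (E B : ℝ → R3 → R3) : Prop where
  fs : ContDiff ℝ ∞ (fun p : ℝ × R3 × R3 => f p.1 p.2.1 p.2.2)
  Es : ContDiff ℝ ∞ (fun p : ℝ × R3 => E p.1 p.2)
  Bs : ContDiff ℝ ∞ (fun p : ℝ × R3 => B p.1 p.2)
  f0 : f 0 = f₀
  E0 : E 0 = E₀
  B0 : B 0 = B₀
  vlasov : ∀ t x v, deriv (fun s => f s x v) t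
      + ∑ i : Fin 3, relVel v i * pderiv (fun y => f t y v) i x
      + ∑ i : Fin 3, G v (E t x) (B t x) i * pderiv (fun w => f t x w) i v = 0
  amp : ∀ t x (i : Fin 3), deriv (fun s => E s x i) t - curl3 (B t) x i
      = - currentDensity f t x i
  far : ∀ t x (i : Fin 3), deriv (fun s => B s x i) t + curl3 (E t) x i = 0
  gauss : ∀ t x, div3 (E t) x = chargeDensity f t x
  nomon : ∀ t x, div3 (B t) x = 0
  supp : ∀ T : ℝ, ∃ R : ℝ, ∀ t ∈ Icc (-T) T, ∀ x v : R3, (R < ‖x‖ ∨ R < ‖v‖) → f t x v = 0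
  bdE : ∀ T : ℝ, ∃ C : ℝ, ∀ t ∈ Icc (-T) T, ∀ x : R3, ‖E t x‖ ≤ C
  bdB : ∀ T : ℝ, ∃ C : ℝ, ∀ t ∈ Icc (-T) T, ∀ x : R3, ‖B t x‖ ≤ C

lemma compact_sub {X : Type} [NormedAddCommGroup X] {K : Set (ℝ × X)} (hK : IsCompact K) :
    ∃ T : ℝ, ∀ p ∈ K, p.1 ∈ Icc (-T) T := by
  obtain ⟨T, hT⟩ := hK.isBounded.exists_norm_le
  refine ⟨T, fun p hp => ?_⟩
  have h1 : |p.1| ≤ T := (norm_fst_le p).trans (hT p hp)
  exact abs_le.1 h1

/-- dominated convergence for momentum integrals -/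
lemma tendsto_moment {Y : Type} [NormedAddCommGroup Y] [NormedSpace ℝ Y] [CompleteSpace Y]
    (g : ℕ → R3 → ℝ) (g' : R3 → ℝ) (w : R3 → Y) (hw : Continuous w) (hw1 : ∀ v, ‖w v‖ ≤ 1)
    (hg : ∀ n, Continuous (g n)) (C R : ℝ) (hC : ∀ n v, |g n v| ≤ C)
    (hR : ∀ n v, R < ‖v‖ → g n v = 0) (hlim : ∀ v, Tendsto (fun n => g n v) atTop (𝓝 (g' v))) :
    Tendsto (fun n => ∫ v, g n v • w v) atTop (𝓝 (∫ v, g' v • w v)) := by
  refine tendsto_integral_of_dominated_convergence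
    (fun v => (Metric.closedBall (0 : R3) R).indicator (fun _ => C) v) (fun n => ?_) ?_ (fun n => ?_) ?_
  · exact ((hg n).smul hw).aestronglyMeasurable
  · rw [integrable_indicator_iff Metric.isClosed_closedBall.measurableSet]
    exact continuousOn_const.integrableOn_compact (isCompact_closedBall _ _)
  · refine Eventually.of_forall (fun v => ?_)
    by_cases hv : R < ‖v‖
    · rw [hR n v hv, zero_smul, norm_zero, indicator_of_notMem]
      simpa using hv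
    · rw [indicator_of_mem (by simpa using hv), norm_smul]
      have h1 := hC n v
      have h2 := hw1 v
      calc ‖g n v‖ * ‖w v‖ ≤ |g n v| * 1 := by
            rw [Real.norm_eq_abs]; gcongr
        _ ≤ C := by linarith
  · exact Eventually.of_forall (fun v => (hlim v).smul_const _)

theorem exists_truncSol (hG : TruncForce P G) (hS3 : SLim (ℝ × R3 × R3) ℝ) (hS2 : SLim (ℝ × R3) R3)
    (h : PicSeq G f₀ E₀ B₀ f E B) :
    ∃ (f' : ℝ → R3 → R3 → ℝ) (E' B' : ℝ → R3 → R3), TruncSol G f₀ E₀ B₀ f' E' B' := by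
  -- pointwise limits
  have hlf : ∀ t x v, ∃ a, Tendsto (fun n => f n t x v) atTop (𝓝 a) := by
    intro t x v
    obtain ⟨u, hu, hu'⟩ := h.conv |t|
    refine exists_lim _ u hu (fun n => ?_)
    rw [Real.norm_eq_abs]
    exact (hu' n t (mem_Icc_abs t) x).2.2 v
  have hlE : ∀ t x, ∃ a, Tendsto (fun n => E n t x) atTop (𝓝 a) := by
    intro t x
    obtain ⟨u, hu, hu'⟩ := h.conv |t|
    exact exists_lim _ u hu (fun n => (hu' n t (mem_Icc_abs t) x).1)
  have hlB : ∀ t x, ∃ a, Tendsto (fun n => B n t x) atTop (𝓝 a) := by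
    intro t x
    obtain ⟨u, hu, hu'⟩ := h.conv |t|
    exact exists_lim _ u hu (fun n => (hu' n t (mem_Icc_abs t) x).2.1)
  choose f' hf' using hlf
  choose E' hE' using hlE
  choose B' hB' using hlB
  refine ⟨f', E', B', ?_⟩
  -- smoothness
  obtain ⟨hfs, hfd⟩ := hS3 (fun n p => f n p.1 p.2.1 p.2.2) (fun p => f' p.1 p.2.1 p.2.2) h.fs
    (by
      intro k K hK
      obtain ⟨T, hT⟩ := compact_sub hK
      obtain ⟨C, hC⟩ := h.bdf T k
      exact ⟨C, fun n p hp => hC n p.1 (hT p hp) p.2.1 p.2.2⟩)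
    (fun p => hf' p.1 p.2.1 p.2.2)
  obtain ⟨hEs, hEd⟩ := hS2 (fun n p => E n p.1 p.2) (fun p => E' p.1 p.2) h.Es
    (by
      intro k K hK
      obtain ⟨T, hT⟩ := compact_sub hK
      obtain ⟨C, hC⟩ := h.bdE T k
      exact ⟨C, fun n p hp => hC n p.1 (hT p hp) p.2⟩)
    (fun p => hE' p.1 p.2)
  obtain ⟨hBs, hBd⟩ := hS2 (fun n p => B n p.1 p.2) (fun p => B' p.1 p.2) h.Bs
    (by
      intro k K hK
      obtain ⟨T, hT⟩ := compact_sub hK
      obtain ⟨C, hC⟩ := h.bdB T k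
      exact ⟨C, fun n p hp => hC n p.1 (hT p hp) p.2⟩)
    (fun p => hB' p.1 p.2)
  have hne : (∞ : WithTop ℕ∞) ≠ 0 := by simp
  have Lf : DLim3 (fun n p => f n p.1 p.2.1 p.2.2) (fun p => f' p.1 p.2.1 p.2.2) :=
    ⟨fun n p => (h.fs n).contDiffAt.differentiableAt hne, fun p => hfs.contDiffAt.differentiableAt hne,
      hfd⟩
  have LE : DLim (fun n p => E n p.1 p.2) (fun p => E' p.1 p.2) :=
    ⟨fun n p => (h.Es n).contDiffAt.differentiableAt hne, fun p => hEs.contDiffAt.differentiableAt hne,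
      hEd⟩
  have LB : DLim (fun n p => B n p.1 p.2) (fun p => B' p.1 p.2) :=
    ⟨fun n p => (h.Bs n).contDiffAt.differentiableAt hne, fun p => hBs.contDiffAt.differentiableAt hne,
      hBd⟩
  have LE1 : DLim (fun n p => E (n + 1) p.1 p.2) (fun p => E' p.1 p.2) :=
    ⟨fun n p => LE.d (n + 1) p, LE.d', fun p => (LE.lim p).comp (tendsto_add_atTop_nat 1)⟩
  have LB1 : DLim (fun n p => B (n + 1) p.1 p.2) (fun p => B' p.1 p.2) :=
    ⟨fun n p => LB.d (n + 1) p, LB.d', fun p => (LB.lim p).comp (tendsto_add_atTop_nat 1)⟩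
  -- moments
  have hmom : ∀ (Y : Type) [NormedAddCommGroup Y] [NormedSpace ℝ Y] [CompleteSpace Y] (w : R3 → Y),
      Continuous w → (∀ v, ‖w v‖ ≤ 1) → ∀ t x,
      Tendsto (fun n => ∫ v, f n t x v • w v) atTop (𝓝 (∫ v, f' t x v • w v)) := by
    intro Y _ _ _ w hw hw1 t x
    obtain ⟨C, hC⟩ := h.bdf |t| 0
    obtain ⟨R, hR⟩ := h.supp |t|
    refine tendsto_moment _ _ w hw hw1 (fun n => ?_) C R (fun n v => ?_) (fun n v hv => ?_)
      (fun v => hf' t x v)
    · exact (h.fs n).continuous.comp (by fun_prop : Continuous fun v : R3 => ((t, x, v) : ℝ × R3 × R3))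
    · have := hC n t (mem_Icc_abs t) x v
      rwa [norm_iteratedFDeriv_zero, Real.norm_eq_abs] at this
    · exact hR n t (mem_Icc_abs t) x v (Or.inr hv)
  refine ⟨hfs, hEs, hBs, ?_, ?_, ?_, ?_, ?_, ?_, ?_, ?_, ?_, ?_, ?_⟩
  · funext x v
    exact tendsto_nhds_unique (hf' 0 x v) (by simp [h.f0])
  · funext x
    refine tendsto_nhds_unique ((hE' 0 x).comp (tendsto_add_atTop_nat 1)) ?_
    simp [Function.comp_def, h.E0]
  · funext x
    refine tendsto_nhds_unique ((hB' 0 x).comp (tendsto_add_atTop_nat 1)) ?_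
    simp [Function.comp_def, h.B0]
  · -- vlasov
    intro t x v
    have e1 : ∀ n, deriv (fun s => f n s x v) t
        = fderiv ℝ (fun p : ℝ × R3 × R3 => f n p.1 p.2.1 p.2.2) (t, x, v) (1, 0, 0) :=
      fun n => (hasDerivAt_t3 (F := fun p : ℝ × R3 × R3 => f n p.1 p.2.1 p.2.2) (Lf.d n (t, x, v))).deriv
    have e1' : deriv (fun s => f' s x v) t
        = fderiv ℝ (fun p : ℝ × R3 × R3 => f' p.1 p.2.1 p.2.2) (t, x, v) (1, 0, 0) :=
      (hasDerivAt_t3 (F := fun p : ℝ × R3 × R3 => f' p.1 p.2.1 p.2.2) (Lf.d' (t, x, v))).deriv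
    have e2 : ∀ n (i : Fin 3), pderiv (fun y => f n t y v) i x
        = fderiv ℝ (fun p : ℝ × R3 × R3 => f n p.1 p.2.1 p.2.2) (t, x, v)
          (0, EuclideanSpace.single i 1, 0) :=
      fun n i => pderiv_x3 (F := fun p : ℝ × R3 × R3 => f n p.1 p.2.1 p.2.2) (Lf.d n (t, x, v)) i
    have e2' : ∀ (i : Fin 3), pderiv (fun y => f' t y v) i x
        = fderiv ℝ (fun p : ℝ × R3 × R3 => f' p.1 p.2.1 p.2.2) (t, x, v)
          (0, EuclideanSpace.single i 1, 0) :=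
      fun i => pderiv_x3 (F := fun p : ℝ × R3 × R3 => f' p.1 p.2.1 p.2.2) (Lf.d' (t, x, v)) i
    have e3 : ∀ n (i : Fin 3), pderiv (fun w => f n t x w) i v
        = fderiv ℝ (fun p : ℝ × R3 × R3 => f n p.1 p.2.1 p.2.2) (t, x, v)
          (0, 0, EuclideanSpace.single i 1) :=
      fun n i => pderiv_v3 (F := fun p : ℝ × R3 × R3 => f n p.1 p.2.1 p.2.2) (Lf.d n (t, x, v)) i
    have e3' : ∀ (i : Fin 3), pderiv (fun w => f' t x w) i v
        = fderiv ℝ (fun p : ℝ × R3 × R3 => f' p.1 p.2.1 p.2.2) (t, x, v)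
          (0, 0, EuclideanSpace.single i 1) :=
      fun i => pderiv_v3 (F := fun p : ℝ × R3 × R3 => f' p.1 p.2.1 p.2.2) (Lf.d' (t, x, v)) i
    have hGc : Continuous fun q : R3 × R3 => G v q.1 q.2 :=
      hG.smooth.continuous.comp (by fun_prop : Continuous fun q : R3 × R3 => ((v, q.1, q.2) : R3 × R3 × R3))
    have hGlim : ∀ i : Fin 3, Tendsto (fun n => G v (E n t x) (B n t x) i) atTop
        (𝓝 (G v (E' t x) (B' t x) i)) := by
      intro i
      have h1 := (hGc.tendsto (E' t x, B' t x)).comp ((hE' t x).prodMk_nhds (hB' t x))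
      exact ((EuclideanSpace.proj (𝕜 := ℝ) i : R3 →L[ℝ] ℝ).continuous.tendsto _).comp h1
    have hlim := ((tendsto_apply3 Lf (t, x, v) (1, 0, 0)).add
      (tendsto_finsetSum Finset.univ (fun (i : Fin 3) _ =>
        (tendsto_apply3 Lf (t, x, v) (0, EuclideanSpace.single i 1, 0)).const_mul (relVel v i)))).add
      (tendsto_finsetSum Finset.univ (fun (i : Fin 3) _ =>
        (hGlim i).mul (tendsto_apply3 Lf (t, x, v) (0, 0, EuclideanSpace.single i 1))))
    rw [e1']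
    simp_rw [e2', e3']
    refine tendsto_nhds_unique hlim ?_
    have h0 : ∀ n, fderiv ℝ (fun p : ℝ × R3 × R3 => f n p.1 p.2.1 p.2.2) (t, x, v) (1, 0, 0)
        + ∑ i : Fin 3, relVel v i * fderiv ℝ (fun p : ℝ × R3 × R3 => f n p.1 p.2.1 p.2.2) (t, x, v)
          (0, EuclideanSpace.single i 1, 0)
        + ∑ i : Fin 3, G v (E n t x) (B n t x) i
          * fderiv ℝ (fun p : ℝ × R3 × R3 => f n p.1 p.2.1 p.2.2) (t, x, v)
          (0, 0, EuclideanSpace.single i 1) = 0 := by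
      intro n
      have := h.vlasov n t x v
      rw [e1] at this
      simp_rw [e2, e3] at this
      exact this
    simp only [h0]
    exact tendsto_const_nhds
  · -- amp
    intro t x i
    refine tendsto_nhds_unique ((tendsto_deriv LE1 t x i).sub (tendsto_curl LB1 t x i)) ?_
    have h1 : Tendsto (fun n => currentDensity (f n) t x) atTop (𝓝 (currentDensity f' t x)) :=
      hmom R3 relVel continuous_relVel norm_relVel_le t x
    have h2 : Tendsto (fun n => currentDensity (f n) t x i) atTop (𝓝 (currentDensity f' t x i)) :=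
      ((EuclideanSpace.proj (𝕜 := ℝ) i : R3 →L[ℝ] ℝ).continuous.tendsto _).comp h1
    exact h2.neg.congr (fun n => (h.amp n t x i).symm)
  · intro t x i
    refine tendsto_nhds_unique ((tendsto_deriv LB1 t x i).add (tendsto_curl LE1 t x i)) ?_
    exact (tendsto_const_nhds (x := (0 : ℝ))).congr (fun n => (h.far n t x i).symm)
  · intro t x
    refine tendsto_nhds_unique (tendsto_div LE1 t x) ?_
    have h1 := hmom ℝ (fun _ => (1 : ℝ)) continuous_const (fun _ => by simp) t x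
    simp only [smul_eq_mul, mul_one] at h1
    exact h1.congr (fun n => (h.gauss n t x).symm)
  · intro t x
    refine tendsto_nhds_unique (tendsto_div LB1 t x) ?_
    exact (tendsto_const_nhds (x := (0 : ℝ))).congr (fun n => (h.nomon n t x).symm)
  · intro T
    obtain ⟨R, hR⟩ := h.supp T
    refine ⟨R, fun t ht x v hxv => tendsto_nhds_unique (hf' t x v) ?_⟩
    exact (tendsto_const_nhds (x := (0 : ℝ))).congr (fun n => (hR n t ht x v hxv).symm)
  · intro T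
    obtain ⟨C, hC⟩ := h.bdE T 0
    refine ⟨C, fun t ht x => le_of_tendsto (hE' t x).norm (Eventually.of_forall (fun n => ?_))⟩
    have := hC n t ht x
    rwa [norm_iteratedFDeriv_zero] at this
  · intro T
    obtain ⟨C, hC⟩ := h.bdB T 0
    refine ⟨C, fun t ht x => le_of_tendsto (hB' t x).norm (Eventually.of_forall (fun n => ?_))⟩
    have := hC n t ht x
    rwa [norm_iteratedFDeriv_zero] at this

end Main

end Crest.Agent.R106.Lim
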