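import Crest.Agent.R106.Lim

/-!
# Row 106, node LIM (helper775), second half: `TruncEx` from a global solution of the truncated system.
-/

set_option autoImplicit false
open MeasureTheory Set Filter Topology
open scoped ContDiff
open Crest.AnalysisR.VecCalc3 Crest.AnalysisR.PDE.RVM

namespace Crest.Agent.R106.Lim

variable {P : ℝ} {G : R3 → R3 → R3 → R3} {f₀ : R3 → R3 → ℝ} {E₀ B₀ : R3 → R3}
  {f : ℝ → R3 → R3 → ℝ} {E B : ℝ → R3 → R3}

/-- the characteristic vector field -/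
noncomputable def VF (G : R3 → R3 → R3 → R3) (E B : ℝ → R3 → R3) : ℝ → R3 × R3 → R3 × R3 :=
  fun t z => (relVel z.2, G z.2 (E t z.1) (B t z.1))

lemma contDiff_relVel : ContDiff ℝ ∞ relVel := by
  have h0 : ∀ v : R3, (1 + ‖v‖ ^ 2 : ℝ) ≠ 0 := fun v => by positivity
  have h1 : ContDiff ℝ ∞ fun v : R3 => (1 + ‖v‖ ^ 2 : ℝ) := contDiff_const.add (contDiff_norm_sq ℝ)
  have h2 : ContDiff ℝ ∞ fun v : R3 => Real.sqrt (1 + ‖v‖ ^ 2) := h1.sqrt h0
  have h3 : ContDiff ℝ ∞ fun v : R3 => (Real.sqrt (1 + ‖v‖ ^ 2))⁻¹ • v :=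
    (h2.inv (fun v => (Real.sqrt_pos.2 (by positivity : (0 : ℝ) < 1 + ‖v‖ ^ 2)).ne')).smul contDiff_id
  exact h3

lemma VF_bound (hG : TruncForce P G) (h : TruncSol G f₀ E₀ B₀ f E B) (T : ℝ) :
    ∃ C : ℝ, ∀ t ∈ Icc (-T) T, ∀ z, ‖VF G E B t z‖ ≤ C := by
  obtain ⟨C, hC0, hC⟩ := hG.bdd
  obtain ⟨C1, hC1⟩ := h.bdE T
  obtain ⟨C2, hC2⟩ := h.bdB T
  refine ⟨max 1 (C * (C1 + C2)), fun t ht z => ?_⟩
  rw [VF, Prod.norm_def]
  refine max_le ((norm_relVel_le _).trans (le_max_left _ _)) ?_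
  refine ((hC _ _ _).trans ?_).trans (le_max_right _ _)
  have h1 := hC1 t ht z.1
  have h2 := hC2 t ht z.1
  gcongr

lemma good (hG : TruncForce P G) (h : TruncSol G f₀ E₀ B₀ f E B) (a : ℝ) :
    Flow.Good 1 (VF G E B) (-a) a := by
  constructor
  · apply ContDiff.contDiffOn
    apply ContDiff.of_le (n := ∞) _ (by simp)
    unfold VF
    refine ContDiff.prodMk (contDiff_relVel.comp (by fun_prop)) ?_
    refine hG.smooth.comp (ContDiff.prodMk (by fun_prop) (ContDiff.prodMk ?_ ?_))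
    · exact h.Es.comp (ContDiff.prodMk contDiff_fst (by fun_prop))
    · exact h.Bs.comp (ContDiff.prodMk contDiff_fst (by fun_prop))
  · intro c d hc hd
    obtain ⟨C, hC⟩ := VF_bound hG h (max |c| |d|)
    refine ⟨C, fun t ht z => hC t ⟨?_, ?_⟩ z⟩
    · have := le_max_left |c| |d|
      have := neg_abs_le c
      linarith [ht.1]
    · have := le_max_right |c| |d|
      have := le_abs_self d
      linarith [ht.2]

/-- `f` is constant along characteristics -/
lemma hasDerivAt_along (h : TruncSol G f₀ E₀ B₀ f E B) {c : ℝ → R3 × R3} {t : ℝ}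
    (hc : HasDerivAt c (VF G E B t (c t)) t) :
    HasDerivAt (fun s => f s (c s).1 (c s).2) 0 t := by
  set F : ℝ × R3 × R3 → ℝ := fun p => f p.1 p.2.1 p.2.2 with hF
  have hd : DifferentiableAt ℝ F (t, c t) := h.fs.contDiffAt.differentiableAt (by simp)
  have h1 : HasDerivAt (fun s => ((s, c s) : ℝ × R3 × R3)) (1, VF G E B t (c t)) t :=
    (hasDerivAt_id t).prodMk hc
  have h2 : HasDerivAt (fun s => F (s, c s)) (fderiv ℝ F (t, c t) (1, VF G E B t (c t))) t :=
    HasFDerivAt.comp_hasDerivAt (l := F) t hd.hasFDerivAt h1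
  have h3 : fderiv ℝ F (t, c t) (1, VF G E B t (c t)) = 0 := by
    have hv := h.vlasov t (c t).1 (c t).2
    have e1 := (hasDerivAt_t3 (F := F) (t := t) (x := (c t).1) (v := (c t).2) hd).deriv
    have e2 := fun i => pderiv_x3 (F := F) (t := t) (x := (c t).1) (v := (c t).2) hd i
    have e3 := fun i => pderiv_v3 (F := F) (t := t) (x := (c t).1) (v := (c t).2) hd i
    simp only [hF] at e1 e2 e3
    rw [e1] at hv
    simp_rw [e2, e3] at hv
    have hsum : ∀ (w : R3), w = ∑ i : Fin 3, w i • EuclideanSpace.single i (1 : ℝ) := by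
      intro w
      ext j
      simp [Finset.sum_apply, Pi.single_apply]
    have hdec : ((1, VF G E B t (c t)) : ℝ × R3 × R3)
        = (1, 0, 0) + ∑ i : Fin 3, relVel (c t).2 i • ((0, EuclideanSpace.single i 1, 0) : ℝ × R3 × R3)
          + ∑ i : Fin 3, G (c t).2 (E t (c t).1) (B t (c t).1) i
            • ((0, 0, EuclideanSpace.single i 1) : ℝ × R3 × R3) := by
      ext1
      · simp [Prod.fst_sum]
      · ext1
        · simp only [VF, Prod.snd_add, Prod.fst_add, Prod.snd_sum, Prod.fst_sum, Prod.smul_snd,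
            Prod.smul_fst, smul_zero, Finset.sum_const_zero, add_zero, zero_add]
          exact hsum _
        · simp only [VF, Prod.snd_add, Prod.snd_sum, Prod.smul_snd,
            smul_zero, Finset.sum_const_zero, zero_add]
          exact hsum _
    rw [hdec, map_add, map_add, map_sum, map_sum]
    simp only [map_smul, smul_eq_mul]
    exact hv
  rw [h3] at h2
  exact h2

lemma const_along (hG : TruncForce P G) (h : TruncSol G f₀ E₀ B₀ f E B) {a s t : ℝ}
    (hs : s ∈ Ioo (-a) a) (ht : t ∈ Ioo (-a) a) (z : R3 × R3) :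
    f t z.1 z.2 = f s (Flow.Φ (VF G E B) (-a) a s t z).1 (Flow.Φ (VF G E B) (-a) a s t z).2 := by
  have hg := good hG h a
  have hI : ∀ r ∈ uIcc t s, r ∈ Ioo (-a) a := by
    intro r hr
    rw [mem_uIcc] at hr
    rcases hr with hr | hr
    · exact ⟨ht.1.trans_le hr.1, hr.2.trans_lt hs.2⟩
    · exact ⟨hs.1.trans_le hr.1, hr.2.trans_lt ht.2⟩
  have h4 := (convex_uIcc t s).norm_image_sub_le_of_norm_hasDerivWithin_le (C := 0)
    (f := fun r => f r (Flow.Φ (VF G E B) (-a) a r t z).1 (Flow.Φ (VF G E B) (-a) a r t z).2)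
    (f' := fun _ => 0)
    (fun r hr => (hasDerivAt_along h (Flow.hasDerivAt_Φ hg (hI r hr) ht z)).hasDerivWithinAt)
    (fun r _ => by simp) left_mem_uIcc right_mem_uIcc
  rw [zero_mul] at h4
  have h5 := norm_le_zero_iff.1 h4
  have h6 : Flow.Φ (VF G E B) (-a) a t t z = z := Flow.Φ_self hg ht z
  rw [h6] at h5
  linarith [sub_eq_zero.1 h5]

lemma growth (hG : TruncForce P G) (h : TruncSol G f₀ E₀ B₀ f E B) (T : ℝ) :
    ∃ C : ℝ, ∀ s t m : ℝ, 0 ≤ s → s ≤ t → t ≤ T → (∀ x v : R3, m < ‖v‖ → f s x v = 0) →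
      ∀ x v : R3, m + C * (t - s) < ‖v‖ → f t x v = 0 := by
  obtain ⟨C, hC⟩ := VF_bound hG h |T|
  refine ⟨C, fun s t m hs hst htT hm x v hv => ?_⟩
  have hT0 : 0 ≤ T := hs.trans (hst.trans htT)
  have hsa : s ∈ Ioo (-(|T| + 1)) (|T| + 1) := by
    rw [abs_of_nonneg hT0]; constructor <;> linarith
  have hta : t ∈ Ioo (-(|T| + 1)) (|T| + 1) := by
    rw [abs_of_nonneg hT0]; constructor <;> linarith
  rw [show f t x v = f t ((x, v) : R3 × R3).1 ((x, v) : R3 × R3).2 from rfl,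
    const_along hG h hsa hta (x, v)]
  apply hm
  have hb := Flow.norm_Φ_sub_le (good hG h (|T| + 1)) hsa hta (C := C) (fun r hr z => by
    refine hC r ?_ z
    rw [uIcc_comm, uIcc_of_le hst] at hr
    rw [abs_of_nonneg hT0]
    constructor <;> linarith [hr.1, hr.2]) (x, v)
  have h1 : ‖(Flow.Φ (VF G E B) (-(|T| + 1)) (|T| + 1) s t (x, v)).2 - v‖ ≤ C * (t - s) := by
    have h2 := norm_snd_le (Flow.Φ (VF G E B) (-(|T| + 1)) (|T| + 1) s t (x, v) - (x, v))
    rw [Prod.snd_sub] at h2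
    rw [abs_of_nonpos (show s - t ≤ 0 by linarith), neg_sub] at hb
    exact h2.trans hb
  have h3 : ‖v‖ ≤ ‖(Flow.Φ (VF G E B) (-(|T| + 1)) (|T| + 1) s t (x, v)).2‖
      + ‖(Flow.Φ (VF G E B) (-(|T| + 1)) (|T| + 1) s t (x, v)).2 - v‖ := by
    have := norm_sub_le (Flow.Φ (VF G E B) (-(|T| + 1)) (|T| + 1) s t (x, v)).2
      ((Flow.Φ (VF G E B) (-(|T| + 1)) (|T| + 1) s t (x, v)).2 - v)
    simpa using this
  linarith

lemma continuous_current (h : TruncSol G f₀ E₀ B₀ f E B) :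
    Continuous (fun p : ℝ × R3 => currentDensity f p.1 p.2) := by
  have hne : (∞ : WithTop ℕ∞) ≠ 0 := by simp
  have hcE : ∀ q : ℝ × R3, Continuous fun p : ℝ × R3 => fderiv ℝ (fun p : ℝ × R3 => E p.1 p.2) p q :=
    fun q => (h.Es.continuous_fderiv hne).clm_apply continuous_const
  have hcB : ∀ q : ℝ × R3, Continuous fun p : ℝ × R3 => fderiv ℝ (fun p : ℝ × R3 => B p.1 p.2) p q :=
    fun q => (h.Bs.continuous_fderiv hne).clm_apply continuous_const
  have hpr : ∀ i : Fin 3, Continuous fun w : R3 => w i :=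
    fun i => (EuclideanSpace.proj (𝕜 := ℝ) i : R3 →L[ℝ] ℝ).continuous
  have hdE : ∀ p, DifferentiableAt ℝ (fun p : ℝ × R3 => E p.1 p.2) p :=
    fun p => h.Es.contDiffAt.differentiableAt hne
  have hdB : ∀ p, DifferentiableAt ℝ (fun p : ℝ × R3 => B p.1 p.2) p :=
    fun p => h.Bs.contDiffAt.differentiableAt hne
  have hcurl : ∀ i : Fin 3, Continuous fun p : ℝ × R3 => curl3 (B p.1) p.2 i := by
    have hp : ∀ i j : Fin 3, Continuous fun p : ℝ × R3 => pderiv (fun y => B p.1 y j) i p.2 := by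
      intro i j
      have : (fun p : ℝ × R3 => pderiv (fun y => B p.1 y j) i p.2) = fun p : ℝ × R3 =>
          (fderiv ℝ (fun p : ℝ × R3 => B p.1 p.2) p (0, EuclideanSpace.single i 1)) j := by
        funext p
        exact pderiv_x2 (F := fun p : ℝ × R3 => B p.1 p.2) (t := p.1) (x := p.2) (hdB _) i j
      rw [this]
      exact (hpr j).comp (hcB _)
    intro i
    fin_cases i
    · change Continuous fun p : ℝ × R3 => pderiv (fun y => B p.1 y 2) 1 p.2 - pderiv (fun y => B p.1 y 1) 2 p.2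
      exact (hp 1 2).sub (hp 2 1)
    · change Continuous fun p : ℝ × R3 => pderiv (fun y => B p.1 y 0) 2 p.2 - pderiv (fun y => B p.1 y 2) 0 p.2
      exact (hp 2 0).sub (hp 0 2)
    · change Continuous fun p : ℝ × R3 => pderiv (fun y => B p.1 y 1) 0 p.2 - pderiv (fun y => B p.1 y 0) 1 p.2
      exact (hp 0 1).sub (hp 1 0)
  have hdt : ∀ i : Fin 3, Continuous fun p : ℝ × R3 => deriv (fun s => E s p.2 i) p.1 := by
    intro i
    have : (fun p : ℝ × R3 => deriv (fun s => E s p.2 i) p.1) = fun p : ℝ × R3 =>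
        (fderiv ℝ (fun p : ℝ × R3 => E p.1 p.2) p (1, 0)) i := by
      funext p
      exact (hasDerivAt_t2 (F := fun p : ℝ × R3 => E p.1 p.2) (t := p.1) (x := p.2) (hdE _) i).deriv
    rw [this]
    exact (hpr i).comp (hcE _)
  have hcoord : ∀ i : Fin 3, Continuous fun p : ℝ × R3 => currentDensity f p.1 p.2 i := by
    intro i
    have : (fun p : ℝ × R3 => currentDensity f p.1 p.2 i)
        = fun p : ℝ × R3 => curl3 (B p.1) p.2 i - deriv (fun s => E s p.2 i) p.1 := by
      funext p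
      have := h.amp p.1 p.2 i
      linarith
    rw [this]
    exact (hcurl i).sub (hdt i)
  have h9 : Continuous fun p : ℝ × R3 => (EuclideanSpace.equiv (Fin 3) ℝ) (currentDensity f p.1 p.2) :=
    continuous_pi hcoord
  have h10 := (EuclideanSpace.equiv (Fin 3) ℝ).symm.continuous.comp h9
  simpa [Function.comp_def] using h10

/-- **LIM**: the standard part of row 106 ends here. -/
theorem truncEx (hPic : PicEx) (hS3 : SLim (ℝ × R3 × R3) ℝ) (hS2 : SLim (ℝ × R3) R3)
    (hL2 : L2Clause) : TruncEx := by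
  intro f₀ E₀ B₀ hadm P hP
  obtain ⟨G, hG, hex⟩ := hPic P hP
  obtain ⟨fn, En, Bn, hseq⟩ := hex f₀ E₀ B₀ hadm
  obtain ⟨f, E, B, h⟩ := exists_truncSol hG hS3 hS2 hseq
  refine ⟨f, E, B, h.fs, h.Es, h.Bs, h.f0, h.E0, h.B0, ?_, ?_, ?_, growth hG h⟩
  · intro t _ hsup x
    refine ⟨fun v => ?_, fun i => h.amp t x i, fun i => h.far t x i, h.gauss t x, h.nomon t x⟩
    have hv := h.vlasov t x v
    rcases le_or_gt ‖v‖ P with hvP | hvP
    · rw [hG.agree v _ _ hvP] at hv
      simpa using hv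
    · -- everything vanishes near `v`
      have hopen : {w : R3 | P < ‖w‖} ∈ 𝓝 v := (isOpen_lt continuous_const continuous_norm).mem_nhds hvP
      have hx : ∀ i : Fin 3, pderiv (fun y => f t y v) i x = 0 := by
        intro i
        have : (fun y => f t y v) = fun _ => 0 := funext fun y => hsup y v hvP
        rw [this, pderiv]
        simp
      have hw : ∀ i : Fin 3, pderiv (fun w => f t x w) i v = 0 := by
        intro i
        have : (fun w => f t x w) =ᶠ[𝓝 v] fun _ => (0 : ℝ) := by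
          filter_upwards [hopen] with w hw using hsup x w hw
        rw [pderiv, this.fderiv_eq]
        simp
      simp only [hx, hw, mul_zero, Finset.sum_const_zero, add_zero] at hv ⊢
      exact hv
  · intro T
    obtain ⟨R, hR⟩ := h.supp |T|
    refine ⟨R, fun t ht x v hxv => hR t ⟨?_, ?_⟩ x v hxv⟩
    · exact (neg_nonpos.2 (abs_nonneg T)).trans ht.1
    · exact ht.2.trans (le_abs_self T)
  · intro T
    refine hL2 T E B (currentDensity f) (h.Es.of_le (by simp)).contDiffOn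
      (h.Bs.of_le (by simp)).contDiffOn (continuous_current h).continuousOn ?_
      (fun t _ _ x i => h.amp t x i) (fun t _ _ x i => h.far t x i) ?_ ?_
    · intro T' h0 _
      obtain ⟨R, hR⟩ := h.supp T'
      refine ⟨R, fun t ht x hx => ?_⟩
      have : ∀ v, f t x v = 0 := fun v => hR t ⟨by linarith [ht.1], ht.2⟩ x v (Or.inl hx)
      simp [currentDensity, this]
    · rw [h.E0]; exact hadm.2.2.2.2.2.2.1
    · rw [h.B0]; exact hadm.2.2.2.2.2.2.2.1

end Crest.Agent.R106.Lim
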