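import Crest.Agent.R106.MaxS
import Crest.Agent.R106.KirWav
import Crest.Agent.R106.BddAux
import Crest.Agent.R106.StdIface

/-!
# Row 106, node MAX (`Std.Max`): the linear Maxwell system
-/

set_option autoImplicit false
set_option linter.unusedSimpArgs false

open MeasureTheory Set Metric Filter Topology
open scoped ContDiff
open Crest.AnalysisR.VecCalc3
open Crest.Agent.R106.Kir

noncomputable section

namespace Crest.Agent.R106.Max

theorem sop_eq_add (g h : R3 → ℝ) (hg : Continuous g) (hh : Continuous h) (t : ℝ) (x : R3) :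
    Sop (fun y => g y + h y) t x = Sop g t x + Sop h t x :=
  Crest.Agent.R106.Max.Sop_add hg hh t x

theorem duhOps : DuhOps Kir.W where
  W_smooth h hh := js_W hh
  W_zero h _ x := Kir.W_zero h x
  W_add g h hg hh t x := Kir.W_add hg hh t x
  W_smul c h _ t x := Kir.W_const_mul c h t x
  W_dx h hh i t x := Kir.pderiv_W hh t i x
  W_dt h hh t x := (Kir.deriv_W hh t x).trans (Kir.Wd_eq hh t x)
  W_wave h hh t x := by
    have h1 := Kir.wave_W hh t x
    have h2 : ∑ i : Fin 3, dx i (dx i (Kir.W h)) t x = lap (fun y => Kir.W h t y) x := rfl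
    rw [h2]
    show deriv (fun s => deriv (fun s' => Kir.W h s' x) s) t = _
    linarith

theorem ops : WaveOps Sop Kir.W := waveOps duhOps

/-! ### supports -/

/-- bounded support in `x` on slabs -/
def Sp (u : ℝ → R3 → ℝ) : Prop :=
  ∀ T : ℝ, ∃ R : ℝ, ∀ t : ℝ, |t| ≤ T → ∀ x : R3, R < ‖x‖ → u t x = 0

theorem Sp.W {h : ℝ → R3 → ℝ} (hs : Sp h) : Sp (Kir.W h) := by
  intro T
  obtain ⟨R, hR⟩ := hs T
  refine ⟨R + T, fun t ht x hx => ?_⟩
  have h1 : Kir.W h t x = Kir.W (fun _ _ => (0 : ℝ)) t x := by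
    refine Kir.W_congr fun τ hτ y hy => ?_
    have h2 : |τ| ≤ |t| := by
      rcases le_total 0 t with h | h
      · rw [uIcc_of_le h] at hτ
        rw [abs_of_nonneg h, abs_of_nonneg hτ.1]; exact hτ.2
      · rw [uIcc_of_ge h] at hτ
        rw [abs_of_nonpos h, abs_of_nonpos hτ.2]; linarith [hτ.1]
    have h3 : |t - τ| ≤ |t| := by
      rcases le_total 0 t with h | h
      · rw [uIcc_of_le h] at hτ
        rw [abs_of_nonneg h, abs_of_nonneg (by linarith [hτ.2])]; linarith [hτ.1]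
      · rw [uIcc_of_ge h] at hτ
        rw [abs_of_nonpos h, abs_of_nonpos (by linarith [hτ.1])]; linarith [hτ.2]
    refine hR τ (h2.trans ht) y ?_
    have h4 : ‖x‖ ≤ ‖y‖ + ‖y - x‖ := by
      have := norm_sub_le y (y - x)
      simpa using this
    rw [hy] at h4
    linarith
  rw [h1]
  simp [Kir.W, Kir.Sop, Kir.Mn]

theorem Sp.dt {u : ℝ → R3 → ℝ} (hs : Sp u) : Sp (dt u) := by
  intro T
  obtain ⟨R, hR⟩ := hs (T + 1)
  refine ⟨R, fun t ht x hx => ?_⟩
  have h1 : (fun s => u s x) =ᶠ[𝓝 t] fun _ => (0 : ℝ) := by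
    have h2 : {s : ℝ | |s| < T + 1} ∈ 𝓝 t :=
      (isOpen_lt continuous_abs continuous_const).mem_nhds (by show |t| < T + 1; linarith)
    filter_upwards [h2] with s hs
    exact hR s (le_of_lt hs) x hx
  show deriv (fun s => u s x) t = 0
  rw [h1.deriv_eq]
  simp

theorem Sp.dx {u : ℝ → R3 → ℝ} (hs : Sp u) (i : Fin 3) : Sp (dx i u) := by
  intro T
  obtain ⟨R, hR⟩ := hs T
  refine ⟨R, fun t ht x hx => ?_⟩
  have h1 : u t =ᶠ[𝓝 x] fun _ => (0 : ℝ) := by
    have h2 : {y : R3 | R < ‖y‖} ∈ 𝓝 x :=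
      (isOpen_lt continuous_const continuous_norm).mem_nhds hx
    filter_upwards [h2] with y hy
    exact hR t ht y hy
  show fderiv ℝ (u t) x _ = 0
  rw [h1.fderiv_eq]
  simp

theorem sb_of_supp {u : ℝ → R3 → ℝ} (hu : Sm u) (hs : Sp u) : SB u := by
  intro T k
  obtain ⟨C, _, hC⟩ := IterA.exists_bound_of_support (F := fun p : ℝ × R3 => u p.1 p.2) hu
    (fun T => by
      obtain ⟨R, hR⟩ := hs T
      exact ⟨R, fun t x ht hx => hR t ht x hx⟩) k T
  refine ⟨C, fun t ht x => ?_⟩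
  exact (IterA.norm_iteratedFDeriv_slice_le (F := fun p : ℝ × R3 => u p.1 p.2) hu k t x).trans
    (hC t x ht)

/-! ### vector-valued fields from components -/

theorem iter_vec_le {F : R3 → R3} (hF : ContDiff ℝ ∞ F) (k : ℕ) (x : R3) :
    ‖iteratedFDeriv ℝ k F x‖ ≤ ∑ i : Fin 3, ‖iteratedFDeriv ℝ k (fun y => F y i) x‖ := by
  set L : Fin 3 → ℝ →L[ℝ] R3 := fun i =>
    (ContinuousLinearMap.id ℝ ℝ).smulRight (EuclideanSpace.single i (1 : ℝ) : R3) with hL
  have hLn : ∀ i, ‖L i‖ ≤ 1 := by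
    intro i
    refine ContinuousLinearMap.opNorm_le_bound _ zero_le_one fun c => ?_
    simp [hL, norm_smul]
  have e : F = fun y => ∑ i : Fin 3, (L i ∘ fun z => F z i) y := by
    funext y
    ext j
    simp [hL, Finset.sum_apply, Pi.single_apply, Fin.sum_univ_three]
    fin_cases j <;> simp
  have hc : ∀ i : Fin 3, ContDiff ℝ ∞ (fun z => F z i) := fun i => comp_contDiff hF i
  have h1 : iteratedFDeriv ℝ k F x
      = ∑ i : Fin 3, iteratedFDeriv ℝ k (L i ∘ fun z => F z i) x := by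
    conv_lhs => rw [e]
    exact iteratedFDeriv_fun_sum_apply (𝕜 := ℝ) (u := (Finset.univ : Finset (Fin 3))) (n := k)
      (f := fun i => L i ∘ fun z => F z i)
      (fun j _ => (((L j).contDiff.comp (hc j)).of_le (by exact_mod_cast le_top)).contDiffAt)
  rw [h1]
  refine (norm_sum_le _ _).trans (Finset.sum_le_sum fun i _ => ?_)
  have h2 := (L i).norm_iteratedFDeriv_comp_left (f := fun z => F z i) (x := x) (N := ∞) (n := k)
    (hc i).contDiffAt (by exact_mod_cast le_top)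
  refine h2.trans ?_
  calc _ ≤ 1 * ‖iteratedFDeriv ℝ k (fun y => F y i) x‖ :=
        mul_le_mul_of_nonneg_right (hLn i) (norm_nonneg _)
    _ = _ := one_mul _

theorem sf_of_comp {E : ℝ → R3 → R3} (hE : ContDiff ℝ ∞ (fun p : ℝ × R3 => E p.1 p.2))
    (hb : ∀ i : Fin 3, SB (fun t x => E t x i)) : Std.SF E := by
  refine ⟨hE, fun T k => ?_⟩
  choose C hC using fun i => hb i T k
  refine ⟨∑ i : Fin 3, C i, fun t ht x => ?_⟩
  have hs : ContDiff ℝ ∞ (E t) := hE.comp (contDiff_prodMk_right t)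
  exact (iter_vec_le hs k x).trans (Finset.sum_le_sum fun i _ => hC i t ht x)

theorem SB.neg {u : ℝ → R3 → ℝ} (hu : Sm u) (h1 : SB u) : SB (fun t x => - u t x) := by
  have := SB.smul (c := fun _ => (-1 : ℝ)) hu (fun T => ⟨1, fun _ _ => by simp⟩) h1
  simpa using this

theorem Sm.neg {u : ℝ → R3 → ℝ} (hu : Sm u) : Sm (fun t x => - u t x) := ContDiff.neg hu

theorem Sm.add {u v : ℝ → R3 → ℝ} (hu : Sm u) (hv : Sm v) : Sm (fun t x => u t x + v t x) :=
  ContDiff.add hu hv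

theorem SB.sub {u v : ℝ → R3 → ℝ} (hu : Sm u) (hv : Sm v) (h1 : SB u) (h2 : SB v) :
    SB (fun t x => u t x - v t x) := by
  have := SB.add hu hv.neg h1 (h2.neg hv)
  simpa [sub_eq_add_neg] using this

theorem Sm.sub {u v : ℝ → R3 → ℝ} (hu : Sm u) (hv : Sm v) : Sm (fun t x => u t x - v t x) :=
  ContDiff.sub hu hv

/-- **node MAX** -/
theorem max : Std.Max := by
  intro ρ j E₀ B₀ hρ hj hsupp hcont hE hB hbd hdE hdB
  obtain ⟨h1, h2, h3, h4, h5⟩ := maxwell_solve ops hE hB hρ hj hcont hdE hdB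
  have hbE : ∀ n : ℕ, ∃ C : ℝ, ∀ x, ‖iteratedFDeriv ℝ n E₀ x‖ ≤ C := fun n => by
    obtain ⟨C, hC⟩ := hbd n
    exact ⟨C, fun x => (hC x).1⟩
  have hbB : ∀ n : ℕ, ∃ C : ℝ, ∀ x, ‖iteratedFDeriv ℝ n B₀ x‖ ≤ C := fun n => by
    obtain ⟨C, hC⟩ := hbd n
    exact ⟨C, fun x => (hC x).2⟩
  have hjs : ∀ i : Fin 3, Sm (fun s y => j s y i) := fun i => comp_contDiff hj i
  have hjsp : ∀ i : Fin 3, Sp (fun s y => j s y i) := by
    intro i T
    obtain ⟨R, hR⟩ := hsupp T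
    refine ⟨R, fun t ht x hx => ?_⟩
    have := (hR t ht x hx).2
    simp [this]
  have hρsp : Sp ρ := by
    intro T
    obtain ⟨R, hR⟩ := hsupp T
    exact ⟨R, fun t ht x hx => (hR t ht x hx).1⟩
  have hρs : Sm ρ := hρ
  have cE : ∀ i : Fin 3, ContDiff ℝ ∞ (fun y => E₀ y i) := fun i => comp_contDiff hE i
  have cB : ∀ i : Fin 3, ContDiff ℝ ∞ (fun y => B₀ y i) := fun i => comp_contDiff hB i
  have ccE : ∀ i : Fin 3, ContDiff ℝ ∞ (fun y => curl3 E₀ y i) := by
    intro i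
    have e : (fun y => curl3 E₀ y i) = fun y => pderiv (fun z => E₀ z (i + 2)) (i + 1) y
      - pderiv (fun z => E₀ z (i + 1)) (i + 2) y := by
      funext y; exact curl3_apply E₀ y i
    rw [e]
    exact (pderiv_contDiff (cE _) _).sub (pderiv_contDiff (cE _) _)
  have ccB : ∀ i : Fin 3, ContDiff ℝ ∞ (fun y => curl3 B₀ y i) := by
    intro i
    have e : (fun y => curl3 B₀ y i) = fun y => pderiv (fun z => B₀ z (i + 2)) (i + 1) y
      - pderiv (fun z => B₀ z (i + 1)) (i + 2) y := by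
      funext y; exact curl3_apply B₀ y i
    rw [e]
    exact (pderiv_contDiff (cB _) _).sub (pderiv_contDiff (cB _) _)
  have sW : ∀ h : ℝ → R3 → ℝ, Sm h → Sm (Kir.W h) := fun h hh => js_W hh
  refine ⟨fieldE Sop Kir.W E₀ B₀ ρ j, fieldB Sop Kir.W E₀ B₀ j, ?_, ?_, h3, h4, h5⟩
  · refine sf_of_comp h1 fun i => ?_
    show SB (fun t x => dt (Sop (fun y => E₀ y i)) t x + Sop (fun y => curl3 B₀ y i) t x
      - dt (Kir.W (fun s y => j s y i)) t x - dx i (Kir.W ρ) t x)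
    rw [dt_Sop (cE i)]
    have a1 : Sm (Sdot (fun y => E₀ y i)) := contDiff_Sdot (cE i)
    have a2 : Sm (Sop (fun y => curl3 B₀ y i)) := contDiff_Sop (ccB i)
    have a3 : Sm (dt (Kir.W (fun s y => j s y i))) := Sm.dt (sW _ (hjs i))
    have a4 : Sm (dx i (Kir.W ρ)) := Sm.dx (sW _ hρs) i
    refine SB.sub ((a1.add a2).sub a3) a4 (SB.sub (a1.add a2) a3 (SB.add a1 a2 ?_ ?_) ?_) ?_
    · exact sb_Sdot (cE i) (AB.comp hE hbE i)
    · exact sb_Sop (ccB i) (AB.curl hB hbB i)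
    · exact sb_of_supp a3 (Sp.dt (Sp.W (hjsp i)))
    · exact sb_of_supp a4 (Sp.dx (Sp.W hρsp) i)
  · refine sf_of_comp h2 fun i => ?_
    show SB (fun t x => dt (Sop (fun y => B₀ y i)) t x - Sop (fun y => curl3 E₀ y i) t x
      + (dx (i + 1) (Kir.W (fun s y => j s y (i + 2))) t x
        - dx (i + 2) (Kir.W (fun s y => j s y (i + 1))) t x))
    rw [dt_Sop (cB i)]
    have a1 : Sm (Sdot (fun y => B₀ y i)) := contDiff_Sdot (cB i)
    have a2 : Sm (Sop (fun y => curl3 E₀ y i)) := contDiff_Sop (ccE i)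
    have a3 : Sm (dx (i + 1) (Kir.W (fun s y => j s y (i + 2)))) := Sm.dx (sW _ (hjs _)) _
    have a4 : Sm (dx (i + 2) (Kir.W (fun s y => j s y (i + 1)))) := Sm.dx (sW _ (hjs _)) _
    refine SB.add (a1.sub a2) (a3.sub a4) (SB.sub a1 a2 ?_ ?_) (SB.sub a3 a4 ?_ ?_)
    · exact sb_Sdot (cB i) (AB.comp hB hbB i)
    · exact sb_Sop (ccE i) (AB.curl hE hbE i)
    · exact sb_of_supp a3 (Sp.dx (Sp.W (hjsp _)) _)
    · exact sb_of_supp a4 (Sp.dx (Sp.W (hjsp _)) _)

end Crest.Agent.R106.Max
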