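import Mathlib
import Crest.Prelude.Def_VecCalc3
import Crest.Prelude.Def_VlasovMaxwell

/-!
# Row 106: linear Maxwell solver from the scalar wave propagators (algebra part, K4)

`WaveOps S W` lists the facts about the scalar solution operators `S` (Kirchhoff:
`□ S g = 0, S g 0 = 0, ∂ₜ S g 0 = g`) and `W` (Duhamel: `□ W h = h`, zero data). From it:
`maxwell_solve`: global smooth solutions of the linear Maxwell system on all of `ℝ × R3`.
-/

set_option autoImplicit false
set_option linter.unusedSimpArgs false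
open scoped ContDiff
open Crest.AnalysisR.VecCalc3 Crest.AnalysisR.PDE.RVM

namespace Crest.Agent.R106.Max

/-- jointly smooth scalar field on `ℝ × R3` -/
def Sm (u : ℝ → R3 → ℝ) : Prop := ContDiff ℝ ∞ (fun p : ℝ × R3 => u p.1 p.2)

/-- time derivative -/
noncomputable def dt (u : ℝ → R3 → ℝ) (t : ℝ) (x : R3) : ℝ := deriv (fun s => u s x) t

/-- space derivative -/
noncomputable def dx (i : Fin 3) (u : ℝ → R3 → ℝ) (t : ℝ) (x : R3) : ℝ := pderiv (u t) i x

/-- the facts about the scalar propagators which are used by the Maxwell solver -/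
structure WaveOps (S : (R3 → ℝ) → ℝ → R3 → ℝ) (W : (ℝ → R3 → ℝ) → ℝ → R3 → ℝ) : Prop where
  S_smooth : ∀ g, ContDiff ℝ ∞ g → Sm (S g)
  S_zero : ∀ g, ContDiff ℝ ∞ g → ∀ x, S g 0 x = 0
  S_dt_zero : ∀ g, ContDiff ℝ ∞ g → ∀ x, dt (S g) 0 x = g x
  S_add : ∀ g h, ContDiff ℝ ∞ g → ContDiff ℝ ∞ h →
    ∀ t x, S (fun y => g y + h y) t x = S g t x + S h t x
  S_smul : ∀ (c : ℝ) (g), ContDiff ℝ ∞ g → ∀ t x, S (fun y => c * g y) t x = c * S g t x
  S_dx : ∀ g, ContDiff ℝ ∞ g → ∀ i t x, dx i (S g) t x = S (fun y => pderiv g i y) t x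
  S_wave : ∀ g, ContDiff ℝ ∞ g → ∀ t x,
    dt (dt (S g)) t x = ∑ i : Fin 3, dx i (dx i (S g)) t x
  W_smooth : ∀ h, Sm h → Sm (W h)
  W_zero : ∀ h, Sm h → ∀ x, W h 0 x = 0
  W_add : ∀ g h, Sm g → Sm h → ∀ t x, W (fun s y => g s y + h s y) t x = W g t x + W h t x
  W_smul : ∀ (c : ℝ) (h), Sm h → ∀ t x, W (fun s y => c * h s y) t x = c * W h t x
  W_dx : ∀ h, Sm h → ∀ i t x, dx i (W h) t x = W (dx i h) t x
  W_dt : ∀ h, Sm h → ∀ t x, dt (W h) t x = W (dt h) t x + S (h 0) t x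
  W_wave : ∀ h, Sm h → ∀ t x,
    dt (dt (W h)) t x = h t x + ∑ i : Fin 3, dx i (dx i (W h)) t x

section calculus

variable {u v : ℝ → R3 → ℝ}

theorem Sm.diff (hu : Sm u) : Differentiable ℝ (fun p : ℝ × R3 => u p.1 p.2) :=
  ContDiff.differentiable hu (by simp)

theorem dt_eq (hu : Sm u) (t : ℝ) (x : R3) :
    dt u t x = fderiv ℝ (fun p : ℝ × R3 => u p.1 p.2) (t, x) (1, 0) := by
  have h := (hu.diff (t, x)).hasFDerivAt
  have h2 : HasDerivAt (fun s : ℝ => (s, x)) ((1 : ℝ), (0 : R3)) t :=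
    (hasDerivAt_id t).prodMk (hasDerivAt_const t x)
  have h3 := h.comp_hasDerivAt t h2
  exact h3.deriv

theorem dx_eq (hu : Sm u) (i : Fin 3) (t : ℝ) (x : R3) :
    dx i u t x = fderiv ℝ (fun p : ℝ × R3 => u p.1 p.2) (t, x)
      (0, EuclideanSpace.single i 1) := by
  have h := (hu.diff (t, x)).hasFDerivAt
  have h2 : HasFDerivAt (fun y : R3 => (t, y)) (ContinuousLinearMap.inr ℝ ℝ R3) x :=
    hasFDerivAt_prodMk_right t x
  have h3 := h.comp x h2
  unfold dx pderiv
  rw [show u t = (fun p : ℝ × R3 => u p.1 p.2) ∘ (fun y : R3 => (t, y)) from rfl, h3.fderiv]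
  simp

theorem Sm.dir (hu : Sm u) (a : ℝ × R3) :
    ContDiff ℝ ∞ (fun p : ℝ × R3 => fderiv ℝ (fun p : ℝ × R3 => u p.1 p.2) p a) := by
  have : ContDiff ℝ ∞ (fderiv ℝ (fun p : ℝ × R3 => u p.1 p.2)) :=
    ContDiff.fderiv_right (m := ∞) hu (by simp)
  exact this.clm_apply contDiff_const

theorem Sm.dt (hu : Sm u) : Sm (dt u) := by
  have h := hu.dir (1, 0)
  unfold Sm
  convert h using 2 with p
  exact dt_eq hu p.1 p.2

theorem Sm.dx (hu : Sm u) (i : Fin 3) : Sm (dx i u) := by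
  have h := hu.dir (0, EuclideanSpace.single i 1)
  unfold Sm
  convert h using 2 with p
  exact dx_eq hu i p.1 p.2

/-- mixed second derivatives commute -/
theorem dir_comm (hu : Sm u) (a b : ℝ × R3) (p : ℝ × R3) :
    fderiv ℝ (fun p : ℝ × R3 => fderiv ℝ (fun p : ℝ × R3 => u p.1 p.2) p a) p b
      = fderiv ℝ (fun p : ℝ × R3 => fderiv ℝ (fun p : ℝ × R3 => u p.1 p.2) p b) p a := by
  have hd : Differentiable ℝ (fderiv ℝ (fun p : ℝ × R3 => u p.1 p.2)) :=
    (ContDiff.fderiv_right (m := ∞) hu (by simp)).differentiable (by simp)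
  have key : ∀ a : ℝ × R3, ∀ b : ℝ × R3,
      fderiv ℝ (fun p : ℝ × R3 => fderiv ℝ (fun p : ℝ × R3 => u p.1 p.2) p a) p b
      = fderiv ℝ (fderiv ℝ (fun p : ℝ × R3 => u p.1 p.2)) p b a := by
    intro a b
    have h := (hd p).hasFDerivAt.clm_apply (hasFDerivAt_const a p)
    rw [h.fderiv]
    simp
  rw [key a b, key b a]
  have hs : IsSymmSndFDerivAt ℝ (fun p : ℝ × R3 => u p.1 p.2) p := by
    apply ContDiffAt.isSymmSndFDerivAt (n := ∞) (ContDiff.contDiffAt hu)
    rw [minSmoothness_of_isRCLikeNormedField]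
    exact WithTop.coe_le_coe.2 (le_top : (2 : ℕ∞) ≤ ⊤)
  exact hs.eq b a

theorem dt_dx (hu : Sm u) (i : Fin 3) (t : ℝ) (x : R3) :
    dt (dx i u) t x = dx i (dt u) t x := by
  rw [dt_eq (hu.dx i), dx_eq hu.dt]
  have e1 : (fun p : ℝ × R3 => dx i u p.1 p.2) = (fun p : ℝ × R3 =>
      fderiv ℝ (fun p : ℝ × R3 => u p.1 p.2) p (0, EuclideanSpace.single i 1)) := by
    funext p; exact dx_eq hu i p.1 p.2
  have e2 : (fun p : ℝ × R3 => dt u p.1 p.2) = (fun p : ℝ × R3 =>
      fderiv ℝ (fun p : ℝ × R3 => u p.1 p.2) p (1, 0)) := by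
    funext p; exact dt_eq hu p.1 p.2
  rw [e1, e2]
  exact dir_comm hu _ _ _

theorem dx_dx (hu : Sm u) (i j : Fin 3) (t : ℝ) (x : R3) :
    dx i (dx j u) t x = dx j (dx i u) t x := by
  rw [dx_eq (hu.dx j), dx_eq (hu.dx i)]
  have e1 : ∀ i : Fin 3, (fun p : ℝ × R3 => dx i u p.1 p.2) = (fun p : ℝ × R3 =>
      fderiv ℝ (fun p : ℝ × R3 => u p.1 p.2) p (0, EuclideanSpace.single i 1)) := by
    intro i
    funext p; exact dx_eq hu i p.1 p.2
  rw [e1, e1]
  exact dir_comm hu _ _ _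

theorem Sm.slice (hu : Sm u) (t : ℝ) : ContDiff ℝ ∞ (u t) := by
  have hu' : ContDiff ℝ ∞ (fun p : ℝ × R3 => u p.1 p.2) := hu
  exact hu'.comp (contDiff_prodMk_right t)

theorem Sm.tslice (hu : Sm u) (x : R3) : ContDiff ℝ ∞ (fun t => u t x) := by
  have hu' : ContDiff ℝ ∞ (fun p : ℝ × R3 => u p.1 p.2) := hu
  exact hu'.comp (contDiff_prodMk_left x)

theorem dt_add (hu : Sm u) (hv : Sm v) (t : ℝ) (x : R3) :
    dt (fun s y => u s y + v s y) t x = dt u t x + dt v t x := by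
  unfold dt
  exact deriv_fun_add ((hu.tslice x).differentiable (by simp) t)
    ((hv.tslice x).differentiable (by simp) t)

theorem dt_smul (c : ℝ) (hu : Sm u) (t : ℝ) (x : R3) :
    dt (fun s y => c * u s y) t x = c * dt u t x := by
  unfold dt
  exact deriv_const_mul c ((hu.tslice x).differentiable (by simp) t)

theorem pderiv_add {g h : R3 → ℝ} (hg : ContDiff ℝ ∞ g) (hh : ContDiff ℝ ∞ h) (i : Fin 3)
    (x : R3) : pderiv (fun y => g y + h y) i x = pderiv g i x + pderiv h i x := by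
  unfold pderiv
  rw [fderiv_fun_add (hg.differentiable (by simp) x) (hh.differentiable (by simp) x)]
  rfl

theorem pderiv_smul (c : ℝ) {g : R3 → ℝ} (hg : ContDiff ℝ ∞ g) (i : Fin 3)
    (x : R3) : pderiv (fun y => c * g y) i x = c * pderiv g i x := by
  unfold pderiv
  rw [fderiv_const_mul (hg.differentiable (by simp) x)]
  rfl

theorem pderiv_contDiff {g : R3 → ℝ} (hg : ContDiff ℝ ∞ g) (i : Fin 3) :
    ContDiff ℝ ∞ (fun x => pderiv g i x) := by
  unfold pderiv
  exact (hg.fderiv_right (m := ∞) (by simp)).clm_apply contDiff_const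

end calculus

/-- the module of smooth fields on `ℝ × R3` -/
def FF : Submodule ℝ (ℝ → R3 → ℝ) where
  carrier := {u | Sm u}
  zero_mem' := by
    show ContDiff ℝ ∞ (fun p : ℝ × R3 => (0 : ℝ → R3 → ℝ) p.1 p.2)
    exact contDiff_const
  add_mem' := by
    intro a b ha hb
    have ha' : ContDiff ℝ ∞ (fun p : ℝ × R3 => a p.1 p.2) := ha
    have hb' : ContDiff ℝ ∞ (fun p : ℝ × R3 => b p.1 p.2) := hb
    exact ha'.add hb'
  smul_mem' := by
    intro c a ha
    have ha' : ContDiff ℝ ∞ (fun p : ℝ × R3 => a p.1 p.2) := ha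
    exact ha'.const_smul c

/-- the module of smooth functions on `R3` -/
def GG : Submodule ℝ (R3 → ℝ) where
  carrier := {g | ContDiff ℝ ∞ g}
  zero_mem' := by
    show ContDiff ℝ ∞ (fun _ : R3 => (0 : ℝ))
    exact contDiff_const
  add_mem' := by
    intro a b ha hb
    have ha' : ContDiff ℝ ∞ a := ha
    have hb' : ContDiff ℝ ∞ b := hb
    exact ha'.add hb'
  smul_mem' := by
    intro c a ha
    have ha' : ContDiff ℝ ∞ a := ha
    exact ha'.const_smul c

noncomputable def opT : FF →ₗ[ℝ] FF where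
  toFun u := ⟨dt u.1, Sm.dt u.2⟩
  map_add' u v := by
    ext t x
    exact dt_add u.2 v.2 t x
  map_smul' c u := by
    ext t x
    exact dt_smul c u.2 t x

noncomputable def opX (i : Fin 3) : FF →ₗ[ℝ] FF where
  toFun u := ⟨dx i u.1, Sm.dx u.2 i⟩
  map_add' u v := by
    ext t x
    exact pderiv_add (Sm.slice u.2 t) (Sm.slice v.2 t) i x
  map_smul' c u := by
    ext t x
    exact pderiv_smul c (Sm.slice u.2 t) i x

noncomputable def opY (i : Fin 3) : GG →ₗ[ℝ] GG where
  toFun g := ⟨fun x => pderiv g.1 i x, pderiv_contDiff g.2 i⟩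
  map_add' u v := by
    ext x
    exact pderiv_add u.2 v.2 i x
  map_smul' c u := by
    ext x
    exact pderiv_smul c u.2 i x

/-- evaluation at time `t` -/
def ev (t : ℝ) : FF →ₗ[ℝ] GG where
  toFun u := ⟨u.1 t, Sm.slice u.2 t⟩
  map_add' _ _ := rfl
  map_smul' _ _ := rfl

theorem opT_X (i : Fin 3) (u : FF) : opT (opX i u) = opX i (opT u) := by
  ext t x
  exact dt_dx u.2 i t x

theorem opX_X (i j : Fin 3) (u : FF) : opX i (opX j u) = opX j (opX i u) := by
  ext t x
  exact dx_dx u.2 i j t x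

theorem ev_X (i : Fin 3) (t : ℝ) (u : FF) : ev t (opX i u) = opY i (ev t u) := rfl

section ops

variable {S : (R3 → ℝ) → ℝ → R3 → ℝ} {W : (ℝ → R3 → ℝ) → ℝ → R3 → ℝ}

noncomputable def opS (h : WaveOps S W) : GG →ₗ[ℝ] FF where
  toFun g := ⟨S g.1, h.S_smooth g.1 g.2⟩
  map_add' u v := by
    ext t x
    exact h.S_add u.1 v.1 u.2 v.2 t x
  map_smul' c u := by
    ext t x
    exact h.S_smul c u.1 u.2 t x

noncomputable def opW (h : WaveOps S W) : FF →ₗ[ℝ] FF where
  toFun g := ⟨W g.1, h.W_smooth g.1 g.2⟩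
  map_add' u v := by
    ext t x
    exact h.W_add u.1 v.1 u.2 v.2 t x
  map_smul' c u := by
    ext t x
    exact h.W_smul c u.1 u.2 t x

variable (h : WaveOps S W)

theorem opS_Y (i : Fin 3) (g : GG) : opS h (opY i g) = opX i (opS h g) := by
  ext t x
  exact (h.S_dx g.1 g.2 i t x).symm

theorem opTT_S (g : GG) : opT (opT (opS h g)) =
    opX 0 (opX 0 (opS h g)) + opX 1 (opX 1 (opS h g)) + opX 2 (opX 2 (opS h g)) := by
  ext t x
  have := h.S_wave g.1 g.2 t x
  rw [Fin.sum_univ_three] at this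
  exact this

theorem opW_X (i : Fin 3) (u : FF) : opW h (opX i u) = opX i (opW h u) := by
  ext t x
  exact (h.W_dx u.1 u.2 i t x).symm

theorem opW_T (u : FF) : opW h (opT u) = opT (opW h u) - opS h (ev 0 u) := by
  ext t x
  have := h.W_dt u.1 u.2 t x
  show W (dt u.1) t x = dt (W u.1) t x - S (u.1 0) t x
  linarith

theorem opTT_W (u : FF) : opT (opT (opW h u)) = u +
    (opX 0 (opX 0 (opW h u)) + opX 1 (opX 1 (opW h u)) + opX 2 (opX 2 (opW h u))) := by
  ext t x
  have := h.W_wave u.1 u.2 t x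
  rw [Fin.sum_univ_three] at this
  exact this

theorem ev_S (g : GG) : ev 0 (opS h g) = 0 := by
  ext x
  exact h.S_zero g.1 g.2 x

theorem ev_TS (g : GG) : ev 0 (opT (opS h g)) = g := by
  ext x
  exact h.S_dt_zero g.1 g.2 x

theorem ev_W (u : FF) : ev 0 (opW h u) = 0 := by
  ext x
  exact h.W_zero u.1 u.2 x

theorem ev_TW (u : FF) : ev 0 (opT (opW h u)) = 0 := by
  have h1 := opW_T h u
  have h2 : opT (opW h u) = opW h (opT u) + opS h (ev 0 u) := by rw [h1]; abel
  rw [h2, map_add, ev_W, ev_S, add_zero]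

/-- electric field, component `i`; `e` = data, `cb` = curl of the magnetic data -/
noncomputable def solE (e cb : Fin 3 → GG) (rho : FF) (j : Fin 3 → FF) (i : Fin 3) : FF :=
  opT (opS h (e i)) + opS h (cb i) - opT (opW h (j i)) - opX i (opW h rho)

/-- magnetic field, component `i`; `ce` = curl of the electric data -/
noncomputable def solB (b ce : Fin 3 → GG) (j : Fin 3 → FF) (i : Fin 3) : FF :=
  opT (opS h (b i)) - opS h (ce i) +
    (opX (i + 1) (opW h (j (i + 2))) - opX (i + 2) (opW h (j (i + 1))))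

/-- curl of data -/
noncomputable def cG (b : Fin 3 → GG) (i : Fin 3) : GG :=
  opY (i + 1) (b (i + 2)) - opY (i + 2) (b (i + 1))

theorem ampere (e b : Fin 3 → GG) (rho : FF) (j : Fin 3 → FF)
    (hc : opT rho + (opX 0 (j 0) + opX 1 (j 1) + opX 2 (j 2)) = 0)
    (he : opY 0 (e 0) + opY 1 (e 1) + opY 2 (e 2) = ev 0 rho) (i : Fin 3) :
    opT (solE h e (cG b) rho j i) -
      (opX (i + 1) (solB h b (cG e) j (i + 2)) - opX (i + 2) (solB h b (cG e) j (i + 1)))
      = - j i := by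
  have hT : opW h (opT rho) + (opX 0 (opW h (j 0)) + opX 1 (opW h (j 1)) + opX 2 (opW h (j 2)))
      = 0 := by
    have := congrArg (opW h) hc
    simpa only [map_add, opW_X, map_zero] using this
  rw [opW_T] at hT
  have hS : opX 0 (opS h (e 0)) + opX 1 (opS h (e 1)) + opX 2 (opS h (e 2))
      = opS h (ev 0 rho) := by
    rw [← he]; simp only [map_add, opS_Y]
  have hT' : ∀ k : Fin 3, opX k (opT (opW h rho)) - opX k (opS h (ev 0 rho)) +
      (opX k (opX 0 (opW h (j 0))) + opX k (opX 1 (opW h (j 1))) + opX k (opX 2 (opW h (j 2))))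
      = 0 := by
    intro k
    have := congrArg (opX k) hT
    simpa only [map_add, map_sub, map_zero] using this
  have hS' : ∀ k : Fin 3, opX k (opX 0 (opS h (e 0))) + opX k (opX 1 (opS h (e 1))) +
      opX k (opX 2 (opS h (e 2))) = opX k (opS h (ev 0 rho)) := by
    intro k
    have := congrArg (opX k) hS
    simpa only [map_add] using this
  have hk := hT' i
  have hs := hS' i
  fin_cases i
  · simp only [solE, solB, cG, Fin.zero_eta, Fin.isValue, Fin.mk_one, Fin.reduceFinMk, zero_add,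
      show (1 : Fin 3) + 1 = 2 from rfl, show (1 : Fin 3) + 2 = 0 from rfl,
      show (2 : Fin 3) + 1 = 0 from rfl, show (2 : Fin 3) + 2 = 1 from rfl,
      map_add, map_sub, opTT_S, opTT_W, opS_Y, opT_X, opX_X 1 0, opX_X 2 0, opX_X 2 1] at hk hs ⊢
    linear_combination (norm := module) hs - hk
  · simp only [solE, solB, cG, Fin.zero_eta, Fin.isValue, Fin.mk_one, Fin.reduceFinMk, zero_add,
      show (1 : Fin 3) + 1 = 2 from rfl, show (1 : Fin 3) + 2 = 0 from rfl,
      show (2 : Fin 3) + 1 = 0 from rfl, show (2 : Fin 3) + 2 = 1 from rfl,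
      map_add, map_sub, opTT_S, opTT_W, opS_Y, opT_X, opX_X 1 0, opX_X 2 0, opX_X 2 1] at hk hs ⊢
    linear_combination (norm := module) hs - hk
  · simp only [solE, solB, cG, Fin.zero_eta, Fin.isValue, Fin.mk_one, Fin.reduceFinMk, zero_add,
      show (1 : Fin 3) + 1 = 2 from rfl, show (1 : Fin 3) + 2 = 0 from rfl,
      show (2 : Fin 3) + 1 = 0 from rfl, show (2 : Fin 3) + 2 = 1 from rfl,
      map_add, map_sub, opTT_S, opTT_W, opS_Y, opT_X, opX_X 1 0, opX_X 2 0, opX_X 2 1] at hk hs ⊢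
    linear_combination (norm := module) hs - hk

theorem faraday (e b : Fin 3 → GG) (rho : FF) (j : Fin 3 → FF)
    (hb : opY 0 (b 0) + opY 1 (b 1) + opY 2 (b 2) = 0) (i : Fin 3) :
    opT (solB h b (cG e) j i) +
      (opX (i + 1) (solE h e (cG b) rho j (i + 2)) - opX (i + 2) (solE h e (cG b) rho j (i + 1)))
      = 0 := by
  have hS : opX 0 (opS h (b 0)) + opX 1 (opS h (b 1)) + opX 2 (opS h (b 2)) = 0 := by
    have := congrArg (opS h) hb
    simpa only [map_add, opS_Y, map_zero] using this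
  have hS' : ∀ k : Fin 3, opX k (opX 0 (opS h (b 0))) + opX k (opX 1 (opS h (b 1))) +
      opX k (opX 2 (opS h (b 2))) = 0 := by
    intro k
    have := congrArg (opX k) hS
    simpa only [map_add, map_zero] using this
  have hs := hS' i
  fin_cases i
  · simp only [solE, solB, cG, Fin.zero_eta, Fin.isValue, Fin.mk_one, Fin.reduceFinMk, zero_add,
      show (1 : Fin 3) + 1 = 2 from rfl, show (1 : Fin 3) + 2 = 0 from rfl,
      show (2 : Fin 3) + 1 = 0 from rfl, show (2 : Fin 3) + 2 = 1 from rfl,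
      map_add, map_sub, opTT_S, opTT_W, opS_Y, opT_X, opX_X 1 0, opX_X 2 0, opX_X 2 1] at hs ⊢
    linear_combination (norm := module) hs
  · simp only [solE, solB, cG, Fin.zero_eta, Fin.isValue, Fin.mk_one, Fin.reduceFinMk, zero_add,
      show (1 : Fin 3) + 1 = 2 from rfl, show (1 : Fin 3) + 2 = 0 from rfl,
      show (2 : Fin 3) + 1 = 0 from rfl, show (2 : Fin 3) + 2 = 1 from rfl,
      map_add, map_sub, opTT_S, opTT_W, opS_Y, opT_X, opX_X 1 0, opX_X 2 0, opX_X 2 1] at hs ⊢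
    linear_combination (norm := module) hs
  · simp only [solE, solB, cG, Fin.zero_eta, Fin.isValue, Fin.mk_one, Fin.reduceFinMk, zero_add,
      show (1 : Fin 3) + 1 = 2 from rfl, show (1 : Fin 3) + 2 = 0 from rfl,
      show (2 : Fin 3) + 1 = 0 from rfl, show (2 : Fin 3) + 2 = 1 from rfl,
      map_add, map_sub, opTT_S, opTT_W, opS_Y, opT_X, opX_X 1 0, opX_X 2 0, opX_X 2 1] at hs ⊢
    linear_combination (norm := module) hs

theorem gauss (e b : Fin 3 → GG) (rho : FF) (j : Fin 3 → FF)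
    (hc : opT rho + (opX 0 (j 0) + opX 1 (j 1) + opX 2 (j 2)) = 0)
    (he : opY 0 (e 0) + opY 1 (e 1) + opY 2 (e 2) = ev 0 rho) :
    opX 0 (solE h e (cG b) rho j 0) + opX 1 (solE h e (cG b) rho j 1) +
      opX 2 (solE h e (cG b) rho j 2) = rho := by
  have hT : opW h (opT rho) + (opX 0 (opW h (j 0)) + opX 1 (opW h (j 1)) + opX 2 (opW h (j 2)))
      = 0 := by
    have := congrArg (opW h) hc
    simpa only [map_add, opW_X, map_zero] using this
  rw [opW_T] at hT
  have hT' : opT (opT (opW h rho)) - opT (opS h (ev 0 rho)) +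
      (opX 0 (opT (opW h (j 0))) + opX 1 (opT (opW h (j 1))) + opX 2 (opT (opW h (j 2))))
      = 0 := by
    have := congrArg opT hT
    simpa only [map_add, map_sub, opT_X, map_zero] using this
  have hS : opX 0 (opS h (e 0)) + opX 1 (opS h (e 1)) + opX 2 (opS h (e 2))
      = opS h (ev 0 rho) := by
    rw [← he]; simp only [map_add, opS_Y]
  have hS' : opX 0 (opT (opS h (e 0))) + opX 1 (opT (opS h (e 1))) + opX 2 (opT (opS h (e 2)))
      = opT (opS h (ev 0 rho)) := by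
    have := congrArg opT hS
    simpa only [map_add, opT_X] using this
  simp only [solE, solB, cG, Fin.isValue, zero_add,
      show (1 : Fin 3) + 1 = 2 from rfl, show (1 : Fin 3) + 2 = 0 from rfl,
      show (2 : Fin 3) + 1 = 0 from rfl, show (2 : Fin 3) + 2 = 1 from rfl,
      map_add, map_sub, opTT_S, opTT_W, opS_Y, opT_X, opX_X 1 0, opX_X 2 0, opX_X 2 1]
      at hT' hS' ⊢
  linear_combination (norm := module) hS' - hT'

theorem divB (e b : Fin 3 → GG) (j : Fin 3 → FF)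
    (hb : opY 0 (b 0) + opY 1 (b 1) + opY 2 (b 2) = 0) :
    opX 0 (solB h b (cG e) j 0) + opX 1 (solB h b (cG e) j 1) +
      opX 2 (solB h b (cG e) j 2) = 0 := by
  have hS : opX 0 (opS h (b 0)) + opX 1 (opS h (b 1)) + opX 2 (opS h (b 2)) = 0 := by
    have := congrArg (opS h) hb
    simpa only [map_add, opS_Y, map_zero] using this
  have hS' : opX 0 (opT (opS h (b 0))) + opX 1 (opT (opS h (b 1))) + opX 2 (opT (opS h (b 2)))
      = 0 := by
    have := congrArg opT hS
    simpa only [map_add, opT_X, map_zero] using this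
  simp only [solE, solB, cG, Fin.isValue, zero_add,
      show (1 : Fin 3) + 1 = 2 from rfl, show (1 : Fin 3) + 2 = 0 from rfl,
      show (2 : Fin 3) + 1 = 0 from rfl, show (2 : Fin 3) + 2 = 1 from rfl,
      map_add, map_sub, opTT_S, opTT_W, opS_Y, opT_X, opX_X 1 0, opX_X 2 0, opX_X 2 1]
      at hS' ⊢
  linear_combination (norm := module) hS'

theorem solE_zero (e cb : Fin 3 → GG) (rho : FF) (j : Fin 3 → FF) (i : Fin 3) :
    ev 0 (solE h e cb rho j i) = e i := by
  simp only [solE, map_add, map_sub, ev_S, ev_TS, ev_TW, ev_X, ev_W, map_zero, add_zero, sub_zero]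

theorem solB_zero (b ce : Fin 3 → GG) (j : Fin 3 → FF) (i : Fin 3) :
    ev 0 (solB h b ce j i) = b i := by
  simp only [solB, map_add, map_sub, ev_S, ev_TS, ev_TW, ev_X, ev_W, map_zero, add_zero, sub_zero]

end ops

/-! ### Vector form -/

/-- the electric field -/
noncomputable def fieldE (S : (R3 → ℝ) → ℝ → R3 → ℝ) (W : (ℝ → R3 → ℝ) → ℝ → R3 → ℝ)
    (E₀ B₀ : R3 → R3) (ρ : ℝ → R3 → ℝ) (j : ℝ → R3 → R3) (t : ℝ) (x : R3) : R3 :=
  WithLp.toLp 2 (fun i => dt (S (fun y => E₀ y i)) t x + S (fun y => curl3 B₀ y i) t x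
    - dt (W (fun s y => j s y i)) t x - dx i (W ρ) t x)

/-- the magnetic field -/
noncomputable def fieldB (S : (R3 → ℝ) → ℝ → R3 → ℝ) (W : (ℝ → R3 → ℝ) → ℝ → R3 → ℝ)
    (E₀ B₀ : R3 → R3) (j : ℝ → R3 → R3) (t : ℝ) (x : R3) : R3 :=
  WithLp.toLp 2 (fun i => dt (S (fun y => B₀ y i)) t x - S (fun y => curl3 E₀ y i) t x
    + (dx (i + 1) (W (fun s y => j s y (i + 2))) t x
      - dx (i + 2) (W (fun s y => j s y (i + 1))) t x))

theorem curl3_apply (F : R3 → R3) (x : R3) (i : Fin 3) :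
    curl3 F x i = pderiv (fun y => F y (i + 2)) (i + 1) x
      - pderiv (fun y => F y (i + 1)) (i + 2) x := by
  fin_cases i <;> rfl

section main

variable {S : (R3 → ℝ) → ℝ → R3 → ℝ} {W : (ℝ → R3 → ℝ) → ℝ → R3 → ℝ}
  {E₀ B₀ : R3 → R3} {ρ : ℝ → R3 → ℝ} {j : ℝ → R3 → R3}

theorem comp_contDiff {X : Type*} [NormedAddCommGroup X] [NormedSpace ℝ X] {F : X → R3}
    (hF : ContDiff ℝ ∞ F) (i : Fin 3) : ContDiff ℝ ∞ (fun x => F x i) :=
  (contDiff_euclidean.1 hF) i

/-- data as elements of the module -/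
def dat (F : R3 → R3) (hF : ContDiff ℝ ∞ F) (i : Fin 3) : GG :=
  ⟨fun y => F y i, comp_contDiff hF i⟩

def cur (j : ℝ → R3 → R3) (hj : ContDiff ℝ ∞ (fun p : ℝ × R3 => j p.1 p.2)) (i : Fin 3) : FF :=
  ⟨fun s y => j s y i, comp_contDiff hj i⟩

theorem fieldE_eq (h : WaveOps S W) (hE : ContDiff ℝ ∞ E₀) (hB : ContDiff ℝ ∞ B₀)
    (hρ : ContDiff ℝ ∞ (fun p : ℝ × R3 => ρ p.1 p.2))
    (hj : ContDiff ℝ ∞ (fun p : ℝ × R3 => j p.1 p.2)) (t : ℝ) (x : R3) (i : Fin 3) :
    fieldE S W E₀ B₀ ρ j t x i =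
      (solE h (dat E₀ hE) (cG (dat B₀ hB)) ⟨ρ, hρ⟩ (cur j hj) i).1 t x := by
  have e : (fun y => curl3 B₀ y i) = (cG (dat B₀ hB) i).1 := by
    funext y
    exact curl3_apply B₀ y i
  show dt (S (fun y => E₀ y i)) t x + S (fun y => curl3 B₀ y i) t x
    - dt (W (fun s y => j s y i)) t x - dx i (W ρ) t x = _
  rw [e]
  rfl

theorem fieldB_eq (h : WaveOps S W) (hE : ContDiff ℝ ∞ E₀) (hB : ContDiff ℝ ∞ B₀)
    (hj : ContDiff ℝ ∞ (fun p : ℝ × R3 => j p.1 p.2)) (t : ℝ) (x : R3) (i : Fin 3) :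
    fieldB S W E₀ B₀ j t x i =
      (solB h (dat B₀ hB) (cG (dat E₀ hE)) (cur j hj) i).1 t x := by
  have e : (fun y => curl3 E₀ y i) = (cG (dat E₀ hE) i).1 := by
    funext y
    exact curl3_apply E₀ y i
  show dt (S (fun y => B₀ y i)) t x - S (fun y => curl3 E₀ y i) t x
    + (dx (i + 1) (W (fun s y => j s y (i + 2))) t x
      - dx (i + 2) (W (fun s y => j s y (i + 1))) t x) = _
  rw [e]
  rfl

/-- **Linear Maxwell solver**, all of `ℝ × R3`. -/
theorem maxwell_solve (h : WaveOps S W) (hE : ContDiff ℝ ∞ E₀) (hB : ContDiff ℝ ∞ B₀)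
    (hρ : ContDiff ℝ ∞ (fun p : ℝ × R3 => ρ p.1 p.2))
    (hj : ContDiff ℝ ∞ (fun p : ℝ × R3 => j p.1 p.2))
    (hcont : ∀ t x, deriv (fun s => ρ s x) t + div3 (j t) x = 0)
    (hdE : ∀ x, div3 E₀ x = ρ 0 x) (hdB : ∀ x, div3 B₀ x = 0) :
    ContDiff ℝ ∞ (fun p : ℝ × R3 => fieldE S W E₀ B₀ ρ j p.1 p.2) ∧
    ContDiff ℝ ∞ (fun p : ℝ × R3 => fieldB S W E₀ B₀ j p.1 p.2) ∧
    fieldE S W E₀ B₀ ρ j 0 = E₀ ∧ fieldB S W E₀ B₀ j 0 = B₀ ∧
    ∀ t x,
      (∀ i : Fin 3, deriv (fun s => fieldE S W E₀ B₀ ρ j s x i) t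
        - curl3 (fieldB S W E₀ B₀ j t) x i = - j t x i) ∧
      (∀ i : Fin 3, deriv (fun s => fieldB S W E₀ B₀ j s x i) t
        + curl3 (fieldE S W E₀ B₀ ρ j t) x i = 0) ∧
      div3 (fieldE S W E₀ B₀ ρ j t) x = ρ t x ∧
      div3 (fieldB S W E₀ B₀ j t) x = 0 := by
  set e := dat E₀ hE with he_def
  set b := dat B₀ hB with hb_def
  set r : FF := ⟨ρ, hρ⟩ with hr_def
  set jj := cur j hj with hj_def
  have hc : opT r + (opX 0 (jj 0) + opX 1 (jj 1) + opX 2 (jj 2)) = 0 := by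
    ext t x
    have := hcont t x
    rw [div3, Fin.sum_univ_three] at this
    exact this
  have he : opY 0 (e 0) + opY 1 (e 1) + opY 2 (e 2) = ev 0 r := by
    ext x
    have := hdE x
    rw [div3, Fin.sum_univ_three] at this
    exact this
  have hb : opY 0 (b 0) + opY 1 (b 1) + opY 2 (b 2) = 0 := by
    ext x
    have := hdB x
    rw [div3, Fin.sum_univ_three] at this
    exact this
  have eE : ∀ t x i, fieldE S W E₀ B₀ ρ j t x i = (solE h e (cG b) r jj i).1 t x :=
    fieldE_eq h hE hB hρ hj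
  have eB : ∀ t x i, fieldB S W E₀ B₀ j t x i = (solB h b (cG e) jj i).1 t x :=
    fieldB_eq h hE hB hj
  refine ⟨?_, ?_, ?_, ?_, ?_⟩
  · rw [contDiff_euclidean]
    intro i
    have : (fun p : ℝ × R3 => fieldE S W E₀ B₀ ρ j p.1 p.2 i)
        = fun p : ℝ × R3 => (solE h e (cG b) r jj i).1 p.1 p.2 := by
      funext p; exact eE p.1 p.2 i
    rw [this]
    exact (solE h e (cG b) r jj i).2
  · rw [contDiff_euclidean]
    intro i
    have : (fun p : ℝ × R3 => fieldB S W E₀ B₀ j p.1 p.2 i)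
        = fun p : ℝ × R3 => (solB h b (cG e) jj i).1 p.1 p.2 := by
      funext p; exact eB p.1 p.2 i
    rw [this]
    exact (solB h b (cG e) jj i).2
  · funext x
    ext i
    rw [eE]
    have := solE_zero h e (cG b) r jj i
    exact congrFun (congrArg Subtype.val this) x
  · funext x
    ext i
    rw [eB]
    have := solB_zero h b (cG e) jj i
    exact congrFun (congrArg Subtype.val this) x
  · intro t x
    have fE : ∀ (s : ℝ) (i : Fin 3), (fun y => fieldE S W E₀ B₀ ρ j s y i)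
        = (solE h e (cG b) r jj i).1 s := by
      intro s i; funext y; exact eE s y i
    have fB : ∀ (s : ℝ) (i : Fin 3), (fun y => fieldB S W E₀ B₀ j s y i)
        = (solB h b (cG e) jj i).1 s := by
      intro s i; funext y; exact eB s y i
    have gE : ∀ (i : Fin 3), (fun s => fieldE S W E₀ B₀ ρ j s x i)
        = fun s => (solE h e (cG b) r jj i).1 s x := by
      intro i; funext s; exact eE s x i
    have gB : ∀ (i : Fin 3), (fun s => fieldB S W E₀ B₀ j s x i)
        = fun s => (solB h b (cG e) jj i).1 s x := by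
      intro i; funext s; exact eB s x i
    refine ⟨?_, ?_, ?_, ?_⟩
    · intro i
      have := congrFun (congrFun (congrArg Subtype.val (ampere h e b r jj hc he i)) t) x
      rw [gE i, curl3_apply, fB, fB]
      exact this
    · intro i
      have := congrFun (congrFun (congrArg Subtype.val (faraday h e b r jj hb i)) t) x
      rw [gB i, curl3_apply, fE, fE]
      exact this
    · have := congrFun (congrFun (congrArg Subtype.val (gauss h e b r jj hc he)) t) x
      rw [div3, Fin.sum_univ_three, fE, fE, fE]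
      exact this
    · have := congrFun (congrFun (congrArg Subtype.val (divB h e b jj hb)) t) x
      rw [div3, Fin.sum_univ_three, fB, fB, fB]
      exact this

end main

end Crest.Agent.R106.Max
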