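import Crest.Agent.R106.MaxAlg
import Crest.Agent.R106.KirMean

/-!
# Row 106, MAX: the Kirchhoff operator `S = Kir.Sop`: the `S`-half of `WaveOps`, and sup bounds
-/

set_option autoImplicit false
set_option linter.unusedSimpArgs false

open MeasureTheory Set Metric Filter Topology
open scoped ContDiff
open Crest.AnalysisR.VecCalc3
open Crest.Agent.R106.Kir

noncomputable section

namespace Crest.Agent.R106.Max

/-! ### spherical means: bounds of all derivatives -/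

theorem mean_iter_bound (n : ℕ) : ∀ {V : Type} [NormedAddCommGroup V] [NormedSpace ℝ V]
    [CompleteSpace V] {g : R3 × R3 → V} (_ : ContDiff ℝ ∞ g) {C : ℝ} (_ : 0 ≤ C)
    (_ : ∀ x w : R3, ‖w‖ = 1 → ‖iteratedFDeriv ℝ n (fun y => g (y, w)) x‖ ≤ C) (x : R3),
    ‖iteratedFDeriv ℝ n (fun y => ∫ w, g (y, w) ∂sg) x‖ ≤ C := by
  induction n with
  | zero =>
    intro V _ _ _ g hg C hC hb x
    simp only [norm_iteratedFDeriv_zero] at hb ⊢
    calc ‖∫ w, g (x, w) ∂sg‖ ≤ ∫ w, C ∂sg := by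
          apply norm_integral_le_of_norm_le (integrable_const C)
          filter_upwards [ae_norm] with w hw
          exact hb x w hw
      _ = C := by simp
  | succ n ih =>
    intro V _ _ _ g hg C hC hb x
    rw [← norm_iteratedFDeriv_fderiv]
    have e : fderiv ℝ (fun y => ∫ w, g (y, w) ∂sg) = fun y => ∫ w, dfst g (y, w) ∂sg := by
      funext y
      exact (mean_hasFDerivAt hg y).fderiv
    rw [e]
    have hd : ContDiff ℝ ∞ (dfst g) := by
      have h := R240.SmJ.contDiffOn_dx (s := univ) isOpen_univ hg.contDiffOn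
      rwa [contDiffOn_univ] at h
    refine ih hd hC ?_ x
    intro x w hw
    have e2 : (fun y => dfst g (y, w)) = fderiv ℝ (fun y => g (y, w)) := by
      funext y
      exact (dfst_apply hg y w).fderiv.symm
    rw [e2, norm_iteratedFDeriv_fderiv]
    exact hb x w hw

theorem iter_translate {V : Type} [NormedAddCommGroup V] [NormedSpace ℝ V] {φ : R3 → V}
    (n : ℕ) (a x : R3) :
    iteratedFDeriv ℝ n (fun y => φ (y + a)) x = iteratedFDeriv ℝ n φ (x + a) :=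
  iteratedFDeriv_comp_add_right n a x

theorem Mn_iter_bound {V : Type} [NormedAddCommGroup V] [NormedSpace ℝ V]
    [CompleteSpace V] {φ : R3 → V} (hφ : ContDiff ℝ ∞ φ) (n : ℕ) {C : ℝ}
    (hb : ∀ x, ‖iteratedFDeriv ℝ n φ x‖ ≤ C) (r : ℝ) (x : R3) :
    ‖iteratedFDeriv ℝ n (fun y => Mn φ r y) x‖ ≤ C := by
  have hC : 0 ≤ C := (norm_nonneg _).trans (hb 0)
  unfold Mn
  refine mean_iter_bound n (g := fun q : R3 × R3 => φ (q.1 + r • q.2)) (hφ.comp (by fun_prop))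
    hC ?_ x
  intro x w _
  show ‖iteratedFDeriv ℝ n (fun y => φ (y + r • w)) x‖ ≤ C
  rw [iter_translate]
  exact hb _

theorem Mr_iter_bound {φ : R3 → ℝ} (hφ : ContDiff ℝ ∞ φ) (n : ℕ) {C : ℝ}
    (hb : ∀ x, ‖iteratedFDeriv ℝ (n + 1) φ x‖ ≤ C) (r : ℝ) (x : R3) :
    ‖iteratedFDeriv ℝ n (fun y => Mr φ r y) x‖ ≤ C := by
  have hC : 0 ≤ C := (norm_nonneg _).trans (hb 0)
  unfold Mr
  have hd : ContDiff ℝ ∞ (fderiv ℝ φ) := hφ.fderiv_right (m := ∞) (by simp)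
  refine mean_iter_bound n (g := fun q : R3 × R3 => fderiv ℝ φ (q.1 + r • q.2) q.2)
    ((hd.comp (by fun_prop)).clm_apply (by fun_prop)) hC ?_ x
  intro x w hw
  show ‖iteratedFDeriv ℝ n (fun y => fderiv ℝ φ (y + r • w) w) x‖ ≤ C
  have e : (fun y => fderiv ℝ φ (y + r • w) w)
      = (ContinuousLinearMap.apply ℝ ℝ w) ∘ (fun y => fderiv ℝ φ (y + r • w)) := by
    funext y; rfl
  rw [e]
  have h1 := (ContinuousLinearMap.apply ℝ ℝ w).norm_iteratedFDeriv_comp_left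
    (f := fun y => fderiv ℝ φ (y + r • w)) (x := x) (N := ∞) (n := n)
    (ContDiff.contDiffAt (hd.comp (by fun_prop))) (by exact_mod_cast le_top)
  refine h1.trans ?_
  have h2 : ‖(ContinuousLinearMap.apply ℝ ℝ w : (R3 →L[ℝ] ℝ) →L[ℝ] ℝ)‖ ≤ 1 := by
    refine ContinuousLinearMap.opNorm_le_bound _ zero_le_one fun L => ?_
    have := L.le_opNorm w
    rw [hw, mul_one] at this
    simpa using this
  have h3 : ‖iteratedFDeriv ℝ n (fun y => fderiv ℝ φ (y + r • w)) x‖ ≤ C := by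
    rw [iter_translate, norm_iteratedFDeriv_fderiv]
    exact hb _
  calc _ ≤ 1 * C := mul_le_mul h2 h3 (norm_nonneg _) zero_le_one
    _ = C := one_mul C

/-- every space derivative bounded, uniformly in time on slabs -/
def SB (u : ℝ → R3 → ℝ) : Prop :=
  ∀ (T : ℝ) (k : ℕ), ∃ C : ℝ, ∀ t : ℝ, |t| ≤ T → ∀ x : R3, ‖iteratedFDeriv ℝ k (u t) x‖ ≤ C

theorem SB.add {u v : ℝ → R3 → ℝ} (hu : Sm u) (hv : Sm v) (h1 : SB u) (h2 : SB v) :
    SB (fun t x => u t x + v t x) := by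
  intro T k
  obtain ⟨C1, h1⟩ := h1 T k
  obtain ⟨C2, h2⟩ := h2 T k
  refine ⟨C1 + C2, fun t ht x => ?_⟩
  have e : iteratedFDeriv ℝ k (fun x => u t x + v t x) x
      = iteratedFDeriv ℝ k (u t) x + iteratedFDeriv ℝ k (v t) x := by
    have := iteratedFDeriv_add_apply (𝕜 := ℝ) (i := k) (x := x) (f := u t) (g := v t)
      (ContDiff.contDiffAt ((hu.slice t).of_le (by exact_mod_cast le_top)))
      (ContDiff.contDiffAt ((hv.slice t).of_le (by exact_mod_cast le_top)))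
    exact this
  rw [e]
  exact (norm_add_le _ _).trans (add_le_add (h1 t ht x) (h2 t ht x))

theorem SB.smul {u : ℝ → R3 → ℝ} {c : ℝ → ℝ} (hu : Sm u)
    (hc : ∀ T : ℝ, ∃ C : ℝ, ∀ t : ℝ, |t| ≤ T → |c t| ≤ C) (h1 : SB u) :
    SB (fun t x => c t * u t x) := by
  intro T k
  obtain ⟨C1, h1⟩ := h1 T k
  obtain ⟨C2, h2⟩ := hc T
  refine ⟨C2 * C1, fun t ht x => ?_⟩
  have e : iteratedFDeriv ℝ k (fun x => c t * u t x) x
      = c t • iteratedFDeriv ℝ k (u t) x := by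
    have := iteratedFDeriv_const_smul_apply (𝕜 := ℝ) (i := k) (x := x) (f := u t) (a := c t)
      (ContDiff.contDiffAt ((hu.slice t).of_le (by exact_mod_cast le_top)))
    exact this
  rw [e, norm_smul, Real.norm_eq_abs]
  exact mul_le_mul (h2 t ht) (h1 t ht x) (norm_nonneg _) ((abs_nonneg _).trans (h2 t ht))

/-- every derivative bounded -/
def AB (φ : R3 → ℝ) : Prop := ∀ n : ℕ, ∃ C : ℝ, ∀ x, ‖iteratedFDeriv ℝ n φ x‖ ≤ C

theorem sm_Mn {φ : R3 → ℝ} (hφ : ContDiff ℝ ∞ φ) : Sm (fun t x => Mn φ t x) := contDiff_Mn hφ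

theorem sm_Mr {φ : R3 → ℝ} (hφ : ContDiff ℝ ∞ φ) : Sm (fun t x => Mr φ t x) := contDiff_Mr hφ

theorem sb_Mn {φ : R3 → ℝ} (hφ : ContDiff ℝ ∞ φ) (hb : AB φ) : SB (fun t x => Mn φ t x) := by
  intro T k
  obtain ⟨C, hC⟩ := hb k
  exact ⟨C, fun t _ x => Mn_iter_bound hφ k hC t x⟩

theorem sb_Mr {φ : R3 → ℝ} (hφ : ContDiff ℝ ∞ φ) (hb : AB φ) : SB (fun t x => Mr φ t x) := by
  intro T k
  obtain ⟨C, hC⟩ := hb (k + 1)
  exact ⟨C, fun t _ x => Mr_iter_bound hφ k hC t x⟩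

theorem sb_Sop {φ : R3 → ℝ} (hφ : ContDiff ℝ ∞ φ) (hb : AB φ) : SB (fun t x => Sop φ t x) :=
  SB.smul (c := fun t => t) (sm_Mn hφ) (fun T => ⟨T, fun _ h => h⟩) (sb_Mn hφ hb)

theorem sb_Sdot {φ : R3 → ℝ} (hφ : ContDiff ℝ ∞ φ) (hb : AB φ) : SB (fun t x => Sdot φ t x) := by
  refine SB.add (sm_Mn hφ) ?_ (sb_Mn hφ hb)
    (SB.smul (c := fun t => t) (sm_Mr hφ) (fun T => ⟨T, fun _ h => h⟩) (sb_Mr hφ hb))
  exact contDiff_fst.mul (contDiff_Mr hφ)

theorem AB.comp {F : R3 → R3} (hF : ContDiff ℝ ∞ F)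
    (hb : ∀ n : ℕ, ∃ C : ℝ, ∀ x, ‖iteratedFDeriv ℝ n F x‖ ≤ C) (i : Fin 3) :
    AB (fun y => F y i) := by
  intro n
  obtain ⟨C, hC⟩ := hb n
  refine ⟨C, fun x => ?_⟩
  have e : (fun y => F y i) = (EuclideanSpace.proj i : R3 →L[ℝ] ℝ) ∘ F := by
    funext y; rfl
  rw [e]
  have h1 := (EuclideanSpace.proj i : R3 →L[ℝ] ℝ).norm_iteratedFDeriv_comp_left
    (f := F) (x := x) (N := ∞) (n := n) hF.contDiffAt (by exact_mod_cast le_top)
  refine h1.trans ?_
  have h2 : ‖(EuclideanSpace.proj i : R3 →L[ℝ] ℝ)‖ ≤ 1 := by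
    refine ContinuousLinearMap.opNorm_le_bound _ zero_le_one fun v => ?_
    rw [one_mul]
    exact PiLp.norm_apply_le v i
  calc _ ≤ 1 * C := mul_le_mul h2 (hC x) (norm_nonneg _) zero_le_one
    _ = C := one_mul C

theorem AB.pderiv {φ : R3 → ℝ} (hφ : ContDiff ℝ ∞ φ) (hb : AB φ) (i : Fin 3) :
    AB (fun y => pderiv φ i y) := by
  intro n
  obtain ⟨C, hC⟩ := hb (n + 1)
  refine ⟨C, fun x => ?_⟩
  have hd : ContDiff ℝ ∞ (fderiv ℝ φ) := hφ.fderiv_right (m := ∞) (by simp)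
  set w : R3 := EuclideanSpace.single i 1 with hw0
  have hw : ‖w‖ = 1 := by simp [hw0]
  have e : (fun y => Crest.AnalysisR.VecCalc3.pderiv φ i y)
      = (ContinuousLinearMap.apply ℝ ℝ w) ∘ (fderiv ℝ φ) := by
    funext y; rfl
  rw [e]
  have h1 := (ContinuousLinearMap.apply ℝ ℝ w).norm_iteratedFDeriv_comp_left
    (f := fderiv ℝ φ) (x := x) (N := ∞) (n := n)
    (ContDiff.contDiffAt hd) (by exact_mod_cast le_top)
  refine h1.trans ?_
  have h2 : ‖(ContinuousLinearMap.apply ℝ ℝ w : (R3 →L[ℝ] ℝ) →L[ℝ] ℝ)‖ ≤ 1 := by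
    refine ContinuousLinearMap.opNorm_le_bound _ zero_le_one fun L => ?_
    have := L.le_opNorm w
    rw [hw, mul_one] at this
    simpa using this
  have h3 : ‖iteratedFDeriv ℝ n (fderiv ℝ φ) x‖ ≤ C := by
    rw [norm_iteratedFDeriv_fderiv]
    exact hC _
  calc _ ≤ 1 * C := mul_le_mul h2 h3 (norm_nonneg _) zero_le_one
    _ = C := one_mul C

theorem AB.sub {φ ψ : R3 → ℝ} (hφ : ContDiff ℝ ∞ φ) (hψ : ContDiff ℝ ∞ ψ) (h1 : AB φ)
    (h2 : AB ψ) : AB (fun y => φ y - ψ y) := by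
  intro n
  obtain ⟨C1, h1⟩ := h1 n
  obtain ⟨C2, h2⟩ := h2 n
  refine ⟨C1 + C2, fun x => ?_⟩
  have e : iteratedFDeriv ℝ n (fun x => φ x - ψ x) x
      = iteratedFDeriv ℝ n φ x - iteratedFDeriv ℝ n ψ x := by
    have := iteratedFDeriv_sub_apply (𝕜 := ℝ) (i := n) (x := x) (f := φ) (g := ψ)
      (ContDiff.contDiffAt (hφ.of_le (by exact_mod_cast le_top)))
      (ContDiff.contDiffAt (hψ.of_le (by exact_mod_cast le_top)))
    exact this
  rw [e]
  exact (norm_sub_le _ _).trans (add_le_add (h1 x) (h2 x))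

theorem AB.curl {F : R3 → R3} (hF : ContDiff ℝ ∞ F)
    (hb : ∀ n : ℕ, ∃ C : ℝ, ∀ x, ‖iteratedFDeriv ℝ n F x‖ ≤ C) (i : Fin 3) :
    AB (fun y => curl3 F y i) := by
  have e : (fun y => curl3 F y i) = fun y => Crest.AnalysisR.VecCalc3.pderiv (fun z => F z (i + 2)) (i + 1) y
      - Crest.AnalysisR.VecCalc3.pderiv (fun z => F z (i + 1)) (i + 2) y := by
    funext y; exact curl3_apply F y i
  rw [e]
  have c : ∀ k : Fin 3, ContDiff ℝ ∞ (fun z => F z k) := fun k => comp_contDiff hF k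
  exact AB.sub (pderiv_contDiff (c _) _) (pderiv_contDiff (c _) _)
    (AB.pderiv (c _) (AB.comp hF hb _) _) (AB.pderiv (c _) (AB.comp hF hb _) _)

/-! ### the `S` half of `WaveOps` -/

theorem integrable_ball {φ : R3 → ℝ} (hφ : Continuous φ) (r : ℝ) (x : R3) :
    Integrable (fun w => φ (x + r • w)) sg :=
  integrable_sg (Continuous.continuousOn (hφ.comp (by fun_prop)))

theorem Sop_add {g h : R3 → ℝ} (hg : Continuous g) (hh : Continuous h) (t : ℝ) (x : R3) :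
    Sop (fun y => g y + h y) t x = Sop g t x + Sop h t x := by
  unfold Sop Mn
  rw [integral_add (integrable_ball hg t x) (integrable_ball hh t x)]
  ring

theorem Sop_smul (c : ℝ) (g : R3 → ℝ) (t : ℝ) (x : R3) :
    Sop (fun y => c * g y) t x = c * Sop g t x := by
  unfold Sop Mn
  rw [integral_const_mul]
  ring

theorem pderiv_Mn {g : R3 → ℝ} (hg : ContDiff ℝ ∞ g) (i : Fin 3) (t : ℝ) (x : R3) :
    pderiv (fun y => Mn g t y) i x = Mn (fun y => pderiv g i y) t x := by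
  unfold pderiv Mn
  refine mean_fderiv_apply (g := fun q : R3 × R3 => g (q.1 + t • q.2)) (hg.comp (by fun_prop)) x _
    ?_
  intro w
  show fderiv ℝ (fun y => g (y + t • w)) x _ = fderiv ℝ g (x + t • w) _
  rw [fderiv_comp_add_right]

theorem Sop_dx {g : R3 → ℝ} (hg : ContDiff ℝ ∞ g) (i : Fin 3) (t : ℝ) (x : R3) :
    dx i (Sop g) t x = Sop (fun y => pderiv g i y) t x := by
  unfold dx
  show pderiv (fun y => t * Mn g t y) i x = t * _
  rw [← pderiv_Mn hg]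
  exact pderiv_smul t (Sm.slice (sm_Mn hg) t) i x

theorem dt_Sop {g : R3 → ℝ} (hg : ContDiff ℝ ∞ g) : dt (Sop g) = Sdot g := by
  funext t x
  exact (hasDerivAt_Sop hg t x).deriv

theorem Sop_wave {g : R3 → ℝ} (hg : ContDiff ℝ ∞ g) (t : ℝ) (x : R3) :
    dt (dt (Sop g)) t x = ∑ i : Fin 3, dx i (dx i (Sop g)) t x := by
  rw [dt_Sop hg]
  have h1 : dt (Sdot g) t x = Sop (lap g) t x := (hasDerivAt_Sdot hg t x).deriv
  rw [h1]
  have h2 : ∀ i : Fin 3, dx i (dx i (Sop g)) t x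
      = Sop (fun y => pderiv (fun z => pderiv g i z) i y) t x := by
    intro i
    have : dx i (Sop g) = Sop (fun y => pderiv g i y) := by
      funext t x; exact Sop_dx hg i t x
    rw [this]
    exact Sop_dx (pderiv_contDiff hg i) i t x
  simp only [h2, Fin.sum_univ_three]
  have c : ∀ i : Fin 3, Continuous (fun y => pderiv (fun z => pderiv g i z) i y) := fun i =>
    (pderiv_contDiff (pderiv_contDiff hg i) i).continuous
  have e1 := Sop_add (c 0) (c 1) t x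
  have e2 := Sop_add (g := fun y => pderiv (fun z => pderiv g 0 z) 0 y
    + pderiv (fun z => pderiv g 1 z) 1 y) ((c 0).add (c 1)) (c 2) t x
  rw [e1] at e2
  rw [← e2]
  congr 1
  funext y
  simp only [lap, Fin.sum_univ_three]

/-- the remaining (Duhamel) half of `WaveOps Sop W` -/
structure DuhOps (W : (ℝ → R3 → ℝ) → ℝ → R3 → ℝ) : Prop where
  W_smooth : ∀ h, Sm h → Sm (W h)
  W_zero : ∀ h, Sm h → ∀ x, W h 0 x = 0
  W_add : ∀ g h, Sm g → Sm h → ∀ t x, W (fun s y => g s y + h s y) t x = W g t x + W h t x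
  W_smul : ∀ (c : ℝ) (h), Sm h → ∀ t x, W (fun s y => c * h s y) t x = c * W h t x
  W_dx : ∀ h, Sm h → ∀ i t x, dx i (W h) t x = W (dx i h) t x
  W_dt : ∀ h, Sm h → ∀ t x, dt (W h) t x = W (dt h) t x + Sop (h 0) t x
  W_wave : ∀ h, Sm h → ∀ t x,
    dt (dt (W h)) t x = h t x + ∑ i : Fin 3, dx i (dx i (W h)) t x

theorem waveOps {W : (ℝ → R3 → ℝ) → ℝ → R3 → ℝ} (hW : DuhOps W) : WaveOps Sop W where
  S_smooth g hg := contDiff_Sop hg
  S_zero g _ x := Sop_zero g x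
  S_dt_zero g hg x := by rw [dt_Sop hg]; exact Sdot_zero g x
  S_add g h hg hh t x := Sop_add hg.continuous hh.continuous t x
  S_smul c g _ t x := Sop_smul c g t x
  S_dx g hg i t x := Sop_dx hg i t x
  S_wave g hg t x := Sop_wave hg t x
  W_smooth := hW.W_smooth
  W_zero := hW.W_zero
  W_add := hW.W_add
  W_smul := hW.W_smul
  W_dx := hW.W_dx
  W_dt := hW.W_dt
  W_wave := hW.W_wave

end Crest.Agent.R106.Max
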