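import Crest.Agent.R106.MixInt2
import Crest.Agent.R106.ConeMu

/-!
# Row 106, MIX-C, part 3: instantiation on the label flow of `ConeMu`
-/

set_option autoImplicit false

open MeasureTheory Set Metric Filter
open scoped ENNReal NNReal Topology RealInnerProductSpace

namespace Crest.Agent.R106.Mix

open Crest.AnalysisR.VecCalc3 Crest.AnalysisR.PDE.RVM
open Crest.Agent.R106.CM

section Flow

variable {T : ℝ} {a : ℝ → CM.Z → CM.Z} {Φ Ψ : ℝ → CM.Z → CM.Z}

/-- position of the source with label `z` -/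
def pos (Φ : ℝ → CM.Z → CM.Z) (τ : ℝ) (z : CM.Z) : R3 := (Φ τ z).1

lemma continuous_Ψ (L : LFlow T a Φ Ψ) {τ : ℝ} (hτ : τ ∈ Ioo 0 T) : Continuous (Ψ τ) := by
  rw [continuous_iff_continuousAt]
  intro w
  have h1 := (L.diff τ hτ w).continuousAt
  have h2 : ContinuousAt (fun w' : CM.Z => ((τ, w') : ℝ × CM.Z)) w := by fun_prop
  exact ContinuousAt.comp (f := fun w' : CM.Z => ((τ, w') : ℝ × CM.Z)) h1 h2

lemma bijective_Ψ (L : LFlow T a Φ Ψ) {τ : ℝ} (hτ : τ ∈ Ico 0 T) : Function.Bijective (Ψ τ) :=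
  ⟨Function.LeftInverse.injective (g := Φ τ) (L.right_inv τ hτ),
    Function.RightInverse.surjective (g := Φ τ) (L.left_inv τ hτ)⟩

lemma measurable_Φ (L : LFlow T a Φ Ψ) {τ : ℝ} (hτ : τ ∈ Ico 0 T) : Measurable (Φ τ) := by
  rcases hτ.1.lt_or_eq with h0 | h0
  · have hτ' : τ ∈ Ioo 0 T := ⟨h0, hτ.2⟩
    have h1 : MeasurableEmbedding (Ψ τ) :=
      (continuous_Ψ L hτ').measurableEmbedding (bijective_Ψ L hτ).1
    intro S hS
    have h2 : Φ τ ⁻¹' S = Ψ τ '' S := by
      ext z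
      constructor
      · intro hz; exact ⟨Φ τ z, hz, L.left_inv τ hτ z⟩
      · rintro ⟨w, hw, rfl⟩
        simpa [L.right_inv τ hτ w] using hw
    rw [h2]
    exact h1.measurableSet_image' hS
  · subst h0
    have : Φ 0 = id := by funext z; exact L.zero z
    rw [this]; exact measurable_id

/-- change of variables: `∫ g(Φ z) f0(z) dz = ∫ g(w) f0(Ψ w) dw`. -/
theorem lintegral_flow (L : LFlow T a Φ Ψ) {τ : ℝ} (hτ : τ ∈ Ico 0 T) (g f0 : CM.Z → ℝ≥0∞) :
    ∫⁻ z, f0 z * g (Φ τ z) = ∫⁻ w, f0 (Ψ τ w) * g w := by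
  rcases hτ.1.lt_or_eq with h0 | h0
  · have hτ' : τ ∈ Ioo 0 T := ⟨h0, hτ.2⟩
    have h1 : ∀ w, HasFDerivAt (Ψ τ) (fderiv ℝ (Ψ τ) w) w := by
      intro w
      have h2 : DifferentiableAt ℝ (fun w' : CM.Z => ((τ, w') : ℝ × CM.Z)) w := by fun_prop
      have h3 : DifferentiableAt ℝ (Ψ τ) w :=
        DifferentiableAt.comp (f := fun w' : CM.Z => ((τ, w') : ℝ × CM.Z))
          (g := fun q : ℝ × CM.Z => Ψ q.1 q.2) w (L.diff τ hτ' w) h2
      exact h3.hasFDerivAt
    have h4 := lintegral_image_eq_lintegral_abs_det_fderiv_mul (volume : Measure CM.Z)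
      MeasurableSet.univ (fun w _ => (h1 w).hasFDerivWithinAt) (bijective_Ψ L hτ).1.injOn
      (fun z => f0 z * g (Φ τ z))
    rw [image_univ, (bijective_Ψ L hτ).2.range_eq] at h4
    simp only [Measure.restrict_univ] at h4
    rw [h4]
    refine lintegral_congr (fun w => ?_)
    rw [L.det τ hτ' w, L.right_inv τ hτ w]
    simp
  · subst h0
    refine lintegral_congr (fun z => ?_)
    have h1 : Φ 0 z = z := L.zero z
    have h2 : Ψ 0 z = z := by
      have := L.left_inv 0 hτ z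
      rwa [L.zero] at this
    rw [h1, h2]

lemma sublum_of_flow (L : LFlow T a Φ Ψ) {t1 : ℝ} (h0 : 0 ≤ t1) (h1 : t1 < T) {X : ℝ → R3}
    (hX : ∀ s ∈ Icc 0 t1, ∀ t ∈ Icc 0 t1, ‖X s - X t‖ ≤ |s - t|) :
    Sublum t1 X (pos Φ) where
  nonneg := h0
  hX := hX
  hY := by
    intro z s hs t ht hst
    have hs' : s ∈ Ico 0 T := ⟨hs.1, hs.2.trans_lt h1⟩
    have ht' : t ∈ Ico 0 T := ⟨ht.1, ht.2.trans_lt h1⟩
    rcases lt_or_gt_of_ne hst with h | h
    · rw [norm_sub_rev, abs_sub_comm, abs_of_pos (by linarith)]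
      exact L.subL z s hs' t ht' h
    · rw [abs_of_pos (by linarith)]
      exact L.subL z t ht' s hs' h
  hYm := fun s hs => (measurable_Φ L ⟨hs.1, hs.2.trans_lt h1⟩).fst

lemma isRet_of_flow (L : LFlow T a Φ Ψ) {t1 : ℝ} (h1 : t1 < T) {X : ℝ → R3} :
    IsRet t1 X (pos Φ) (fun s z => rtL Φ s (X s) z) := by
  intro s hs z hsz
  have hs' : s ∈ Ico 0 T := ⟨hs.1, hs.2.trans_lt h1⟩
  have h2 := rt_pos (L.subL z) hs' hsz
  obtain ⟨h3, h4⟩ := rt_spec (L.subL z) hs' hsz.le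
  refine ⟨h2, h3.2, ?_⟩
  have h5 : rt (fun τ => (Φ τ z).1) s (X s) + ‖X s - pos Φ (rt (fun τ => (Φ τ z).1) s (X s)) z‖ = s :=
    h4
  show s - rt (fun τ => (Φ τ z).1) s (X s)
    = ‖X s - pos Φ (rt (fun τ => (Φ τ z).1) s (X s)) z‖
  linarith

/-- first marginal bound -/
theorem map_pos_le (L : LFlow T a Φ Ψ) {τ : ℝ} (hτ : τ ∈ Ico 0 T) {f0 : CM.Z → ℝ≥0∞}
    {F0 : ℝ≥0∞} {P : ℝ} (hf0 : ∀ z, f0 z ≤ F0) (hP : ∀ z, f0 z ≠ 0 → ‖(Φ τ z).2‖ ≤ P) :
    ((volume : Measure CM.Z).withDensity f0).map (pos Φ τ)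
      ≤ (F0 * volume (closedBall (0 : R3) P)) • (volume : Measure R3) := by
  have hpos : Measurable (pos Φ τ) := (measurable_Φ L hτ).fst
  refine Measure.le_iff.mpr (fun S hS => ?_)
  rw [Measure.map_apply hpos hS, withDensity_apply _ (hpos hS), ← lintegral_indicator (hpos hS),
    Measure.smul_apply, smul_eq_mul]
  calc ∫⁻ z, (pos Φ τ ⁻¹' S).indicator f0 z
      = ∫⁻ z, f0 z * (S ×ˢ (univ : Set R3)).indicator 1 (Φ τ z) := by
        refine lintegral_congr (fun z => ?_)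
        by_cases hz : (Φ τ z).1 ∈ S
        · rw [indicator_of_mem (show z ∈ pos Φ τ ⁻¹' S from hz),
            indicator_of_mem (show Φ τ z ∈ S ×ˢ (univ : Set R3) from ⟨hz, trivial⟩)]
          simp
        · rw [indicator_of_notMem (show z ∉ pos Φ τ ⁻¹' S from hz),
            indicator_of_notMem (show Φ τ z ∉ S ×ˢ (univ : Set R3) from fun h => hz h.1)]
          simp
    _ = ∫⁻ w, f0 (Ψ τ w) * (S ×ˢ (univ : Set R3)).indicator 1 w := lintegral_flow L hτ _ _
    _ ≤ ∫⁻ w, F0 * (S ×ˢ closedBall (0 : R3) P).indicator 1 w := by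
        refine lintegral_mono (fun w => ?_)
        by_cases h0 : f0 (Ψ τ w) = 0
        · rw [h0, zero_mul]; exact zero_le
        · have h1 := hP _ h0
          rw [L.right_inv τ hτ] at h1
          by_cases hw : w.1 ∈ S
          · rw [indicator_of_mem (show w ∈ S ×ˢ (univ : Set R3) from ⟨hw, trivial⟩),
              indicator_of_mem (show w ∈ S ×ˢ closedBall (0 : R3) P from
                ⟨hw, by simpa using h1⟩)]
            gcongr
            exact hf0 _
          · rw [indicator_of_notMem (show w ∉ S ×ˢ (univ : Set R3) from fun h => hw h.1)]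
            simp
    _ = F0 * volume (S ×ˢ closedBall (0 : R3) P) := by
        rw [lintegral_const_mul, lintegral_indicator_one (hS.prod measurableSet_closedBall)]
        exact measurable_one.indicator (hS.prod measurableSet_closedBall)
    _ = F0 * volume (closedBall (0 : R3) P) * volume S := by
        rw [Measure.volume_eq_prod, Measure.prod_prod]; ring

end Flow

end Crest.Agent.R106.Mix
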