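import Crest.Agent.R106.ConeMu
import Crest.Agent.R106.PairRet
import Crest.Agent.R106.PairKin

/-!
# Row 106, retarded kinematics (helper824), part 2: derivatives

`CM.rt` (= `rtm`) along a test curve: derivative `δ/ε`, the structure `PairD` in the
`s`-parametrisation, and the inverse function `s(τ)` with derivative `ε/δ`.
-/

set_option autoImplicit false
open Set Filter Topology
open scoped RealInnerProductSpace
open Crest.AnalysisR.VecCalc3

namespace Crest.Agent.R106.Pair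

open Crest.Agent.R106.CM (rt SubL)

/-- the two total definitions of the retarded time agree -/
theorem rt_eq_rtm (Y : ℝ → R3) (s : ℝ) (x : R3) : rt Y s x = rtm Y s x := by
  unfold rt rtm
  congr 1
  ext τ
  simp only [mem_ofPred_eq]
  constructor
  · rintro ⟨h1, h2⟩; exact ⟨h1, by linarith⟩
  · rintro ⟨h1, h2⟩; exact ⟨h1, by linarith⟩

theorem SubLum.of_subL {T T' : ℝ} {Y : ℝ → R3} (h : SubL T Y) (hT : T' < T) : SubLum Y T' := by
  intro a ha b hb hab
  have ha' : a ∈ Ico 0 T := ⟨ha.1, ha.2.trans_lt hT⟩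
  have hb' : b ∈ Ico 0 T := ⟨hb.1, hb.2.trans_lt hT⟩
  rcases lt_or_gt_of_ne hab with h1 | h1
  · rw [norm_sub_rev, abs_sub_comm, abs_of_pos (by linarith)]
    exact h a ha' b hb' h1
  · rw [abs_of_pos (by linarith)]
    exact h b hb' a ha' h1

section
variable {T : ℝ} {X Y V v : ℝ → R3} {s : ℝ}

/-- the retarded time of a fixed source is continuous in the test time -/
theorem continuousAt_rt (hX : SubL T X) (hY : SubL T Y) (hs : s ∈ Ioo 0 T) :
    ContinuousAt (fun t => rt Y t (X t)) s := by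
  have hT' : (s + T) / 2 < T := by linarith [hs.2]
  have h1 := continuousOn_rtm_time (X := X)
    (SubLum.of_subL hX hT').continuousOn (SubLum.of_subL hY hT')
  have h2 : (fun t => rt Y t (X t)) = fun t => rtm Y t (X t) := by
    funext t; exact rt_eq_rtm _ _ _
  rw [h2]
  exact h1.continuousAt (Icc_mem_nhds hs.1 (by linarith [hs.2]))

/-- continuity on the closed-open interval -/
theorem continuousOn_rt (hX : SubL T X) (hY : SubL T Y) :
    ContinuousOn (fun t => rt Y t (X t)) (Ico 0 T) := by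
  intro s hs
  have hT' : (s + T) / 2 < T := by linarith [hs.2]
  have h1 := continuousOn_rtm_time (X := X)
    (SubLum.of_subL hX hT').continuousOn (SubLum.of_subL hY hT')
  have h2 : (fun t => rt Y t (X t)) = fun t => rtm Y t (X t) := by
    funext t; exact rt_eq_rtm _ _ _
  rw [h2]
  have h3 := h1 s ⟨hs.1, by linarith [hs.2]⟩
  refine (h3.mono_of_mem_nhdsWithin ?_)
  have : Icc 0 ((s + T) / 2) ∈ 𝓝[Ici 0] s := by
    have h5 : Iio ((s + T) / 2) ∈ 𝓝 s := Iio_mem_nhds (by linarith [hs.2])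
    filter_upwards [self_mem_nhdsWithin, mem_nhdsWithin_of_mem_nhds h5] with t h6 h7
    exact ⟨h6, le_of_lt h7⟩
  exact nhdsWithin_mono s (fun t ht => ht.1) this

/-- aliveness is an open condition, and the null relation holds near `s` -/
theorem eventually_null (hX : SubL T X) (hY : SubL T Y) (hs : s ∈ Ioo 0 T)
    (ha : ‖X s - Y 0‖ < s) : ∀ᶠ t in 𝓝 s, t - rt Y t (X t) = ‖X t - Y (rt Y t (X t))‖ := by
  have hXc : ContinuousAt X s :=
    (hX.continuousOn).continuousAt (Ico_mem_nhds hs.1 hs.2)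
  have h1 : ∀ᶠ t in 𝓝 s, 0 < t - ‖X t - Y 0‖ := by
    have hc : ContinuousAt (fun t => t - ‖X t - Y 0‖) s :=
      continuousAt_id.sub (hXc.sub continuousAt_const).norm
    exact hc.eventually (lt_mem_nhds (by linarith))
  filter_upwards [h1, Ioo_mem_nhds hs.1 hs.2] with t h2 h3
  have := (CM.rt_spec hY ⟨h3.1.le, h3.2⟩ (x := X t) (by linarith)).2
  linarith

theorem rt_pos' (hY : SubL T Y) (hs : s ∈ Ioo 0 T) (ha : ‖X s - Y 0‖ < s) :
    0 < rt Y s (X s) := CM.rt_pos hY ⟨hs.1.le, hs.2⟩ ha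

/-- `dτ/ds = δ/ε` for the retarded time. -/
theorem hasDerivAt_rt (hX : SubL T X) (hY : SubL T Y) (hs : s ∈ Ioo 0 T)
    (ha : ‖X s - Y 0‖ < s) (hne : X s ≠ Y (rt Y s (X s))) {V₀ v₀ : R3}
    (hXd : HasDerivAt X V₀ s) (hYd : HasDerivAt Y v₀ (rt Y s (X s))) (hv : ‖v₀‖ < 1) :
    HasDerivAt (fun t => rt Y t (X t))
      (om (nvec X Y s (rt Y s (X s))) V₀ / om (nvec X Y s (rt Y s (X s))) v₀) s := by
  have hnull := eventually_null hX hY hs ha
  have h0 := hnull.self_of_nhds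
  refine hasDerivAt_tau_of_null (τ := fun t => rt Y t (X t)) hXd hYd
    (continuousAt_rt hX hY hs) hnull ?_ hv
  rw [h0]
  exact norm_pos_iff.mpr (sub_ne_zero.mpr hne)

/-- the pair `(test, retarded source)` in the `s`-parametrisation -/
theorem pairD_rt (hX : SubL T X) (hY : SubL T Y) (hs : s ∈ Ioo 0 T)
    (ha : ‖X s - Y 0‖ < s) (hne : X s ≠ Y (rt Y s (X s))) {A a : R3}
    (hXd : HasDerivAt X (V s) s) (hVd : HasDerivAt V A s)
    (hYd : HasDerivAt Y (v (rt Y s (X s))) (rt Y s (X s)))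
    (hvd : HasDerivAt v a (rt Y s (X s)))
    (hV : ‖V s‖ < 1) (hv : ‖v (rt Y s (X s))‖ < 1) :
    PairD (fun t => nvec X Y t (rt Y t (X t))) (fun t => v (rt Y t (X t))) V
      (fun t => t - rt Y t (X t)) a A
      (om (nvec X Y s (rt Y s (X s))) (v (rt Y s (X s))))⁻¹ s := by
  have hnull := eventually_null hX hY hs ha
  have h0 := hnull.self_of_nhds
  have hR : 0 < s - rt Y s (X s) := by
    rw [h0]; exact norm_pos_iff.mpr (sub_ne_zero.mpr hne)
  have hep : om (nvec X Y s (rt Y s (X s))) (v (rt Y s (X s))) ≠ 0 :=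
    (om_pos (norm_nvec (X := X) (y := Y) h0 hR) hv).ne'
  have hd := hasDerivAt_rt hX hY hs ha hne hXd hYd hv
  refine pairD_of_null (σ := fun t => t) (τ := fun t => rt Y t (X t)) (θ := s)
    hXd hVd hYd hvd hV hv h0 hR ?_ ?_
  · rw [inv_mul_cancel₀ hep]; exact hasDerivAt_id s
  · refine hd.congr_deriv ?_
    rw [div_eq_inv_mul]

/-- near `s` the unit vector is `|X - Y|⁻¹ (X - Y)` -/
theorem eventually_nvec_eq (hX : SubL T X) (hY : SubL T Y) (hs : s ∈ Ioo 0 T)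
    (ha : ‖X s - Y 0‖ < s) : ∀ᶠ t in 𝓝 s,
      nvec X Y t (rt Y t (X t)) = ‖X t - Y (rt Y t (X t))‖⁻¹ • (X t - Y (rt Y t (X t))) := by
  filter_upwards [eventually_null hX hY hs ha] with t ht
  unfold nvec
  rw [ht]

/-- `PairD` with `n = |X - Y|⁻¹ (X - Y)` and `R = |X - Y|`. -/
theorem pairD_rt' (hX : SubL T X) (hY : SubL T Y) (hs : s ∈ Ioo 0 T)
    (ha : ‖X s - Y 0‖ < s) (hne : X s ≠ Y (rt Y s (X s))) {A a : R3}
    (hXd : HasDerivAt X (V s) s) (hVd : HasDerivAt V A s)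
    (hYd : HasDerivAt Y (v (rt Y s (X s))) (rt Y s (X s)))
    (hvd : HasDerivAt v a (rt Y s (X s)))
    (hV : ‖V s‖ < 1) (hv : ‖v (rt Y s (X s))‖ < 1) :
    PairD (fun t => ‖X t - Y (rt Y t (X t))‖⁻¹ • (X t - Y (rt Y t (X t))))
      (fun t => v (rt Y t (X t))) V (fun t => ‖X t - Y (rt Y t (X t))‖) a A
      (om (‖X s - Y (rt Y s (X s))‖⁻¹ • (X s - Y (rt Y s (X s)))) (v (rt Y s (X s))))⁻¹ s := by
  have h := pairD_rt hX hY hs ha hne hXd hVd hYd hvd hV hv
  have e1 := eventually_nvec_eq hX hY hs ha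
  have e2 := eventually_null hX hY hs ha
  have q1 := e1.self_of_nhds
  have q2 := e2.self_of_nhds
  rw [q1] at h
  obtain ⟨a1, a2, a3, a4, a5, a6, a7, a8⟩ := h
  simp only [q1, q2] at a1 a2 a3 a4 a5 a6 a7 a8
  refine ⟨a1, a2, a3, a4, ?_, a6, a7, ?_⟩
  · exact a5.congr_of_eventuallyEq (by filter_upwards [e1] with t ht; exact ht.symm)
  · exact a8.congr_of_eventuallyEq (by filter_upwards [e2] with t ht; exact ht.symm)

end

/-! ### the inverse function `s(τ)` -/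

section inverse
variable {T : ℝ} {X Y V v : ℝ → R3}

/-- `rt` is strictly increasing on the alive set -/
theorem strictMonoOn_rt (hX : SubL T X) (hY : SubL T Y) :
    StrictMonoOn (fun t => rt Y t (X t)) {t | t ∈ Ico 0 T ∧ ‖X t - Y 0‖ ≤ t} := by
  rintro s ⟨hs, ha⟩ s' ⟨hs', _⟩ hss
  have hT' : (s' + T) / 2 < T := by linarith [hs'.2]
  simp only [rt_eq_rtm]
  exact rtm_strictMono (SubLum.of_subL hX hT') (SubLum.of_subL hY hT')
    ⟨hs.1, by linarith [hs'.2]⟩ ⟨hs'.1, by linarith [hs'.2]⟩ hss ha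

/-- monotone on `[0, T)` -/
theorem monotoneOn_rt (hX : SubL T X) (hY : SubL T Y) :
    MonotoneOn (fun t => rt Y t (X t)) (Ico 0 T) := by
  intro s hs s' hs' hss
  have hT' : (s' + T) / 2 < T := by linarith [hs'.2]
  simp only [rt_eq_rtm]
  exact rtm_monotoneOn (SubLum.of_subL hX hT') (SubLum.of_subL hY hT')
    ⟨hs.1, by linarith [hs'.2]⟩ ⟨hs'.1, by linarith [hs'.2]⟩ hss

/-- The advanced time `σ(τ)` of a continuous local inverse: if `σ` is continuous at `τ`,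
`σ(t) - t = |X(σ t) - Y t|` near `τ` and `X(σ τ) ≠ Y τ`, then `σ' = ε/δ`. -/
theorem hasDerivAt_adv {σ : ℝ → ℝ} {τ : ℝ} {V₀ v₀ : R3} (hX : HasDerivAt X V₀ (σ τ))
    (hY : HasDerivAt Y v₀ τ) (hσ : ContinuousAt σ τ)
    (hnull : ∀ᶠ t in 𝓝 τ, σ t - t = ‖X (σ t) - Y t‖) (hne : X (σ τ) ≠ Y τ) (hV : ‖V₀‖ < 1) :
    HasDerivAt σ (om (‖X (σ τ) - Y τ‖⁻¹ • (X (σ τ) - Y τ)) v₀
      / om (‖X (σ τ) - Y τ‖⁻¹ • (X (σ τ) - Y τ)) V₀) τ := by
  have h0 := hnull.self_of_nhds
  have hR : 0 < σ τ - τ := by rw [h0]; exact norm_pos_iff.mpr (sub_ne_zero.mpr hne)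
  have h := hasDerivAt_s_of_null hX hY hσ hnull hR hV
  have e : nvec X Y (σ τ) τ = ‖X (σ τ) - Y τ‖⁻¹ • (X (σ τ) - Y τ) := by
    unfold nvec; rw [h0]
  rwa [e] at h

end inverse

end Crest.Agent.R106.Pair
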