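import Crest.Agent.R106.MixDefs
import Crest.Agent.R106.PairRetDer
import Crest.Agent.R106.MixInst
import Crest.Agent.R106.PairDefs
import Crest.Agent.R106.Clamp

/-!
# Row 106, MIX: the mixed representation (M), final assembly (helper616)
-/

set_option autoImplicit false

open MeasureTheory Set Filter Topology
open Crest.AnalysisR.VecCalc3 Crest.AnalysisR.PDE.RVM
open scoped InnerProductSpace ENNReal ContDiff

noncomputable section

namespace Crest.Agent.R106.Mix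

open Crest.Agent.R106.Mom (Rr ret nn dl ep Dd kap Fsrc Ftest hden bden hh bb IsChar)
open Crest.Agent.R106.GSR (gam acc lor)
open Crest.Agent.R106.CM (rt rtL hit SubL LFlow)

variable {T : ℝ} {f₀ : R3 → R3 → ℝ} {E₀ B₀ : R3 → R3} {f : ℝ → R3 → R3 → ℝ} {E B : ℝ → R3 → R3}
  {Φ Ψ : ℝ → R3 × R3 → R3 × R3} {X p : ℝ → R3} {lam Qs : ℝ}

lemma SolFlow.speed (hF : SolFlow T f₀ f E B Φ Ψ) (v : R3) : ‖relVel v‖ < 1 :=
  hF.L.speed 0 (0, v)

lemma SolFlow.f_flow (hF : SolFlow T f₀ f E B Φ Ψ) {τ : ℝ} (hτ : τ ∈ Ico 0 T) (z : R3 × R3) :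
    f τ (Φ τ z).1 (Φ τ z).2 = f₀ z.1 z.2 := by
  rw [hF.hf τ hτ, hF.L.left_inv τ hτ]

lemma SolFlow.subL_char (hF : SolFlow T f₀ f E B Φ Ψ) (hX : IsChar T f E B X p) : SubL T X :=
  CM.subL_of_deriv hX.cX hX.dX (fun _ _ => hF.speed _)

lemma qz_eq (s : ℝ) (z : R3 × R3) : qz X Φ s z = Φ (rtL Φ s (X s) z) z := rfl

/-- retarded time at the source point of a label -/
lemma SolFlow.ret_qz (hF : SolFlow T f₀ f E B Φ Ψ) {s : ℝ} (hs : s ∈ Ico 0 T) {z : R3 × R3}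
    (hz : ‖X s - z.1‖ ≤ s) : ret X s (qz X Φ s z).1 = rtL Φ s (X s) z := by
  have h := (hF.L.lab_hit hs (x₀ := X s) hz).2.2
  unfold ret qz
  linarith

lemma SolFlow.ne_qz (hF : SolFlow T f₀ f E B Φ Ψ) {s : ℝ} (hs : s ∈ Ico 0 T) {z : R3 × R3}
    (hz : ‖X s - z.1‖ ≤ s) (hne : X s ≠ (Φ s z).1) : X s ≠ (qz X Φ s z).1 := by
  intro h
  exact hne (hF.L.hit_vertex hs hz h.symm).symm

lemma SolFlow.rtL_zero (hF : SolFlow T f₀ f E B Φ Ψ) {s : ℝ} (hs : s ∈ Ico 0 T) {z : R3 × R3}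
    (hz : z ∉ alive X s) : rtL Φ s (X s) z = 0 := by
  have h1 := Pair.SubLum.of_subL (hF.L.subL z) hs.2
  have h2 := Pair.rtm_pos_iff h1 (s := s) (x := X s) ⟨hs.1, le_rfl⟩
  have h3 : ¬ 0 < Pair.rtm (fun τ => (Φ τ z).1) s (X s) := by
    rw [h2]
    rintro ⟨-, h⟩
    rw [hF.L.zero] at h
    exact hz h
  have h4 := Pair.rtm_nonneg (fun τ => (Φ τ z).1) s (X s)
  unfold rtL
  rw [Pair.rt_eq_rtm]
  exact le_antisymm (not_lt.mp h3) h4

lemma isOpen_ball' (s : ℝ) : MeasurableSet (alive X s) := by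
  have : Continuous fun z : R3 × R3 => ‖X s - z.1‖ := by fun_prop
  exact (isOpen_lt this continuous_const).measurableSet

lemma measurable_f₀ (hadm : IsAdmissibleDatum f₀ E₀ B₀) :
    Measurable (fun z : R3 × R3 => f₀ z.1 z.2) := hadm.2.1.continuous.measurable

lemma continuous_fret (hS : SolTo T f₀ E₀ B₀ f E B) {s : ℝ} (hs : s < T) :
    Continuous (fun q : R3 × R3 => f (ret X s q.1) q.1 q.2) := by
  have h1 : Continuous (fun q : R3 × R3 => ((ret X s q.1, q.1, q.2) : ℝ × R3 × R3)) := by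
    unfold ret; fun_prop
  have h2 := hS.hf.continuousOn.comp_continuous h1 (fun q => by
    refine ⟨?_, mem_univ _⟩
    have := norm_nonneg (X s - q.1)
    show s - ‖X s - q.1‖ < T
    linarith)
  exact h2

/-- cone measure in label form -/
theorem lintegral_kap (hadm : IsAdmissibleDatum f₀ E₀ B₀) (hS : SolTo T f₀ E₀ B₀ f E B)
    (hF : SolFlow T f₀ f E B Φ Ψ) {s : ℝ} (hs : s ∈ Ioo 0 T) (g : R3 × R3 → ℝ≥0∞) :
    ∫⁻ q, g q ∂(kap f X s) = ∫⁻ z in alive X s,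
      g (qz X Φ s z) / ENNReal.ofReal (ep X s (qz X Φ s z).1 (qz X Φ s z).2) ∂(mlab f₀) := by
  have hset : Metric.ball (X s) s ×ˢ (univ : Set R3) = {w : R3 × R3 | ‖X s - w.1‖ < s} := by
    ext w
    simp only [mem_prod, Metric.mem_ball, mem_univ, and_true, mem_ofPred_eq, dist_eq_norm]
    rw [norm_sub_rev]
  unfold kap mlab
  rw [hset, lintegral_withDensity_eq_lintegral_mul_non_measurable₀ _
    (continuous_fret hS hs.2).measurable.ennreal_ofReal.aemeasurable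
    (Eventually.of_forall fun q => ENNReal.ofReal_lt_top)]
  rw [setLIntegral_withDensity_eq_setLIntegral_mul_non_measurable _
    (measurable_f₀ hadm).ennreal_ofReal _ (isOpen_ball' s)
    (Eventually.of_forall fun q => ENNReal.ofReal_lt_top)]
  have h := hF.L.lintegral_cone hs (X s) g (fun z => ENNReal.ofReal (f₀ z.1 z.2))
  refine Eq.trans ?_ (h.trans ?_)
  · refine setLIntegral_congr_fun (isOpen_ball' (X := X) s) fun w hw => ?_
    simp only [Pi.mul_apply]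
    rw [mul_comm]
    congr 2
    refine hF.hf _ ⟨?_, ?_⟩ w
    · have : ‖X s - w.1‖ < s := hw
      show 0 ≤ s - ‖X s - w.1‖
      linarith
    · show s - ‖X s - w.1‖ < T
      linarith [norm_nonneg (X s - w.1), hs.2]
  · rfl

/-- Bochner form -/
theorem integral_kz (hadm : IsAdmissibleDatum f₀ E₀ B₀)
    (hF : SolFlow T f₀ f E B Φ Ψ) {s : ℝ} (hs : s ∈ Ioo 0 T) :
    ∫ z, kz E B X p Φ s z ∂(mlab f₀)
      = ∫ q in {q : R3 × R3 | ‖X s - q.1‖ < s}, f (ret X s q.1) q.1 q.2 • Kq E B X p s q := by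
  have h := hF.L.integral_cone hs (X s) (Kq E B X p s) (fun z => f₀ z.1 z.2)
  have e1 : ∫ q in {q : R3 × R3 | ‖X s - q.1‖ < s}, f (ret X s q.1) q.1 q.2 • Kq E B X p s q
      = ∫ w in {w : R3 × R3 | ‖X s - w.1‖ < s},
        (fun z : R3 × R3 => f₀ z.1 z.2) (Ψ (s - ‖X s - w.1‖) w) • Kq E B X p s w := by
    refine setIntegral_congr_fun (isOpen_ball' (X := X) s) fun w hw => ?_
    simp only
    congr 1
    refine hF.hf _ ⟨?_, ?_⟩ w
    · have : ‖X s - w.1‖ < s := hw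
      show 0 ≤ s - ‖X s - w.1‖
      linarith
    · show s - ‖X s - w.1‖ < T
      linarith [norm_nonneg (X s - w.1), hs.2]
  rw [e1, h]
  unfold mlab
  rw [integral_withDensity_eq_integral_toReal_smul (measurable_f₀ hadm).ennreal_ofReal
    (Eventually.of_forall fun q => ENNReal.ofReal_lt_top)]
  have e2 : ∫ z in {z : R3 × R3 | ‖X s - z.1‖ < s}, f₀ z.1 z.2 •
        ((CM.ep (av E B) (X s) (rtL Φ s (X s) z) (hit Φ s (X s) z))⁻¹ •
          Kq E B X p s (hit Φ s (X s) z))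
      = ∫ z, (alive X s).indicator (fun z : R3 × R3 => f₀ z.1 z.2 •
        ((CM.ep (av E B) (X s) (rtL Φ s (X s) z) (hit Φ s (X s) z))⁻¹ •
          Kq E B X p s (hit Φ s (X s) z))) z :=
    (integral_indicator (isOpen_ball' (X := X) s)).symm
  refine Eq.trans ?_ e2.symm
  refine integral_congr_ae (Eventually.of_forall fun z => ?_)
  simp only
  rw [ENNReal.toReal_ofReal (hadm.1 _ _)]
  unfold kz
  by_cases hz : z ∈ alive X s
  · rw [indicator_of_mem hz, indicator_of_mem hz]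
    rfl
  · rw [indicator_of_notMem hz, indicator_of_notMem hz, smul_zero]

instance sfinite_mlab : SFinite (mlab f₀) := by unfold mlab; infer_instance

lemma ae_mlab_ne (hadm : IsAdmissibleDatum f₀ E₀ B₀) : ∀ᵐ z ∂(mlab f₀), f₀ z.1 z.2 ≠ 0 := by
  unfold mlab
  rw [ae_withDensity_iff (measurable_f₀ hadm).ennreal_ofReal]
  refine Eventually.of_forall fun z hz h0 => hz ?_
  rw [h0, ENNReal.ofReal_zero]

lemma norm_nn_le (s : ℝ) (y : R3) : ‖nn X s y‖ ≤ 1 := CM.norm_nv_le (X s) y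

lemma SolFlow.ep_pos (hF : SolFlow T f₀ f E B Φ Ψ) (s : ℝ) (q : R3 × R3) :
    0 < ep X s q.1 q.2 := hF.L.ep_pos (X s) 0 q

/-- transfer of a pointwise bound to the cone measure -/
lemma lint_aux (hadm : IsAdmissibleDatum f₀ E₀ B₀) (hS : SolTo T f₀ E₀ B₀ f E B)
    (hF : SolFlow T f₀ f E B Φ Ψ) {s : ℝ} (hs : s ∈ Ioo 0 T) {g : R3 × R3 → ℝ≥0∞}
    {h : R3 × R3 → ℝ} {C : ℝ}
    (H : ∀ᵐ z ∂(mlab f₀), z ∈ alive X s → g z ≤ ENNReal.ofReal C *
      (ENNReal.ofReal (h (qz X Φ s z)) / ENNReal.ofReal (ep X s (qz X Φ s z).1 (qz X Φ s z).2)))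
    (H0 : ∀ z ∉ alive X s, g z = 0) :
    ∫⁻ z, g z ∂(mlab f₀) ≤ ENNReal.ofReal C * ∫⁻ q, ENNReal.ofReal (h q) ∂(kap f X s) := by
  rw [lintegral_kap hadm hS hF hs, ← lintegral_const_mul' _ _ ENNReal.ofReal_ne_top,
    ← lintegral_indicator (isOpen_ball' s)]
  refine lintegral_mono_ae ?_
  filter_upwards [H] with z hz
  by_cases hza : z ∈ alive X s
  · rw [indicator_of_mem hza]; exact hz hza
  · rw [H0 z hza]; exact zero_le

lemma lint_k (hadm : IsAdmissibleDatum f₀ E₀ B₀) (hS : SolTo T f₀ E₀ B₀ f E B)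
    (hF : SolFlow T f₀ f E B Φ Ψ) {s : ℝ} (hs : s ∈ Ioo 0 T) {C : ℝ} (hC : 0 ≤ C)
    (hnc : ∀ᵐ z ∂(mlab f₀), X s ≠ (Φ s z).1)
    (hb : ∀ q : R3 × R3, X s ≠ q.1 →
      (1 - chq lam Qs X p s q) * ‖Kq E B X p s q‖ ≤ C * hden E B lam Qs X p s q) :
    ∫⁻ z, ENNReal.ofReal (1 - chz lam Qs X p Φ s z) * ‖kz E B X p Φ s z‖ₑ ∂(mlab f₀)
      ≤ ENNReal.ofReal C * ∫⁻ q, ENNReal.ofReal (hden E B lam Qs X p s q) ∂(kap f X s) := by
  refine lint_aux hadm hS hF hs ?_ ?_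
  · filter_upwards [hnc] with z hz hza
    have hs' : s ∈ Ico 0 T := ⟨hs.1.le, hs.2⟩
    have hne := hF.ne_qz hs' (le_of_lt hza) hz
    have hep := hF.ep_pos (X := X) s (qz X Φ s z)
    have h1 := hb _ hne
    have h2 : 0 ≤ 1 - chq lam Qs X p s (qz X Φ s z) := by
      have := chi_le_one lam (2 * Qs) (dl X p s (qz X Φ s z).1)
        (ep X s (qz X Φ s z).1 (qz X Φ s z).2) (gam (qz X Φ s z).2)
      unfold chq; linarith
    unfold chz kz
    rw [indicator_of_mem hza, indicator_of_mem hza, enorm_smul, Real.enorm_of_nonneg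
      (inv_nonneg.mpr hep.le), ← ofReal_norm, ← ENNReal.ofReal_mul (inv_nonneg.mpr hep.le),
      ← ENNReal.ofReal_mul h2, ← ENNReal.ofReal_div_of_pos hep, ← ENNReal.ofReal_mul hC]
    refine ENNReal.ofReal_le_ofReal ?_
    calc (1 - chq lam Qs X p s (qz X Φ s z)) * ((ep X s (qz X Φ s z).1 (qz X Φ s z).2)⁻¹ *
          ‖Kq E B X p s (qz X Φ s z)‖)
        = ((1 - chq lam Qs X p s (qz X Φ s z)) * ‖Kq E B X p s (qz X Φ s z)‖) /
          ep X s (qz X Φ s z).1 (qz X Φ s z).2 := by field_simp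
      _ ≤ (C * hden E B lam Qs X p s (qz X Φ s z)) /
          ep X s (qz X Φ s z).1 (qz X Φ s z).2 := div_le_div_of_nonneg_right h1 hep.le
      _ = _ := by rw [mul_div_assoc]
  · intro z hz
    unfold kz
    rw [indicator_of_notMem hz]; simp

lemma lint_g (hadm : IsAdmissibleDatum f₀ E₀ B₀) (hS : SolTo T f₀ E₀ B₀ f E B)
    (hF : SolFlow T f₀ f E B Φ Ψ) {s : ℝ} (hs : s ∈ Ioo 0 T) {C : ℝ} (hC : 0 ≤ C)
    (hnc : ∀ᵐ z ∂(mlab f₀), X s ≠ (Φ s z).1) {g : R3 × R3 → R3} {h : R3 × R3 → ℝ}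
    (hb : ∀ q : R3 × R3, X s ≠ q.1 → ep X s q.1 q.2 * ‖g q‖ ≤ C * h q) :
    ∫⁻ z, ‖(alive X s).indicator (fun z => g (qz X Φ s z)) z‖ₑ ∂(mlab f₀)
      ≤ ENNReal.ofReal C * ∫⁻ q, ENNReal.ofReal (h q) ∂(kap f X s) := by
  refine lint_aux hadm hS hF hs ?_ ?_
  · filter_upwards [hnc] with z hz hza
    have hs' : s ∈ Ico 0 T := ⟨hs.1.le, hs.2⟩
    have hne := hF.ne_qz hs' (le_of_lt hza) hz
    have hep := hF.ep_pos (X := X) s (qz X Φ s z)
    have h1 := hb _ hne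
    rw [indicator_of_mem hza, ← ofReal_norm, ← ENNReal.ofReal_div_of_pos hep,
      ← ENNReal.ofReal_mul hC]
    refine ENNReal.ofReal_le_ofReal ?_
    rw [← mul_div_assoc, le_div_iff₀ hep, mul_comm]
    exact h1
  · intro z hz
    rw [indicator_of_notMem hz]; simp

/-! ### regularity of `χ G` along one label -/

lemma norm_sub_continuousAt (hX : IsChar T f E B X p) {s : ℝ} (hs : s ∈ Ioo 0 T) :
    ContinuousAt X s := (hX.dX s hs).continuousAt

lemma alive_eventually (hX : IsChar T f E B X p) {s : ℝ} (hs : s ∈ Ioo 0 T) {z : R3 × R3}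
    (hz : z ∈ alive X s) : ∀ᶠ t in 𝓝 s, z ∈ alive X t := by
  have hc : ContinuousAt (fun t => t - ‖X t - z.1‖) s :=
    continuousAt_id.sub ((hX.dX s hs).continuousAt.sub continuousAt_const).norm
  have h1 : (0 : ℝ) < s - ‖X s - z.1‖ := by
    have : ‖X s - z.1‖ < s := hz
    linarith
  filter_upwards [hc.eventually (lt_mem_nhds h1)] with t ht
  show ‖X t - z.1‖ < t
  linarith

lemma pos_of_alive {s : ℝ} {z : R3 × R3} (hz : z ∈ alive X s) : 0 < s := by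
  have : ‖X s - z.1‖ < s := hz
  linarith [norm_nonneg (X s - z.1)]

/-- derivative along a label that is alive -/
lemma label_deriv (hF : SolFlow T f₀ f E B Φ Ψ) (hPD : PtDeriv E B) (hX : IsChar T f E B X p)
    (hlam : 0 < lam) (hQs : 0 < Qs) {s : ℝ} (hs : s ∈ Ioo 0 T) {z : R3 × R3}
    (hz : z ∈ alive X s) (hne : X s ≠ (Φ s z).1) :
    HasDerivAt (fun t => Yz lam Qs X p Φ t z)
      (chz lam Qs X p Φ s z • kz E B X p Φ s z - Wz E B lam Qs X p Φ s z) s := by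
  have hs' : s ∈ Ico 0 T := ⟨hs.1.le, hs.2⟩
  have hXs := hF.subL_char hX
  have hYs : SubL T (fun τ => (Φ τ z).1) := hF.L.subL z
  have ha : ‖X s - (fun τ => (Φ τ z).1) 0‖ < s := by
    simp only [hF.L.zero]; exact hz
  have hτc : ContinuousAt (fun t => rtL Φ t (X t) z) s := Pair.continuousAt_rt hXs hYs hs
  have hnull := Pair.eventually_null hXs hYs hs ha
  have hpos : 0 < rtL Φ s (X s) z := Pair.rt_pos' hYs hs ha
  have hneq := hF.ne_qz hs' (le_of_lt hz) hne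
  have hR : rtL Φ s (X s) z < s := by
    have h0 := hnull.self_of_nhds
    have h1 : 0 < ‖X s - (qz X Φ s z).1‖ := norm_pos_iff.mpr (sub_ne_zero.mpr hneq)
    have h2 : s - rtL Φ s (X s) z = ‖X s - (qz X Φ s z).1‖ := h0
    linarith
  have hτT : rtL Φ s (X s) z ∈ Ioo 0 T := ⟨hpos, hR.trans hs.2⟩
  have hd := hF.L.deriv _ hτT z
  have hY1 : HasDerivAt (fun τ => (Φ τ z).1)
      (relVel ((fun τ => (Φ τ z).2) (rtL Φ s (X s) z))) (rtL Φ s (X s) z) :=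
    (ContinuousLinearMap.fst ℝ R3 R3).hasFDerivAt.comp_hasDerivAt _ hd
  have hw1 : HasDerivAt (fun τ => (Φ τ z).2)
      (lor E B (rtL Φ s (X s) z) ((fun τ => (Φ τ z).1) (rtL Φ s (X s) z))
        ((fun τ => (Φ τ z).2) (rtL Φ s (X s) z))) (rtL Φ s (X s) z) :=
    (ContinuousLinearMap.snd ℝ R3 R3).hasFDerivAt.comp_hasDerivAt _ hd
  have key := hPD X p (fun τ => (Φ τ z).1) (fun τ => (Φ τ z).2) (fun t => rtL Φ t (X t) z) s
    lam Qs hlam hQs (hX.dX s hs) (hX.dp s hs) hY1 hw1 hτc hnull hR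
  have e1 : chz lam Qs X p Φ s z • kz E B X p Φ s z - Wz E B lam Qs X p Φ s z
      = chq lam Qs X p s ((Φ (rtL Φ s (X s) z) z).1, (Φ (rtL Φ s (X s) z) z).2) •
          ((ep X s (Φ (rtL Φ s (X s) z) z).1 (Φ (rtL Φ s (X s) z) z).2)⁻¹ •
            Kq E B X p s ((Φ (rtL Φ s (X s) z) z).1, (Φ (rtL Φ s (X s) z) z).2))
        - Wq E B lam Qs X p s ((Φ (rtL Φ s (X s) z) z).1, (Φ (rtL Φ s (X s) z) z).2) := by
    unfold chz kz Wz
    rw [indicator_of_mem hz, indicator_of_mem hz, indicator_of_mem hz]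
    rfl
  rw [e1]
  refine key.congr_of_eventuallyEq ?_
  filter_upwards [alive_eventually hX hs hz] with t ht
  unfold Yz
  rw [indicator_of_mem ht]
  rfl

/-- energies are bounded at small times: bound from the support of `f` on `[0, τ0]` -/
lemma gam_le_of_supp (hF : SolFlow T f₀ f E B Φ Ψ) {τ0 R : ℝ} (hτ0 : τ0 < T)
    (hR : ∀ t ∈ Icc 0 τ0, ∀ x v : R3, (R < ‖x‖ ∨ R < ‖v‖) → f t x v = 0) :
    ∀ τ ∈ Icc 0 τ0, ∀ z : R3 × R3, f₀ z.1 z.2 ≠ 0 → gam (Φ τ z).2 ≤ √(1 + R ^ 2) := by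
  intro τ hτ z hz
  have h1 := hF.f_flow (τ := τ) ⟨hτ.1, hτ.2.trans_lt hτ0⟩ z
  have h2 : ‖(Φ τ z).2‖ ≤ R := by
    by_contra h
    push Not at h
    exact hz (by rw [← h1]; exact hR τ hτ _ _ (Or.inr h))
  unfold GSR.gam
  apply Real.sqrt_le_sqrt
  have := norm_nonneg (Φ τ z).2
  gcongr

lemma chq_zero {s : ℝ} {q : R3 × R3} (hQs : 0 < Qs) (h : gam q.2 ≤ Qs) :
    chq lam Qs X p s q = 0 := by
  unfold chq chi
  rw [chi2_eq_zero (by rw [div_le_iff₀ (by positivity)]; linarith), mul_zero]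

lemma label_zero {τ0 : ℝ} (hτ0 : 0 < τ0) (hF : SolFlow T f₀ f E B Φ Ψ) (hX : IsChar T f E B X p)
    {Q0 : ℝ} (hQ0 : 0 < Q0) (hQ : Q0 ≤ Qs) {z : R3 × R3}
    (hzQ : ∀ τ ∈ Icc 0 τ0, gam (Φ τ z).2 ≤ Q0) {s : ℝ} (hs : s ∈ Ico 0 T)
    (hz : z ∉ alive X s) : ∀ᶠ t in 𝓝[Ico 0 T] s, Yz lam Qs X p Φ t z = 0 := by
  have hXs := hF.subL_char hX
  have hYs : SubL T (fun τ => (Φ τ z).1) := hF.L.subL z
  have hc : ContinuousWithinAt (fun t => rtL Φ t (X t) z) (Ico 0 T) s :=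
    Pair.continuousOn_rt hXs hYs s hs
  have h0 : rtL Φ s (X s) z = 0 := hF.rtL_zero hs hz
  have h1 : ∀ᶠ t in 𝓝[Ico 0 T] s, rtL Φ t (X t) z < τ0 := by
    have : (fun t => rtL Φ t (X t) z) s < τ0 := by simp only [h0]; exact hτ0
    exact hc.eventually (gt_mem_nhds this)
  filter_upwards [h1, self_mem_nhdsWithin] with t ht htT
  unfold Yz
  by_cases hza : z ∈ alive X t
  · rw [indicator_of_mem hza]
    have h2 : 0 ≤ rtL Φ t (X t) z := by
      unfold rtL; rw [Pair.rt_eq_rtm]; exact Pair.rtm_nonneg _ _ _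
    have h3 := hzQ _ ⟨h2, ht.le⟩
    rw [chq_zero (hQ0.trans_le hQ) (by rw [qz_eq]; exact h3.trans hQ), zero_smul]
  · rw [indicator_of_notMem hza]

/-! ### the force along the test characteristic -/

lemma continuous_cross3 : Continuous (fun q : R3 × R3 => cross3 q.1 q.2) := by
  unfold cross3
  refine (PiLp.continuous_toLp 2 _).comp ?_
  refine continuous_pi fun i => ?_
  fin_cases i <;> simp <;> fun_prop

lemma continuous_relVel' : Continuous relVel := by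
  have h1 : Continuous fun v : R3 => Real.sqrt (1 + ‖v‖ ^ 2) := by fun_prop
  have h2 : Continuous fun v : R3 => (Real.sqrt (1 + ‖v‖ ^ 2))⁻¹ :=
    h1.inv₀ fun v => (Real.sqrt_pos.mpr (by positivity)).ne'
  exact h2.smul continuous_id

lemma continuousOn_force (hS : SolTo T f₀ E₀ B₀ f E B) (hX : IsChar T f E B X p) :
    ContinuousOn (fun s => lor E B s (X s) (p s)) (Ico 0 T) := by
  have hm : MapsTo (fun s => ((s, X s) : ℝ × R3)) (Ico 0 T) (Iio T ×ˢ univ) :=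
    fun s hs => ⟨hs.2, mem_univ _⟩
  have hc : ContinuousOn (fun s => ((s, X s) : ℝ × R3)) (Ico 0 T) :=
    continuousOn_id.prodMk hX.cX
  have h1 : ContinuousOn (fun s => E s (X s)) (Ico 0 T) :=
    hS.hE.continuousOn.comp hc hm
  have h2 : ContinuousOn (fun s => B s (X s)) (Ico 0 T) :=
    hS.hB.continuousOn.comp hc hm
  have h3 : ContinuousOn (fun s => relVel (p s)) (Ico 0 T) :=
    continuous_relVel'.comp_continuousOn hX.cp
  unfold GSR.lor
  exact h1.add (continuous_cross3.comp_continuousOn (h3.prodMk h2))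

lemma integral_force (hS : SolTo T f₀ E₀ B₀ f E B) (hX : IsChar T f E B X p) {s1 s2 : ℝ}
    (h0 : 0 ≤ s1) (h12 : s1 ≤ s2) (h2 : s2 < T) :
    ∫ s in Icc s1 s2, lor E B s (X s) (p s) = p s2 - p s1 := by
  have hsub : Icc s1 s2 ⊆ Ico 0 T := fun s hs => ⟨h0.trans hs.1, hs.2.trans_lt h2⟩
  rw [integral_Icc_eq_integral_Ioc, ← intervalIntegral.integral_of_le h12]
  refine intervalIntegral.integral_eq_sub_of_hasDerivAt_of_le h12 (hX.cp.mono hsub) ?_ ?_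
  · intro s hs
    exact hX.dp s ⟨h0.trans_lt hs.1, hs.2.trans h2⟩
  · refine ContinuousOn.intervalIntegrable ?_
    rw [uIcc_of_le h12]
    exact (continuousOn_force hS hX).mono hsub

/-- **(M)** for one test characteristic, with explicit constants. -/
theorem mix_core (hadm : IsAdmissibleDatum f₀ E₀ B₀) (hS : SolTo T f₀ E₀ B₀ f E B)
    (hF : SolFlow T f₀ f E B Φ Ψ) (hPD : PtDeriv E B) {C1 C2 Q0 τ0 : ℝ} (hC1 : 0 ≤ C1)
    (hC2 : 0 ≤ C2) (hQ0 : 0 < Q0) (hτ0 : 0 < τ0)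
    (hQ0b : ∀ τ ∈ Icc 0 τ0, ∀ z : R3 × R3, f₀ z.1 z.2 ≠ 0 → gam (Φ τ z).2 ≤ Q0)
    (hX : IsChar T f E B X p)
    (hRep : ∀ s ∈ Ioo 0 T, ‖lor E B s (X s) (p s) - (4 * Real.pi)⁻¹ •
      ∫ q in {q : R3 × R3 | ‖X s - q.1‖ < s}, f (ret X s q.1) q.1 q.2 • Kq E B X p s q‖ ≤ C1)
    (hlam : 0 < lam) (hQs : Q0 ≤ Qs)
    (hPB : ∀ (s : ℝ) (q : R3 × R3), X s ≠ q.1 →
      (1 - chq lam Qs X p s q) * ‖Kq E B X p s q‖ ≤ C2 * hden E B lam Qs X p s q ∧
      ep X s q.1 q.2 * ‖Wq E B lam Qs X p s q‖ ≤ C2 * hden E B lam Qs X p s q ∧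
      ep X s q.1 q.2 * ‖chq lam Qs X p s q • Gq X p s q‖ ≤ C2 * bden lam Qs X p s q)
    {s1 s2 : ℝ} (h0 : 0 ≤ s1) (h12 : s1 ≤ s2) (h2T : s2 < T)
    (hk : Integrable (fun r : ℝ × (R3 × R3) => kz E B X p Φ r.1 r.2)
        ((volume.restrict (Icc s1 s2)).prod (mlab f₀)))
    (hW : Integrable (fun r : ℝ × (R3 × R3) => Wz E B lam Qs X p Φ r.1 r.2)
        ((volume.restrict (Icc s1 s2)).prod (mlab f₀)))
    (hχm : AEStronglyMeasurable (fun r : ℝ × (R3 × R3) => chz lam Qs X p Φ r.1 r.2)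
        ((volume.restrict (Icc s1 s2)).prod (mlab f₀)))
    (hY1 : AEStronglyMeasurable (Yz lam Qs X p Φ s1) (mlab f₀))
    (hnc : ∀ᵐ z ∂(mlab f₀), ∀ s ∈ Icc 0 s2, X s ≠ (Φ s z).1) :
    ENNReal.ofReal ‖p s2 - p s1‖ ≤ ENNReal.ofReal (C1 + 2 * C2) *
      ((∫⁻ s in Icc s1 s2, hh f E B lam Qs X p s) + bb f lam Qs X p s1 + bb f lam Qs X p s2) := by
  have hQspos : 0 < Qs := hQ0.trans_le hQs
  have hsub : Icc s1 s2 ⊆ Ico 0 T := fun s hs => ⟨h0.trans hs.1, hs.2.trans_lt h2T⟩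
  set κ : ℝ := (4 * Real.pi)⁻¹ with hκ
  have hκ0 : 0 ≤ κ := by positivity
  have hκ1 : κ ≤ 1 := by
    rw [hκ]
    refine inv_le_one_of_one_le₀ ?_
    linarith [Real.pi_gt_three]
  set F : ℝ → R3 := fun s => lor E B s (X s) (p s) with hFdef
  set Fdat : ℝ → R3 := fun s => F s - κ • ∫ z, kz E B X p Φ s z ∂(mlab f₀) with hFdat
  have hFint : IntegrableOn F (Icc s1 s2) :=
    ((continuousOn_force hS hX).mono hsub).integrableOn_compact isCompact_Icc
  have hmain := mix_abs (m := mlab f₀) h12 F Fdat (kz E B X p Φ) (Wz E B lam Qs X p Φ)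
    (Yz lam Qs X p Φ) (chz lam Qs X p Φ) κ hκ0 ?_ ?_ ?_ hk hχm hW hY1 ?_ ?_
  rotate_left
  · -- 0 ≤ χ ≤ 1
    intro s z
    unfold chz
    by_cases hz : z ∈ alive X s
    · rw [indicator_of_mem hz]
      exact ⟨chi_nonneg _ _ _ _ _, chi_le_one _ _ _ _ _⟩
    · rw [indicator_of_notMem hz]; exact ⟨le_rfl, zero_le_one⟩
  · exact Eventually.of_forall fun s => by rw [hFdat]; simp
  · exact Integrable.sub hFint (hk.integral_prod_left.smul κ)
  · -- continuity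
    filter_upwards [hnc, ae_mlab_ne hadm] with z hz hz0
    intro s hs
    have hsT := hsub hs
    by_cases hza : z ∈ alive X s
    · have hspos := pos_of_alive hza
      exact (label_deriv hF hPD hX hlam hQspos ⟨hspos, hsT.2⟩ hza
        (hz s ⟨hsT.1, hs.2⟩)).continuousAt.continuousWithinAt
    · have h1 := label_zero (lam := lam) hτ0 hF hX hQ0 hQs (fun τ hτ => hQ0b τ hτ z hz0) hsT hza
      have h2 : Yz lam Qs X p Φ s z = 0 := by
        unfold Yz; rw [indicator_of_notMem hza]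
      refine ContinuousWithinAt.mono ?_ hsub
      refine (continuousWithinAt_const (b := (0 : R3))).congr_of_eventuallyEq h1 h2
  · -- derivative
    filter_upwards [hnc, ae_mlab_ne hadm] with z hz hz0
    refine ⟨∅, countable_empty, fun s hs => ?_⟩
    have hs' : s ∈ Ioo s1 s2 := hs.1
    have hsT : s ∈ Ioo 0 T := ⟨h0.trans_lt hs'.1, hs'.2.trans h2T⟩
    by_cases hza : z ∈ alive X s
    · exact label_deriv hF hPD hX hlam hQspos hsT hza (hz s ⟨hsT.1.le, hs'.2.le⟩)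
    · have h1 := label_zero (lam := lam) hτ0 hF hX hQ0 hQs (fun τ hτ => hQ0b τ hτ z hz0)
        ⟨hsT.1.le, hsT.2⟩ hza
      rw [nhdsWithin_eq_nhds.mpr (Ico_mem_nhds hsT.1 hsT.2)] at h1
      have e : chz lam Qs X p Φ s z • kz E B X p Φ s z - Wz E B lam Qs X p Φ s z = 0 := by
        unfold chz kz Wz
        rw [indicator_of_notMem hza, indicator_of_notMem hza, indicator_of_notMem hza]
        simp
      rw [e]
      exact (hasDerivAt_const s (0 : R3)).congr_of_eventuallyEq h1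
  -- evaluation of the two sides
  rw [integral_force hS hX h0 h12 h2T] at hmain
  rw [ofReal_norm]
  refine hmain.trans ?_
  set H : ℝ → ℝ≥0∞ := fun s => ∫⁻ q, ENNReal.ofReal (hden E B lam Qs X p s q) ∂(kap f X s)
    with hH
  have hae : ∀ᵐ s ∂(volume.restrict (Icc s1 s2)), s ∈ Ioo 0 T ∧ s ≤ s2 := by
    have h1 : ∀ᵐ s ∂(volume.restrict (Icc s1 s2)), s ∈ Icc s1 s2 :=
      ae_restrict_mem measurableSet_Icc
    have h2 : ∀ᵐ s ∂(volume.restrict (Icc s1 s2)), s ≠ 0 :=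
      ae_restrict_of_ae (by simp [ae_iff])
    filter_upwards [h1, h2] with s hs hs0
    exact ⟨⟨lt_of_le_of_ne (h0.trans hs.1) (Ne.symm hs0), hs.2.trans_lt h2T⟩, hs.2⟩
  have hncs : ∀ s, 0 ≤ s → s ≤ s2 → ∀ᵐ z ∂(mlab f₀), X s ≠ (Φ s z).1 := by
    intro s hs hs2
    filter_upwards [hnc] with z hz
    exact hz s ⟨hs, hs2⟩
  have e0 : ∫⁻ s in Icc s1 s2, ‖Fdat s‖ₑ ≤ ENNReal.ofReal C1 * volume (Icc s1 s2) := by
    have : ∫⁻ s in Icc s1 s2, ‖Fdat s‖ₑ ≤ ∫⁻ _s in Icc s1 s2, ENNReal.ofReal C1 := by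
      refine lintegral_mono_ae ?_
      filter_upwards [hae] with s hs
      rw [← ofReal_norm]
      refine ENNReal.ofReal_le_ofReal ?_
      rw [hFdat]
      simp only
      rw [integral_kz hadm hF hs.1]
      exact hRep s hs.1
    refine this.trans (le_of_eq ?_)
    rw [lintegral_const, Measure.restrict_apply_univ]
  have e1 : ∫⁻ s in Icc s1 s2, ∫⁻ z, ENNReal.ofReal (1 - chz lam Qs X p Φ s z) *
      ‖kz E B X p Φ s z‖ₑ ∂(mlab f₀) ≤ ENNReal.ofReal C2 * ∫⁻ s in Icc s1 s2, H s := by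
    rw [← lintegral_const_mul' _ _ ENNReal.ofReal_ne_top]
    refine lintegral_mono_ae ?_
    filter_upwards [hae] with s hs
    exact lint_k hadm hS hF hs.1 hC2 (hncs s hs.1.1.le hs.2)
      (fun q hq => (hPB s q hq).1)
  have e2 : ∫⁻ s in Icc s1 s2, ∫⁻ z, ‖Wz E B lam Qs X p Φ s z‖ₑ ∂(mlab f₀)
      ≤ ENNReal.ofReal C2 * ∫⁻ s in Icc s1 s2, H s := by
    rw [← lintegral_const_mul' _ _ ENNReal.ofReal_ne_top]
    refine lintegral_mono_ae ?_
    filter_upwards [hae] with s hs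
    exact lint_g hadm hS hF hs.1 hC2 (hncs s hs.1.1.le hs.2) (g := Wq E B lam Qs X p s)
      (fun q hq => (hPB s q hq).2.1)
  have e3 : ∀ s, 0 ≤ s → s ≤ s2 → ∫⁻ z, ‖Yz lam Qs X p Φ s z‖ₑ ∂(mlab f₀)
      ≤ ENNReal.ofReal C2 * bb f lam Qs X p s := by
    intro s hs0 hs2
    rcases hs0.lt_or_eq with hs | hs
    · exact lint_g hadm hS hF ⟨hs, hs2.trans_lt h2T⟩ hC2 (hncs s hs0 hs2)
        (g := fun q => chq lam Qs X p s q • Gq X p s q)
        (fun q hq => (hPB s q hq).2.2)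
    · have : ∀ z, Yz lam Qs X p Φ s z = 0 := by
        intro z
        unfold Yz
        rw [indicator_of_notMem]
        intro hz
        exact (pos_of_alive hz).ne hs
      simp only [this, enorm_zero, lintegral_zero]
      exact zero_le
  have hhint : ∫⁻ s in Icc s1 s2, hh f E B lam Qs X p s
      = volume (Icc s1 s2) + ∫⁻ s in Icc s1 s2, H s := by
    have : ∀ s, hh f E B lam Qs X p s = 1 + H s := fun s => rfl
    simp only [this]
    rw [lintegral_add_left measurable_const, lintegral_const, Measure.restrict_apply_univ,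
      one_mul]
  rw [hhint]
  have hκe : ENNReal.ofReal κ ≤ 1 := by
    rw [← ENNReal.ofReal_one]; exact ENNReal.ofReal_le_ofReal hκ1
  have b1 := e3 s1 h0 h12
  have b2 := e3 s2 (h0.trans h12) le_rfl
  have hCC : ENNReal.ofReal (C1 + 2 * C2) = ENNReal.ofReal C1 + 2 * ENNReal.ofReal C2 := by
    rw [ENNReal.ofReal_add hC1 (by positivity), ENNReal.ofReal_mul (by norm_num)]
    norm_num
  rw [hCC]
  generalize ∫⁻ s in Icc s1 s2, ‖Fdat s‖ₑ = a0 at e0 ⊢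
  generalize (∫⁻ s in Icc s1 s2, ∫⁻ z, ENNReal.ofReal (1 - chz lam Qs X p Φ s z) *
      ‖kz E B X p Φ s z‖ₑ ∂(mlab f₀)) = a1 at e1 ⊢
  generalize (∫⁻ s in Icc s1 s2, ∫⁻ z, ‖Wz E B lam Qs X p Φ s z‖ₑ ∂(mlab f₀)) = a2 at e2 ⊢
  generalize (∫⁻ z, ‖Yz lam Qs X p Φ s1 z‖ₑ ∂(mlab f₀)) = a3 at b1 ⊢
  generalize (∫⁻ z, ‖Yz lam Qs X p Φ s2 z‖ₑ ∂(mlab f₀)) = a4 at b2 ⊢
  generalize (∫⁻ s in Icc s1 s2, H s) = IH at e1 e2 ⊢
  generalize volume (Icc s1 s2) = vol at e0 ⊢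
  generalize bb f lam Qs X p s1 = β1 at b1 ⊢
  generalize bb f lam Qs X p s2 = β2 at b2 ⊢
  generalize ENNReal.ofReal C1 = c1 at e0 ⊢
  generalize ENNReal.ofReal C2 = c2 at e1 e2 b1 b2 ⊢
  calc a0 + ENNReal.ofReal κ * (a1 + a2 + (a3 + a4))
      ≤ c1 * vol + 1 * (c2 * IH + c2 * IH + (c2 * β1 + c2 * β2)) := by gcongr
    _ ≤ c1 * (vol + IH + β1 + β2) + 2 * c2 * (vol + IH + β1 + β2) := by
        refine add_le_add ?_ ?_
        · gcongr
          calc vol ≤ vol + (IH + β1 + β2) := le_self_add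
            _ = vol + IH + β1 + β2 := by ring
        · calc 1 * (c2 * IH + c2 * IH + (c2 * β1 + c2 * β2))
              = 2 * c2 * IH + c2 * (β1 + β2) := by ring
            _ ≤ 2 * c2 * IH + c2 * (β1 + β2) + (c2 * (β1 + β2) + 2 * c2 * vol) := le_self_add
            _ = 2 * c2 * (vol + IH + β1 + β2) := by ring
    _ = (c1 + 2 * c2) * (vol + IH + β1 + β2) := by ring

/-- restriction of a characteristic to a shorter time interval -/
lemma isChar_mono {T' : ℝ} (hTT : T' ≤ T) (hX : IsChar T f E B X p) : IsChar T' f E B X p where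
  cX := hX.cX.mono (Ico_subset_Ico_right hTT)
  cp := hX.cp.mono (Ico_subset_Ico_right hTT)
  dX := fun s hs => hX.dX s ⟨hs.1, hs.2.trans_le hTT⟩
  dp := fun s hs => hX.dp s ⟨hs.1, hs.2.trans_le hTT⟩
  supp := hX.supp

/-- restriction of a solution to a shorter time interval -/
lemma solTo_mono {T' : ℝ} (hT' : 0 < T') (hTT : T' ≤ T) (hS : SolTo T f₀ E₀ B₀ f E B) :
    SolTo T' f₀ E₀ B₀ f E B := by
  have hI : Iio T' ×ˢ (univ : Set (R3 × R3)) ⊆ Iio T ×ˢ univ :=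
    prod_mono (Iio_subset_Iio hTT) subset_rfl
  have hI' : Iio T' ×ˢ (univ : Set R3) ⊆ Iio T ×ˢ univ :=
    prod_mono (Iio_subset_Iio hTT) subset_rfl
  exact ⟨Clamp.classical_congr hT' hTT hS.1 (fun t _ => ⟨rfl, rfl, rfl⟩), hS.2.1.mono hI,
    hS.2.2.1.mono hI', hS.2.2.2.mono hI'⟩

/-- **(M)**: the mixed representation. The flow is only needed on `[0, T')`, `T' < T`. -/
theorem mixP_of (hT : 0 < T) (hadm : IsAdmissibleDatum f₀ E₀ B₀) (hS : SolTo T f₀ E₀ B₀ f E B)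
    (hRep : RepF T f E B) (hPB : PtBound E B) (hPD : PtDeriv E B)
    (hFl : ∀ T' : ℝ, 0 < T' → T' < T → ∃ Φ Ψ : ℝ → R3 × R3 → R3 × R3,
      SolFlow T' f₀ f E B Φ Ψ ∧ LabInt T' f₀ f E B Φ) : Mom.MixP T f E B := by
  obtain ⟨C1, hC1, hRep⟩ := hRep
  obtain ⟨C2, hC2, hPB⟩ := hPB
  obtain ⟨R, hR⟩ := hS.supp (T' := T / 2) (by linarith) (by linarith)
  have hQ0 : 0 < √(1 + R ^ 2) := Real.sqrt_pos.mpr (by positivity)
  refine ⟨C1 + 2 * C2, √(1 + R ^ 2), by positivity, hQ0, ?_⟩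
  intro X p hX lam Qs hlam hQs s1 s2 h0 h12 h2T
  have hQspos : 0 < Qs := hQ0.trans_le hQs
  set T' : ℝ := (max s2 (T / 2) + T) / 2 with hT'def
  have hm1 : max s2 (T / 2) < T := max_lt h2T (by linarith)
  have hT'T : T' < T := by rw [hT'def]; linarith
  have hT'h : T / 2 < T' := by rw [hT'def]; linarith [le_max_right s2 (T / 2)]
  have hT's : s2 < T' := by rw [hT'def]; linarith [le_max_left s2 (T / 2)]
  have hT'0 : 0 < T' := by linarith
  obtain ⟨Φ, Ψ, hF, hLI⟩ := hFl T' hT'0 hT'T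
  have hX' := isChar_mono hT'T.le hX
  obtain ⟨hk, hW, hχm, hY1, hnc⟩ := hLI X p hX' lam Qs hlam hQspos s1 s2 h0 h12 hT's
  exact mix_core hadm (solTo_mono hT'0 hT'T.le hS) hF hPD hC1 hC2 hQ0 (half_pos hT)
    (gam_le_of_supp hF hT'h hR) hX' (fun s hs => (hRep X p hX s ⟨hs.1, hs.2.trans hT'T⟩).2)
    hlam hQs (fun s q hq => (hPB X p s q hq).2 lam Qs hlam hQspos) h0 h12 hT's hk hW hχm hY1 hnc

end Crest.Agent.R106.Mix
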