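import Mathlib

/-!
Row 106, module MIX, abstract part: integration of the mixed representation.

`Z` is the space of particle labels with measure `m` (`f₀ dz`).  `k s z` is the retarded kernel of
the particle `z` divided by `ε` (and `0` if the particle does not meet the backward cone of the test
particle at time `s`), `χ` is the cut-off, `Y = χ G` the boundary density, `W` the remainder of the
conjugate identity.
-/

set_option autoImplicit false
open MeasureTheory Set Filter Topology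
open scoped ENNReal

namespace Crest.Agent.R106.Mix

variable {Z : Type*} [MeasurableSpace Z] {m : Measure Z}
variable {V : Type*} [NormedAddCommGroup V] [NormedSpace ℝ V] [CompleteSpace V]

/-- the one-label fundamental theorem of calculus on `[s1, s2]`, up to a countable set. -/
theorem ftc_label {s1 s2 : ℝ} (h12 : s1 ≤ s2) {Y y' : ℝ → V}
    (hc : ContinuousOn Y (Icc s1 s2)) {c : Set ℝ} (hcc : c.Countable)
    (hd : ∀ s ∈ Ioo s1 s2 \ c, HasDerivAt Y (y' s) s)
    (hi : IntegrableOn y' (Icc s1 s2)) :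
    ∫ s in Icc s1 s2, y' s = Y s2 - Y s1 := by
  have h := MeasureTheory.integral_eq_of_hasDerivAt_off_countable Y y' (a := s1) (b := s2)
    hcc (by rwa [uIcc_of_le h12])
    (by rw [min_eq_left h12, max_eq_right h12]; exact hd)
    ((intervalIntegrable_iff_integrableOn_Icc_of_le h12).2 hi)
  rw [← h, intervalIntegral.integral_of_le h12, integral_Icc_eq_integral_Ioc]

/-- **Abstract mixed representation.** -/
theorem mix_abs [SFinite m] {s1 s2 : ℝ} (h12 : s1 ≤ s2)
    (F Fdat : ℝ → V) (k W Y : ℝ → Z → V) (χ : ℝ → Z → ℝ) (κ : ℝ) (hκ : 0 ≤ κ)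
    (hχ : ∀ s z, 0 ≤ χ s z ∧ χ s z ≤ 1)
    (hF : ∀ᵐ s ∂(volume.restrict (Icc s1 s2)), F s = Fdat s + κ • ∫ z, k s z ∂m)
    (hdat : IntegrableOn Fdat (Icc s1 s2))
    (hk : Integrable (fun p : ℝ × Z => k p.1 p.2) ((volume.restrict (Icc s1 s2)).prod m))
    (hχm : AEStronglyMeasurable (fun p : ℝ × Z => χ p.1 p.2)
      ((volume.restrict (Icc s1 s2)).prod m))
    (hW : Integrable (fun p : ℝ × Z => W p.1 p.2) ((volume.restrict (Icc s1 s2)).prod m))
    (hY1 : AEStronglyMeasurable (Y s1) m)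
    (hc : ∀ᵐ z ∂m, ContinuousOn (fun s => Y s z) (Icc s1 s2))
    (hd : ∀ᵐ z ∂m, ∃ c : Set ℝ, c.Countable ∧ ∀ s ∈ Ioo s1 s2 \ c,
      HasDerivAt (fun s => Y s z) (χ s z • k s z - W s z) s) :
    ‖∫ s in Icc s1 s2, F s‖ₑ ≤ (∫⁻ s in Icc s1 s2, ‖Fdat s‖ₑ) + ENNReal.ofReal κ *
      ((∫⁻ s in Icc s1 s2, ∫⁻ z, ENNReal.ofReal (1 - χ s z) * ‖k s z‖ₑ ∂m)
        + (∫⁻ s in Icc s1 s2, ∫⁻ z, ‖W s z‖ₑ ∂m)
        + ((∫⁻ z, ‖Y s1 z‖ₑ ∂m) + ∫⁻ z, ‖Y s2 z‖ₑ ∂m)) := by
  classical
  set μ : Measure ℝ := volume.restrict (Icc s1 s2) with hμ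
  -- integrability of the two pieces
  have hχk : Integrable (fun p : ℝ × Z => χ p.1 p.2 • k p.1 p.2) (μ.prod m) := by
    refine hk.norm.mono' (hχm.smul hk.aestronglyMeasurable) (Eventually.of_forall fun p => ?_)
    rw [norm_smul, Real.norm_of_nonneg (hχ _ _).1]
    exact mul_le_of_le_one_left (norm_nonneg _) (hχ _ _).2
  have hχk' : Integrable (fun p : ℝ × Z => (1 - χ p.1 p.2) • k p.1 p.2) (μ.prod m) := by
    have := hk.sub hχk
    refine this.congr (Eventually.of_forall fun p => ?_)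
    simp only [Pi.sub_apply, sub_smul, one_smul]
  have hd' : ∀ᵐ z ∂m, ∫ s, χ s z • k s z ∂μ = (Y s2 z - Y s1 z) + ∫ s, W s z ∂μ := by
    filter_upwards [hc, hd, hχk.prod_left_ae, hW.prod_left_ae] with z hcz hdz hkz hWz
    obtain ⟨c, hcc, hdz⟩ := hdz
    have h1 := ftc_label h12 hcz hcc hdz (hkz.sub hWz)
    have h2 : ∫ s in Icc s1 s2, (χ s z • k s z - W s z)
        = (∫ s, χ s z • k s z ∂μ) - ∫ s, W s z ∂μ := integral_sub hkz hWz
    rw [h2] at h1
    rw [← h1]; abel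
  have hsplit : ∫ s, F s ∂μ = (∫ s, Fdat s ∂μ) + κ • ((∫ s, ∫ z, (1 - χ s z) • k s z ∂m ∂μ)
      + ∫ z, ∫ s, χ s z • k s z ∂μ ∂m) := by
    rw [integral_congr_ae hF]
    have e1 : ∀ᵐ s ∂μ, ∫ z, k s z ∂m = (∫ z, (1 - χ s z) • k s z ∂m) + ∫ z, χ s z • k s z ∂m := by
      filter_upwards [hχk.prod_right_ae, hχk'.prod_right_ae] with s h1 h2
      rw [← integral_add h2 h1]
      refine integral_congr_ae (Eventually.of_forall fun z => ?_)
      simp only [sub_smul, one_smul]; abel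
    have i0 : Integrable (fun s => ∫ z, k s z ∂m) μ := hk.integral_prod_left
    have i1 : Integrable (fun s => ∫ z, (1 - χ s z) • k s z ∂m) μ := hχk'.integral_prod_left
    have i2 : Integrable (fun s => ∫ z, χ s z • k s z ∂m) μ := hχk.integral_prod_left
    have a1 : ∫ s, (Fdat s + κ • ∫ z, k s z ∂m) ∂μ
        = (∫ s, Fdat s ∂μ) + ∫ s, κ • ∫ z, k s z ∂m ∂μ := integral_add hdat (i0.smul κ)
    have a2 : ∫ s, ((∫ z, (1 - χ s z) • k s z ∂m) + ∫ z, χ s z • k s z ∂m) ∂μ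
        = (∫ s, ∫ z, (1 - χ s z) • k s z ∂m ∂μ) + ∫ s, ∫ z, χ s z • k s z ∂m ∂μ :=
      integral_add i1 i2
    have a3 : ∫ s, ∫ z, χ s z • k s z ∂m ∂μ = ∫ z, ∫ s, χ s z • k s z ∂μ ∂m :=
      integral_integral_swap hχk
    rw [a1, integral_smul, integral_congr_ae e1, a2, a3]
  rw [hsplit]
  refine (enorm_add_le _ _).trans (add_le_add (enorm_integral_le_lintegral_enorm _) ?_)
  rw [enorm_smul, Real.enorm_of_nonneg hκ]
  refine mul_le_mul_right ?_ _
  refine (enorm_add_le _ _).trans ?_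
  rw [add_assoc]
  refine add_le_add ?_ ?_
  · refine (enorm_integral_le_lintegral_enorm _).trans (lintegral_mono fun s => ?_)
    refine (enorm_integral_le_lintegral_enorm _).trans (lintegral_mono fun z => ?_)
    rw [enorm_smul, Real.enorm_of_nonneg (by linarith [(hχ s z).2])]
  · rw [integral_congr_ae hd']
    refine (enorm_integral_le_lintegral_enorm _).trans ?_
    have hb : ∀ z, ‖Y s2 z - Y s1 z + ∫ s, W s z ∂μ‖ₑ
        ≤ (‖Y s1 z‖ₑ + ‖Y s2 z‖ₑ) + ∫⁻ s, ‖W s z‖ₑ ∂μ := by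
      intro z
      refine (enorm_add_le _ _).trans (add_le_add ?_ (enorm_integral_le_lintegral_enorm _))
      exact (enorm_sub_le).trans (by rw [add_comm])
    refine (lintegral_mono hb).trans ?_
    have hWm : AEMeasurable (fun z => ∫⁻ s, ‖W s z‖ₑ ∂μ) m :=
      (hW.aestronglyMeasurable.enorm.prod_swap.lintegral_prod_right' : _)
    rw [lintegral_add_right' _ hWm, lintegral_add_left' hY1.enorm, add_comm]
    refine add_le_add (le_of_eq ?_) le_rfl
    exact lintegral_lintegral_swap (hW.aestronglyMeasurable.enorm.prod_swap)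

end Crest.Agent.R106.Mix
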