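import Mathlib

/-!
# Row 106, MIX: from the lintegral form of the cone change of variables to the Bochner form

If `∫⁻ φ w dν = ∫⁻ φ(T z) r dm` for all measurable `φ ≥ 0`, then
`∫ w • Ψ dν = ∫ r • Ψ(T z) dm` for all (a.e. strongly measurable) `Ψ`.
-/

set_option autoImplicit false

open MeasureTheory Set
open scoped ENNReal NNReal

namespace Crest.Agent.R106.Mix

variable {Y Z V : Type*} [MeasurableSpace Y] [MeasurableSpace Z]
  [NormedAddCommGroup V] [NormedSpace ℝ V]

/-- the two weighted measures agree -/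
lemma map_withDensity_eq {ν : Measure Y} {m : Measure Z} {T : Z → Y} (hT : Measurable T)
    {w : Y → ℝ≥0∞} {r : Z → ℝ≥0∞}
    (h : ∀ φ : Y → ℝ≥0∞, Measurable φ → ∫⁻ y, φ y * w y ∂ν = ∫⁻ z, φ (T z) * r z ∂m) :
    (m.withDensity r).map T = ν.withDensity w := by
  ext s hs
  rw [Measure.map_apply hT hs, withDensity_apply _ (hT hs), withDensity_apply _ hs,
    ← lintegral_indicator (hT hs), ← lintegral_indicator hs]
  have := h (s.indicator 1) (measurable_one.indicator hs)
  convert this.symm using 2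
  · funext z
    by_cases hz : T z ∈ s
    · rw [indicator_of_mem (show z ∈ T ⁻¹' s from hz), indicator_of_mem hz]; simp
    · rw [indicator_of_notMem (show z ∉ T ⁻¹' s from hz), indicator_of_notMem hz]; simp
  · funext y
    by_cases hy : y ∈ s
    · rw [indicator_of_mem hy, indicator_of_mem hy]; simp
    · rw [indicator_of_notMem hy, indicator_of_notMem hy]; simp

/-- Bochner form of the change of variables. -/
theorem integral_cov {ν : Measure Y} {m : Measure Z} {T : Z → Y} (hT : Measurable T)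
    {w : Y → ℝ} {r : Z → ℝ} (hw : Measurable w) (hr : Measurable r)
    (hw0 : ∀ y, 0 ≤ w y) (hr0 : ∀ z, 0 ≤ r z)
    (h : ∀ φ : Y → ℝ≥0∞, Measurable φ →
      ∫⁻ y, φ y * ENNReal.ofReal (w y) ∂ν = ∫⁻ z, φ (T z) * ENNReal.ofReal (r z) ∂m)
    (Ψ : Y → V) (hΨ : AEStronglyMeasurable Ψ (ν.withDensity fun y => ENNReal.ofReal (w y))) :
    ∫ y, w y • Ψ y ∂ν = ∫ z, r z • Ψ (T z) ∂m := by
  have hmap := map_withDensity_eq hT h
  have e1 : ∫ y, w y • Ψ y ∂ν = ∫ y, Ψ y ∂(ν.withDensity fun y => ENNReal.ofReal (w y)) := by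
    rw [integral_withDensity_eq_integral_toReal_smul hw.ennreal_ofReal
      (Filter.Eventually.of_forall fun y => ENNReal.ofReal_lt_top)]
    refine integral_congr_ae (Filter.Eventually.of_forall fun y => ?_)
    simp only [ENNReal.toReal_ofReal (hw0 y)]
  have e2 : ∫ z, r z • Ψ (T z) ∂m
      = ∫ z, Ψ (T z) ∂(m.withDensity fun z => ENNReal.ofReal (r z)) := by
    rw [integral_withDensity_eq_integral_toReal_smul hr.ennreal_ofReal
      (Filter.Eventually.of_forall fun y => ENNReal.ofReal_lt_top)]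
    refine integral_congr_ae (Filter.Eventually.of_forall fun y => ?_)
    simp only [ENNReal.toReal_ofReal (hr0 y)]
  rw [e1, e2, ← hmap, integral_map hT.aemeasurable]
  rw [hmap]
  exact hΨ

/-- Bochner form, integrability. -/
theorem integrable_cov {ν : Measure Y} {m : Measure Z} {T : Z → Y} (hT : Measurable T)
    {w : Y → ℝ} {r : Z → ℝ} (hw : Measurable w) (hr : Measurable r)
    (hw0 : ∀ y, 0 ≤ w y) (hr0 : ∀ z, 0 ≤ r z)
    (h : ∀ φ : Y → ℝ≥0∞, Measurable φ →
      ∫⁻ y, φ y * ENNReal.ofReal (w y) ∂ν = ∫⁻ z, φ (T z) * ENNReal.ofReal (r z) ∂m)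
    (Ψ : Y → V) (hΨ : StronglyMeasurable Ψ) :
    Integrable (fun y => w y • Ψ y) ν ↔ Integrable (fun z => r z • Ψ (T z)) m := by
  have hm1 : AEStronglyMeasurable (fun y => w y • Ψ y) ν :=
    (hw.stronglyMeasurable.smul hΨ).aestronglyMeasurable
  have hm2 : AEStronglyMeasurable (fun z => r z • Ψ (T z)) m :=
    (hr.stronglyMeasurable.smul (hΨ.comp_measurable hT)).aestronglyMeasurable
  have hen : ∀ (a : ℝ) (v : V), 0 ≤ a → ‖a • v‖ₑ = ‖v‖ₑ * ENNReal.ofReal a := by
    intro a v ha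
    rw [enorm_smul, Real.enorm_of_nonneg ha, mul_comm]
  have key : ∫⁻ y, ‖w y • Ψ y‖ₑ ∂ν = ∫⁻ z, ‖r z • Ψ (T z)‖ₑ ∂m := by
    rw [lintegral_congr (fun y => hen (w y) (Ψ y) (hw0 y)),
      lintegral_congr (fun z => hen (r z) (Ψ (T z)) (hr0 z))]
    exact h (fun y => ‖Ψ y‖ₑ) hΨ.enorm
  constructor
  · rintro ⟨_, h2⟩
    refine ⟨hm2, ?_⟩
    unfold HasFiniteIntegral at *
    rwa [← key]
  · rintro ⟨_, h2⟩
    refine ⟨hm1, ?_⟩
    unfold HasFiniteIntegral at *
    rwa [key]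

end Crest.Agent.R106.Mix
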