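import Crest.Agent.R106.PairKer

/-!
# Row 106, node PAIR, part P3: derivatives along the null pair and the conjugate identity (C)

Everything is written for an arbitrary parameter `θ` with `ds/dθ = c ep`, `dτ/dθ = c dl`
(`c = 1/dl` : parameter `τ`; `c = 1/ep` : parameter `s`).
-/

set_option autoImplicit false
open scoped RealInnerProductSpace

namespace Crest.Agent.R106.Pair

variable {H : Type*} [NormedAddCommGroup H] [InnerProductSpace ℝ H]

section abstract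
variable {n v V : ℝ → H} {R : ℝ → ℝ} {a A : H} {c θ : ℝ}

/-- Data of a null pair at the parameter value `θ`. -/
structure PairD (n v V : ℝ → H) (R : ℝ → ℝ) (a A : H) (c θ : ℝ) : Prop where
  hn1 : ‖n θ‖ = 1
  hv1 : ‖v θ‖ < 1
  hV1 : ‖V θ‖ < 1
  hR0 : 0 < R θ
  hn : HasDerivAt n ((c / R θ) • ((om (n θ) (v θ)) • V θ - (om (n θ) (V θ)) • v θ
    - (om (n θ) (v θ) - om (n θ) (V θ)) • n θ)) θ
  hv : HasDerivAt v ((c * om (n θ) (V θ)) • a) θ
  hV : HasDerivAt V ((c * om (n θ) (v θ)) • A) θ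
  hR : HasDerivAt R (c * (om (n θ) (v θ) - om (n θ) (V θ))) θ

variable (h : PairD n v V R a A c θ)
include h

theorem PairD.ep_pos : 0 < om (n θ) (v θ) := om_pos h.hn1 h.hv1
theorem PairD.dl_pos : 0 < om (n θ) (V θ) := om_pos h.hn1 h.hV1
theorem PairD.D_pos : 0 < om (V θ) (v θ) := om_pos' h.hV1 h.hv1

/-- derivative of `ep` -/
theorem PairD.deriv_ep : HasDerivAt (fun t => om (n t) (v t))
    (-(c / R θ) * (-(om (n θ) (v θ) * om (V θ) (v θ)) + om (n θ) (V θ) * (1 - ‖v θ‖ ^ 2)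
      + om (n θ) (v θ) * (om (n θ) (v θ) - om (n θ) (V θ)))
      - c * om (n θ) (V θ) * ⟪n θ, a⟫) θ := by
  have h1 := (h.hn.inner ℝ h.hv).const_sub 1
  refine h1.congr_deriv ?_
  simp only [inner_smul_left, inner_smul_right, inner_sub_left, conj_trivial]
  rw [real_inner_self_eq_norm_sq]
  have e1 : ⟪n θ, v θ⟫ = 1 - om (n θ) (v θ) := by unfold om; ring
  have e2 : ⟪V θ, v θ⟫ = 1 - om (V θ) (v θ) := by unfold om; ring
  rw [e1, e2]
  ring

/-- derivative of `dl` -/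
theorem PairD.deriv_dl : HasDerivAt (fun t => om (n t) (V t))
    (-(c / R θ) * (-(om (n θ) (v θ) * (1 - ‖V θ‖ ^ 2)) + om (n θ) (V θ) * om (V θ) (v θ)
      + om (n θ) (V θ) * (om (n θ) (v θ) - om (n θ) (V θ)))
      - c * om (n θ) (v θ) * ⟪n θ, A⟫) θ := by
  have h1 := (h.hn.inner ℝ h.hV).const_sub 1
  refine h1.congr_deriv ?_
  simp only [inner_smul_left, inner_smul_right, inner_sub_left, conj_trivial]
  rw [real_inner_self_eq_norm_sq]
  have e1 : ⟪n θ, V θ⟫ = 1 - om (n θ) (V θ) := by unfold om; ring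
  have e2 : ⟪v θ, V θ⟫ = 1 - om (V θ) (v θ) := by unfold om; rw [real_inner_comm]; ring
  rw [e1, e2]
  ring

/-- derivative of `D` -/
theorem PairD.deriv_D : HasDerivAt (fun t => om (V t) (v t))
    (-(c * om (n θ) (v θ) * ⟪A, v θ⟫ + c * om (n θ) (V θ) * ⟪V θ, a⟫)) θ := by
  have h1 := (h.hV.inner ℝ h.hv).const_sub 1
  refine h1.congr_deriv ?_
  simp only [inner_smul_left, inner_smul_right, conj_trivial]
  ring

/-- derivative of `|v|²` -/
theorem PairD.deriv_normsq_v : HasDerivAt (fun t => ‖v t‖ ^ 2)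
    (2 * (c * om (n θ) (V θ)) * ⟪v θ, a⟫) θ := by
  have h1 := h.hv.norm_sq
  refine h1.congr_deriv ?_
  rw [inner_smul_right]; ring

/-- **The conjugate identity (C)**: `dG/dθ = c (K_T + K_S - dl K_C)`. -/
theorem PairD.deriv_KG : HasDerivAt (fun t => KG (n t) (v t) (V t) (R t))
    (c • (KT (n θ) (v θ) (V θ) (R θ) + KS (n θ) (v θ) (V θ) a (R θ)
      - (om (n θ) (V θ)) • KC (n θ) (v θ) (V θ) A (R θ))) θ := by
  have hδ := h.dl_pos
  have hε := h.ep_pos
  have hR := h.hR0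
  have dε := h.deriv_ep
  have dδ := h.deriv_dl
  have dD := h.deriv_D
  have hne : om (n θ) (V θ) * om (n θ) (v θ) * R θ ≠ 0 := by positivity
  have d1 : HasDerivAt (fun t => 1 / (om (n t) (V t) * om (n t) (v t) * R t)) _ θ :=
    (hasDerivAt_const θ (1 : ℝ)).div ((dδ.mul dε).mul h.hR) hne
  have d2 : HasDerivAt (fun t => (om (V t) (v t)) • n t - (om (n t) (V t)) • v t
      - (om (n t) (v t)) • V t) _ θ :=
    ((dD.smul h.hn).sub (dδ.smul h.hv)).sub (dε.smul h.hV)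
  have d3 := d1.smul d2
  refine HasDerivAt.congr_deriv (f := fun t => KG (n t) (v t) (V t) (R t)) d3 ?_
  -- the algebra
  have iT : ⟪V θ, eT (n θ) (v θ) (R θ)⟫ = ((1 - ‖v θ‖ ^ 2) / ((om (n θ) (v θ)) ^ 2 * (R θ) ^ 2))
      * (om (V θ) (v θ) - om (n θ) (V θ)) := by
    unfold eT
    rw [inner_smul_right, inner_sub_right, real_inner_comm (n θ) (V θ)]
    congr 1
    unfold om; ring
  have iS : ⟪V θ, eS (n θ) (v θ) a (R θ)⟫ = (1 / ((om (n θ) (v θ)) ^ 2 * R θ)) *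
      (⟪n θ, a⟫ * (om (V θ) (v θ) - om (n θ) (V θ)) - om (n θ) (v θ) * ⟪V θ, a⟫) := by
    unfold eS
    rw [inner_smul_right, inner_sub_right, inner_smul_right, inner_sub_right, inner_smul_right,
      real_inner_comm (n θ) (V θ)]
    congr 2
    unfold om; ring
  unfold KT KS lor KC
  rw [iT, iS]
  unfold eT eS
  simp only [Pi.mul_apply]
  set δ := om (n θ) (V θ)
  set ε := om (n θ) (v θ)
  set D := om (V θ) (v θ)
  set N := n θ
  set w := v θ
  set W := V θ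
  set ρ := R θ
  set na := ⟪N, a⟫
  set nA := ⟪N, A⟫
  set Aw := ⟪A, w⟫
  set Wa := ⟪W, a⟫
  set g := ‖w‖ ^ 2
  set G := ‖W‖ ^ 2
  have hδ' : δ ≠ 0 := hδ.ne'
  have hε' : ε ≠ 0 := hε.ne'
  have hρ' : ρ ≠ 0 := hR.ne'
  match_scalars <;> field_simp <;> ring

end abstract

end Crest.Agent.R106.Pair
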