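import Crest.Agent.R106.MomIface
import Crest.Agent.R106.PairDer
import Crest.Agent.R106.MixOne
import Crest.Agent.R106.MixAbs
import Crest.Agent.R106.MixInt
import Crest.Agent.R106.ConeMu
import Crest.Agent.R106.SolTo

/-!
# Row 106, MIX: concrete functions for the mixed representation (helper616)

Phase-space form (`q = (y, w)` a source point on the backward cone of `(s, X s)`):
`Kq = K_T + K_S`, `Gq = G`, `KCq = K_C`, `chq = χ`, `Wq = W`.
Label form: the same functions at `q = hit Φ s (X s) z`, extended by `0` outside the set `alive` of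
labels whose worldline meets the open backward cone.
-/

set_option autoImplicit false

open MeasureTheory Set Filter Topology
open Crest.AnalysisR.VecCalc3 Crest.AnalysisR.PDE.RVM
open scoped InnerProductSpace ENNReal ContDiff

noncomputable section

namespace Crest.Agent.R106.Mix

open Crest.Agent.R106.Mom (Rr ret nn dl ep Dd kap Fsrc Ftest hden bden hh bb IsChar)
open Crest.Agent.R106.GSR (gam acc lor)

/-- phase velocity of the characteristics -/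
def av (E B : ℝ → R3 → R3) (τ : ℝ) (w : R3 × R3) : R3 × R3 := (relVel w.2, lor E B τ w.1 w.2)

/-- the flow of a solution in label form -/
structure SolFlow (T : ℝ) (f₀ : R3 → R3 → ℝ) (f : ℝ → R3 → R3 → ℝ) (E B : ℝ → R3 → R3)
    (Φ Ψ : ℝ → R3 × R3 → R3 × R3) : Prop where
  L : CM.LFlow T (av E B) Φ Ψ
  hf : ∀ τ ∈ Ico 0 T, ∀ w : R3 × R3, f τ w.1 w.2 = f₀ (Ψ τ w).1 (Ψ τ w).2

section phase

variable (E B : ℝ → R3 → R3) (lam Qs : ℝ) (X p : ℝ → R3)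

/-- acceleration of the source -/
def aq (s : ℝ) (q : R3 × R3) : R3 := acc q.2 (lor E B (ret X s q.1) q.1 q.2)

/-- acceleration of the test particle -/
def At (s : ℝ) : R3 := acc (p s) (lor E B s (X s) (p s))

/-- `K_T + K_S` -/
def Kq (s : ℝ) (q : R3 × R3) : R3 :=
  Pair.KT (nn X s q.1) (relVel q.2) (relVel (p s)) (Rr X s q.1) +
    Pair.KS (nn X s q.1) (relVel q.2) (relVel (p s)) (aq E B X s q) (Rr X s q.1)

/-- `G` -/
def Gq (s : ℝ) (q : R3 × R3) : R3 :=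
  Pair.KG (nn X s q.1) (relVel q.2) (relVel (p s)) (Rr X s q.1)

/-- `K_C` -/
def KCq (s : ℝ) (q : R3 × R3) : R3 :=
  Pair.KC (nn X s q.1) (relVel q.2) (relVel (p s)) (At E B X p s) (Rr X s q.1)

/-- the cut-off `χ = χ₁(ε/(λδ²)) χ₂(γ/(2 Qs))` -/
def chq (s : ℝ) (q : R3 × R3) : ℝ :=
  chi lam (2 * Qs) (dl X p s q.1) (ep X s q.1 q.2) (gam q.2)

/-- `d/ds log(ε/δ²)` -/
def Ldq (s : ℝ) (q : R3 × R3) : ℝ :=
  (((Dd p s q.2 - (1 - ‖relVel q.2‖ ^ 2) * dl X p s q.1 / ep X s q.1 q.2 - ep X s q.1 q.2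
        + dl X p s q.1) / Rr X s q.1
      - dl X p s q.1 / ep X s q.1 q.2 * ⟪nn X s q.1, aq E B X s q⟫_ℝ) / ep X s q.1 q.2
    - 2 * (((1 - ‖relVel (p s)‖ ^ 2) - dl X p s q.1
        - Dd p s q.2 * dl X p s q.1 / ep X s q.1 q.2
        + dl X p s q.1 ^ 2 / ep X s q.1 q.2) / Rr X s q.1
      - ⟪nn X s q.1, At E B X p s⟫_ℝ) / dl X p s q.1)

/-- `d γ/ds` of the source -/
def gdq (s : ℝ) (q : R3 × R3) : ℝ :=
  dl X p s q.1 / ep X s q.1 q.2 * ⟪relVel q.2, lor E B (ret X s q.1) q.1 q.2⟫_ℝ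

/-- the remainder `W` -/
def Wq (s : ℝ) (q : R3 × R3) : R3 :=
  Wrem lam (2 * Qs) (dl X p s q.1) (ep X s q.1 q.2) (gam q.2) (Ldq E B X p s q)
    (gdq E B X p s q) (Gq X p s q) (KCq E B X p s q)

end phase

section label

variable (E B : ℝ → R3 → R3) (lam Qs : ℝ) (X p : ℝ → R3) (Φ : ℝ → R3 × R3 → R3 × R3)

/-- labels whose worldline meets the open backward cone of `(s, X s)` -/
def alive (s : ℝ) : Set (R3 × R3) := {z | ‖X s - z.1‖ < s}

/-- label measure `f₀ dz` -/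
def mlab (f₀ : R3 → R3 → ℝ) : Measure (R3 × R3) :=
  (volume : Measure (R3 × R3)).withDensity (fun z => ENNReal.ofReal (f₀ z.1 z.2))

/-- source point of the label `z` seen from `(s, X s)` -/
def qz (s : ℝ) (z : R3 × R3) : R3 × R3 := CM.hit Φ s (X s) z

/-- `(K_T + K_S)/ε` -/
def kz (s : ℝ) : R3 × R3 → R3 :=
  (alive X s).indicator fun z =>
    (ep X s (qz X Φ s z).1 (qz X Φ s z).2)⁻¹ • Kq E B X p s (qz X Φ s z)

/-- `χ` -/
def chz (s : ℝ) : R3 × R3 → ℝ := (alive X s).indicator fun z => chq lam Qs X p s (qz X Φ s z)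

/-- `χ G` -/
def Yz (s : ℝ) : R3 × R3 → R3 :=
  (alive X s).indicator fun z => chq lam Qs X p s (qz X Φ s z) • Gq X p s (qz X Φ s z)

/-- `W` -/
def Wz (s : ℝ) : R3 × R3 → R3 :=
  (alive X s).indicator fun z => Wq E B lam Qs X p s (qz X Φ s z)

end label

/-! ### statements of the pieces -/

/-- (T1) force on the test from `Field.GSRep`, phase-space form. -/
def RepF (T : ℝ) (f : ℝ → R3 → R3 → ℝ) (E B : ℝ → R3 → R3) : Prop :=
  ∃ C : ℝ, 0 ≤ C ∧ ∀ X p : ℝ → R3, IsChar T f E B X p → ∀ s ∈ Ioo 0 T,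
    IntegrableOn (fun q : R3 × R3 => f (ret X s q.1) q.1 q.2 • Kq E B X p s q)
      {q : R3 × R3 | ‖X s - q.1‖ < s} ∧
    ‖lor E B s (X s) (p s) - (4 * Real.pi)⁻¹ •
      ∫ q in {q : R3 × R3 | ‖X s - q.1‖ < s}, f (ret X s q.1) q.1 q.2 • Kq E B X p s q‖ ≤ C

/-- (T3a) pointwise bounds, phase-space form (`C` absolute). -/
def PtBound (E B : ℝ → R3 → R3) : Prop :=
  ∃ C : ℝ, 0 ≤ C ∧ ∀ (X p : ℝ → R3) (s : ℝ) (q : R3 × R3), X s ≠ q.1 →
    ‖Kq E B X p s q‖ ≤ C * (Mom.kT (dl X p s q.1) (ep X s q.1 q.2) (gam q.2) (Rr X s q.1)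
      + Mom.kS (dl X p s q.1) (ep X s q.1 q.2) (gam q.2) (Rr X s q.1) * Fsrc E B X s q) ∧
    ∀ lam Qs : ℝ, 0 < lam → 0 < Qs →
      (1 - chq lam Qs X p s q) * ‖Kq E B X p s q‖ ≤ C * hden E B lam Qs X p s q ∧
      ep X s q.1 q.2 * ‖Wq E B lam Qs X p s q‖ ≤ C * hden E B lam Qs X p s q ∧
      ep X s q.1 q.2 * ‖chq lam Qs X p s q • Gq X p s q‖ ≤ C * bden lam Qs X p s q

/-- (T3b) derivative along the pair in the test time `s` (retarded time `τ`, source `Y`, `q`). -/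
def PtDeriv (E B : ℝ → R3 → R3) : Prop :=
  ∀ (X p Y w : ℝ → R3) (τ : ℝ → ℝ) (s lam Qs : ℝ), 0 < lam → 0 < Qs →
    HasDerivAt X (relVel (p s)) s → HasDerivAt p (lor E B s (X s) (p s)) s →
    HasDerivAt Y (relVel (w (τ s))) (τ s) →
    HasDerivAt w (lor E B (τ s) (Y (τ s)) (w (τ s))) (τ s) →
    ContinuousAt τ s → (∀ᶠ t in 𝓝 s, t - τ t = ‖X t - Y (τ t)‖) → τ s < s →
    HasDerivAt (fun t => chq lam Qs X p t (Y (τ t), w (τ t)) • Gq X p t (Y (τ t), w (τ t)))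
      (chq lam Qs X p s (Y (τ s), w (τ s)) •
          ((ep X s (Y (τ s)) (w (τ s)))⁻¹ • Kq E B X p s (Y (τ s), w (τ s)))
        - Wq E B lam Qs X p s (Y (τ s), w (τ s))) s

/-- (T2) measurability and integrability on (test time) × (labels). -/
def LabInt (T : ℝ) (f₀ : R3 → R3 → ℝ) (f : ℝ → R3 → R3 → ℝ) (E B : ℝ → R3 → R3)
    (Φ : ℝ → R3 × R3 → R3 × R3) : Prop :=
  ∀ X p : ℝ → R3, IsChar T f E B X p → ∀ lam Qs : ℝ, 0 < lam → 0 < Qs →
    ∀ s1 s2 : ℝ, 0 ≤ s1 → s1 ≤ s2 → s2 < T →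
      Integrable (fun r : ℝ × (R3 × R3) => kz E B X p Φ r.1 r.2)
        ((volume.restrict (Icc s1 s2)).prod (mlab f₀)) ∧
      Integrable (fun r : ℝ × (R3 × R3) => Wz E B lam Qs X p Φ r.1 r.2)
        ((volume.restrict (Icc s1 s2)).prod (mlab f₀)) ∧
      AEStronglyMeasurable (fun r : ℝ × (R3 × R3) => chz lam Qs X p Φ r.1 r.2)
        ((volume.restrict (Icc s1 s2)).prod (mlab f₀)) ∧
      AEStronglyMeasurable (Yz lam Qs X p Φ s1) (mlab f₀) ∧
      ∀ᵐ z ∂(mlab f₀), ∀ s ∈ Icc 0 s2, X s ≠ (Φ s z).1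

end Crest.Agent.R106.Mix
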