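import Crest.Agent.R106.MixInt2
import Crest.Agent.R106.MixOne

/-!
# Row 106, MIX-C, part 4: measurability of the cut-off terms and crude bounds
-/

set_option autoImplicit false

open MeasureTheory Set Metric Filter
open scoped ENNReal NNReal Topology RealInnerProductSpace

namespace Crest.Agent.R106.Mix

open Crest.AnalysisR.VecCalc3

/-! ### measurability of the cut-offs -/

lemma measurable_chi1 : Measurable chi1 := by
  unfold chi1
  have := Real.smoothTransition.continuous.measurable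
  fun_prop

lemma measurable_chi2 : Measurable chi2 := by
  unfold chi2
  have := Real.smoothTransition.continuous.measurable
  fun_prop

lemma measurable_dchi1 : Measurable dchi1 := by
  unfold dchi1
  have := measurable_deriv Real.smoothTransition
  fun_prop

lemma measurable_dchi2 : Measurable dchi2 := by
  unfold dchi2
  have := measurable_deriv Real.smoothTransition
  fun_prop

lemma measurable_chi (lam Qs : ℝ) :
    Measurable (fun q : ℝ × ℝ × ℝ => chi lam Qs q.1 q.2.1 q.2.2) := by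
  unfold chi
  have h1 := measurable_chi1
  have h2 := measurable_chi2
  exact (h1.comp (by fun_prop)).mul (h2.comp (by fun_prop))

lemma measurable_dchi (lam Qs : ℝ) :
    Measurable (fun q : ℝ × ℝ × ℝ × ℝ × ℝ =>
      dchi lam Qs q.1 q.2.1 q.2.2.1 q.2.2.2.1 q.2.2.2.2) := by
  unfold dchi
  have h1 := measurable_chi1
  have h2 := measurable_chi2
  have h3 := measurable_dchi1
  have h4 := measurable_dchi2
  refine (((h3.comp (by fun_prop)).mul (by fun_prop)).mul (h2.comp (by fun_prop))).add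
    ((h1.comp (by fun_prop)).mul ((h4.comp (by fun_prop)).mul (by fun_prop)))

section

attribute [local irreducible] chi dchi

variable {α : Type*} [MeasurableSpace α] {A : Set α} {de ep ga Ld gd : α → ℝ} {G K : α → R3}

lemma MeasOn.chi' (lam Qs : ℝ) (hde : MeasOn A de) (hep : MeasOn A ep) (hga : MeasOn A ga) :
    MeasOn A (fun p => chi lam Qs (de p) (ep p) (ga p)) :=
  MeasOn.comp (φ := fun q : ℝ × ℝ × ℝ => chi lam Qs q.1 q.2.1 q.2.2) (measurable_chi lam Qs)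
    (hde.prodMk (hep.prodMk hga))

lemma MeasOn.dchi' (lam Qs : ℝ) (hde : MeasOn A de) (hep : MeasOn A ep) (hga : MeasOn A ga)
    (hLd : MeasOn A Ld) (hgd : MeasOn A gd) :
    MeasOn A (fun p => dchi lam Qs (de p) (ep p) (ga p) (Ld p) (gd p)) :=
  MeasOn.comp (φ := fun q : ℝ × ℝ × ℝ × ℝ × ℝ =>
      dchi lam Qs q.1 q.2.1 q.2.2.1 q.2.2.2.1 q.2.2.2.2) (measurable_dchi lam Qs)
    (hde.prodMk (hep.prodMk (hga.prodMk (hLd.prodMk hgd))))

lemma MeasOn.Wrem' (lam Qs : ℝ) (hde : MeasOn A de) (hep : MeasOn A ep) (hga : MeasOn A ga)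
    (hLd : MeasOn A Ld) (hgd : MeasOn A gd) (hG : MeasOn A G) (hK : MeasOn A K) :
    MeasOn A (fun p => Wrem lam Qs (de p) (ep p) (ga p) (Ld p) (gd p) (G p) (K p)) := by
  unfold Wrem
  exact ((MeasOn.chi' lam Qs hde hep hga).smul' ((hde.div hep).smul' hK)).sub
    ((MeasOn.dchi' lam Qs hde hep hga hLd hgd).smul' hG)

end

/-! ### crude bounds -/

lemma sqrt_le_two_of_le_two {x : ℝ} (h : x ≤ 2) : √x ≤ 2 := by
  refine Real.sqrt_le_iff.mpr ⟨by norm_num, by linarith⟩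

lemma maj_nonneg {c R : ℝ} (hc : 0 ≤ c) (hR : 0 < R) : 0 ≤ maj c R := by
  unfold maj; positivity

lemma maj_mono {c c' R : ℝ} (h : c ≤ c') (hR : 0 < R) : maj c R ≤ maj c' R := by
  unfold maj
  have : 0 ≤ 1 + R⁻¹ + (R⁻¹) ^ 2 := by positivity
  exact mul_le_mul_of_nonneg_right h this

lemma maj_add (c c' R : ℝ) : maj c R + maj c' R = maj (c + c') R := by unfold maj; ring

lemma maj_const_mul (a c R : ℝ) : a * maj c R = maj (a * c) R := by unfold maj; ring

lemma div_R_le_maj {c R : ℝ} (hc : 0 ≤ c) (hR : 0 < R) : c / R ≤ maj c R := by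
  unfold maj
  rw [div_eq_mul_inv]
  have h1 : 0 ≤ R⁻¹ := by positivity
  nlinarith [mul_nonneg hc (sq_nonneg R⁻¹)]

lemma div_R2_le_maj {c R : ℝ} (hc : 0 ≤ c) (hR : 0 < R) : c / R ^ 2 ≤ maj c R := by
  unfold maj
  rw [div_eq_mul_inv, ← inv_pow]
  have h1 : 0 ≤ R⁻¹ := by positivity
  nlinarith [mul_nonneg hc h1]

section kernels

variable {de ep D ga Ga R e0 : ℝ}

lemma kT_le_maj (he0 : 0 < e0) (hde : 0 ≤ de) (hde2 : de ≤ 2) (hep : e0 ≤ ep) (hep2 : ep ≤ 2)
    (hga : 1 ≤ ga) (hR : 0 < R) : kT ga de ep R ≤ maj (4 / e0 ^ 2) R := by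
  have hep0 : 0 < ep := he0.trans_le hep
  have h1 : ep + √(de * ep) ≤ 4 := by
    have : √(de * ep) ≤ 2 := by
      refine Real.sqrt_le_iff.mpr ⟨by norm_num, by nlinarith⟩
    linarith
  have h2 : e0 ^ 2 * R ^ 2 ≤ ga ^ 2 * ep ^ 2 * R ^ 2 := by
    have h3 : e0 ^ 2 ≤ ep ^ 2 := pow_le_pow_left₀ he0.le hep 2
    have h4 : (1 : ℝ) ≤ ga ^ 2 := one_le_pow₀ hga
    have h5 : ep ^ 2 ≤ ga ^ 2 * ep ^ 2 := by nlinarith [sq_nonneg ep]
    exact mul_le_mul_of_nonneg_right (h3.trans h5) (by positivity)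
  calc kT ga de ep R ≤ 4 / (e0 ^ 2 * R ^ 2) := by
        unfold kT
        exact div_le_div₀ (by norm_num) h1 (by positivity) h2
    _ = 4 / e0 ^ 2 / R ^ 2 := by rw [div_div]
    _ ≤ _ := div_R2_le_maj (by positivity) hR

lemma kS_le_maj (he0 : 0 < e0) (hde2 : de ≤ 2) (hep : e0 ≤ ep)
    (hga : 1 ≤ ga) (hR : 0 < R) : kS ga de ep R ≤ maj (2 / e0) R := by
  have hep0 : 0 < ep := he0.trans_le hep
  have h2 : e0 * R ≤ ga * ep * R := by
    have : e0 ≤ ga * ep := by nlinarith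
    exact mul_le_mul_of_nonneg_right this hR.le
  calc kS ga de ep R ≤ 2 / (e0 * R) := by
        unfold kS
        exact div_le_div₀ (by norm_num) (sqrt_le_two_of_le_two hde2) (by positivity) h2
    _ = 2 / e0 / R := by rw [div_div]
    _ ≤ _ := div_R_le_maj (by positivity) hR

lemma kGam_le_maj (he0 : 0 < e0) (hde : e0 ≤ de) (hde2 : de ≤ 2) (hep : 0 ≤ ep) (hep2 : ep ≤ 2)
    (hGa : 1 ≤ Ga) (hR : 0 < R) : kGam Ga de ep R ≤ maj (4 / e0 ^ 2) R := by
  have h := kT_le_maj (ga := Ga) (de := ep) (ep := de) he0 hep hep2 hde hde2 hGa hR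
  have e : kGam Ga de ep R = kT Ga ep de R := by
    unfold kGam kT; rw [mul_comm ep de]
  rw [e]; exact h

lemma kC_le_maj (he0 : 0 < e0) (hde : e0 ≤ de) (hep2 : ep ≤ 2)
    (hGa : 1 ≤ Ga) (hR : 0 < R) : kC Ga de ep R ≤ maj (2 / e0) R := by
  have h := kS_le_maj (ga := Ga) (de := ep) (ep := de) he0 hep2 hde hGa hR
  have e : kC Ga de ep R = kS Ga ep de R := by
    unfold kC kS; ring
  rw [e]; exact h

lemma kG_le_maj (he0 : 0 < e0) (hde : e0 ≤ de) (hep2 : ep ≤ 2) (hR : 0 < R) :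
    kG de ep R ≤ maj (2 + 2 / e0) R := by
  have hde0 : 0 < de := he0.trans_le hde
  have h1 : ep / de ≤ 2 / e0 := div_le_div₀ (by norm_num) hep2 he0 hde
  have h2 : √(ep / de) ≤ 2 + 2 / e0 := by
    refine Real.sqrt_le_iff.mpr ⟨by positivity, ?_⟩
    have h3 : (0 : ℝ) ≤ 2 / e0 := by positivity
    nlinarith
  unfold kG
  exact (div_le_div_of_nonneg_right h2 hR.le).trans (div_R_le_maj (by positivity) hR)

lemma kcut_le_maj (he0 : 0 < e0) (hde : e0 ≤ de) (hde2 : de ≤ 2) (hep : e0 ≤ ep) (hep2 : ep ≤ 2)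
    (hD2 : D ≤ 2) (hR : 0 < R) : kcut de ep D R ≤ maj (2 + 2 / e0) R := by
  have aux : ∀ {x y : ℝ}, x ≤ 2 → e0 ≤ y → √(x / y) ≤ 2 + 2 / e0 := by
    intro x y hx hy
    have hy0 : 0 < y := he0.trans_le hy
    have h1 : x / y ≤ 2 / e0 := div_le_div₀ (by norm_num) hx he0 hy
    refine Real.sqrt_le_iff.mpr ⟨by positivity, ?_⟩
    have h3 : (0 : ℝ) ≤ 2 / e0 := by positivity
    nlinarith
  unfold kcut
  refine (div_le_div_of_nonneg_right (c := R ^ 2) (b := 2 + 2 / e0) ?_ (by positivity)).trans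
    (div_R2_le_maj (by positivity) hR)
  split_ifs
  · exact aux hde2 hep
  · exact aux hep2 hde
  · exact aux hD2 hde

open Classical in
/-- crude bound of `W` from 633's pointwise estimate. -/
theorem norm_W_le_maj {E : Type*} [NormedAddCommGroup E] {lam Qs Fs Ft CG cn cK M : ℝ} {W K : E}
    (he0 : 0 < e0) (hde : e0 ≤ de) (hde2 : de ≤ 2) (hep : e0 ≤ ep) (hep2 : ep ≤ 2)
    (hD2 : D ≤ 2) (hR : 0 < R) (hga : 1 ≤ ga) (hGa : 1 ≤ Ga) (hFs : 0 ≤ Fs) (hFs' : Fs ≤ M)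
    (hFt : 0 ≤ Ft) (hFt' : Ft ≤ M) (hCG : 0 ≤ CG) (hcn : 0 ≤ cn)
    (hcK : 0 ≤ cK) (hK : de * ‖K‖ ≤ maj cK R)
    (hW : ep * ‖W‖ ≤ (if Creg lam Qs de ep ga then de * ‖K‖ else 0)
      + CG * stC * ((if Breg lam Qs de ep ga then
          400 * kcut de ep D R + 2 * cn * (kS ga de ep R * Fs) + 4 * cn * (kC Ga de ep R * Ft)
          else 0)
        + (if Creg lam Qs de ep ga ∧ Ereg lam Qs de ep ga then 4 * (kS ga de ep R * Fs) else 0))) :
    ‖W‖ ≤ maj ((cK + CG * stC * (400 * (2 + 2 / e0) + (6 * cn + 4) * (2 / e0 * M))) / e0) R := by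
  have hst := one_le_stC
  have hM : 0 ≤ M := hFs.trans hFs'
  have hkS := kS_le_maj (ga := ga) he0 hde2 hep hga hR
  have hkC := kC_le_maj (Ga := Ga) he0 hde hep2 hGa hR
  have hkcut := kcut_le_maj (D := D) he0 hde hde2 hep hep2 hD2 hR
  have hkS0 : 0 ≤ kS ga de ep R := by
    unfold kS
    have : 0 < ep := he0.trans_le hep
    positivity
  have hkC0 : 0 ≤ kC Ga de ep R := by
    unfold kC
    have : 0 < de := he0.trans_le hde
    positivity
  have hm1 : 0 ≤ maj (2 / e0) R := maj_nonneg (by positivity) hR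
  have hm2 : 0 ≤ maj (2 + 2 / e0) R := maj_nonneg (by positivity) hR
  have hm3 : 0 ≤ maj cK R := maj_nonneg hcK hR
  have hSF : kS ga de ep R * Fs ≤ maj (2 / e0) R * M := mul_le_mul hkS hFs' hFs hm1
  have hCF : kC Ga de ep R * Ft ≤ maj (2 / e0) R * M := mul_le_mul hkC hFt' hFt hm1
  have hSF0 : 0 ≤ kS ga de ep R * Fs := mul_nonneg hkS0 hFs
  have hCF0 : 0 ≤ kC Ga de ep R * Ft := mul_nonneg hkC0 hFt
  have hmM : 0 ≤ maj (2 / e0) R * M := mul_nonneg hm1 hM
  have h1 : (if Creg lam Qs de ep ga then de * ‖K‖ else 0) ≤ maj cK R := by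
    split_ifs
    · exact hK
    · exact hm3
  have h2 : (if Breg lam Qs de ep ga then
          400 * kcut de ep D R + 2 * cn * (kS ga de ep R * Fs) + 4 * cn * (kC Ga de ep R * Ft)
          else 0) ≤ 400 * maj (2 + 2 / e0) R + 6 * cn * (maj (2 / e0) R * M) := by
    split_ifs
    · nlinarith [mul_le_mul_of_nonneg_left hSF hcn, mul_le_mul_of_nonneg_left hCF hcn]
    · have := mul_nonneg hcn hmM
      linarith
  have h3 : (if Creg lam Qs de ep ga ∧ Ereg lam Qs de ep ga then 4 * (kS ga de ep R * Fs) else 0)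
      ≤ 4 * (maj (2 / e0) R * M) := by
    split_ifs
    · linarith
    · linarith
  have h4 : ep * ‖W‖ ≤ maj cK R + CG * stC *
      (400 * maj (2 + 2 / e0) R + (6 * cn + 4) * (maj (2 / e0) R * M)) := by
    refine hW.trans ?_
    have h5 : 0 ≤ CG * stC := by positivity
    have h6 := mul_le_mul_of_nonneg_left (add_le_add h2 h3) h5
    have h7 := add_le_add h1 h6
    refine h7.trans (le_of_eq ?_)
    ring
  have h5 : ep * ‖W‖ ≤ maj (cK + CG * stC * (400 * (2 + 2 / e0) + (6 * cn + 4) * (2 / e0 * M))) R := by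
    refine h4.trans (le_of_eq ?_)
    unfold maj; ring
  have h6 : e0 * ‖W‖ ≤ ep * ‖W‖ := mul_le_mul_of_nonneg_right hep (norm_nonneg W)
  have h7 : ‖W‖ ≤ maj (cK + CG * stC * (400 * (2 + 2 / e0) + (6 * cn + 4) * (2 / e0 * M))) R / e0 := by
    rw [le_div_iff₀ he0]
    linarith [h6.trans h5]
  refine h7.trans (le_of_eq ?_)
  unfold maj
  field_simp

end kernels

end Crest.Agent.R106.Mix
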