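import Crest.Agent.R106.MixDefs
import Crest.Agent.R106.MixInst
import Crest.Agent.R106.MixMeas
import Crest.Agent.R106.PairDefs

/-!
# Row 106, MIX: (T2) measurability and integrability in label form (helper154)
-/

set_option autoImplicit false

open MeasureTheory Set Filter Topology Metric
open Crest.AnalysisR.VecCalc3 Crest.AnalysisR.PDE.RVM
open scoped InnerProductSpace ENNReal ContDiff

noncomputable section

namespace Crest.Agent.R106.Mix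

open Crest.Agent.R106.Mom (Rr ret nn dl ep Dd kap Fsrc Ftest hden bden hh bb IsChar)
open Crest.Agent.R106.GSR (gam acc lor)

/-! ### measurability -/

section meas

variable {T t1 : ℝ} {a : ℝ → CM.Z → CM.Z} {Φ Ψ : ℝ → CM.Z → CM.Z} {X p : ℝ → R3}
  {E B : ℝ → R3 → R3}

lemma cara_flow (L : CM.LFlow T a Φ Ψ) (h1 : t1 < T) : Cara t1 Φ where
  meas := fun _ hc => measurable_Φ L ⟨hc.1, hc.2.trans_lt h1⟩
  cont := fun z => (L.cont z).mono fun _ hc => ⟨hc.1, hc.2.trans_lt h1⟩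

/-- all continuous data on `[0,t1]` -/
structure Dat (T t1 : ℝ) (a : ℝ → CM.Z → CM.Z) (Φ Ψ : ℝ → CM.Z → CM.Z) (X p : ℝ → R3)
    (E B : ℝ → R3 → R3) : Prop where
  L : CM.LFlow T a Φ Ψ
  h0 : 0 ≤ t1
  h1 : t1 < T
  hX : CM.SubL T X
  hp : ContinuousOn p (Icc 0 t1)
  hE : ContinuousOn (fun q : ℝ × R3 => E q.1 q.2) (Icc 0 t1 ×ˢ univ)
  hB : ContinuousOn (fun q : ℝ × R3 => B q.1 q.2) (Icc 0 t1 ×ˢ univ)

/-- the cone set for the flow -/
abbrev cs (t1 : ℝ) (X : ℝ → R3) (Φ : ℝ → CM.Z → CM.Z) : Set (ℝ × CM.Z) := coneSet t1 X (pos Φ)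

namespace Dat

variable (d : Dat T t1 a Φ Ψ X p E B)
include d

lemma sub : Sublum t1 X (pos Φ) :=
  sublum_of_flow d.L d.h0 d.h1 fun _ hs _ ht =>
    d.hX.abs ⟨ht.1, ht.2.trans_lt d.h1⟩ ⟨hs.1, hs.2.trans_lt d.h1⟩

lemma isRet : IsRet t1 X (pos Φ) (fun s z => CM.rtL Φ s (X s) z) := isRet_of_flow d.L d.h1

lemma mX : MeasOn (cs t1 X Φ) (fun r : ℝ × CM.Z => X r.1) :=
  measOn_time d.h0 (d.hX.continuousOn.mono fun _ hc => ⟨hc.1, hc.2.trans_lt d.h1⟩)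

lemma mp : MeasOn (cs t1 X Φ) (fun r : ℝ × CM.Z => p r.1) := measOn_time d.h0 d.hp

lemma mq : MeasOn (cs t1 X Φ) (fun r : ℝ × CM.Z => qz X Φ r.1 r.2) :=
  measOn_comp_ret d.sub d.isRet (cara_flow d.L d.h1)

/-- `R = ‖X s - q.1‖ = s - τ` on the cone set. -/
lemma R_eq {r : ℝ × CM.Z} (hr : r ∈ cs t1 X Φ) :
    Rr X r.1 (qz X Φ r.1 r.2).1 = r.1 - CM.rtL Φ r.1 (X r.1) r.2 :=
  (d.isRet r.1 hr.1 r.2 hr.2).2.2.symm

lemma ret_eq {r : ℝ × CM.Z} (hr : r ∈ cs t1 X Φ) :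
    ret X r.1 (qz X Φ r.1 r.2).1 = CM.rtL Φ r.1 (X r.1) r.2 := by
  have := d.R_eq hr
  unfold Rr at this
  unfold ret
  rw [this]; ring

lemma ret_mem {r : ℝ × CM.Z} (hr : r ∈ cs t1 X Φ) :
    ret X r.1 (qz X Φ r.1 r.2).1 ∈ Icc 0 t1 := by
  rw [d.ret_eq hr]
  obtain ⟨h1, h2, _⟩ := d.isRet r.1 hr.1 r.2 hr.2
  exact ⟨h1.le, h2.trans hr.1.2⟩

lemma msub : MeasOn (cs t1 X Φ) (fun r : ℝ × CM.Z => X r.1 - (qz X Φ r.1 r.2).1) :=
  d.mX.sub (MeasOn.comp (φ := fun q : CM.Z => q.1) measurable_fst d.mq)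

lemma mR : MeasOn (cs t1 X Φ) (fun r : ℝ × CM.Z => Rr X r.1 (qz X Φ r.1 r.2).1) :=
  MeasOn.comp (φ := fun v : R3 => ‖v‖) (by fun_prop) d.msub

lemma mret : MeasOn (cs t1 X Φ) (fun r : ℝ × CM.Z => ret X r.1 (qz X Φ r.1 r.2).1) :=
  (MeasOn.of_measurable measurable_fst).sub d.mR

lemma mnn : MeasOn (cs t1 X Φ) (fun r : ℝ × CM.Z => nn X r.1 (qz X Φ r.1 r.2).1) :=
  MeasOn.comp (φ := fun v : R3 => ‖v‖⁻¹ • v) (by fun_prop) d.msub

lemma mV : MeasOn (cs t1 X Φ) (fun r : ℝ × CM.Z => relVel (p r.1)) :=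
  MeasOn.comp (φ := relVel) (by unfold relVel; fun_prop) d.mp

lemma mw : MeasOn (cs t1 X Φ) (fun r : ℝ × CM.Z => (qz X Φ r.1 r.2).2) :=
  MeasOn.comp (φ := fun q : CM.Z => q.2) measurable_snd d.mq

lemma my : MeasOn (cs t1 X Φ) (fun r : ℝ × CM.Z => (qz X Φ r.1 r.2).1) :=
  MeasOn.comp (φ := fun q : CM.Z => q.1) measurable_fst d.mq

lemma mv : MeasOn (cs t1 X Φ) (fun r : ℝ × CM.Z => relVel (qz X Φ r.1 r.2).2) :=
  MeasOn.comp (φ := relVel) (by unfold relVel; fun_prop) d.mw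

lemma mgam : MeasOn (cs t1 X Φ) (fun r : ℝ × CM.Z => gam (qz X Φ r.1 r.2).2) :=
  MeasOn.comp (φ := gam) (by unfold gam; fun_prop) d.mw

lemma mdl : MeasOn (cs t1 X Φ) (fun r : ℝ × CM.Z => dl X p r.1 (qz X Φ r.1 r.2).1) :=
  (MeasOn.of_measurable measurable_const).sub (d.mnn.inner' d.mV)

lemma mep : MeasOn (cs t1 X Φ)
    (fun r : ℝ × CM.Z => ep X r.1 (qz X Φ r.1 r.2).1 (qz X Φ r.1 r.2).2) :=
  (MeasOn.of_measurable measurable_const).sub (d.mnn.inner' d.mv)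

lemma mDd : MeasOn (cs t1 X Φ) (fun r : ℝ × CM.Z => Dd p r.1 (qz X Φ r.1 r.2).2) :=
  (MeasOn.of_measurable measurable_const).sub (d.mV.inner' d.mv)

lemma measurable_lorc : Measurable (fun u : ℝ × R3 × R3 =>
    lor E B (clampT t1 u.1) u.2.1 u.2.2) := by
  have hEc : Continuous (fun q : ℝ × R3 => E (clampT t1 q.1) q.2) := by
    rw [← continuousOn_univ]
    exact d.hE.comp (((continuous_clampT t1).comp continuous_fst).prodMk
      continuous_snd).continuousOn (fun q _ => ⟨clampT_mem d.h0 _, trivial⟩)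
  have hBc : Continuous (fun q : ℝ × R3 => B (clampT t1 q.1) q.2) := by
    rw [← continuousOn_univ]
    exact d.hB.comp (((continuous_clampT t1).comp continuous_fst).prodMk
      continuous_snd).continuousOn (fun q _ => ⟨clampT_mem d.h0 _, trivial⟩)
  have h3 : Measurable (fun ab : R3 × R3 => cross3 ab.1 ab.2) := by
    have : Continuous (fun ab : R3 × R3 => cross3 ab.1 ab.2) := by
      unfold cross3
      refine (PiLp.continuous_toLp 2 _).comp ?_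
      refine continuous_pi (fun i => ?_)
      fin_cases i <;> simp <;> fun_prop
    exact this.measurable
  have h4 : Measurable (fun u : ℝ × R3 × R3 => relVel u.2.2) := by unfold relVel; fun_prop
  have h5 : Measurable (fun u : ℝ × R3 × R3 => E (clampT t1 u.1) u.2.1) :=
    hEc.measurable.comp (measurable_fst.prodMk measurable_snd.fst)
  have h6 : Measurable (fun u : ℝ × R3 × R3 => B (clampT t1 u.1) u.2.1) :=
    hBc.measurable.comp (measurable_fst.prodMk measurable_snd.fst)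
  exact h5.add (h3.comp (h4.prodMk h6))

/-- the force at a measurable point with time in `[0,t1]` -/
lemma mlor {t : ℝ × CM.Z → ℝ} {x w : ℝ × CM.Z → R3} (ht : MeasOn (cs t1 X Φ) t)
    (htm : ∀ r ∈ cs t1 X Φ, t r ∈ Icc 0 t1) (hx : MeasOn (cs t1 X Φ) x)
    (hw : MeasOn (cs t1 X Φ) w) :
    MeasOn (cs t1 X Φ) (fun r => lor E B (t r) (x r) (w r)) := by
  refine (MeasOn.comp d.measurable_lorc (ht.prodMk (hx.prodMk hw))).congr (fun r hr => ?_)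
  simp only
  rw [clampT_of_mem (htm r hr)]

lemma mF : MeasOn (cs t1 X Φ) (fun r : ℝ × CM.Z =>
    lor E B (ret X r.1 (qz X Φ r.1 r.2).1) (qz X Φ r.1 r.2).1 (qz X Φ r.1 r.2).2) :=
  d.mlor d.mret (fun _ hr => d.ret_mem hr) d.my d.mw

lemma mFt : MeasOn (cs t1 X Φ) (fun r : ℝ × CM.Z => lor E B r.1 (X r.1) (p r.1)) :=
  d.mlor (MeasOn.of_measurable measurable_fst) (fun _ hr => hr.1) d.mX d.mp

omit d in
lemma measurable_gacc : Measurable (fun u : R3 × R3 => acc u.1 u.2) := by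
  unfold acc gam relVel; fun_prop

lemma maq : MeasOn (cs t1 X Φ) (fun r : ℝ × CM.Z => aq E B X r.1 (qz X Φ r.1 r.2)) :=
  MeasOn.comp₂ (φ := fun a b => acc a b) measurable_gacc d.mw d.mF

lemma mAt : MeasOn (cs t1 X Φ) (fun r : ℝ × CM.Z => At E B X p r.1) :=
  MeasOn.comp₂ (φ := fun a b => acc a b) measurable_gacc d.mp d.mFt

lemma mKq : MeasOn (cs t1 X Φ) (fun r : ℝ × CM.Z => Kq E B X p r.1 (qz X Φ r.1 r.2)) :=
  (MeasOn.KT' d.mnn d.mv d.mV d.mR).add (MeasOn.KS' d.mnn d.mv d.mV d.maq d.mR)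

lemma mGq : MeasOn (cs t1 X Φ) (fun r : ℝ × CM.Z => Gq X p r.1 (qz X Φ r.1 r.2)) :=
  MeasOn.KG' d.mnn d.mv d.mV d.mR

lemma mKCq : MeasOn (cs t1 X Φ) (fun r : ℝ × CM.Z => KCq E B X p r.1 (qz X Φ r.1 r.2)) :=
  MeasOn.KC' d.mnn d.mv d.mV d.mAt d.mR

lemma mchq (lam Qs : ℝ) :
    MeasOn (cs t1 X Φ) (fun r : ℝ × CM.Z => chq lam Qs X p r.1 (qz X Φ r.1 r.2)) :=
  MeasOn.chi' lam (2 * Qs) d.mdl d.mep d.mgam

omit d in
lemma mconst (c : ℝ) : MeasOn (cs t1 X Φ) (fun _ : ℝ × CM.Z => c) :=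
  MeasOn.of_measurable measurable_const

lemma mLdq : MeasOn (cs t1 X Φ) (fun r : ℝ × CM.Z => Ldq E B X p r.1 (qz X Φ r.1 r.2)) := by
  have hg : MeasOn (cs t1 X Φ) (fun r : ℝ × CM.Z => 1 - ‖relVel (qz X Φ r.1 r.2).2‖ ^ 2) :=
    MeasOn.comp (φ := fun v : R3 => 1 - ‖v‖ ^ 2) (by fun_prop) d.mv
  have hG : MeasOn (cs t1 X Φ) (fun r : ℝ × CM.Z => 1 - ‖relVel (p r.1)‖ ^ 2) :=
    MeasOn.comp (φ := fun v : R3 => 1 - ‖v‖ ^ 2) (by fun_prop) d.mV
  have hd2 : MeasOn (cs t1 X Φ) (fun r : ℝ × CM.Z => dl X p r.1 (qz X Φ r.1 r.2).1 ^ 2) :=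
    MeasOn.comp (φ := fun v : ℝ => v ^ 2) (by fun_prop) d.mdl
  have hna := d.mnn.inner' d.maq
  have hnA := d.mnn.inner' d.mAt
  have hdl := d.mdl
  have hep := d.mep
  have hR := d.mR
  have hD := d.mDd
  have h1 := (((hD.sub ((hg.mul hdl).div hep)).sub hep).add hdl).div hR
  have h2 := (hdl.div hep).mul hna
  have h3 := (h1.sub h2).div hep
  have h4 := (((hG.sub hdl).sub ((hD.mul hdl).div hep)).add (hd2.div hep)).div hR
  have h5 := ((mconst (t1 := t1) (X := X) (Φ := Φ) 2).mul (h4.sub hnA)).div hdl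
  exact h3.sub h5

lemma mgdq : MeasOn (cs t1 X Φ) (fun r : ℝ × CM.Z => gdq E B X p r.1 (qz X Φ r.1 r.2)) :=
  (d.mdl.div d.mep).mul (d.mv.inner' d.mF)

lemma mWq (lam Qs : ℝ) :
    MeasOn (cs t1 X Φ) (fun r : ℝ × CM.Z => Wq E B lam Qs X p r.1 (qz X Φ r.1 r.2)) :=
  MeasOn.Wrem' lam (2 * Qs) d.mdl d.mep d.mgam d.mLdq d.mgdq d.mGq d.mKCq

end Dat

end meas

/-! ### crude bounds -/

section crude

variable {E B : ℝ → R3 → R3} {X p : ℝ → R3} {s e0 M : ℝ} {q : R3 × R3}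

lemma norm_nn_eq {y : R3} (h : 0 < Rr X s y) : ‖nn X s y‖ = 1 := by
  unfold nn
  unfold Rr at h
  rw [norm_smul, norm_inv, norm_norm, inv_mul_cancel₀ h.ne']

lemma one_div_le_om {n w : R3} {Pm : ℝ} (hn : ‖n‖ = 1) (hw : ‖w‖ ≤ Pm) :
    1 / (2 * (1 + Pm ^ 2)) ≤ 1 - ⟪n, relVel w⟫_ℝ := by
  have h1 := Pair.gam_le_ep (v := relVel w) hn
  rw [Pair.one_sub_normSq_relVel, Pair.gam_sq] at h1
  have h2 : (1 + Pm ^ 2)⁻¹ ≤ (1 + ‖w‖ ^ 2)⁻¹ := by
    refine inv_anti₀ (by positivity) ?_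
    have := pow_le_pow_left₀ (norm_nonneg w) hw 2
    linarith
  have h3 : 1 / (2 * (1 + Pm ^ 2)) = (1 + Pm ^ 2)⁻¹ / 2 := by
    rw [one_div, mul_inv]; ring
  rw [h3]
  unfold Pair.om at h1
  linarith

lemma om_le_two' {n w : R3} (hn : ‖n‖ = 1) : 1 - ⟪n, relVel w⟫_ℝ ≤ 2 :=
  Pair.om_le_two hn.le (Pair.norm_relVel_lt_one w).le

lemma Dd_le_two (p : ℝ → R3) (s : ℝ) (w : R3) : Dd p s w ≤ 2 :=
  Pair.om_le_two (Pair.norm_relVel_lt_one (p s)).le (Pair.norm_relVel_lt_one w).le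

lemma momkT_eq (d e g R : ℝ) : Mom.kT d e g R = kT g d e R := rfl
lemma momkS_eq (d e g R : ℝ) : Mom.kS d e g R = kS g d e R := rfl
lemma momkGam_eq (d e G R : ℝ) : Mom.kGam d e G R = kGam G d e R := rfl
lemma momkC_eq (d e G R : ℝ) : Mom.kC d e G R = kC G d e R := rfl
lemma momkG_eq (d e R : ℝ) : Mom.kG d e R = kG d e R := rfl

lemma momkcut_le_maj {d e D R : ℝ} (he0 : 0 < e0) (hd : e0 ≤ d) (he : e0 ≤ e) (hD : D ≤ 2)
    (hR : 0 < R) : Mom.kcut d e D R ≤ maj (2 + 2 / e0) R := by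
  have h1 : e0 ≤ min d e := le_min hd he
  have h2 : 0 < min d e := he0.trans_le h1
  have h3 : D / min d e ≤ 2 / e0 := div_le_div₀ (by norm_num) hD he0 h1
  have h4 : √(D / min d e) ≤ 2 + 2 / e0 := by
    refine Real.sqrt_le_iff.mpr ⟨by positivity, ?_⟩
    have h3 : (0 : ℝ) ≤ 2 / e0 := by positivity
    nlinarith
  unfold Mom.kcut
  exact (div_le_div_of_nonneg_right h4 (by positivity)).trans (div_R2_le_maj (by positivity) hR)

/-- the good set of pairs -/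
structure Good (E B : ℝ → R3 → R3) (X p : ℝ → R3) (s e0 M : ℝ) (q : R3 × R3) : Prop where
  he0 : 0 < e0
  hM : 0 ≤ M
  hR : 0 < Rr X s q.1
  hd : e0 ≤ dl X p s q.1
  hd2 : dl X p s q.1 ≤ 2
  he : e0 ≤ ep X s q.1 q.2
  he2 : ep X s q.1 q.2 ≤ 2
  hF : Fsrc E B X s q ≤ M
  hFt : Ftest E B X p s ≤ M

open Classical in
lemma hden_le_maj {lam Qs : ℝ} (g : Good E B X p s e0 M q) :
    hden E B lam Qs X p s q ≤
      maj (8 / e0 ^ 2 + 4 / e0 * M + (2 + 2 / e0)) (Rr X s q.1) := by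
  obtain ⟨he0, hM, hR, hd, hd2, he, he2, hF, hFt⟩ := g
  have hd0 : 0 < dl X p s q.1 := he0.trans_le hd
  have hep0 : 0 < ep X s q.1 q.2 := he0.trans_le he
  have hg1 := Pair.one_le_gam q.2
  have hG1 := Pair.one_le_gam (p s)
  have hF0 : 0 ≤ Fsrc E B X s q := norm_nonneg _
  have hFt0 : 0 ≤ Ftest E B X p s := norm_nonneg _
  have k1 := kT_le_maj he0 hd0.le hd2 he he2 hg1 hR
  have k2 := kS_le_maj he0 hd2 he hg1 hR
  have k3 := kGam_le_maj he0 hd hd2 hep0.le he2 hG1 hR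
  have k4 := kC_le_maj he0 hd he2 hG1 hR
  have k5 := momkcut_le_maj (D := Dd p s q.2) he0 hd he (Dd_le_two p s q.2) hR
  have m0 : ∀ {c : ℝ}, 0 ≤ c → 0 ≤ maj c (Rr X s q.1) := fun hc => maj_nonneg hc hR
  have n1 : 0 ≤ maj (4 / e0 ^ 2) (Rr X s q.1) := m0 (by positivity)
  have n2 : 0 ≤ maj (2 / e0) (Rr X s q.1) := m0 (by positivity)
  have n3 : 0 ≤ maj (2 + 2 / e0) (Rr X s q.1) := m0 (by positivity)
  have e1 : (if Mom.regE lam Qs (dl X p s q.1) (ep X s q.1 q.2) (gam q.2) then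
      Mom.kT (dl X p s q.1) (ep X s q.1 q.2) (gam q.2) (Rr X s q.1)
        + Mom.kS (dl X p s q.1) (ep X s q.1 q.2) (gam q.2) (Rr X s q.1) * Fsrc E B X s q else 0)
      ≤ maj (4 / e0 ^ 2) (Rr X s q.1) + maj (2 / e0) (Rr X s q.1) * M := by
    rw [momkT_eq, momkS_eq]
    have := mul_le_mul k2 hF hF0 n2
    have n4 := mul_nonneg n2 hM
    split_ifs <;> linarith
  have e2 : (if Mom.regC lam Qs (dl X p s q.1) (ep X s q.1 q.2) (gam q.2) then
      Mom.kGam (dl X p s q.1) (ep X s q.1 q.2) (gam (p s)) (Rr X s q.1)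
        + Mom.kC (dl X p s q.1) (ep X s q.1 q.2) (gam (p s)) (Rr X s q.1) * Ftest E B X p s else 0)
      ≤ maj (4 / e0 ^ 2) (Rr X s q.1) + maj (2 / e0) (Rr X s q.1) * M := by
    rw [momkGam_eq, momkC_eq]
    have := mul_le_mul k4 hFt hFt0 n2
    have n4 := mul_nonneg n2 hM
    split_ifs <;> linarith
  have e3 : (if Mom.regB lam Qs (dl X p s q.1) (ep X s q.1 q.2) (gam q.2) then
      Mom.kcut (dl X p s q.1) (ep X s q.1 q.2) (Dd p s q.2) (Rr X s q.1) else 0)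
      ≤ maj (2 + 2 / e0) (Rr X s q.1) := by
    split_ifs <;> linarith
  have h := add_le_add (add_le_add e1 e2) e3
  refine (le_of_eq_of_le ?_ h).trans (le_of_eq ?_)
  · unfold hden; rfl
  · unfold maj; ring

end crude

/-! ### the theorem -/

section final

variable {T : ℝ} {f₀ : R3 → R3 → ℝ} {f : ℝ → R3 → R3 → ℝ} {E B : ℝ → R3 → R3}
  {a : ℝ → CM.Z → CM.Z} {Φ Ψ : ℝ → CM.Z → CM.Z}

/-- what is used of the solution and its flow -/
structure LabHyp (T : ℝ) (f₀ : R3 → R3 → ℝ) (f : ℝ → R3 → R3 → ℝ) (E B : ℝ → R3 → R3)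
    (a : ℝ → CM.Z → CM.Z) (Φ Ψ : ℝ → CM.Z → CM.Z) : Prop where
  L : CM.LFlow T a Φ Ψ
  hf : ∀ τ ∈ Ico 0 T, ∀ w : R3 × R3, f τ w.1 w.2 = f₀ (Ψ τ w).1 (Ψ τ w).2
  cf₀ : Continuous (Function.uncurry f₀)
  sf₀ : HasCompactSupport (Function.uncurry f₀)
  cE : ContinuousOn (fun q : ℝ × R3 => E q.1 q.2) (Ico 0 T ×ˢ univ)
  cB : ContinuousOn (fun q : ℝ × R3 => B q.1 q.2) (Ico 0 T ×ˢ univ)
  supp : ∀ T' : ℝ, 0 ≤ T' → T' < T → ∃ R : ℝ, ∀ t ∈ Icc 0 T', ∀ x v : R3,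
      (R < ‖x‖ ∨ R < ‖v‖) → f t x v = 0

/-- the good labels -/
def Gl (f₀ : R3 → R3 → ℝ) : Set CM.Z := {z | f₀ z.1 z.2 ≠ 0}

lemma LabHyp.measurableSet_Gl (h : LabHyp T f₀ f E B a Φ Ψ) : MeasurableSet (Gl f₀) := by
  have : Measurable (fun z : CM.Z => f₀ z.1 z.2) := h.cf₀.measurable
  exact (this (measurableSet_singleton 0)).compl

lemma LabHyp.ae_Gl (h : LabHyp T f₀ f E B a Φ Ψ) : ∀ᵐ z ∂(mlab f₀), z ∈ Gl f₀ := by
  unfold mlab
  have hm : Measurable (fun z : CM.Z => ENNReal.ofReal (f₀ z.1 z.2)) :=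
    (h.cf₀.measurable).ennreal_ofReal
  rw [ae_withDensity_iff hm]
  refine Filter.Eventually.of_forall (fun z hz => ?_)
  intro h0
  apply hz
  rw [h0]; simp

lemma LabHyp.finite (h : LabHyp T f₀ f E B a Φ Ψ) : IsFiniteMeasure (mlab f₀) := by
  unfold mlab
  have h1 : Integrable (fun z : CM.Z => f₀ z.1 z.2) :=
    h.cf₀.integrable_of_hasCompactSupport h.sf₀
  refine isFiniteMeasure_withDensity_ofReal h1.2

lemma LabHyp.bound (h : LabHyp T f₀ f E B a Φ Ψ) : ∃ F0 : ℝ, ∀ z : CM.Z, f₀ z.1 z.2 ≤ F0 := by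
  obtain ⟨C, hC⟩ := h.cf₀.bounded_above_of_compact_support h.sf₀
  exact ⟨C, fun z => (le_abs_self _).trans (hC z)⟩

/-- the support of the labels stays in a bounded set -/
lemma LabHyp.flow_bdd (h : LabHyp T f₀ f E B a Φ Ψ) {t1 : ℝ} (h0 : 0 ≤ t1) (h1 : t1 < T) :
    ∃ R : ℝ, 0 ≤ R ∧ ∀ z ∈ Gl f₀, ∀ τ ∈ Icc 0 t1, ‖(Φ τ z).1‖ ≤ R ∧ ‖(Φ τ z).2‖ ≤ R := by
  obtain ⟨R, hR⟩ := h.supp t1 h0 h1
  refine ⟨max R 0, le_max_right _ _, fun z hz τ hτ => ?_⟩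
  have hτ' : τ ∈ Ico 0 T := ⟨hτ.1, hτ.2.trans_lt h1⟩
  have h2 : f τ (Φ τ z).1 (Φ τ z).2 ≠ 0 := by
    rw [h.hf τ hτ' (Φ τ z), h.L.left_inv τ hτ' z]
    exact hz
  constructor
  · refine le_max_of_le_left (not_lt.mp fun hlt => h2 (hR τ hτ _ _ (Or.inl hlt)))
  · refine le_max_of_le_left (not_lt.mp fun hlt => h2 (hR τ hτ _ _ (Or.inr hlt)))

lemma LabHyp.dens (h : LabHyp T f₀ f E B a Φ Ψ) {t1 : ℝ} (h0 : 0 ≤ t1) (h1 : t1 < T) :
    ∃ C : ℝ≥0∞, C ≠ ⊤ ∧ ∀ s ∈ Icc 0 t1, (mlab f₀).map (pos Φ s) ≤ C • volume := by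
  obtain ⟨R, hR0, hR⟩ := h.flow_bdd h0 h1
  obtain ⟨F0, hF0⟩ := h.bound
  refine ⟨ENNReal.ofReal F0 * volume (closedBall (0 : R3) R), ?_, fun s hs => ?_⟩
  · exact ENNReal.mul_ne_top ENNReal.ofReal_ne_top
      (measure_closedBall_lt_top (x := (0 : R3)) (r := R)).ne
  · refine map_pos_le h.L ⟨hs.1, hs.2.trans_lt h1⟩ (fun z => ENNReal.ofReal_le_ofReal (hF0 z))
      (fun z hz => (hR z ?_ s hs).2)
    intro h3
    apply hz
    rw [h3]; simp

lemma continuousOn_lor {t1 : ℝ}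
    (hE : ContinuousOn (fun q : ℝ × R3 => E q.1 q.2) (Icc 0 t1 ×ˢ univ))
    (hB : ContinuousOn (fun q : ℝ × R3 => B q.1 q.2) (Icc 0 t1 ×ˢ univ)) :
    ContinuousOn (fun u : ℝ × R3 × R3 => lor E B u.1 u.2.1 u.2.2) (Icc 0 t1 ×ˢ univ) := by
  have hc : Continuous (fun ab : R3 × R3 => cross3 ab.1 ab.2) := by
    unfold cross3
    refine (PiLp.continuous_toLp 2 _).comp ?_
    refine continuous_pi (fun i => ?_)
    fin_cases i <;> simp <;> fun_prop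
  have hv0 : Continuous relVel := by
    have h1 : Continuous (fun v : R3 => Real.sqrt (1 + ‖v‖ ^ 2)) := by fun_prop
    have h2 : Continuous (fun v : R3 => (Real.sqrt (1 + ‖v‖ ^ 2))⁻¹) :=
      h1.inv₀ (fun v => (Real.sqrt_pos.mpr (by positivity)).ne')
    exact h2.smul continuous_id
  have hv : Continuous (fun u : ℝ × R3 × R3 => relVel u.2.2) :=
    hv0.comp (continuous_snd.comp continuous_snd)
  have h1 : ContinuousOn (fun u : ℝ × R3 × R3 => E u.1 u.2.1) (Icc 0 t1 ×ˢ univ) :=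
    hE.comp (f := fun u : ℝ × R3 × R3 => (u.1, u.2.1)) (by fun_prop) (fun u hu => ⟨hu.1, trivial⟩)
  have h2 : ContinuousOn (fun u : ℝ × R3 × R3 => B u.1 u.2.1) (Icc 0 t1 ×ˢ univ) :=
    hB.comp (f := fun u : ℝ × R3 × R3 => (u.1, u.2.1)) (by fun_prop) (fun u hu => ⟨hu.1, trivial⟩)
  exact h1.add (hc.comp_continuousOn (hv.continuousOn.prodMk h2))

/-- integrability with a bound on the good labels only -/
theorem integrable_good (h : LabHyp T f₀ f E B a Φ Ψ) {t1 : ℝ} {X p : ℝ → R3}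
    (d : Dat T t1 a Φ Ψ X p E B) {g : ℝ × CM.Z → R3} (hg : MeasOn (cs t1 X Φ) g) {c : ℝ}
    (hc : 0 ≤ c)
    (hb : ∀ r ∈ cs t1 X Φ, r.2 ∈ Gl f₀ → 0 < Rr X r.1 (qz X Φ r.1 r.2).1 →
      ‖g r‖ ≤ maj c (Rr X r.1 (qz X Φ r.1 r.2).1)) {s1 s2 : ℝ} (hs : Icc s1 s2 ⊆ Icc 0 t1) :
    Integrable (fun r : ℝ × CM.Z => (cs t1 X Φ).indicator g r)
      ((volume.restrict (Icc s1 s2)).prod (mlab f₀)) := by
  classical
  have := h.finite
  obtain ⟨C, hC, hdens⟩ := h.dens d.h0 d.h1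
  set G : Set (ℝ × CM.Z) := {r | r.2 ∈ Gl f₀} with hG
  have hGm : MeasurableSet G := measurable_snd h.measurableSet_Gl
  have hg' : MeasOn (cs t1 X Φ) (G.indicator g) := by
    obtain ⟨F, hF, he⟩ := hg
    refine ⟨G.indicator F, hF.indicator hGm, fun r hr => ?_⟩
    by_cases hrG : r ∈ G
    · rw [indicator_of_mem hrG, indicator_of_mem hrG, he hr]
    · rw [indicator_of_notMem hrG, indicator_of_notMem hrG]
  have h1 : Integrable (fun r : ℝ × CM.Z => (cs t1 X Φ).indicator (G.indicator g) r)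
      ((volume.restrict (Icc s1 s2)).prod (mlab f₀)) := by
    refine integrable_joint d.sub d.isRet hC hdens hg' hc (fun r hr hR => ?_) hs
    have hRe := d.R_eq hr
    rw [← hRe] at hR
    by_cases hrG : r ∈ G
    · rw [indicator_of_mem hrG]
      have := hb r hr hrG hR
      rwa [hRe] at this
    · rw [indicator_of_notMem hrG, norm_zero]
      rw [hRe] at hR
      exact maj_nonneg hc hR
  refine h1.congr ?_
  have h2 : ∀ᵐ r ∂((volume.restrict (Icc s1 s2)).prod (mlab f₀)), r ∈ G := by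
    have h3 := h.ae_Gl
    have h4 : ∀ᵐ r ∂((volume.restrict (Icc s1 s2)).prod (mlab f₀)), r.2 ∈ Gl f₀ :=
      Measure.quasiMeasurePreserving_snd.ae h3
    exact h4
  filter_upwards [h2] with r hr
  by_cases hrc : r ∈ cs t1 X Φ
  · rw [indicator_of_mem hrc, indicator_of_mem hrc, indicator_of_mem hr]
  · rw [indicator_of_notMem hrc, indicator_of_notMem hrc]

/-- the indicator of `alive` is the indicator of the cone set -/
lemma alive_indicator {W : Type*} [Zero W] {t1 : ℝ} {X p : ℝ → R3}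
    (d : Dat T t1 a Φ Ψ X p E B) (g : ℝ → CM.Z → W) {s : ℝ} (hs : s ∈ Icc 0 t1) (z : CM.Z) :
    (alive X s).indicator (g s) z = (cs t1 X Φ).indicator (fun r : ℝ × CM.Z => g r.1 r.2) (s, z) := by
  have h1 : z ∈ alive X s ↔ (s, z) ∈ cs t1 X Φ := by
    show ‖X s - z.1‖ < s ↔ (s ∈ Icc 0 t1 ∧ ‖X s - (Φ 0 z).1‖ < s)
    rw [d.L.zero]
    simp [hs.1, hs.2]
  by_cases hz : z ∈ alive X s
  · rw [indicator_of_mem hz, indicator_of_mem (h1.mp hz)]
  · rw [indicator_of_notMem hz, indicator_of_notMem (fun h => hz (h1.mpr h))]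

theorem LabHyp.dat (h : LabHyp T f₀ f E B a Φ Ψ) {X p : ℝ → R3} (hX : IsChar T f E B X p)
    {t1 : ℝ} (h0 : 0 ≤ t1) (h1 : t1 < T) : Dat T t1 a Φ Ψ X p E B where
  L := h.L
  h0 := h0
  h1 := h1
  hX := CM.subL_of_deriv hX.cX hX.dX (fun _ _ => Pair.norm_relVel_lt_one _)
  hp := hX.cp.mono fun _ hc => ⟨hc.1, hc.2.trans_lt h1⟩
  hE := h.cE.mono (prod_mono (fun _ hc => ⟨hc.1, hc.2.trans_lt h1⟩) le_rfl)
  hB := h.cB.mono (prod_mono (fun _ hc => ⟨hc.1, hc.2.trans_lt h1⟩) le_rfl)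

/-- all pairs are good -/
theorem LabHyp.good (h : LabHyp T f₀ f E B a Φ Ψ) {X p : ℝ → R3} (hX : IsChar T f E B X p)
    {t1 : ℝ} (h0 : 0 ≤ t1) (h1 : t1 < T) :
    ∃ e0 M : ℝ, 0 < e0 ∧ 0 ≤ M ∧ ∀ r ∈ cs t1 X Φ, r.2 ∈ Gl f₀ →
      0 < Rr X r.1 (qz X Φ r.1 r.2).1 → Good E B X p r.1 e0 M (qz X Φ r.1 r.2) := by
  have d := h.dat hX h0 h1
  obtain ⟨R, hR0, hR⟩ := h.flow_bdd h0 h1
  -- bounds of the test
  have hXc : ContinuousOn X (Icc 0 t1) := d.hX.continuousOn.mono fun _ hc => ⟨hc.1, hc.2.trans_lt h1⟩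
  obtain ⟨Rx, hRx⟩ := (isCompact_Icc.image_of_continuousOn hXc).isBounded.exists_norm_le
  obtain ⟨Rp, hRp⟩ := (isCompact_Icc.image_of_continuousOn d.hp).isBounded.exists_norm_le
  set Pm := max R (max Rx Rp) with hPm
  have hPm0 : 0 ≤ Pm := hR0.trans (le_max_left _ _)
  have hcl := continuousOn_lor d.hE d.hB
  have hK : IsCompact (Icc (0 : ℝ) t1 ×ˢ (closedBall (0 : R3) Pm ×ˢ closedBall (0 : R3) Pm)) :=
    isCompact_Icc.prod ((isCompact_closedBall _ _).prod (isCompact_closedBall _ _))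
  obtain ⟨M0, hM0⟩ := (hK.image_of_continuousOn
    (hcl.mono (prod_mono le_rfl (subset_univ _)))).isBounded.exists_norm_le
  have hM : ∀ t ∈ Icc (0 : ℝ) t1, ∀ x w : R3, ‖x‖ ≤ Pm → ‖w‖ ≤ Pm →
      ‖lor E B t x w‖ ≤ max M0 0 := by
    intro t ht x w hx hw
    exact (hM0 _ ⟨(t, x, w), ⟨ht, by simpa using hx, by simpa using hw⟩, rfl⟩).trans
      (le_max_left _ _)
  refine ⟨1 / (2 * (1 + Pm ^ 2)), max M0 0, by positivity, le_max_right _ _,
    fun r hr hrG hRr => ?_⟩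
  have hn := norm_nn_eq hRr
  have hq : qz X Φ r.1 r.2 = Φ (CM.rtL Φ r.1 (X r.1) r.2) r.2 := rfl
  obtain ⟨hτ1, hτ2, hτ3⟩ := d.isRet r.1 hr.1 r.2 hr.2
  have hτ : CM.rtL Φ r.1 (X r.1) r.2 ∈ Icc 0 t1 := ⟨hτ1.le, hτ2.trans hr.1.2⟩
  have hqb := hR r.2 hrG _ hτ
  rw [← hq] at hqb
  have hps : ‖p r.1‖ ≤ Pm :=
    (hRp _ ⟨r.1, hr.1, rfl⟩).trans ((le_max_right _ _).trans (le_max_right _ _))
  have hXs : ‖X r.1‖ ≤ Pm :=
    (hRx _ ⟨r.1, hr.1, rfl⟩).trans ((le_max_left _ _).trans (le_max_right _ _))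
  have hq1 : ‖(qz X Φ r.1 r.2).1‖ ≤ Pm := hqb.1.trans (le_max_left _ _)
  have hq2 : ‖(qz X Φ r.1 r.2).2‖ ≤ Pm := hqb.2.trans (le_max_left _ _)
  exact
    { he0 := by positivity
      hM := le_max_right _ _
      hR := hRr
      hd := one_div_le_om hn hps
      hd2 := om_le_two' hn
      he := one_div_le_om hn hq2
      he2 := om_le_two' hn
      hF := hM _ (d.ret_mem hr) _ _ hq1 hq2
      hFt := hM _ hr.1 _ _ hXs hps }

/-- **(T2)** -/
theorem labInt_of (h : LabHyp T f₀ f E B a Φ Ψ) (hPt : PtBound E B) : LabInt T f₀ f E B Φ := by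
  intro X p hX lam Qs hlam hQs s1 s2 hs1 hs12 hs2
  have h0 : 0 ≤ s2 := hs1.trans hs12
  have d := h.dat hX h0 hs2
  obtain ⟨e0, M, he0, hM, hgood⟩ := h.good hX h0 hs2
  obtain ⟨C, hC0, hC⟩ := hPt
  have hss : Icc s1 s2 ⊆ Icc 0 s2 := Icc_subset_Icc hs1 le_rfl
  have hfin := h.finite
  obtain ⟨Cd, hCd, hdens⟩ := h.dens h0 hs2
  have hA := measurableSet_coneSet d.sub
  have hae : ∀ᵐ r ∂((volume.restrict (Icc s1 s2)).prod (mlab f₀)), r.1 ∈ Icc s1 s2 :=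
    Measure.quasiMeasurePreserving_fst.ae (ae_restrict_mem measurableSet_Icc)
  have hne : ∀ {s : ℝ} {y : R3}, 0 < Rr X s y → X s ≠ y := by
    intro s y hR heq
    unfold Rr at hR
    rw [heq, sub_self, norm_zero] at hR
    exact lt_irrefl _ hR
  refine ⟨?_, ?_, ?_, ?_, ?_⟩
  · -- kernel `K/ε`
    set cK : ℝ := (C * (4 / e0 ^ 2 + 2 / e0 * M)) / e0 with hcK
    have hcK0 : 0 ≤ cK := by positivity
    have h1 := integrable_good h d
      (g := fun r : ℝ × CM.Z => (ep X r.1 (qz X Φ r.1 r.2).1 (qz X Φ r.1 r.2).2)⁻¹ •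
        Kq E B X p r.1 (qz X Φ r.1 r.2))
      ((MeasOn.comp (φ := fun x : ℝ => x⁻¹) (by fun_prop) d.mep).smul' d.mKq) hcK0
      (fun r hr hrG hR => by
        obtain ⟨g1, g2, g3, g4, g5, g6, g7, g8, g9⟩ := hgood r hr hrG hR
        obtain ⟨hK, -⟩ := hC X p r.1 (qz X Φ r.1 r.2) (hne hR)
        have hep0 := he0.trans_le g6
        have k1 := kT_le_maj he0 (he0.le.trans g4) g5 g6 g7 (Pair.one_le_gam (qz X Φ r.1 r.2).2) hR
        have k2 := kS_le_maj he0 g5 g6 (Pair.one_le_gam (qz X Φ r.1 r.2).2) hR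
        have hF0 : 0 ≤ Fsrc E B X r.1 (qz X Φ r.1 r.2) := norm_nonneg _
        have n2 : 0 ≤ maj (2 / e0) (Rr X r.1 (qz X Φ r.1 r.2).1) := maj_nonneg (by positivity) hR
        have hK2 : ‖Kq E B X p r.1 (qz X Φ r.1 r.2)‖
            ≤ C * (maj (4 / e0 ^ 2) (Rr X r.1 (qz X Φ r.1 r.2).1)
              + maj (2 / e0) (Rr X r.1 (qz X Φ r.1 r.2).1) * M) := by
          refine hK.trans (mul_le_mul_of_nonneg_left ?_ hC0)
          rw [momkT_eq, momkS_eq]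
          exact add_le_add k1 (mul_le_mul k2 g8 hF0 n2)
        show ‖(ep X r.1 (qz X Φ r.1 r.2).1 (qz X Φ r.1 r.2).2)⁻¹ •
          Kq E B X p r.1 (qz X Φ r.1 r.2)‖ ≤ _
        rw [norm_smul, norm_inv, Real.norm_eq_abs, abs_of_pos hep0]
        calc (ep X r.1 (qz X Φ r.1 r.2).1 (qz X Φ r.1 r.2).2)⁻¹ *
              ‖Kq E B X p r.1 (qz X Φ r.1 r.2)‖
            ≤ e0⁻¹ * (C * (maj (4 / e0 ^ 2) (Rr X r.1 (qz X Φ r.1 r.2).1)
              + maj (2 / e0) (Rr X r.1 (qz X Φ r.1 r.2).1) * M)) :=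
              mul_le_mul (inv_anti₀ he0 g6) hK2 (norm_nonneg _) (by positivity)
          _ = maj cK (Rr X r.1 (qz X Φ r.1 r.2).1) := by
              rw [hcK]; unfold maj; ring) hss
    refine h1.congr ?_
    filter_upwards [hae] with r hr
    exact (alive_indicator d (fun s z => (ep X s (qz X Φ s z).1 (qz X Φ s z).2)⁻¹ •
        Kq E B X p s (qz X Φ s z)) (hss hr) r.2).symm
  · -- remainder `W`
    set cW : ℝ := (C * (8 / e0 ^ 2 + 4 / e0 * M + (2 + 2 / e0))) / e0 with hcW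
    have hcW0 : 0 ≤ cW := by positivity
    have h1 := integrable_good h d
      (g := fun r : ℝ × CM.Z => Wq E B lam Qs X p r.1 (qz X Φ r.1 r.2))
      (d.mWq lam Qs) hcW0
      (fun r hr hrG hR => by
        have hg := hgood r hr hrG hR
        have hhd := hden_le_maj (lam := lam) (Qs := Qs) hg
        obtain ⟨g1, g2, g3, g4, g5, g6, g7, g8, g9⟩ := hg
        obtain ⟨-, hW⟩ := hC X p r.1 (qz X Φ r.1 r.2) (hne hR)
        obtain ⟨-, hW, -⟩ := hW lam Qs hlam hQs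
        have h2 : e0 * ‖Wq E B lam Qs X p r.1 (qz X Φ r.1 r.2)‖ ≤
            C * maj (8 / e0 ^ 2 + 4 / e0 * M + (2 + 2 / e0)) (Rr X r.1 (qz X Φ r.1 r.2).1) :=
          (mul_le_mul_of_nonneg_right g6 (norm_nonneg _)).trans
            (hW.trans (mul_le_mul_of_nonneg_left hhd hC0))
        calc ‖Wq E B lam Qs X p r.1 (qz X Φ r.1 r.2)‖
            ≤ C * maj (8 / e0 ^ 2 + 4 / e0 * M + (2 + 2 / e0)) (Rr X r.1 (qz X Φ r.1 r.2).1) / e0 := by
              rw [le_div_iff₀ he0]; linarith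
          _ = maj cW (Rr X r.1 (qz X Φ r.1 r.2).1) := by
              rw [hcW]; unfold maj; ring) hss
    refine h1.congr ?_
    filter_upwards [hae] with r hr
    exact (alive_indicator d (fun s z => Wq E B lam Qs X p s (qz X Φ s z)) (hss hr) r.2).symm
  · -- `χ`
    have h1 : Measurable ((cs s2 X Φ).indicator
        (fun r : ℝ × CM.Z => chq lam Qs X p r.1 (qz X Φ r.1 r.2))) :=
      (d.mchq lam Qs).indicator hA
    refine h1.aestronglyMeasurable.congr ?_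
    filter_upwards [hae] with r hr
    exact (alive_indicator d (fun s z => chq lam Qs X p s (qz X Φ s z)) (hss hr) r.2).symm
  · -- boundary term
    have h1 : Measurable ((cs s2 X Φ).indicator
        (fun r : ℝ × CM.Z => chq lam Qs X p r.1 (qz X Φ r.1 r.2) • Gq X p r.1 (qz X Φ r.1 r.2))) :=
      ((d.mchq lam Qs).smul' d.mGq).indicator hA
    have h2 : Measurable (fun z => (cs s2 X Φ).indicator
        (fun r : ℝ × CM.Z => chq lam Qs X p r.1 (qz X Φ r.1 r.2) • Gq X p r.1 (qz X Φ r.1 r.2))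
          (s1, z)) := h1.comp measurable_prodMk_left
    have h3 : Yz lam Qs X p Φ s1 = (fun z => (cs s2 X Φ).indicator
        (fun r : ℝ × CM.Z => chq lam Qs X p r.1 (qz X Φ r.1 r.2) • Gq X p r.1 (qz X Φ r.1 r.2))
          (s1, z)) := by
      funext z
      exact alive_indicator d (fun s z => chq lam Qs X p s (qz X Φ s z) •
        Gq X p s (qz X Φ s z)) (hss ⟨le_rfl, hs12⟩) z
    rw [h3]
    exact h2.aestronglyMeasurable
  · -- no collisions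
    have hYm : Measurable (Function.uncurry (fun τ z => pos Φ (clampT s2 τ) z)) := by
      have := Cara.measurable h0 (g := pos Φ) d.sub.cara
      exact this
    have h1 := ae_no_collision (mlab f₀) (fun τ z => pos Φ (clampT s2 τ) z) hYm
      (fun s => X (clampT s2 s)) d.sub.continuous_X.measurable (a := 0) (b := s2)
      (fun s hs t ht => by
        rw [clampT_of_mem hs, clampT_of_mem ht]; exact d.sub.hX s hs t ht)
      (fun z s hs t ht => by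
        rw [clampT_of_mem hs, clampT_of_mem ht]; exact d.sub.hY' z hs ht)
      Cd hCd (fun τ hτ => by
        simp only [clampT_of_mem hτ]; exact hdens τ hτ)
    filter_upwards [h1] with z hz s hs heq
    refine hz s hs ?_
    simp only [clampT_of_mem hs]
    exact heq.symm

/-- `LabHyp` from a classical solution with its label flow (any phase velocity `a`). -/
theorem labHyp_of {E₀ B₀ : R3 → R3} (hadm : IsAdmissibleDatum f₀ E₀ B₀)
    (hsol : IsClassicalSolutionOn T f₀ E₀ B₀ f E B) (L : CM.LFlow T a Φ Ψ)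
    (hf : ∀ τ ∈ Ico 0 T, ∀ w : R3 × R3, f τ w.1 w.2 = f₀ (Ψ τ w).1 (Ψ τ w).2) :
    LabHyp T f₀ f E B a Φ Ψ where
  L := L
  hf := hf
  cf₀ := hadm.2.1.continuous
  sf₀ := hadm.2.2.1
  cE := hsol.2.1.continuousOn
  cB := hsol.2.2.1.continuousOn
  supp := hsol.2.2.2.2.2.2.2.1

/-- **(T2)**, final form. -/
theorem labInt {E₀ B₀ : R3 → R3} (hadm : IsAdmissibleDatum f₀ E₀ B₀)
    (hsol : IsClassicalSolutionOn T f₀ E₀ B₀ f E B) (L : CM.LFlow T a Φ Ψ)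
    (hf : ∀ τ ∈ Ico 0 T, ∀ w : R3 × R3, f τ w.1 w.2 = f₀ (Ψ τ w).1 (Ψ τ w).2)
    (hPt : PtBound E B) : LabInt T f₀ f E B Φ :=
  labInt_of (labHyp_of hadm hsol L hf) hPt

end final

end Crest.Agent.R106.Mix
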