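import Crest.Agent.R106.MixOne
import Crest.Agent.R106.PairDer
import Crest.Agent.R106.MomDefs

/-!
# Row 106, node MIX-B (helper633): the cut-off calculus for the actual pair

`n` unit vector from source to test, `v` velocity and `F` force of the source, `V` velocity and
`Ft` force of the test, `R` distance.  Everything in an arbitrary real inner product space.
-/

set_option autoImplicit false
set_option linter.unusedSectionVars false
open scoped RealInnerProductSpace
open Real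

namespace Crest.Agent.R106.Mix

open Crest.Agent.R106.Pair

variable {H : Type*} [NormedAddCommGroup H] [InnerProductSpace ℝ H]

/-- energy of a particle of velocity `v` -/
noncomputable def gv (v : H) : ℝ := (√(1 - ‖v‖ ^ 2))⁻¹

theorem one_sub_pos {v : H} (hv : ‖v‖ < 1) : 0 < 1 - ‖v‖ ^ 2 := by
  nlinarith [norm_nonneg v]

theorem sqrt_pos' {v : H} (hv : ‖v‖ < 1) : 0 < √(1 - ‖v‖ ^ 2) :=
  Real.sqrt_pos.mpr (one_sub_pos hv)

theorem gv_pos {v : H} (hv : ‖v‖ < 1) : 0 < gv v := inv_pos.mpr (sqrt_pos' hv)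

theorem inv_gv (v : H) : (gv v)⁻¹ = √(1 - ‖v‖ ^ 2) := by unfold gv; rw [inv_inv]

theorem inv_gv_sq {v : H} (hv : ‖v‖ < 1) : (gv v ^ 2)⁻¹ = 1 - ‖v‖ ^ 2 := by
  rw [← inv_pow, inv_gv, Real.sq_sqrt (one_sub_pos hv).le]

theorem inner_acc_self (v F : H) :
    ⟪v, acc v F⟫ = √(1 - ‖v‖ ^ 2) * ((1 - ‖v‖ ^ 2) * ⟪v, F⟫) := by
  unfold acc
  rw [inner_smul_right, inner_sub_right, inner_smul_right, real_inner_self_eq_norm_sq]
  ring

theorem hasDerivAt_gv {n v V : ℝ → H} {R : ℝ → ℝ} {F A : H} {c s : ℝ}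
    (h : PairD n v V R (acc (v s) F) A c s) :
    HasDerivAt (fun t => gv (v t)) (c * om (n s) (V s) * ⟪v s, F⟫) s := by
  have h1 := (h.deriv_normsq_v).const_sub 1
  have hp := one_sub_pos h.hv1
  have hs := sqrt_pos' h.hv1
  have h2 := (h1.sqrt hp.ne').fun_inv hs.ne'
  refine h2.congr_deriv ?_
  rw [inner_acc_self]
  set w := √(1 - ‖v s‖ ^ 2) with hw
  have hw2 : 1 - ‖v s‖ ^ 2 = w ^ 2 := (Real.sq_sqrt hp.le).symm
  rw [hw2]
  field_simp

/-- the remainder `W` of the pair: everything is a function of the values of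
`n, v, V, F, Ft, R`. -/
noncomputable def WW (lam Qs : ℝ) (n v V F Ft : H) (R : ℝ) : H :=
  Wrem lam Qs (om n V) (om n v) (gv v)
    (((om V v - (1 - ‖v‖ ^ 2) * om n V / om n v - om n v + om n V) / R
        - om n V / om n v * ⟪n, acc v F⟫) / om n v
      - 2 * (((1 - ‖V‖ ^ 2) - om n V - om V v * om n V / om n v + om n V ^ 2 / om n v) / R
        - ⟪n, acc V Ft⟫) / om n V)
    (om n V / om n v * ⟪v, F⟫) (KG n v V R) (KC n v V (acc V Ft) R)

/-- the cut-off of the pair -/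
noncomputable def chiP (lam Qs : ℝ) (n v V : H) : ℝ := chi lam Qs (om n V) (om n v) (gv v)

/-- **the derivative of `chi * G` along the pair, in the parameter `s`** -/
theorem hasDerivAt_chi_KG {lam Qs : ℝ} (hl : 0 < lam) {n v V : ℝ → H} {R : ℝ → ℝ} {F Ft : H}
    {s : ℝ} (h : PairD n v V R (acc (v s) F) (acc (V s) Ft) (om (n s) (v s))⁻¹ s) :
    HasDerivAt (fun t => chiP lam Qs (n t) (v t) (V t) • KG (n t) (v t) (V t) (R t))
      (chiP lam Qs (n s) (v s) (V s) • ((om (n s) (v s))⁻¹ •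
          (KT (n s) (v s) (V s) (R s) + KS (n s) (v s) (V s) (acc (v s) F) (R s)))
        - WW lam Qs (n s) (v s) (V s) F Ft (R s)) s := by
  have hep := h.ep_pos
  have hde := h.dl_pos
  have hR := h.hR0
  have hG := h.deriv_KG
  have hG' : HasDerivAt (fun t => KG (n t) (v t) (V t) (R t))
      ((om (n s) (v s))⁻¹ •
          (KT (n s) (v s) (V s) (R s) + KS (n s) (v s) (V s) (acc (v s) F) (R s))
        - (om (n s) (V s) / om (n s) (v s)) • KC (n s) (v s) (V s) (acc (V s) Ft) (R s)) s := by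
    refine hG.congr_deriv ?_
    rw [smul_sub, smul_smul]
    congr 2
    rw [div_eq_mul_inv, mul_comm]
  have hdl' := h.deriv_dl
  have hep' := h.deriv_ep
  have hga' := hasDerivAt_gv h
  have e1 : -((om (n s) (v s))⁻¹ / R s) * (-(om (n s) (v s) * (1 - ‖V s‖ ^ 2))
      + om (n s) (V s) * om (V s) (v s)
      + om (n s) (V s) * (om (n s) (v s) - om (n s) (V s)))
      - (om (n s) (v s))⁻¹ * om (n s) (v s) * ⟪n s, acc (V s) Ft⟫
      = ((1 - ‖V s‖ ^ 2) - om (n s) (V s) - om (V s) (v s) * om (n s) (V s) / om (n s) (v s)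
          + om (n s) (V s) ^ 2 / om (n s) (v s)) / R s - ⟪n s, acc (V s) Ft⟫ := by
    field_simp
    ring
  have e2 : -((om (n s) (v s))⁻¹ / R s) * (-(om (n s) (v s) * om (V s) (v s))
      + om (n s) (V s) * (1 - ‖v s‖ ^ 2)
      + om (n s) (v s) * (om (n s) (v s) - om (n s) (V s)))
      - (om (n s) (v s))⁻¹ * om (n s) (V s) * ⟪n s, acc (v s) F⟫
      = (om (V s) (v s) - (1 - ‖v s‖ ^ 2) * om (n s) (V s) / om (n s) (v s) - om (n s) (v s)
          + om (n s) (V s)) / R s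
        - om (n s) (V s) / om (n s) (v s) * ⟪n s, acc (v s) F⟫ := by
    field_simp
    ring
  have e3 : (om (n s) (v s))⁻¹ * om (n s) (V s) * ⟪v s, F⟫
      = om (n s) (V s) / om (n s) (v s) * ⟪v s, F⟫ := by
    rw [div_eq_mul_inv]; ring
  exact hasDerivAt_chi_smul (Qs := Qs) hl hde hep (hdl'.congr_deriv e1) (hep'.congr_deriv e2)
    (hga'.congr_deriv e3) hG'

/-! ### Bounds -/

theorem D_le_sq {n v V : H} (hn : ‖n‖ = 1) (hv : ‖v‖ ≤ 1) (hV : ‖V‖ ≤ 1) :
    om V v ≤ (√(om n V) + √(om n v)) ^ 2 := by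
  have h0 : 0 ≤ om n V := om_nonneg hn.le hV
  have h0' : 0 ≤ om n v := om_nonneg hn.le hv
  have h := (abs_le.mp (abs_D_sub_le (n := n) hn hv hV)).2
  rw [Real.sqrt_mul h0] at h
  have e1 := Real.sq_sqrt h0
  have e2 := Real.sq_sqrt h0'
  nlinarith

theorem sq_le_D {n v V : H} (hn : ‖n‖ = 1) (hv : ‖v‖ ≤ 1) (hV : ‖V‖ ≤ 1) :
    (√(om n V) - √(om n v)) ^ 2 ≤ om V v := by
  have h0 : 0 ≤ om n V := om_nonneg hn.le hV
  have h0' : 0 ≤ om n v := om_nonneg hn.le hv
  have h := (abs_le.mp (abs_D_sub_le (n := n) hn hv hV)).1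
  rw [Real.sqrt_mul h0] at h
  have e1 := Real.sq_sqrt h0
  have e2 := Real.sq_sqrt h0'
  nlinarith

/-- the zone form of `kcut` is at most twice `√(D / min δ ε) / R²`. -/
theorem kcut_le {de ep D R : ℝ} (hde : 0 < de) (hep : 0 < ep) (hD0 : 0 ≤ D)
    (hD : (√de - √ep) ^ 2 ≤ D) (hR : 0 < R) : kcut de ep D R ≤ 2 * Mom.kcut de ep D R := by
  unfold kcut Mom.kcut
  rw [← mul_div_assoc]
  apply div_le_div_of_nonneg_right _ (by positivity)
  have ha0 : 0 < √de := Real.sqrt_pos.mpr hde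
  have hb0 : 0 < √ep := Real.sqrt_pos.mpr hep
  have hda := Real.sq_sqrt hde.le
  have hdb := Real.sq_sqrt hep.le
  have two : ∀ x : ℝ, 0 ≤ x → 2 * √x = √(4 * x) := by
    intro x hx
    rw [Real.sqrt_mul (by norm_num), show (4:ℝ) = 2 ^ 2 by norm_num, Real.sqrt_sq (by norm_num)]
  split_ifs with h1 h2
  · have hmin : min de ep = ep := min_eq_right (by linarith)
    rw [hmin, two _ (by positivity)]
    apply Real.sqrt_le_sqrt
    rw [← mul_div_assoc]
    apply div_le_div_of_nonneg_right _ hep.le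
    have : 2 * √ep ≤ √de := by
      apply le_of_sq_le_sq' _ ha0.le
      rw [mul_pow, hda, hdb]; linarith
    nlinarith
  · have hmin : min de ep = de := min_eq_left (by linarith)
    rw [hmin, two _ (by positivity)]
    apply Real.sqrt_le_sqrt
    rw [← mul_div_assoc]
    apply div_le_div_of_nonneg_right _ hde.le
    have : 2 * √de ≤ √ep := by
      apply le_of_sq_le_sq' _ hb0.le
      rw [mul_pow, hda, hdb]; linarith
    nlinarith
  · have hm0 : 0 < min de ep := lt_min hde hep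
    have : √(D / de) ≤ √(D / min de ep) := by
      apply Real.sqrt_le_sqrt
      exact div_le_div_of_nonneg_left hD0 hm0 (min_le_left _ _)
    have h3 : 0 ≤ √(D / min de ep) := Real.sqrt_nonneg _
    linarith

theorem abs_inner_n_acc_le' {n v : H} (hn : ‖n‖ = 1) (hv : ‖v‖ < 1) (F : H) :
    |⟪n, acc v F⟫| ≤ 3 / 2 * (√(om n v) * ‖F‖ / gv v) := by
  have h0 : 0 ≤ om n v := om_nonneg hn.le hv.le
  refine (abs_inner_n_acc_le hn hv.le F).trans ?_
  rw [div_eq_mul_inv (√(om n v) * ‖F‖), inv_gv]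
  calc √(2 * om n v) * (√(1 - ‖v‖ ^ 2) * ‖F‖)
      ≤ (3 / 2 * √(om n v)) * (√(1 - ‖v‖ ^ 2) * ‖F‖) :=
        mul_le_mul_of_nonneg_right (sqrt_two_mul_le h0) (by positivity)
    _ = _ := by ring

open Classical in
/-- **Bound of the remainder of the pair**, in the kernels and regions of `MomDefs`
(`Qs' = 2 Qs` in the cut-off). -/
theorem ep_norm_WW_le {lam Qs : ℝ} (hl : 0 < lam) (hQ : 0 < Qs) {n v V : H} (F Ft : H) {R : ℝ}
    (hn : ‖n‖ = 1) (hv : ‖v‖ < 1) (hV : ‖V‖ < 1) (hR : 0 < R) :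
    om n v * ‖WW lam (2 * Qs) n v V F Ft R‖ ≤ 5000 * stC *
      ((if Mom.regE lam Qs (om n V) (om n v) (gv v) then
          Mom.kS (om n V) (om n v) (gv v) R * ‖F‖ else 0)
      + (if Mom.regC lam Qs (om n V) (om n v) (gv v) then
          Mom.kGam (om n V) (om n v) (gv V) R + Mom.kC (om n V) (om n v) (gv V) R * ‖Ft‖ else 0)
      + (if Mom.regB lam Qs (om n V) (om n v) (gv v) then
          Mom.kcut (om n V) (om n v) (om V v) R else 0)) := by
  have hep : 0 < om n v := om_pos hn hv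
  have hde : 0 < om n V := om_pos hn hV
  have hD0 : 0 < om V v := om_pos' hV hv
  have hg : 0 < 1 - ‖v‖ ^ 2 := one_sub_pos hv
  have hG : 0 < 1 - ‖V‖ ^ 2 := one_sub_pos hV
  have hsum := gam_add_le_D (v := v) (V := V)
  have hst := one_le_stC
  have hQ2 : 0 < 2 * Qs := by positivity
  have main := ep_norm_Wrem_le (lam := lam) (Qs := 2 * Qs) hl hQ2 (de := om n V) (ep := om n v)
    (ga := gv v) (D := om V v) (R := R) (gi := 1 - ‖v‖ ^ 2) (Gi := 1 - ‖V‖ ^ 2)
    (nA := ⟪n, acc V Ft⟫) (na := ⟪n, acc v F⟫) (gd := ⟪v, F⟫) (Ga := gv V) (Fs := ‖F‖)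
    (Ft := ‖Ft‖) (CG := 6) (cn := 3 / 2) (G := KG n v V R) (KC' := KC n v V (acc V Ft) R)
    hde hep (om_le_two hn.le hv.le) (gv_pos hv) (gv_pos hV) hR hD0.le
    (D_le_sq hn hv.le hV.le) hg.le (gam_le_ep hn) (by linarith) hG.le (gam_le_ep hn)
    (by linarith) (abs_ep_sub_dl_le hn hv.le hV.le) (norm_nonneg _) (norm_nonneg _)
    (by norm_num) (by norm_num) (abs_inner_n_acc_le' hn hv F) (abs_inner_n_acc_le' hn hV Ft)
    ((abs_real_inner_le_norm v F).trans (mul_le_of_le_one_left (norm_nonneg _) hv.le))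
    (norm_KG_le hn hv hV hR)
  have hKC := norm_KC_le (n := n) (v := v) (V := V) (R := R) hn hv hV hR Ft
  -- the kernels
  have kGe : (1 - ‖V‖ ^ 2) * (om n V + √(om n V * om n v)) / ((om n V) ^ 2 * R ^ 2)
      = Mom.kGam (om n V) (om n v) (gv V) R := by
    unfold Mom.kGam
    rw [← inv_gv_sq hV]
    have := gv_pos hV
    field_simp
  have kCe : √(om n v) * (√(1 - ‖V‖ ^ 2) * ‖Ft‖) / (om n V * R)
      = Mom.kC (om n V) (om n v) (gv V) R * ‖Ft‖ := by
    unfold Mom.kC
    rw [← inv_gv]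
    have := gv_pos hV
    field_simp
  rw [kGe, kCe] at hKC
  have kSe : kS (gv v) (om n V) (om n v) R = Mom.kS (om n V) (om n v) (gv v) R := rfl
  have kCe' : kC (gv V) (om n V) (om n v) R = Mom.kC (om n V) (om n v) (gv V) R := rfl
  have hcut := kcut_le hde hep hD0.le (sq_le_D hn hv.le hV.le) hR
  rw [kSe, kCe'] at main
  set XS := Mom.kS (om n V) (om n v) (gv v) R * ‖F‖ with hXS
  set XC := Mom.kC (om n V) (om n v) (gv V) R * ‖Ft‖ with hXC
  set XG := Mom.kGam (om n V) (om n v) (gv V) R with hXG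
  set XK := Mom.kcut (om n V) (om n v) (om V v) R with hXK
  have hgv := gv_pos hv
  have hgV := gv_pos hV
  have hXS0 : 0 ≤ XS := by rw [hXS]; unfold Mom.kS; positivity
  have hXC0 : 0 ≤ XC := by rw [hXC]; unfold Mom.kC; positivity
  have hXG0 : 0 ≤ XG := by rw [hXG]; unfold Mom.kGam; positivity
  have hXK0 : 0 ≤ XK := by rw [hXK]; unfold Mom.kcut; positivity
  -- regions
  have rC : Creg lam (2 * Qs) (om n V) (om n v) (gv v) →
      Mom.regC lam Qs (om n V) (om n v) (gv v) := by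
    rintro ⟨h1, h2⟩; exact ⟨by linarith, h1.le⟩
  have rB : Breg lam (2 * Qs) (om n V) (om n v) (gv v) →
      Mom.regB lam Qs (om n V) (om n v) (gv v) := by
    rintro ⟨h1, h2, h3⟩; exact ⟨by linarith, h1.le, h2.le⟩
  have rE : Ereg lam (2 * Qs) (om n V) (om n v) (gv v) →
      Mom.regE lam Qs (om n V) (om n v) (gv v) := by
    rintro (h1 | h1)
    · exact Or.inr h1.le
    · exact Or.inl h1.le
  -- three nonnegative terms of the right-hand side
  have RE0 : 0 ≤ (if Mom.regE lam Qs (om n V) (om n v) (gv v) then XS else 0) := by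
    split_ifs <;> simp [hXS0]
  have RC0 : 0 ≤ (if Mom.regC lam Qs (om n V) (om n v) (gv v) then XG + XC else 0) := by
    split_ifs
    · linarith
    · exact le_rfl
  have RB0 : 0 ≤ (if Mom.regB lam Qs (om n V) (om n v) (gv v) then XK else 0) := by
    split_ifs <;> simp [hXK0]
  have t1 : (if Creg lam (2 * Qs) (om n V) (om n v) (gv v) then
      om n V * ‖KC n v V (acc V Ft) R‖ else 0)
      ≤ 9 * (if Mom.regC lam Qs (om n V) (om n v) (gv v) then XG + XC else 0) := by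
    by_cases hC : Creg lam (2 * Qs) (om n V) (om n v) (gv v)
    · rw [if_pos hC, if_pos (rC hC)]; linarith
    · rw [if_neg hC]; linarith
  have t2 : (if Breg lam (2 * Qs) (om n V) (om n v) (gv v) then
      400 * kcut (om n V) (om n v) (om V v) R + 2 * (3 / 2) * XS + 4 * (3 / 2) * XC else 0)
      ≤ 800 * (if Mom.regB lam Qs (om n V) (om n v) (gv v) then XK else 0)
        + 3 * (if Mom.regE lam Qs (om n V) (om n v) (gv v) then XS else 0)
        + 6 * (if Mom.regC lam Qs (om n V) (om n v) (gv v) then XG + XC else 0) := by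
    by_cases hB : Breg lam (2 * Qs) (om n V) (om n v) (gv v)
    · rw [if_pos hB, if_pos (rB hB), if_pos (rE (Or.inl hB.1)),
        if_pos (rC ⟨hB.2.1, hB.2.2⟩)]
      linarith
    · rw [if_neg hB]; linarith
  have t3 : (if Creg lam (2 * Qs) (om n V) (om n v) (gv v) ∧
      Ereg lam (2 * Qs) (om n V) (om n v) (gv v) then 4 * XS else 0)
      ≤ 4 * (if Mom.regE lam Qs (om n V) (om n v) (gv v) then XS else 0) := by
    by_cases hCE : Creg lam (2 * Qs) (om n V) (om n v) (gv v) ∧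
      Ereg lam (2 * Qs) (om n V) (om n v) (gv v)
    · rw [if_pos hCE, if_pos (rE hCE.2)]
    · rw [if_neg hCE]; linarith
  set IE := (if Mom.regE lam Qs (om n V) (om n v) (gv v) then XS else 0) with hIE
  set IC := (if Mom.regC lam Qs (om n V) (om n v) (gv v) then XG + XC else 0) with hIC
  set IB := (if Mom.regB lam Qs (om n V) (om n v) (gv v) then XK else 0) with hIB
  have hst0 : 0 ≤ stC := by linarith
  have t4 := mul_le_mul_of_nonneg_left (add_le_add t2 t3) (show 0 ≤ 6 * stC by positivity)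
  have m1 : 0 ≤ (stC - 1) * IC := mul_nonneg (by linarith) RC0
  have m2 : 0 ≤ stC * IE := mul_nonneg hst0 RE0
  have m3 : 0 ≤ stC * IB := mul_nonneg hst0 RB0
  have m4 : 0 ≤ stC * IC := mul_nonneg hst0 RC0
  calc om n v * ‖WW lam (2 * Qs) n v V F Ft R‖ ≤ _ := main
    _ ≤ 9 * IC + 6 * stC * (800 * IB + 3 * IE + 6 * IC + 4 * IE) := add_le_add t1 t4
    _ ≤ 5000 * stC * (IE + IC + IB) := by nlinarith

open Classical in
/-- the retarded part -/
theorem one_sub_chi_le {lam Qs : ℝ} (hl : 0 < lam) (hQ : 0 < Qs) {n v V : H} (F : H) {R : ℝ}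
    (hn : ‖n‖ = 1) (hv : ‖v‖ < 1) (hV : ‖V‖ < 1) (hR : 0 < R) :
    (1 - chiP lam (2 * Qs) n v V) * ‖KT n v V R + KS n v V (acc v F) R‖ ≤ 9 *
      (if Mom.regE lam Qs (om n V) (om n v) (gv v) then
        Mom.kT (om n V) (om n v) (gv v) R + Mom.kS (om n V) (om n v) (gv v) R * ‖F‖ else 0) := by
  have hep : 0 < om n v := om_pos hn hv
  have hde : 0 < om n V := om_pos hn hV
  have hgv := gv_pos hv
  have hchi1 := chi_le_one lam (2 * Qs) (om n V) (om n v) (gv v)
  have hchi0 := chi_nonneg lam (2 * Qs) (om n V) (om n v) (gv v)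
  by_cases hE : Ereg lam (2 * Qs) (om n V) (om n v) (gv v)
  · have hE' : Mom.regE lam Qs (om n V) (om n v) (gv v) := by
      rcases hE with h1 | h1
      · exact Or.inr h1.le
      · exact Or.inl h1.le
    rw [if_pos hE']
    have k1 : (1 - ‖v‖ ^ 2) * (om n v + √(om n V * om n v)) / ((om n v) ^ 2 * R ^ 2)
        = Mom.kT (om n V) (om n v) (gv v) R := by
      unfold Mom.kT
      rw [← inv_gv_sq hv]
      field_simp
    have k2 : √(om n V) * (√(1 - ‖v‖ ^ 2) * ‖F‖) / (om n v * R)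
        = Mom.kS (om n V) (om n v) (gv v) R * ‖F‖ := by
      unfold Mom.kS
      rw [← inv_gv]
      field_simp
    have h1 := norm_KT_le (n := n) (v := v) (V := V) (R := R) hn hv hV.le hR
    have h2 := norm_KS_le (n := n) (v := v) (V := V) (R := R) hn hv hV.le hR F
    rw [k1] at h1
    rw [k2] at h2
    have h3 : 0 ≤ Mom.kT (om n V) (om n v) (gv v) R := by unfold Mom.kT; positivity
    calc (1 - chiP lam (2 * Qs) n v V) * ‖KT n v V R + KS n v V (acc v F) R‖
        ≤ 1 * (‖KT n v V R‖ + ‖KS n v V (acc v F) R‖) := by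
          apply mul_le_mul _ (norm_add_le _ _) (norm_nonneg _) (by norm_num)
          unfold chiP; linarith
      _ ≤ _ := by linarith
  · have : chiP lam (2 * Qs) n v V = 1 := chi_eq_one hl (by positivity) hde hE
    rw [this, sub_self, zero_mul]
    split_ifs
    · have h3 : 0 ≤ Mom.kT (om n V) (om n v) (gv v) R := by unfold Mom.kT; positivity
      have h4 : 0 ≤ Mom.kS (om n V) (om n v) (gv v) R := by unfold Mom.kS; positivity
      positivity
    · simp

open Classical in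
/-- the boundary part -/
theorem ep_chi_KG_le {lam Qs : ℝ} (hl : 0 < lam) (hQ : 0 < Qs) {n v V : H} {R : ℝ}
    (hn : ‖n‖ = 1) (hv : ‖v‖ < 1) (hV : ‖V‖ < 1) (hR : 0 < R) :
    om n v * ‖chiP lam (2 * Qs) n v V • KG n v V R‖ ≤ 6 *
      (if Mom.regC lam Qs (om n V) (om n v) (gv v) then
        Mom.kG (om n V) (om n v) R else 0) := by
  have hep : 0 < om n v := om_pos hn hv
  have hde : 0 < om n V := om_pos hn hV
  have hchi1 := chi_le_one lam (2 * Qs) (om n V) (om n v) (gv v)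
  have hchi0 := chi_nonneg lam (2 * Qs) (om n V) (om n v) (gv v)
  by_cases hC : Creg lam (2 * Qs) (om n V) (om n v) (gv v)
  · have hC' : Mom.regC lam Qs (om n V) (om n v) (gv v) := ⟨by linarith [hC.2], hC.1.le⟩
    rw [if_pos hC', norm_smul,
      Real.norm_of_nonneg (show 0 ≤ chiP lam (2 * Qs) n v V from hchi0)]
    unfold chiP
    have h1 := ep_norm_KG_le (n := n) (v := v) (V := V) (R := R) hn hv hV hR
    calc om n v * (chi lam (2 * Qs) (om n V) (om n v) (gv v) * ‖KG n v V R‖)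
        = chi lam (2 * Qs) (om n V) (om n v) (gv v) * (om n v * ‖KG n v V R‖) := by ring
      _ ≤ om n v * ‖KG n v V R‖ := mul_le_of_le_one_left (by positivity) hchi1
      _ ≤ _ := h1
  · have : chiP lam (2 * Qs) n v V = 0 := chi_eq_zero hl (by positivity) hde hC
    rw [this, zero_smul, norm_zero, mul_zero]
    split_ifs
    · unfold Mom.kG; positivity
    · simp

theorem WW_eq_zero {lam Qs : ℝ} (hl : 0 < lam) (hQ : 0 < Qs) {n v V : H} (F Ft : H) (R : ℝ)
    (hn : ‖n‖ = 1) (hV : ‖V‖ < 1) (h : gv v ≤ Qs) : WW lam (2 * Qs) n v V F Ft R = 0 := by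
  unfold WW
  apply Wrem_eq_zero_of_not_Creg hl (by positivity) (om_pos hn hV)
  rintro ⟨_, h2⟩
  linarith

theorem chiP_eq_zero {lam Qs : ℝ} (hl : 0 < lam) (hQ : 0 < Qs) {n v V : H}
    (hn : ‖n‖ = 1) (hV : ‖V‖ < 1) (h : gv v ≤ Qs) : chiP lam (2 * Qs) n v V = 0 := by
  unfold chiP
  apply chi_eq_zero hl (by positivity) (om_pos hn hV)
  rintro ⟨_, h2⟩
  linarith

theorem chiP_nonneg (lam Qs : ℝ) (n v V : H) : 0 ≤ chiP lam Qs n v V := chi_nonneg _ _ _ _ _
theorem chiP_le_one (lam Qs : ℝ) (n v V : H) : chiP lam Qs n v V ≤ 1 := chi_le_one _ _ _ _ _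

end Crest.Agent.R106.Mix
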