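import Crest.Agent.R106.MixDefs
import Crest.Agent.R106.MixPair
import Crest.Agent.R106.PairDefs

/-!
# Row 106, node MIX (helper633): `ptBound` and `ptDeriv`

The two pointwise statements of `MixDefs` in the momentum form, from the velocity form of `MixPair`.
-/

set_option autoImplicit false

open MeasureTheory Set Filter Topology
open Crest.AnalysisR.VecCalc3 Crest.AnalysisR.PDE.RVM
open scoped InnerProductSpace ENNReal ContDiff

noncomputable section

namespace Crest.Agent.R106.Mix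

open Crest.Agent.R106.Mom (Rr ret nn dl ep Dd kap Fsrc Ftest hden bden hh bb IsChar)
open Crest.Agent.R106.GSR (gam lor)

/-! ### translation -/

theorem gv_relVel (p : R3) : gv (relVel p) = gam p := by
  unfold gv
  rw [Pair.sqrt_one_sub_normSq_relVel, inv_inv]

theorem norm_nn {X : ℝ → R3} {s : ℝ} {y : R3} (h : X s ≠ y) : ‖nn X s y‖ = 1 := by
  unfold nn
  have : ‖X s - y‖ ≠ 0 := norm_ne_zero_iff.mpr (sub_ne_zero.mpr h)
  rw [norm_smul, norm_inv, norm_norm, inv_mul_cancel₀ this]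

theorem Rr_pos {X : ℝ → R3} {s : ℝ} {y : R3} (h : X s ≠ y) : 0 < Rr X s y :=
  norm_pos_iff.mpr (sub_ne_zero.mpr h)

section eqs
variable (E B : ℝ → R3 → R3) (lam Qs : ℝ) (X p : ℝ → R3) (s : ℝ) (q : R3 × R3)

theorem Wq_eq : Wq E B lam Qs X p s q
    = WW lam (2 * Qs) (nn X s q.1) (relVel q.2) (relVel (p s))
        (lor E B (ret X s q.1) q.1 q.2) (lor E B s (X s) (p s)) (Rr X s q.1) := by
  unfold Wq WW Ldq gdq Gq KCq At aq dl ep Dd
  rw [Pair.acc_eq, Pair.acc_eq, gv_relVel]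
  rfl

theorem chq_eq : chq lam Qs X p s q
    = chiP lam (2 * Qs) (nn X s q.1) (relVel q.2) (relVel (p s)) := by
  unfold chq chiP
  rw [gv_relVel]
  rfl

theorem Kq_eq : Kq E B X p s q
    = Pair.KT (nn X s q.1) (relVel q.2) (relVel (p s)) (Rr X s q.1) +
      Pair.KS (nn X s q.1) (relVel q.2) (relVel (p s))
        (Pair.acc (relVel q.2) (lor E B (ret X s q.1) q.1 q.2)) (Rr X s q.1) := by
  unfold Kq aq
  rw [Pair.acc_eq]

end eqs

/-! ### pointwise bounds -/

open Classical in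
theorem ptBound (E B : ℝ → R3 → R3) : PtBound E B := by
  have hst := one_le_stC
  refine ⟨5000 * stC, by linarith, fun X p s q hne => ?_⟩
  have hn := norm_nn hne
  have hR := Rr_pos hne
  have hv := Pair.norm_relVel_lt_one q.2
  have hV := Pair.norm_relVel_lt_one (p s)
  have hep : 0 < Pair.om (nn X s q.1) (relVel q.2) := Pair.om_pos hn hv
  have hde : 0 < Pair.om (nn X s q.1) (relVel (p s)) := Pair.om_pos hn hV
  have hgw := Pair.gam_pos q.2
  have hgp := Pair.gam_pos (p s)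
  have hep' : 0 < ep X s q.1 q.2 := hep
  have hde' : 0 < dl X p s q.1 := hde
  have hF0 : 0 ≤ Fsrc E B X s q := norm_nonneg _
  have hFt0 : 0 ≤ Ftest E B X p s := norm_nonneg _
  have hD0 : 0 < Dd p s q.2 := Pair.om_pos' hV hv
  have k1 : 0 ≤ Mom.kT (dl X p s q.1) (ep X s q.1 q.2) (gam q.2) (Rr X s q.1) := by
    unfold Mom.kT; positivity
  have k2 : 0 ≤ Mom.kS (dl X p s q.1) (ep X s q.1 q.2) (gam q.2) (Rr X s q.1)
      * Fsrc E B X s q := by
    unfold Mom.kS; positivity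
  have k3 : 0 ≤ Mom.kGam (dl X p s q.1) (ep X s q.1 q.2) (gam (p s)) (Rr X s q.1) := by
    unfold Mom.kGam; positivity
  have k4 : 0 ≤ Mom.kC (dl X p s q.1) (ep X s q.1 q.2) (gam (p s)) (Rr X s q.1)
      * Ftest E B X p s := by
    unfold Mom.kC; positivity
  have k5 : 0 ≤ Mom.kcut (dl X p s q.1) (ep X s q.1 q.2) (Dd p s q.2) (Rr X s q.1) := by
    unfold Mom.kcut; positivity
  refine ⟨?_, fun lam Qs hl hQ => ⟨?_, ?_, ?_⟩⟩
  · have h1 := Pair.norm_KT_mom (n := nn X s q.1) (w := q.2) (p := p s) hn hR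
    have h2 := Pair.norm_KS_mom (n := nn X s q.1) (w := q.2) (p := p s) hn hR
      (lor E B (ret X s q.1) q.1 q.2)
    rw [Pair.eT_eq] at h1
    rw [Pair.eS_eq] at h2
    have h3 : ‖Kq E B X p s q‖ ≤ _ := (norm_add_le _ _).trans (add_le_add h1 h2)
    refine h3.trans ?_
    show 4 * Mom.kT (dl X p s q.1) (ep X s q.1 q.2) (gam q.2) (Rr X s q.1)
      + 9 * (Mom.kS (dl X p s q.1) (ep X s q.1 q.2) (gam q.2) (Rr X s q.1)
        * Fsrc E B X s q) ≤ _
    nlinarith
  · have h1 := one_sub_chi_le (lam := lam) (Qs := Qs) hl hQ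
      (lor E B (ret X s q.1) q.1 q.2) hn hv hV hR
    rw [← chq_eq, ← Kq_eq, gv_relVel] at h1
    refine h1.trans ?_
    change 9 * (if Mom.regE lam Qs (dl X p s q.1) (ep X s q.1 q.2) (gam q.2) then
      Mom.kT (dl X p s q.1) (ep X s q.1 q.2) (gam q.2) (Rr X s q.1)
        + Mom.kS (dl X p s q.1) (ep X s q.1 q.2) (gam q.2) (Rr X s q.1) * Fsrc E B X s q
        else 0) ≤ _
    unfold hden
    have n1 : 0 ≤ (if Mom.regE lam Qs (dl X p s q.1) (ep X s q.1 q.2) (gam q.2) then
      Mom.kT (dl X p s q.1) (ep X s q.1 q.2) (gam q.2) (Rr X s q.1)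
        + Mom.kS (dl X p s q.1) (ep X s q.1 q.2) (gam q.2) (Rr X s q.1) * Fsrc E B X s q
        else 0) := by
      split_ifs
      · exact add_nonneg k1 k2
      · exact le_rfl
    have n2 : 0 ≤ (if Mom.regC lam Qs (dl X p s q.1) (ep X s q.1 q.2) (gam q.2) then
      Mom.kGam (dl X p s q.1) (ep X s q.1 q.2) (gam (p s)) (Rr X s q.1)
        + Mom.kC (dl X p s q.1) (ep X s q.1 q.2) (gam (p s)) (Rr X s q.1) * Ftest E B X p s
        else 0) := by
      split_ifs
      · exact add_nonneg k3 k4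
      · exact le_rfl
    have n3 : 0 ≤ (if Mom.regB lam Qs (dl X p s q.1) (ep X s q.1 q.2) (gam q.2) then
      Mom.kcut (dl X p s q.1) (ep X s q.1 q.2) (Dd p s q.2) (Rr X s q.1) else 0) := by
      split_ifs
      · exact k5
      · exact le_rfl
    nlinarith
  · have h1 := ep_norm_WW_le (lam := lam) (Qs := Qs) hl hQ
      (lor E B (ret X s q.1) q.1 q.2) (lor E B s (X s) (p s)) hn hv hV hR
    rw [← Wq_eq, gv_relVel, gv_relVel] at h1
    change ep X s q.1 q.2 * ‖Wq E B lam Qs X p s q‖ ≤ 5000 * stC *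
      ((if Mom.regE lam Qs (dl X p s q.1) (ep X s q.1 q.2) (gam q.2) then
        Mom.kS (dl X p s q.1) (ep X s q.1 q.2) (gam q.2) (Rr X s q.1) * Fsrc E B X s q else 0)
      + (if Mom.regC lam Qs (dl X p s q.1) (ep X s q.1 q.2) (gam q.2) then
        Mom.kGam (dl X p s q.1) (ep X s q.1 q.2) (gam (p s)) (Rr X s q.1)
        + Mom.kC (dl X p s q.1) (ep X s q.1 q.2) (gam (p s)) (Rr X s q.1) * Ftest E B X p s
        else 0)
      + (if Mom.regB lam Qs (dl X p s q.1) (ep X s q.1 q.2) (gam q.2) then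
        Mom.kcut (dl X p s q.1) (ep X s q.1 q.2) (Dd p s q.2) (Rr X s q.1) else 0)) at h1
    refine h1.trans (mul_le_mul_of_nonneg_left ?_ (by linarith))
    unfold hden
    gcongr ?_ + _ + _
    split_ifs
    · linarith
    · exact le_rfl
  · have h1 := ep_chi_KG_le (lam := lam) (Qs := Qs) hl hQ hn hv hV hR
    rw [← chq_eq, gv_relVel] at h1
    change ep X s q.1 q.2 * ‖chq lam Qs X p s q • Gq X p s q‖ ≤ 6 * bden lam Qs X p s q at h1
    refine h1.trans ?_
    have n1 : 0 ≤ bden lam Qs X p s q := by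
      unfold bden
      split_ifs
      · unfold Mom.kG; positivity
      · exact le_rfl
    nlinarith

/-! ### the derivative along the pair -/

theorem nn_eq_nvec {X Y : ℝ → R3} {t τ : ℝ} (h : t - τ = ‖X t - Y τ‖) :
    nn X t (Y τ) = Pair.nvec X Y t τ := by
  unfold nn Pair.nvec
  rw [h]

theorem ptDeriv (E B : ℝ → R3 → R3) : PtDeriv E B := by
  intro X p Y w τ s lam Qs hl hQ hX hp hY hw hτc hnull hτs
  have h0 := hnull.self_of_nhds
  have hR : 0 < s - τ s := by linarith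
  have hv := Pair.norm_relVel_lt_one (w (τ s))
  have hV := Pair.norm_relVel_lt_one (p s)
  have hne : X s ≠ Y (τ s) := by
    intro h
    rw [h, sub_self, norm_zero] at h0
    linarith
  have hpV := Pair.hasDerivAt_relVel hp
  have hwv := Pair.hasDerivAt_relVel hw
  rw [Pair.acc_eq] at hpV hwv
  have hep : Pair.om (Pair.nvec X Y s (τ s)) (relVel (w (τ s))) ≠ 0 :=
    (Pair.om_pos (Pair.norm_nvec (X := X) (y := Y) h0 hR) hv).ne'
  have hτ' := Pair.hasDerivAt_tau_of_null hX hY hτc hnull hR hv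
  have hP := Pair.pairD_of_null (X := X) (y := Y) (V := fun t => relVel (p t))
    (v := fun t => relVel (w t)) (σ := fun t => t) (τ := τ) (θ := s)
    (c := (Pair.om (Pair.nvec X Y s (τ s)) (relVel (w (τ s))))⁻¹)
    hX hpV hY hwv hV hv h0 hR
    (by rw [inv_mul_cancel₀ hep]; exact hasDerivAt_id s)
    (hτ'.congr_deriv (by rw [div_eq_inv_mul]))
  have hD := hasDerivAt_chi_KG (lam := lam) (Qs := 2 * Qs) hl hP
  have e1 : Pair.nvec X Y s (τ s) = nn X s (Y (τ s)) := (nn_eq_nvec h0).symm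
  have e2 : s - τ s = Rr X s (Y (τ s)) := h0
  have e3 : ret X s (Y (τ s)) = τ s := by unfold ret; linarith
  refine HasDerivAt.congr_of_eventuallyEq (HasDerivAt.congr_deriv hD ?_) ?_
  · rw [chq_eq, Kq_eq, Wq_eq]
    simp only [e1, e2, e3]
    rfl
  · filter_upwards [hnull] with t ht
    rw [chq_eq]
    unfold Gq
    simp only
    rw [nn_eq_nvec ht, show Rr X t (Y (τ t)) = t - τ t from ht.symm]

end Crest.Agent.R106.Mix
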