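import Crest.Agent.R106.GsCor
import Crest.Agent.R106.MixDefs

/-!
# Row 106, node MIX, piece (T1): `RepF` from the representation of the fields (helper369)
-/

set_option autoImplicit false
open MeasureTheory Set Filter Topology
open Crest.AnalysisR.VecCalc3 Crest.AnalysisR.PDE.RVM
open scoped InnerProductSpace ENNReal ContDiff

noncomputable section

namespace Crest.Agent.R106.Mix

open Crest.Agent.R106.Mom (Rr ret nn dl ep Dd kap Fsrc Ftest hden bden hh bb IsChar)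
open Crest.Agent.R106.GSR (gam acc lor)

theorem Kq_eq_KK (E B : ℝ → R3 → R3) (X p : ℝ → R3) (s : ℝ) (q : R3 × R3) :
    Kq E B X p s q = GsCor.KK E B X p s q := by
  rw [GsCor.KK_eq]
  unfold Kq aq Rr
  rw [Pair.acc_eq]

theorem cone_set_eq (x : R3) (s : ℝ) :
    {q : R3 × R3 | ‖x - q.1‖ < s} = Metric.ball x s ×ˢ (univ : Set R3) := by
  ext q
  simp only [mem_ofPred_eq, mem_prod, Metric.mem_ball, mem_univ, and_true]
  rw [dist_comm, dist_eq_norm]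

/-- (T1) -/
theorem repF {T : ℝ} (hT : 0 < T) {f₀ : R3 → R3 → ℝ} {E₀ B₀ : R3 → R3}
    {f : ℝ → R3 → R3 → ℝ} {E B : ℝ → R3 → R3} (hsol : IsClassicalSolutionOn T f₀ E₀ B₀ f E B)
    (hrep : GsCor.GSRepOn T f E B) : RepF T f E B := by
  obtain ⟨C, hC0, hC⟩ := GsCor.force_rep hT hsol hrep
  refine ⟨C, hC0, fun X p h s hs => ?_⟩
  obtain ⟨h1, h2⟩ := hC X p h s ⟨hs.1.le, hs.2⟩
  have e : (fun q : R3 × R3 => f (ret X s q.1) q.1 q.2 • Kq E B X p s q) =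
      fun q => f (ret X s q.1) q.1 q.2 • GsCor.KK E B X p s q := by
    funext q; rw [Kq_eq_KK]
  rw [cone_set_eq, e, IntegrableOn, ← GsCor.coneM_eq]
  exact ⟨h1, h2⟩

/-- `FtP` from `RepF`-free data, restated here for convenience. -/
theorem ftP {T : ℝ} (hT : 0 < T) {f₀ : R3 → R3 → ℝ} {E₀ B₀ : R3 → R3}
    {f : ℝ → R3 → R3 → ℝ} {E B : ℝ → R3 → R3} (hsol : IsClassicalSolutionOn T f₀ E₀ B₀ f E B)
    (hf0 : ∀ t ∈ Ico 0 T, ∀ x v : R3, 0 ≤ f t x v)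
    (hrep : GsCor.GSRepOn T f E B) : Mom.FtP T f E B := GsCor.ftP hT hsol hf0 hrep

/-- nonnegativity of `f` from the flow -/
theorem nonneg_of_flow {T : ℝ} {f₀ : R3 → R3 → ℝ} {f : ℝ → R3 → R3 → ℝ} {E B : ℝ → R3 → R3}
    {Φ Ψ : ℝ → R3 × R3 → R3 × R3} (hF : SolFlow T f₀ f E B Φ Ψ) (h0 : ∀ x v, 0 ≤ f₀ x v) :
    ∀ t ∈ Ico 0 T, ∀ x v : R3, 0 ≤ f t x v := by
  intro t ht x v
  have := hF.hf t ht (x, v)
  simp only at this
  rw [this]
  exact h0 _ _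

end Crest.Agent.R106.Mix
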