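import Crest.Agent.R106.Mix
import Crest.Agent.R106.MixPt
import Crest.Agent.R106.MixRep
import Crest.Agent.R106.MixLab
import Crest.Agent.R106.FlowTo

/-!
# Row 106, MIX: `MixP` and `FtP` for every solution of the class, from the representation (R)
(helper616; pieces by helper633, helper154, helper369, helper146, helper332, helper898, helper868,
helper824).
-/

set_option autoImplicit false

open MeasureTheory Set Filter Topology
open Crest.AnalysisR.VecCalc3 Crest.AnalysisR.PDE.RVM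
open scoped InnerProductSpace ENNReal ContDiff

noncomputable section

namespace Crest.Agent.R106.Mix

variable {T : ℝ} {f₀ : R3 → R3 → ℝ} {E₀ B₀ : R3 → R3} {f : ℝ → R3 → R3 → ℝ} {E B : ℝ → R3 → R3}

/-- the flow of a solution in label form -/
theorem exists_solFlow (hT : 0 < T) (hS : SolTo T f₀ E₀ B₀ f E B) :
    ∃ Φ Ψ : ℝ → R3 × R3 → R3 × R3, SolFlow T f₀ f E B Φ Ψ := by
  obtain ⟨Zf, Zi, a, L, ha, -, -, hf, -⟩ := FlowTo.exists_labelFlow hT hS
  have e : a = av E B := by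
    funext τ w
    rw [ha]
    rfl
  subst e
  refine ⟨Zf, Zi, L, fun τ hτ w => ?_⟩
  rw [hf τ hτ w, hS.f_zero]

/-- **(M)** for every solution of the class. -/
theorem mixP (hT : 0 < T) (hadm : IsAdmissibleDatum f₀ E₀ B₀) (hS : SolTo T f₀ E₀ B₀ f E B)
    (hrep : GsCor.GSRepOn T f E B) : Mom.MixP T f E B := by
  refine mixP_of hT hadm hS (repF hT hS.1 hrep) (ptBound E B) (ptDeriv E B) ?_
  intro T' hT' hT'T
  have hS' := solTo_mono hT' hT'T.le hS
  obtain ⟨Φ, Ψ, hF⟩ := exists_solFlow hT' hS'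
  exact ⟨Φ, Ψ, hF, labInt hadm hS'.1 hF.L hF.hf (ptBound E B)⟩

/-- `MixP` in the form of `MomIface`. -/
theorem mixP_sol (h : Mom.SmoothSol T f₀ E₀ B₀ f E B) (hrep : GsCor.GSRepOn T f E B) :
    Mom.MixP T f E B :=
  mixP h.T_pos h.adm ⟨h.sol, h.smf, h.smE, h.smB⟩ hrep

/-- `FtP` in the form of `MomIface`. -/
theorem ftP_sol (h : Mom.SmoothSol T f₀ E₀ B₀ f E B) (hrep : GsCor.GSRepOn T f E B) :
    Mom.FtP T f E B := by
  obtain ⟨Φ, Ψ, hF⟩ := exists_solFlow h.T_pos ⟨h.sol, h.smf, h.smE, h.smB⟩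
  exact ftP h.T_pos h.sol (nonneg_of_flow hF h.adm.1) hrep

end Crest.Agent.R106.Mix
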