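/-
Row 106, NEW PART (helper268): from the nodes of `MomIface` for every solution of the class
to `MomBound1` (Glue1).
-/
import Crest.Agent.R106.MomIface
import Crest.Agent.R106.Glue1

set_option autoImplicit false

open MeasureTheory Set Filter Topology
open Crest.AnalysisR.VecCalc3 Crest.AnalysisR.PDE.RVM
open scoped ContDiff

namespace Crest.Agent.R106.Mom

/-- all nodes for one solution -/
structure Nodes (T : ℝ) (f : ℝ → R3 → R3 → ℝ) (E B : ℝ → R3 → R3) : Prop where
  mix : MixP T f E B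
  ft : FtP T f E B
  occA : OccA T f E B
  occB : OccB T f E B
  occC : OccC T f E B
  coreA : CoreA T f E B
  coreB : CoreB T f E B
  fsrc : FsrcP E B
  occD : OccD T f E B
  loc : LocP T f E B
  bsmall : BsmallP T f E B
  abs : AbsP T f E B
  lip : LipP T f E B
  char : CharP T f E B

theorem momBound1_of
    (h : ∀ (T : ℝ) (f₀ : R3 → R3 → ℝ) (E₀ B₀ : R3 → R3) (f : ℝ → R3 → R3 → ℝ) (E B : ℝ → R3 → R3),
      Mom.SmoothSol T f₀ E₀ B₀ f E B → Nodes T f E B) : MomBound1 := by
  intro T hT f₀ E₀ B₀ hadm f E B hsol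
  have N := h T f₀ E₀ B₀ f E B ⟨hT, hadm, hsol.1, hsol.2.1, hsol.2.2.1, hsol.2.2.2⟩
  exact momBd_of hT N.mix N.ft N.occA N.occB N.occC N.coreA N.coreB N.fsrc N.occD N.loc N.bsmall
    N.abs N.lip N.char

end Crest.Agent.R106.Mom
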