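import Mathlib
import Crest.Agent.R106.OccKin

/-!
R106, module OCC (helper193): sum over windows and labels.
-/

set_option autoImplicit false

open MeasureTheory Set
open Crest.AnalysisR.VecCalc3

namespace Crest.Agent.R106.Occ

/-- **(d) at the label level.** -/
theorem occD_label {Z : Type*} [MeasurableSpace Z] (m : Measure Z)
    {X V : ℝ → R3} (y v : Z → ℝ → R3) (s : Z → ℝ → ℝ) (S : Z → Set ℝ)
    {R1 δ1 ε1 D1 A B a b L K : ℝ}
    (hR1 : 0 < R1) (hδ1 : 0 < δ1) (hε1 : 0 < ε1) (hD1 : 0 < D1) (hD2 : D1 ≤ 2)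
    (hM : D1 ≤ 8 * max δ1 ε1) (hA : 0 ≤ A) (hB : B ≤ Real.sqrt D1 / 12) (hL : 0 < L)
    (hK : 0 ≤ K) (ha : 0 ≤ a) (hab : a ≤ b)
    (hXc : ContinuousOn X (Icc (a - 2 * R1) b))
    (hX : ∀ t ∈ Ioo (a - 2 * R1) b, HasDerivAt X (V t) t)
    (hV1 : ∀ t ∈ Icc (a - 2 * R1) b, ‖V t‖ ≤ 1) (hVs : VStab V (a - 2 * R1) b A B)
    (hyc : ∀ z, (S z).Nonempty → ContinuousOn (y z) (Icc 0 b))
    (hy : ∀ z, (S z).Nonempty → ∀ t ∈ Ioo 0 b, HasDerivAt (y z) (v z t) t)
    (hS : ∀ z, (S z).Nonempty → MeasurableSet (S z))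
    (hS0 : ∀ z, ∀ τ ∈ S z, 0 ≤ τ) (hSs : ∀ z, ∀ τ ∈ S z, a ≤ s z τ ∧ s z τ ≤ b)
    (hsh : ∀ z, ∀ τ ∈ S z, InShell X V (y z) (v z) (s z) R1 δ1 ε1 D1 τ)
    (hs' : ∀ z, ∀ τ ∈ S z, HasDerivWithinAt (s z)
      ((1 - inner ℝ (dir (X (s z τ)) (y z τ)) (v z τ)) /
        (1 - inner ℝ (dir (X (s z τ)) (y z τ)) (V (s z τ)))) (S z) τ)
    (hinj : ∀ z, InjOn (s z) (S z))
    (hwin : ∀ α β, 0 ≤ α → α ≤ β → β ≤ b → β - α ≤ L → ∀ z, (S z ∩ Icc α β).Nonempty →
      VStab (v z) α β A B)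
    (hmass : ∀ α β, 0 ≤ α → α ≤ β → β ≤ b → β - α ≤ L →
      m {z | (S z ∩ Icc α β).Nonempty} ≤ ENNReal.ofReal K) :
    ∫⁻ z, (∫⁻ τ in S z, invδ X V (y z) (s z) τ) ∂m ≤
      ENNReal.ofReal ((1 + (b - a + 2 * R1) / L) * K *
        ((36 * A + 4) * (25 * R1) / (D1 * Real.sqrt (max δ1 ε1)))) := by
  classical
  set lo : ℝ := max 0 (a - 2 * R1) with hlo
  have hlo0 : 0 ≤ lo := le_max_left _ _
  have hloa : a - 2 * R1 ≤ lo := le_max_right _ _
  have hlob : lo ≤ b := max_le (ha.trans hab) (by linarith)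
  set N : ℕ := ⌊(b - lo) / L⌋₊ + 1 with hN
  set C' : ℝ := (36 * A + 4) * (25 * R1) / (D1 * Real.sqrt (max δ1 ε1)) with hC'
  have hC0 : 0 ≤ C' := by positivity
  set al : ℕ → ℝ := fun k => lo + k * L with hal
  set be : ℕ → ℝ := fun k => min (al k + L) b with hbe
  have halb : ∀ k : Fin N, al k ≤ b := by
    intro k
    have hk : (k : ℕ) ≤ ⌊(b - lo) / L⌋₊ := Nat.lt_succ_iff.1 k.2
    have h1 : ((k : ℕ) : ℝ) ≤ (b - lo) / L := (Nat.le_floor_iff (by
      exact div_nonneg (by linarith) hL.le)).1 hk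
    rw [le_div_iff₀ hL] at h1
    simp only [hal]; linarith
  have hal0 : ∀ k : ℕ, lo ≤ al k := by
    intro k; simp only [hal]
    have : 0 ≤ (k:ℝ) * L := by positivity
    linarith
  have hle : ∀ k : Fin N, al k ≤ be k := fun k => le_min (by linarith) (halb k)
  have hbb : ∀ k : ℕ, be k ≤ b := fun k => min_le_right _ _
  have hbL : ∀ k : ℕ, be k - al k ≤ L := by
    intro k
    have : be k ≤ al k + L := min_le_left _ _
    linarith
  set M : ℕ → Set Z := fun k => toMeasurable m {z | (S z ∩ Icc (al k) (be k)).Nonempty} with hMdef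
  -- pointwise bound
  have hpt : ∀ z, ∫⁻ τ in S z, invδ X V (y z) (s z) τ ≤
      ∑ k : Fin N, (M k).indicator (fun _ => ENNReal.ofReal C') z := by
    intro z
    by_cases hne : (S z).Nonempty
    swap
    · rw [not_nonempty_iff_eq_empty.1 hne]
      simp
    have hcov : S z ⊆ ⋃ k : Fin N, (S z ∩ Icc (al k) (be k)) := by
      intro τ hτ
      have h1 := hsh z τ hτ
      have h2 := hSs z τ hτ
      have h3 := hS0 z τ hτ
      have hτlo : lo ≤ τ := max_le h3 (by linarith [h1.Ru])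
      have hτb : τ ≤ b := by linarith [h1.lt]
      have hq : 0 ≤ (τ - lo) / L := div_nonneg (by linarith) hL.le
      rw [mem_iUnion]
      refine ⟨⟨⌊(τ - lo) / L⌋₊, ?_⟩, hτ, ?_, ?_⟩
      · rw [hN]
        refine Nat.lt_succ_of_le (Nat.floor_le_floor ?_)
        gcongr
      · have := Nat.floor_le hq
        rw [le_div_iff₀ hL] at this
        simp only [hal]; linarith
      · refine le_min ?_ hτb
        have := (Nat.lt_floor_add_one ((τ - lo) / L)).le
        rw [div_le_iff₀ hL] at this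
        simp only [hal]; linarith
    calc ∫⁻ τ in S z, invδ X V (y z) (s z) τ
        ≤ ∫⁻ τ in ⋃ k : Fin N, (S z ∩ Icc (al k) (be k)), invδ X V (y z) (s z) τ :=
          lintegral_mono_set hcov
      _ ≤ ∑' k : Fin N, ∫⁻ τ in (S z ∩ Icc (al k) (be k)), invδ X V (y z) (s z) τ :=
          lintegral_iUnion_le _ _
      _ = ∑ k : Fin N, ∫⁻ τ in (S z ∩ Icc (al k) (be k)), invδ X V (y z) (s z) τ :=
          tsum_fintype _
      _ ≤ ∑ k : Fin N, (M k).indicator (fun _ => ENNReal.ofReal C') z := by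
          refine Finset.sum_le_sum fun k _ => ?_
          by_cases hk : (S z ∩ Icc (al k) (be k)).Nonempty
          · have hzM : z ∈ M k := subset_toMeasurable m _ hk
            rw [indicator_of_mem hzM]
            have hsub : S z ∩ Icc (al k) (be k) ⊆ S z := inter_subset_left
            refine one_window (X := X) (V := V) (y := y z) (v := v z) (s := s z) (c := a - 2 * R1)
              (a := al k) (b := be k) (e := b) hR1.le hδ1 hε1 hD1 hD2 hM hA hB
              (hloa.trans (hal0 k)) (hle k) (hbb k) hXc hX hV1 hVs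
              ((hyc z hne).mono (Icc_subset_Icc (hlo0.trans (hal0 k)) (hbb k)))
              (fun t ht => hy z hne t ⟨(hlo0.trans (hal0 k)).trans_lt ht.1, ht.2.trans_le (hbb k)⟩)
              (hwin _ _ (hlo0.trans (hal0 k)) (hle k) (hbb k) (hbL k) z hk)
              ((hS z hne).inter measurableSet_Icc) inter_subset_right
              (fun τ hτ => (hSs z τ hτ.1).2) (fun τ hτ => hsh z τ hτ.1)
              (fun τ hτ => (hs' z τ hτ.1).mono hsub) ((hinj z).mono hsub)
          · rw [not_nonempty_iff_eq_empty.1 hk]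
            simp
  calc ∫⁻ z, (∫⁻ τ in S z, invδ X V (y z) (s z) τ) ∂m
      ≤ ∫⁻ z, ∑ k : Fin N, (M k).indicator (fun _ => ENNReal.ofReal C') z ∂m := lintegral_mono hpt
    _ = ∑ k : Fin N, ∫⁻ z, (M k).indicator (fun _ => ENNReal.ofReal C') z ∂m := by
        refine lintegral_finsetSum _ fun k _ => ?_
        exact measurable_const.indicator (measurableSet_toMeasurable _ _)
    _ ≤ ∑ _k : Fin N, ENNReal.ofReal C' * ENNReal.ofReal K := by
        refine Finset.sum_le_sum fun k _ => ?_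
        rw [lintegral_indicator_const (measurableSet_toMeasurable _ _), measure_toMeasurable]
        gcongr
        exact hmass _ _ (hlo0.trans (hal0 k)) (hle k) (hbb k) (hbL k)
    _ = ENNReal.ofReal (N * (C' * K)) := by
        rw [Finset.sum_const, Finset.card_univ, Fintype.card_fin, nsmul_eq_mul,
          ← ENNReal.ofReal_mul hC0, ← ENNReal.ofReal_natCast, ← ENNReal.ofReal_mul (Nat.cast_nonneg _)]
    _ ≤ ENNReal.ofReal ((1 + (b - a + 2 * R1) / L) * K * C') := by
        refine ENNReal.ofReal_le_ofReal ?_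
        have h1 : (N : ℝ) ≤ 1 + (b - a + 2 * R1) / L := by
          rw [hN]; push_cast
          have h2 : (⌊(b - lo) / L⌋₊ : ℝ) ≤ (b - lo) / L :=
            Nat.floor_le (div_nonneg (by linarith) hL.le)
          have h3 : (b - lo) / L ≤ (b - a + 2 * R1) / L := by
            gcongr; linarith
          linarith
        have h4 : 0 ≤ C' * K := mul_nonneg hC0 hK
        nlinarith [mul_le_mul_of_nonneg_right h1 h4]

end Crest.Agent.R106.Occ
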