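import Mathlib
import Crest.Agent.R106.OccKin
import Crest.Agent.R106.Boot
import Crest.Prelude.Def_VlasovMaxwell

/-!
R106, module OCC (helper193): velocity stability from momentum increments, stay lemma,
constant-velocity extension of the test curve.
-/

set_option autoImplicit false

open MeasureTheory Set
open scoped ENNReal
open Crest.AnalysisR.VecCalc3 Crest.AnalysisR.PDE.RVM

namespace Crest.Agent.R106.Occ

open Crest.Agent.R106.Boot (en en_sub_le one_le_en norm_le_en)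

lemma en_pos (p : R3) : 0 < en p := lt_of_lt_of_le one_pos (one_le_en p)

lemma relVel_eq (p : R3) : relVel p = (en p)⁻¹ • p := rfl

lemma norm_relVel_lt (p : R3) : ‖relVel p‖ < 1 := by
  rw [relVel_eq, norm_smul, norm_inv, Real.norm_of_nonneg (en_pos p).le]
  rw [inv_mul_lt_iff₀ (en_pos p), mul_one]
  unfold en
  refine Real.lt_sqrt_of_sq_lt ?_
  linarith

lemma norm_sq_relVel (p : R3) : ‖relVel p‖ ^ 2 = 1 - (en p ^ 2)⁻¹ := by
  have h := en_pos p
  have h2 : en p ^ 2 = 1 + ‖p‖ ^ 2 := by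
    unfold en; rw [Real.sq_sqrt (by positivity)]
  rw [relVel_eq, norm_smul, norm_inv, Real.norm_of_nonneg h.le, mul_pow, inv_pow]
  have h3 : ‖p‖ ^ 2 = en p ^ 2 - 1 := by linarith
  rw [h3]
  field_simp

/-- the velocity is Lipschitz with constant `2/γ` -/
lemma relVel_sub_le (p q : R3) : ‖relVel p - relVel q‖ ≤ 2 * ‖p - q‖ / en p := by
  have hp := en_pos p
  have hq := en_pos q
  have h1 : relVel p - relVel q = (en p)⁻¹ • (p - q) + ((en p)⁻¹ - (en q)⁻¹) • q := by
    rw [relVel_eq, relVel_eq, smul_sub, sub_smul]; abel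
  rw [h1]
  refine (norm_add_le _ _).trans ?_
  rw [norm_smul, norm_smul, norm_inv, Real.norm_of_nonneg hp.le]
  have h2 : ‖(en p)⁻¹ - (en q)⁻¹‖ * ‖q‖ ≤ ‖p - q‖ / en p := by
    have h3 : (en p)⁻¹ - (en q)⁻¹ = (en q - en p) / (en p * en q) := by
      field_simp
    rw [h3, norm_div, Real.norm_of_nonneg (mul_pos hp hq).le, Real.norm_eq_abs]
    have h4 : |en q - en p| ≤ ‖p - q‖ := by rw [norm_sub_rev]; exact en_sub_le q p
    calc |en q - en p| / (en p * en q) * ‖q‖ ≤ ‖p - q‖ / (en p * en q) * en q := by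
          gcongr
          exact norm_le_en q
      _ = ‖p - q‖ / en p := by field_simp
  have h5 : (en p)⁻¹ * ‖p - q‖ = ‖p - q‖ / en p := by rw [inv_mul_eq_div]
  rw [h5]
  calc ‖p - q‖ / en p + ‖(en p)⁻¹ - (en q)⁻¹‖ * ‖q‖ ≤ ‖p - q‖ / en p + ‖p - q‖ / en p := by linarith
    _ = 2 * ‖p - q‖ / en p := by ring

/-- relative velocity -/
lemma norm_sub_relVel_sq (p q : R3) : ‖relVel p - relVel q‖ ^ 2 =
    2 * (1 - inner ℝ (relVel q) (relVel p)) - (en p ^ 2)⁻¹ - (en q ^ 2)⁻¹ := by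
  rw [@norm_sub_sq_real, norm_sq_relVel, norm_sq_relVel, real_inner_comm]
  ring

/-- velocity stability from momentum increments (no measurability needed). -/
theorem vstab_of {p : ℝ → R3} {h : ℝ → ℝ≥0∞} {a b Q A0 B0 : ℝ} (hQ : 0 < Q) (hA0 : 0 ≤ A0)
    (hB0 : 0 ≤ B0)
    (hen : ∀ s ∈ Icc a b, Q / 4 ≤ en (p s))
    (hinc : ∀ s ∈ Icc a b, ∀ t ∈ Icc a b, s ≤ t →
      ENNReal.ofReal ‖p t - p s‖ ≤ (∫⁻ r in Icc s t, h r) + ENNReal.ofReal B0)
    (hA : ∫⁻ r in Icc a b, h r ≤ ENNReal.ofReal A0) :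
    VStab (fun t => relVel (p t)) a b (8 * A0 / Q) (8 * B0 / Q) := by
  have hfin : ∀ t, ∫⁻ r in Icc a (min t b), h r ≠ ⊤ := fun t =>
    ne_top_of_le_ne_top ENNReal.ofReal_ne_top
      ((lintegral_mono_set (Icc_subset_Icc_right (min_le_right t b))).trans hA)
  refine ⟨fun t => 8 / Q * (∫⁻ r in Icc a (min t b), h r).toReal, ?_, ?_, ?_, ?_⟩
  · intro t1 t2 h12
    have : (∫⁻ r in Icc a (min t1 b), h r).toReal ≤ (∫⁻ r in Icc a (min t2 b), h r).toReal :=
      ENNReal.toReal_mono (hfin t2)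
        (lintegral_mono_set (Icc_subset_Icc_right (min_le_min_right b h12)))
    exact mul_le_mul_of_nonneg_left this (by positivity)
  · intro t; positivity
  · intro t
    have : (∫⁻ r in Icc a (min t b), h r).toReal ≤ A0 :=
      ENNReal.toReal_le_of_le_ofReal hA0
        ((lintegral_mono_set (Icc_subset_Icc_right (min_le_right t b))).trans hA)
    calc 8 / Q * (∫⁻ r in Icc a (min t b), h r).toReal ≤ 8 / Q * A0 := by gcongr
      _ = 8 * A0 / Q := by ring
  · intro s hs t ht hst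
    have hsplit : (∫⁻ r in Icc a t, h r) = (∫⁻ r in Icc a s, h r) + ∫⁻ r in Icc s t, h r := by
      have h1 : (∫⁻ r in Icc s t, h r) = ∫⁻ r in Ioc s t, h r :=
        setLIntegral_congr Ioc_ae_eq_Icc.symm
      have h2 : Icc a t = Icc a s ∪ Ioc s t := (Icc_union_Ioc_eq_Icc hs.1 hst).symm
      rw [h1, h2]
      exact lintegral_union measurableSet_Ioc
        (disjoint_left.2 fun x hx hx' => absurd hx.2 (not_le.2 hx'.1))
    simp only [min_eq_left hs.2, min_eq_left ht.2]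
    have hft : ∫⁻ r in Icc a t, h r ≠ ⊤ := by simpa [min_eq_left ht.2] using hfin t
    have hfs : ∫⁻ r in Icc a s, h r ≠ ⊤ := by simpa [min_eq_left hs.2] using hfin s
    have hfst : ∫⁻ r in Icc s t, h r ≠ ⊤ :=
      ne_top_of_le_ne_top hft (by rw [hsplit]; exact le_add_self)
    have hd : (∫⁻ r in Icc a t, h r).toReal =
        (∫⁻ r in Icc a s, h r).toReal + (∫⁻ r in Icc s t, h r).toReal := by
      rw [hsplit, ENNReal.toReal_add hfs hfst]
    have h3 : ‖p t - p s‖ ≤ (∫⁻ r in Icc s t, h r).toReal + B0 := by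
      have := ENNReal.toReal_mono (ENNReal.add_ne_top.2 ⟨hfst, ENNReal.ofReal_ne_top⟩)
        (hinc s hs t ht hst)
      rwa [ENNReal.toReal_ofReal (norm_nonneg _), ENNReal.toReal_add hfst ENNReal.ofReal_ne_top,
        ENNReal.toReal_ofReal hB0] at this
    have h4 := relVel_sub_le (p t) (p s)
    have h5 : 2 * ‖p t - p s‖ / en (p t) ≤ 8 / Q * ‖p t - p s‖ := by
      have hq := hen t ht
      rw [div_le_iff₀ (en_pos _)]
      have h6 : 2 ≤ 8 / Q * en (p t) := by
        rw [div_mul_eq_mul_div, le_div_iff₀ hQ]; linarith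
      nlinarith [norm_nonneg (p t - p s)]
    calc ‖relVel (p t) - relVel (p s)‖ ≤ 8 / Q * ‖p t - p s‖ := h4.trans h5
      _ ≤ 8 / Q * ((∫⁻ r in Icc s t, h r).toReal + B0) := by gcongr
      _ = 8 / Q * (∫⁻ r in Icc a t, h r).toReal - 8 / Q * (∫⁻ r in Icc a s, h r).toReal
          + 8 * B0 / Q := by rw [hd]; ring

/-- **STAY**: a momentum which is once in `[Q/2, 2Q]` stays in `[Q/4, 4Q]` during a window. -/
theorem stay {p : ℝ → R3} {a b Q : ℝ} (hQ : 0 < Q) (hc : ContinuousOn p (Icc a b))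
    (hinc : ∀ s ∈ Icc a b, ∀ t ∈ Icc a b, s ≤ t →
      (∀ r ∈ Icc s t, Q / 4 ≤ en (p r) ∧ en (p r) ≤ 4 * Q) → ‖p t - p s‖ ≤ Q / 8)
    {τ : ℝ} (hτ : τ ∈ Icc a b) (h1 : Q / 2 ≤ en (p τ)) (h2 : en (p τ) ≤ 2 * Q) :
    ∀ r ∈ Icc a b, Q / 4 ≤ en (p r) ∧ en (p r) ≤ 4 * Q := by
  have hen : ContinuousOn (fun r => en (p r)) (Icc a b) := by
    unfold en
    fun_prop
  have hclose : ∀ r ∈ Icc a b, ‖p r - p τ‖ ≤ Q / 8 →
      3 * Q / 8 ≤ en (p r) ∧ en (p r) ≤ 3 * Q := by
    intro r _ hr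
    have := abs_le.1 ((en_sub_le (p r) (p τ)).trans hr)
    constructor <;> linarith [this.1, this.2]
  -- forward
  have hfw : ∀ r ∈ Icc τ b, Q / 4 ≤ en (p r) ∧ en (p r) ≤ 4 * Q := by
    have hsub : Icc τ b ⊆ {r | r ∈ Icc τ b ∧ ∀ r' ∈ Icc τ r, Q / 4 ≤ en (p r') ∧ en (p r') ≤ 4 * Q} := by
      have hcl : ∀ x ∈ Icc τ b, (∀ r' ∈ Ico τ x, Q / 4 ≤ en (p r') ∧ en (p r') ≤ 4 * Q) →
          ∀ r' ∈ Icc τ x, Q / 4 ≤ en (p r') ∧ en (p r') ≤ 4 * Q := by
        intro x hx hr r' hr'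
        rcases eq_or_lt_of_le hr'.2 with h | h
        · subst h
          rcases eq_or_lt_of_le hr'.1 with h' | h'
          · rw [← h']; constructor <;> linarith
          · have hcw : ContinuousWithinAt (fun r => en (p r)) (Iio r') r' := by
              have := hen r' ⟨hτ.1.trans hr'.1, hx.2⟩
              refine (this.mono (show Ico τ r' ⊆ Icc a b from fun y hy =>
                ⟨hτ.1.trans hy.1, hy.2.le.trans hx.2⟩)).mono_of_mem_nhdsWithin (Ico_mem_nhdsLT h')
            have hev : ∀ᶠ y in nhdsWithin r' (Iio r'),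
                Q / 4 ≤ en (p y) ∧ en (p y) ≤ 4 * Q := by
              filter_upwards [Ico_mem_nhdsLT h'] with y hy using hr y hy
            exact ⟨ge_of_tendsto hcw (hev.mono fun y hy => hy.1),
              le_of_tendsto hcw (hev.mono fun y hy => hy.2)⟩
        · exact hr r' ⟨hr'.1, h⟩
      -- sup argument
      intro x hx
      by_contra hcon
      have hbad : ∃ r' ∈ Icc τ x, ¬ (Q / 4 ≤ en (p r') ∧ en (p r') ≤ 4 * Q) := by
        by_contra hno
        push Not at hno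
        exact hcon ⟨hx, fun r' hr' => by
          by_contra h3
          have := hno r' hr'
          tauto⟩
      set Bd : Set ℝ := {r' | r' ∈ Icc τ x ∧ ¬ (Q / 4 ≤ en (p r') ∧ en (p r') ≤ 4 * Q)} with hBd
      have hBne : Bd.Nonempty := by
        obtain ⟨r', h3, h4⟩ := hbad
        exact ⟨r', h3, h4⟩
      have hBb : BddBelow Bd := ⟨τ, fun r' hr' => hr'.1.1⟩
      set c := sInf Bd with hcdef
      have hcτ : τ ≤ c := le_csInf hBne fun r' hr' => hr'.1.1
      have hcx : c ≤ x := by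
        obtain ⟨r', h3⟩ := hBne
        exact (csInf_le hBb h3).trans h3.1.2
      have hcab : c ∈ Icc a b := ⟨hτ.1.trans hcτ, hcx.trans hx.2⟩
      have hbelow : ∀ r' ∈ Ico τ c, Q / 4 ≤ en (p r') ∧ en (p r') ≤ 4 * Q := by
        intro r' hr'
        by_contra h3
        exact absurd (csInf_le hBb (show r' ∈ Bd from ⟨⟨hr'.1, hr'.2.le.trans hcx⟩, h3⟩))
          (not_le.2 hr'.2)
      have hcc := hcl c ⟨hcτ, hcx.trans hx.2⟩ hbelow
      have hpc : ‖p c - p τ‖ ≤ Q / 8 := hinc τ hτ c hcab hcτ hcc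
      have h5 := hclose c hcab hpc
      -- open neighbourhood
      have h6 := hen c hcab
      have hopen : ∀ᶠ y in nhdsWithin c (Icc a b), Q / 4 < en (p y) ∧ en (p y) < 4 * Q := by
        have h7 : Filter.Tendsto (fun r => en (p r)) (nhdsWithin c (Icc a b)) (nhds (en (p c))) := h6
        exact (h7.eventually (lt_mem_nhds (by linarith : Q / 4 < en (p c)))).and
          (h7.eventually (gt_mem_nhds (by linarith : en (p c) < 4 * Q)))
      rw [eventually_nhdsWithin_iff, Metric.eventually_nhds_iff] at hopen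
      obtain ⟨ε, hε, hball⟩ := hopen
      obtain ⟨r', hr', hlt⟩ := exists_lt_of_csInf_lt hBne (show sInf Bd < c + ε by linarith)
      have hcr : c ≤ r' := csInf_le hBb hr'
      have := hball (y := r') (by rw [Real.dist_eq, abs_of_nonneg (by linarith)]; linarith)
        ⟨hτ.1.trans hr'.1.1, hr'.1.2.trans hx.2⟩
      exact hr'.2 ⟨this.1.le, this.2.le⟩
    intro r hr
    exact (hsub hr).2 r (right_mem_Icc.2 hr.1)
  -- backward
  have hbw : ∀ r ∈ Icc a τ, Q / 4 ≤ en (p r) ∧ en (p r) ≤ 4 * Q := by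
    intro x hx
    by_contra hcon
    set Bd : Set ℝ := {r' | r' ∈ Icc x τ ∧ ¬ (Q / 4 ≤ en (p r') ∧ en (p r') ≤ 4 * Q)} with hBd
    have hBne : Bd.Nonempty := ⟨x, ⟨le_rfl, hx.2⟩, hcon⟩
    have hBb : BddAbove Bd := ⟨τ, fun r' hr' => hr'.1.2⟩
    set c := sSup Bd with hcdef
    have hcτ : c ≤ τ := csSup_le hBne fun r' hr' => hr'.1.2
    have hcx : x ≤ c := le_csSup hBb ⟨⟨le_rfl, hx.2⟩, hcon⟩
    have hcab : c ∈ Icc a b := ⟨hx.1.trans hcx, hcτ.trans hτ.2⟩
    have hbelow : ∀ r' ∈ Ioc c τ, Q / 4 ≤ en (p r') ∧ en (p r') ≤ 4 * Q := by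
      intro r' hr'
      by_contra h3
      exact absurd (le_csSup hBb (show r' ∈ Bd from ⟨⟨hcx.trans hr'.1.le, hr'.2⟩, h3⟩))
        (not_le.2 hr'.1)
    have hcc : ∀ r' ∈ Icc c τ, Q / 4 ≤ en (p r') ∧ en (p r') ≤ 4 * Q := by
      intro r' hr'
      rcases eq_or_lt_of_le hr'.1 with h | h
      · subst h
        rcases eq_or_lt_of_le hr'.2 with h' | h'
        · rw [h']; constructor <;> linarith
        · have hcw : ContinuousWithinAt (fun r => en (p r)) (Ioi c) c := by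
            have := hen c hcab
            refine (this.mono (show Ioc c τ ⊆ Icc a b from fun y hy =>
              ⟨hcab.1.trans hy.1.le, hy.2.trans hτ.2⟩)).mono_of_mem_nhdsWithin (Ioc_mem_nhdsGT h')
          have hev : ∀ᶠ y in nhdsWithin c (Ioi c), Q / 4 ≤ en (p y) ∧ en (p y) ≤ 4 * Q := by
            filter_upwards [Ioc_mem_nhdsGT h'] with y hy using hbelow y hy
          exact ⟨ge_of_tendsto hcw (hev.mono fun y hy => hy.1),
            le_of_tendsto hcw (hev.mono fun y hy => hy.2)⟩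
      · exact hbelow r' ⟨h, hr'.2⟩
    have hpc : ‖p c - p τ‖ ≤ Q / 8 := by
      rw [norm_sub_rev]; exact hinc c hcab τ hτ hcτ hcc
    have h5 := hclose c hcab hpc
    have h6 := hen c hcab
    have hopen : ∀ᶠ y in nhdsWithin c (Icc a b), Q / 4 < en (p y) ∧ en (p y) < 4 * Q := by
      have h7 : Filter.Tendsto (fun r => en (p r)) (nhdsWithin c (Icc a b)) (nhds (en (p c))) := h6
      exact (h7.eventually (lt_mem_nhds (by linarith : Q / 4 < en (p c)))).and
        (h7.eventually (gt_mem_nhds (by linarith : en (p c) < 4 * Q)))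
    rw [eventually_nhdsWithin_iff, Metric.eventually_nhds_iff] at hopen
    obtain ⟨ε, hε, hball⟩ := hopen
    obtain ⟨r', hr', hlt⟩ := exists_lt_of_lt_csSup hBne (show c - ε < sSup Bd by linarith)
    have hcr : r' ≤ c := le_csSup hBb hr'
    have := hball (y := r') (by rw [Real.dist_eq, abs_sub_comm, abs_of_nonneg (by linarith)]; linarith)
      ⟨hx.1.trans hr'.1.1, hr'.1.2.trans hτ.2⟩
    exact hr'.2 ⟨this.1.le, this.2.le⟩
  intro r hr
  rcases le_total r τ with h | h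
  · exact hbw r ⟨hr.1, h⟩
  · exact hfw r ⟨h, hr.2⟩

/-! ### constant-velocity extension of the test curve -/

/-- clamp to `[a,b]` -/
def clamp (a b t : ℝ) : ℝ := max a (min t b)

lemma clamp_mem {a b : ℝ} (hab : a ≤ b) (t : ℝ) : clamp a b t ∈ Icc a b :=
  ⟨le_max_left _ _, max_le hab (min_le_right _ _)⟩

lemma clamp_of_mem {a b t : ℝ} (ht : t ∈ Icc a b) : clamp a b t = t := by
  unfold clamp
  rw [min_eq_left ht.2, max_eq_right ht.1]

lemma clamp_mono (a b : ℝ) : Monotone (clamp a b) := fun _ _ h =>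
  max_le_max_left a (min_le_min_right b h)

lemma continuous_clamp (a b : ℝ) : Continuous (clamp a b) := by
  unfold clamp; fun_prop

/-- extended velocity -/
noncomputable def Vext (V : ℝ → R3) (a b t : ℝ) : R3 := V (clamp a b t)

/-- extended position -/
noncomputable def Xext (X V : ℝ → R3) (a b t : ℝ) : R3 := X a + ∫ r in a..t, Vext V a b r

lemma continuous_Vext {V : ℝ → R3} {a b : ℝ} (hab : a ≤ b) (hV : ContinuousOn V (Icc a b)) :
    Continuous (Vext V a b) :=
  hV.comp_continuous (continuous_clamp a b) (clamp_mem hab)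

lemma hasDerivAt_Xext {X V : ℝ → R3} {a b : ℝ} (hab : a ≤ b) (hV : ContinuousOn V (Icc a b))
    (t : ℝ) : HasDerivAt (Xext X V a b) (Vext V a b t) t := by
  have hc := continuous_Vext hab hV
  exact (intervalIntegral.integral_hasDerivAt_right (hc.intervalIntegrable _ _)
    (hc.stronglyMeasurableAtFilter _ _) hc.continuousAt).const_add (X a)

lemma Vext_of_mem {V : ℝ → R3} {a b t : ℝ} (ht : t ∈ Icc a b) : Vext V a b t = V t := by
  unfold Vext; rw [clamp_of_mem ht]

lemma Xext_of_mem {X V : ℝ → R3} {a b t : ℝ} (hXc : ContinuousOn X (Icc a b))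
    (hX : ∀ t ∈ Ioo a b, HasDerivAt X (V t) t) (hV : ContinuousOn V (Icc a b))
    (ht : t ∈ Icc a b) : Xext X V a b t = X t := by
  unfold Xext
  have hab : a ≤ b := ht.1.trans ht.2
  have hc := continuous_Vext hab hV
  have h1 : ∫ r in a..t, Vext V a b r = X t - X a := by
    refine intervalIntegral.integral_eq_sub_of_hasDerivAt_of_le ht.1
      (hXc.mono (Icc_subset_Icc_right ht.2)) (fun r hr => ?_) (hc.intervalIntegrable _ _)
    have hr' : r ∈ Icc a b := ⟨hr.1.le, hr.2.le.trans ht.2⟩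
    rw [Vext_of_mem hr']
    exact hX r ⟨hr.1, hr.2.trans_le ht.2⟩
  rw [h1]; abel

lemma VStab.ext {V : ℝ → R3} {a b A B : ℝ} (hab : a ≤ b) (h : VStab V a b A B)
    (c e : ℝ) : VStab (Vext V a b) c e A B := by
  obtain ⟨G, hm, h0, hA, hv⟩ := h
  refine ⟨fun t => G (clamp a b t), hm.comp (clamp_mono a b), fun t => h0 _, fun t => hA _, ?_⟩
  intro s _ t _ hst
  exact hv _ (clamp_mem hab s) _ (clamp_mem hab t) (clamp_mono a b hst)

lemma norm_Vext_lt {V : ℝ → R3} {a b : ℝ} (hab : a ≤ b) (hV1 : ∀ t ∈ Icc a b, ‖V t‖ < 1) (t : ℝ) :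
    ‖Vext V a b t‖ < 1 := hV1 _ (clamp_mem hab t)

end Crest.Agent.R106.Occ
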