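import Mathlib
import Crest.Agent.R106.OccLab
import Crest.Agent.R106.OccStab
import Crest.Agent.R106.MomIface

/-!
R106, module OCC (helper193): the occupation bound (d), `Mom.OccD`, from the cone-measure formula
in label form (`CMP`).
-/

set_option autoImplicit false

open MeasureTheory Set Filter Topology
open Crest.AnalysisR.VecCalc3 Crest.AnalysisR.PDE.RVM
open scoped InnerProductSpace ENNReal

noncomputable section

namespace Crest.Agent.R106.Occ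

open Crest.Agent.R106.Boot (en win Below Hyp en_sub_le one_le_en norm_le_en)
open Crest.Agent.R106.Mom
open Crest.Agent.R106.GSR (gam)

/-- the label measure `f₀ dz` -/
def labM (f : ℝ → R3 → R3 → ℝ) : Measure (R3 × R3) :=
  volume.withDensity (fun z => ENNReal.ofReal (f 0 z.1 z.2))

/-- Output of FLOW + CM + EN needed for (d): characteristics through all labels, energy bound, and
for every test characteristic and every shell the representation of the cone measure by labels. -/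
def CMP (T : ℝ) (f : ℝ → R3 → R3 → ℝ) (E B : ℝ → R3 → R3) : Prop :=
  ∃ Φ : ℝ → R3 × R3 → R3 × R3,
    (∀ z : R3 × R3, f 0 z.1 z.2 ≠ 0 → IsChar T f E B (fun t => (Φ t z).1) (fun t => (Φ t z).2)) ∧
    (∀ t ∈ Ico 0 T, Measurable (Φ t)) ∧
    (∃ E0 : ℝ, 0 ≤ E0 ∧ ∀ t ∈ Ico 0 T,
      ∫⁻ z, ENNReal.ofReal (gam (Φ t z).2) ∂(labM f) ≤ ENNReal.ofReal E0) ∧
    ∀ X p : ℝ → R3, IsChar T f E B X p → ∀ R1 d1 e1 D1 Q1 : ℝ, 0 < R1 → 0 < d1 → 0 < e1 →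
      0 < D1 → 0 < Q1 → ∀ a b : ℝ, 0 ≤ a → a ≤ b → b < T →
      ∃ (S : R3 × R3 → Set ℝ) (σ : R3 × R3 → ℝ → ℝ),
        ∫⁻ s in Icc a b, kap f X s (shell X p R1 d1 e1 D1 Q1 s) ≤
          ∫⁻ z, (∫⁻ τ in S z, invδ X (fun t => relVel (p t)) (fun t => (Φ t z).1) (σ z) τ)
            ∂(labM f) ∧
        ∀ z, (S z).Nonempty → f 0 z.1 z.2 ≠ 0 ∧ MeasurableSet (S z) ∧ InjOn (σ z) (S z) ∧
          ∀ τ ∈ S z, 0 < τ ∧ τ < σ z τ ∧ a ≤ σ z τ ∧ σ z τ ≤ b ∧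
            σ z τ - τ = ‖X (σ z τ) - (Φ τ z).1‖ ∧
            Φ τ z ∈ shell X p R1 d1 e1 D1 Q1 (σ z τ) ∧
            HasDerivWithinAt (σ z)
              ((1 - ⟪dir (X (σ z τ)) (Φ τ z).1, relVel (Φ τ z).2⟫_ℝ) /
                (1 - ⟪dir (X (σ z τ)) (Φ τ z).1, relVel (p (σ z τ))⟫_ℝ)) (S z) τ

lemma VStab.mono {v : ℝ → R3} {a b A B A' B' : ℝ} (h : VStab v a b A B) (hA : A ≤ A')
    (hB : B ≤ B') : VStab v a b A' B' := by
  obtain ⟨G, hm, h0, h1, h2⟩ := h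
  exact ⟨G, hm, h0, fun t => (h1 t).trans hA, fun s hs t ht hst => (h2 s hs t ht hst).trans (by linarith)⟩

lemma gam_eq_en (p : R3) : gam p = en p := rfl

/-- `D ≤ 2 (δ + ε)` -/
lemma D_le {n V v : R3} (hn : ‖n‖ = 1) (hV : ‖V‖ ≤ 1) (hv : ‖v‖ ≤ 1) :
    1 - ⟪V, v⟫_ℝ ≤ 2 * ((1 - ⟪n, V⟫_ℝ) + (1 - ⟪n, v⟫_ℝ)) := by
  have h1 : 1 - ⟪V, v⟫_ℝ - (1 - ⟪n, V⟫_ℝ) - (1 - ⟪n, v⟫_ℝ) = -⟪V - n, v - n⟫_ℝ := by
    rw [inner_sub_left, inner_sub_right, inner_sub_right, real_inner_self_eq_norm_sq, hn,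
      real_inner_comm n V]
    ring
  have h2 : |⟪V - n, v - n⟫_ℝ| ≤ ‖V - n‖ * ‖v - n‖ := abs_real_inner_le_norm _ _
  have h3 := norm_sub_sq_le hn hV
  have h4 := norm_sub_sq_le hn hv
  have h5 : ‖V - n‖ * ‖v - n‖ ≤ (1 - ⟪n, V⟫_ℝ) + (1 - ⟪n, v⟫_ℝ) := by
    nlinarith [sq_nonneg (‖V - n‖ - ‖v - n‖)]
  have h6 := (abs_le.1 h2).1
  linarith

lemma win_pos {c0 P Q : ℝ} (hc : 0 < c0) (hP : 1 < P) (hQ : 0 < Q) : 0 < win c0 P Q := by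
  unfold win
  have := Real.log_pos hP
  positivity

lemma win_half {c0 P Q Q1 : ℝ} (hc : 0 < c0) (hP : 1 < P) (hQ1 : 0 < Q1) (h : Q1 / 2 ≤ Q) :
    win c0 P Q1 ≤ 4 * win c0 P Q := by
  unfold win
  have hl := Real.log_pos hP
  have h1 : (Q1 / P) ^ 2 ≤ 4 * (Q / P) ^ 2 := by
    rw [div_pow, div_pow, ← mul_div_assoc]
    refine div_le_div_of_nonneg_right ?_ (by positivity)
    nlinarith
  have h2 : Q1 / (P * Real.log P) ≤ 4 * (Q / (P * Real.log P)) := by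
    rw [← mul_div_assoc]
    refine div_le_div_of_nonneg_right ?_ (by positivity)
    linarith
  have h3 : min ((Q1 / P) ^ 2) (Q1 / (P * Real.log P)) ≤
      4 * min ((Q / P) ^ 2) (Q / (P * Real.log P)) := by
    rcases min_choice ((Q / P) ^ 2) (Q / (P * Real.log P)) with h | h
    · rw [h]; exact (min_le_left _ _).trans h1
    · rw [h]; exact (min_le_right _ _).trans h2
  calc c0 * min ((Q1 / P) ^ 2) (Q1 / (P * Real.log P))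
      ≤ c0 * (4 * min ((Q / P) ^ 2) (Q / (P * Real.log P))) := by gcongr
    _ = _ := by ring

/-- choice of the nominal energy for the sources of a shell -/
lemma exists_nominal {P Q1 : ℝ} (hP : 2 * P ^ (0.55 : ℝ) ≤ P) (hPpos : 1 ≤ P)
    (h1 : P ^ (11 / 20 : ℝ) ≤ Q1) (h2 : Q1 ≤ P) :
    ∃ j : ℕ, P ^ (0.55 : ℝ) ≤ 2 ^ j ∧ (2 : ℝ) ^ j ≤ P ∧ Q1 / 2 ≤ (2 : ℝ) ^ j ∧
      ∀ g : ℝ, Q1 ≤ g → g < 2 * Q1 → g ≤ P → (2 : ℝ) ^ j / 2 ≤ g ∧ g ≤ 2 * 2 ^ j := by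
  have e : (0.55 : ℝ) = 11 / 20 := by norm_num
  rw [e] at hP ⊢
  have hQ1 : 1 ≤ Q1 := (Real.one_le_rpow hPpos (by norm_num)).trans h1
  obtain ⟨n, hn1, hn2⟩ := exists_nat_pow_near hQ1 (by norm_num : (1:ℝ) < 2)
  by_cases hc : (2 : ℝ) ^ (n + 1) ≤ P
  · refine ⟨n + 1, h1.trans hn2.le, hc, by linarith [hn2.le], fun g hg1 hg2 _ => ⟨?_, ?_⟩⟩
    · rw [pow_succ]; linarith
    · linarith
  · push Not at hc
    have h3 : P < 2 * 2 ^ n := by rw [pow_succ] at hc; linarith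
    refine ⟨n, by linarith, hn1.trans h2, by rw [pow_succ] at hn2; linarith,
      fun g hg1 _ hg3 => ⟨?_, ?_⟩⟩
    · have : (0:ℝ) < 2 ^ n := by positivity
      linarith
    · linarith

section window

variable {T : ℝ} {f : ℝ → R3 → R3 → ℝ} {E B : ℝ → R3 → R3}

/-- momentum increments at level `P` up to time `t1` (the conclusion of `IncP`) -/
def IncAt (T : ℝ) (f : ℝ → R3 → R3 → ℝ) (E B : ℝ → R3 → R3) (C P t1 : ℝ) : Prop :=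
  ∀ j : ℕ, P ^ (0.55 : ℝ) ≤ 2 ^ j → (2 : ℝ) ^ j ≤ P → ∀ ξ : Chr T f E B,
  ∀ a b : ℝ, 0 ≤ a → a ≤ b → b ≤ t1 →
  (∀ s ∈ Icc a b, (2 : ℝ) ^ j / 4 ≤ en (mom ξ s) ∧ en (mom ξ s) ≤ 4 * 2 ^ j) →
  ENNReal.ofReal ‖mom ξ b - mom ξ a‖
    ≤ (∫⁻ s in Icc a b, hB C P (2 ^ j) ξ s) + ENNReal.ofReal (2 * P ^ (0.38 : ℝ))

variable {Ch c0 P t1 : ℝ} (hP0 : 0 < P) (hinc : IncAt T f E B Ch P t1)
  (hyp : Hyp (mom (T := T) (f := f) (E := E) (B := B)) (hB Ch) c0 (1 / 16) P t1)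
  {j : ℕ} (hj1 : P ^ (0.55 : ℝ) ≤ 2 ^ j) (hj2 : (2 : ℝ) ^ j ≤ P) (ξ : Chr T f E B)
include hP0 hinc hyp hj1 hj2

lemma window_vstab {α β : ℝ} (h0 : 0 ≤ α) (hβ : β ≤ t1)
    (hαβ : α ≤ β) (hw : β - α ≤ win c0 P (2 ^ j))
    (hen : ∀ s ∈ Icc α β, (2 : ℝ) ^ j / 4 ≤ en (mom ξ s) ∧ en (mom ξ s) ≤ 4 * 2 ^ j) :
    VStab (fun t => relVel (ξ.1.2 t)) α β (1 / 2) (16 * P ^ (0.38 : ℝ) / 2 ^ j) := by
  have hQ : (0 : ℝ) < 2 ^ j := by positivity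
  have h := vstab_of (p := ξ.1.2) (h := fun s => hB Ch P (2 ^ j) ξ s) (a := α) (b := β)
    (Q := 2 ^ j) (A0 := 1 / 16 * 2 ^ j) (B0 := 2 * P ^ (0.38 : ℝ)) hQ (by positivity)
    (by positivity) (fun s hs => (hen s hs).1)
    (fun s hs t ht hst => hinc j hj1 hj2 ξ s t (h0.trans hs.1) hst (ht.2.trans hβ)
      (fun r hr => hen r ⟨hs.1.trans hr.1, hr.2.trans ht.2⟩))
    (hyp j hj1 hj2 ξ α β h0 hαβ hβ hw hen)
  refine h.mono ?_ ?_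
  · rw [div_le_iff₀ hQ]; linarith
  · apply le_of_eq; ring

lemma window_stay (hbig : 32 * P ^ (0.38 : ℝ) ≤ P ^ (0.55 : ℝ)) {α β : ℝ} (h0 : 0 ≤ α)
    (hβ : β ≤ t1) (hβT : β < T) (hw : β - α ≤ win c0 P (2 ^ j))
    {τ : ℝ} (hτ : τ ∈ Icc α β) (h1 : (2 : ℝ) ^ j / 2 ≤ en (mom ξ τ))
    (h2 : en (mom ξ τ) ≤ 2 * 2 ^ j) :
    ∀ s ∈ Icc α β, (2 : ℝ) ^ j / 4 ≤ en (mom ξ s) ∧ en (mom ξ s) ≤ 4 * 2 ^ j := by
  have hQ : (0 : ℝ) < 2 ^ j := by positivity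
  refine stay (p := mom ξ) hQ (ξ.2.cp.mono (fun x hx => ⟨h0.trans hx.1, hx.2.trans_lt hβT⟩)) ?_
    hτ h1 h2
  intro s hs t ht hst hr
  have h3 := hinc j hj1 hj2 ξ s t (h0.trans hs.1) hst (ht.2.trans hβ) hr
  have h4 := hyp j hj1 hj2 ξ s t (h0.trans hs.1) hst (ht.2.trans hβ)
    (by linarith [hs.1, ht.2]) hr
  have h5 : ENNReal.ofReal ‖mom ξ t - mom ξ s‖ ≤
      ENNReal.ofReal (1 / 16 * 2 ^ j + 2 * P ^ (0.38 : ℝ)) := by
    rw [ENNReal.ofReal_add (by positivity) (by positivity)]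
    exact h3.trans (by gcongr)
  have h6 := (ENNReal.ofReal_le_ofReal_iff (by positivity)).1 h5
  linarith

end window

lemma const_aux {E0 R1 Q1 D1 d1 e1 Q L L1 l : ℝ} (hE0 : 0 ≤ E0) (hR1 : 0 < R1) (hQ1 : 0 < Q1)
    (hD1 : 0 < D1) (hd1 : 0 < d1) (hM : D1 ≤ 8 * max d1 e1)
    (hQ : Q1 / 2 ≤ Q) (hL : 0 < L) (hL1 : 0 < L1) (hLL : L1 ≤ 4 * L) (hl : 0 ≤ l) :
    (1 + (l + 2 * R1) / L) * (4 * E0 / Q) *
      ((36 * (1 / 2) + 4) * (25 * R1) / (D1 * √(max d1 e1))) ≤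
    105600 * E0 * (R1 / (Q1 * √(D1 * max d1 D1)) * (1 + (l + R1) / L1) / √D1) := by
  have hmax : 0 < max d1 e1 := hd1.trans_le (le_max_left _ _)
  have hmax' : 0 < max d1 D1 := hd1.trans_le (le_max_left _ _)
  have hQpos : 0 < Q := by linarith
  have hs1 : 0 < √(max d1 e1) := Real.sqrt_pos.2 hmax
  have hs2 : 0 < √(max d1 D1) := Real.sqrt_pos.2 hmax'
  have hsD : 0 < √D1 := Real.sqrt_pos.2 hD1
  have hDD : √D1 * √D1 = D1 := Real.mul_self_sqrt hD1.le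
  -- factor 1
  have f1 : 1 + (l + 2 * R1) / L ≤ 8 * (1 + (l + R1) / L1) := by
    have h1 : (l + 2 * R1) / L ≤ 8 * ((l + R1) / L1) := by
      rw [← mul_div_assoc, div_le_div_iff₀ hL hL1]
      nlinarith [mul_nonneg hl hL.le, mul_pos hR1 hL, mul_nonneg (by linarith : 0 ≤ l + 2 * R1)
        (by linarith : 0 ≤ 4 * L - L1)]
    linarith
  have f2 : 4 * E0 / Q ≤ 8 * E0 / Q1 := by
    rw [div_le_div_iff₀ hQpos hQ1]
    nlinarith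
  have f3 : (36 * (1 / 2) + 4) * (25 * R1) / (D1 * √(max d1 e1)) ≤
      1650 * R1 / (D1 * √(max d1 D1)) := by
    have h3 : √(max d1 D1) ≤ 3 * √(max d1 e1) := by
      have h4 : max d1 D1 ≤ 9 * max d1 e1 :=
        max_le (by linarith [le_max_left d1 e1]) (by linarith)
      have h5 := Real.sqrt_le_sqrt h4
      rw [Real.sqrt_mul (by norm_num : (0:ℝ) ≤ 9), show (9:ℝ) = 3 ^ 2 by norm_num,
        Real.sqrt_sq (by norm_num)] at h5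
      exact h5
    rw [div_le_div_iff₀ (by positivity) (by positivity)]
    have h6 : D1 * √(max d1 D1) ≤ D1 * (3 * √(max d1 e1)) := by gcongr
    nlinarith [mul_le_mul_of_nonneg_left h6 hR1.le]
  calc (1 + (l + 2 * R1) / L) * (4 * E0 / Q) *
      ((36 * (1 / 2) + 4) * (25 * R1) / (D1 * √(max d1 e1)))
      ≤ (8 * (1 + (l + R1) / L1)) * (8 * E0 / Q1) * (1650 * R1 / (D1 * √(max d1 D1))) := by
        gcongr
    _ = 105600 * E0 * (R1 / (Q1 * (√D1 * √(max d1 D1))) * (1 + (l + R1) / L1) / √D1) := by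
        rw [show D1 * √(max d1 D1) = √D1 * √D1 * √(max d1 D1) by rw [hDD]]
        field_simp
        ring
    _ = _ := by rw [Real.sqrt_mul hD1.le]

/-- **(d)** -/
theorem occD {T : ℝ} {f : ℝ → R3 → R3 → ℝ} {E B : ℝ → R3 → R3} (hcm : CMP T f E B) :
    OccD T f E B := by
  obtain ⟨Φ, hchar, hmeas, ⟨E0, hE0, hen0⟩, hcmf⟩ := hcm
  intro Ch hCh hIncP
  refine ⟨105600 * E0, by positivity, fun c0 hc0 hc01 => ?_⟩
  obtain ⟨P1, hincP⟩ := hIncP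
  -- large P
  have e1 : ∀ᶠ P : ℝ in atTop, (384 : ℝ) ≤ P ^ (0.02 : ℝ) :=
    (tendsto_rpow_atTop (by norm_num)).eventually_ge_atTop _
  have e2 : ∀ᶠ P : ℝ in atTop, (32 : ℝ) ≤ P ^ (0.17 : ℝ) :=
    (tendsto_rpow_atTop (by norm_num)).eventually_ge_atTop _
  have e3 : ∀ᶠ P : ℝ in atTop, (2 : ℝ) ≤ P ^ (0.45 : ℝ) :=
    (tendsto_rpow_atTop (by norm_num)).eventually_ge_atTop _
  have e4 : ∀ᶠ P : ℝ in atTop, (17 : ℝ) ≤ P ^ (0.8 : ℝ) :=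
    (tendsto_rpow_atTop (by norm_num)).eventually_ge_atTop _
  obtain ⟨P2, hP2⟩ := eventually_atTop.mp (((e1.and e2).and (e3.and e4)).and
    ((eventually_ge_atTop P1).and (eventually_ge_atTop (2 : ℝ))))
  refine ⟨P2, fun P hP t1 ht1 hbel hhyp j hj1 hj2 ξ a b ha hab hbt hw hen R1 d1 e1 D1 Q1
    hR1 hd1 he1 hD1 hQ1l hQ1u hcond => ?_⟩
  obtain ⟨⟨⟨g1, g2⟩, g3, g4⟩, g5, g6⟩ := hP2 P hP
  have hP0 : 0 < P := by linarith
  have hP1 : 1 < P := by linarith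
  have hIncAt : IncAt T f E B Ch P t1 := hincP P g5 t1 ht1 hbel
  have hbT : b < T := hbt.trans_lt ht1.2
  have hbig : 32 * P ^ (0.38 : ℝ) ≤ P ^ (0.55 : ℝ) := by
    calc 32 * P ^ (0.38 : ℝ) ≤ P ^ (0.17 : ℝ) * P ^ (0.38 : ℝ) := by gcongr
      _ = P ^ (0.55 : ℝ) := by rw [← Real.rpow_add hP0]; norm_num
  have hhalf : 2 * P ^ (0.55 : ℝ) ≤ P := by
    calc 2 * P ^ (0.55 : ℝ) ≤ P ^ (0.45 : ℝ) * P ^ (0.55 : ℝ) := by gcongr
      _ = P := by rw [← Real.rpow_add hP0]; norm_num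
  obtain ⟨i, hi1, hi2, hi3, hi4⟩ := exists_nominal hhalf hP1.le hQ1l hQ1u
  have hQ1 : 0 < Q1 := lt_of_lt_of_le (by positivity) hQ1l
  have hQi : (0 : ℝ) < 2 ^ i := by positivity
  have hQj : (0 : ℝ) < 2 ^ j := by positivity
  have hsD : 0 < √D1 := Real.sqrt_pos.2 hD1
  have hmin : 0 < min Q1 ((2 : ℝ) ^ j) := lt_min hQ1 hQj
  -- sqrt D1 large
  have hsD1 : P ^ (2 / 5 : ℝ) / min Q1 (2 ^ j) ≤ √D1 := by
    rw [div_le_iff₀ hmin]; exact hcond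
  have hBj : ∀ q : ℝ, min Q1 ((2 : ℝ) ^ j) / 2 ≤ q → 16 * P ^ (0.38 : ℝ) / q ≤ √D1 / 12 := by
    intro q hq
    have hq0 : 0 < q := lt_of_lt_of_le (by positivity) hq
    rw [div_le_div_iff₀ hq0 (by norm_num)]
    have h2 : P ^ (0.4 : ℝ) = P ^ (0.02 : ℝ) * P ^ (0.38 : ℝ) := by
      rw [← Real.rpow_add hP0]; norm_num
    have h3 : (384 : ℝ) * P ^ (0.38 : ℝ) ≤ P ^ (2 / 5 : ℝ) := by
      rw [show (2 / 5 : ℝ) = 0.4 by norm_num, h2]; gcongr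
    nlinarith [mul_le_mul_of_nonneg_left hq hsD.le]
  -- the representation
  obtain ⟨S, σ, hrep, hS⟩ := hcmf ξ.1.1 ξ.1.2 ξ.2 R1 d1 e1 D1 Q1 hR1 hd1 he1 hD1 hQ1 a b ha hab hbT
  refine hrep.trans ?_
  by_cases hne : ∃ z, (S z).Nonempty
  swap
  · have : ∀ z, S z = ∅ := fun z => by
      by_contra h; exact hne ⟨z, nonempty_iff_ne_empty.2 h⟩
    simp [this]
  -- facts on pairs
  have hdirn : ∀ z, ∀ τ ∈ S z, ‖dir (ξ.1.1 (σ z τ)) (Φ τ z).1‖ = 1 := by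
    intro z τ hτ
    obtain ⟨-, -, -, h⟩ := hS z ⟨τ, hτ⟩
    obtain ⟨-, h2, -, -, h5, -⟩ := h τ hτ
    exact norm_dir (by rw [← h5]; linarith)
  have hnn : ∀ z, ∀ τ, nn ξ.1.1 (σ z τ) (Φ τ z).1 = dir (ξ.1.1 (σ z τ)) (Φ τ z).1 := fun _ _ => rfl
  have hM2 : D1 ≤ 2 ∧ D1 ≤ 8 * max d1 e1 := by
    obtain ⟨z, τ, hτ⟩ := hne
    obtain ⟨-, -, -, h⟩ := hS z ⟨τ, hτ⟩
    obtain ⟨-, h2, -, -, h5, h6, -⟩ := h τ hτ
    obtain ⟨-, ⟨k3, k4⟩, ⟨k5, k6⟩, ⟨k7, -⟩, -⟩ := h6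
    have hD := D_le (hdirn z τ hτ) (norm_relVel_lt (ξ.1.2 (σ z τ))).le
      (norm_relVel_lt (Φ τ z).2).le
    unfold dl ep Dd at *
    rw [hnn] at k3 k4 k5 k6
    constructor
    · have h7 := (abs_le.1 (abs_real_inner_le_norm (relVel (ξ.1.2 (σ z τ))) (relVel (Φ τ z).2))).1
      have h8 : ‖relVel (ξ.1.2 (σ z τ))‖ * ‖relVel (Φ τ z).2‖ ≤ 1 * 1 :=
        mul_le_mul (norm_relVel_lt _).le (norm_relVel_lt _).le (norm_nonneg _) zero_le_one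
      linarith
    · linarith [le_max_left d1 e1, le_max_right d1 e1]
  obtain ⟨hD2, hM⟩ := hM2
  -- test
  set V : ℝ → R3 := fun t => relVel (ξ.1.2 t) with hV
  have hrelc : Continuous relVel := by
    have h1 : Continuous (fun v : R3 => Real.sqrt (1 + ‖v‖ ^ 2)) := by fun_prop
    exact (h1.inv₀ fun v => (en_pos v).ne').smul continuous_id
  have hsubI : Icc a b ⊆ Ico 0 T := fun x hx => ⟨ha.trans hx.1, hx.2.trans_lt hbT⟩
  have hVc : ContinuousOn V (Icc a b) := hrelc.comp_continuousOn (ξ.2.cp.mono hsubI)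
  have hXc : ContinuousOn ξ.1.1 (Icc a b) := ξ.2.cX.mono hsubI
  have hXd : ∀ t ∈ Ioo a b, HasDerivAt ξ.1.1 (V t) t := fun t ht =>
    ξ.2.dX t ⟨ha.trans_lt ht.1, ht.2.trans hbT⟩
  have hVst : VStab V a b (1 / 2) (√D1 / 12) :=
    (window_vstab hP0 hIncAt hhyp hj1 hj2 ξ ha hbt hab hw hen).mono le_rfl
      (hBj _ (by linarith [min_le_right Q1 ((2:ℝ) ^ j), hmin]))
  have hXe : ∀ s, a ≤ s → s ≤ b → Xext ξ.1.1 V a b s = ξ.1.1 s := fun s h1 h2 =>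
    Xext_of_mem hXc hXd hVc ⟨h1, h2⟩
  have hVe : ∀ s, a ≤ s → s ≤ b → Vext V a b s = V s := fun s h1 h2 => Vext_of_mem ⟨h1, h2⟩
  -- relative velocity
  have hrel : ∀ z, ∀ τ ∈ S z, √D1 ≤ ‖relVel (Φ τ z).2 - V (σ z τ)‖ := by
    intro z τ hτ
    obtain ⟨-, -, -, h⟩ := hS z ⟨τ, hτ⟩
    obtain ⟨-, h2, h3, h4, h5, h6, -⟩ := h τ hτ
    obtain ⟨-, -, -, ⟨k7, -⟩, ⟨k9, -⟩⟩ := h6
    refine Real.sqrt_le_iff.2 ⟨norm_nonneg _, ?_⟩
    rw [hV]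
    simp only
    rw [norm_sub_relVel_sq]
    unfold Dd at k7
    have hg1 : Q1 ≤ en (Φ τ z).2 := k9
    have hg2 : (2:ℝ) ^ j / 4 ≤ en (ξ.1.2 (σ z τ)) := (hen _ ⟨h3, h4⟩).1
    set mn := min Q1 ((2 : ℝ) ^ j) with hmn
    have hm1 : mn ≤ en (Φ τ z).2 := (min_le_left _ _).trans hg1
    have hm2 : mn / 4 ≤ en (ξ.1.2 (σ z τ)) := by
      have : mn ≤ (2:ℝ) ^ j := min_le_right _ _
      linarith
    have hb1 : (en (Φ τ z).2 ^ 2)⁻¹ ≤ (mn ^ 2)⁻¹ := by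
      gcongr
    have hb2 : (en (ξ.1.2 (σ z τ)) ^ 2)⁻¹ ≤ 16 * (mn ^ 2)⁻¹ := by
      have : 16 * (mn ^ 2)⁻¹ = ((mn / 4) ^ 2)⁻¹ := by field_simp; ring
      rw [this]
      gcongr
    have hb3 : 17 * (mn ^ 2)⁻¹ ≤ D1 := by
      rw [← div_eq_mul_inv, div_le_iff₀ (by positivity)]
      have h7 : P ^ (0.8 : ℝ) ≤ D1 * mn ^ 2 := by
        have h8 : (P ^ (2 / 5 : ℝ)) ^ 2 ≤ (√D1 * mn) ^ 2 := by gcongr
        rw [mul_pow, Real.sq_sqrt hD1.le, ← Real.rpow_natCast, ← Real.rpow_mul hP0.le] at h8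
        norm_num at h8 ⊢
        exact h8
      linarith
    linarith
  have hSb : ∀ z, ∀ τ ∈ S z, τ < σ z τ ∧ a ≤ σ z τ ∧ σ z τ ≤ b ∧ 0 < τ := by
    intro z τ hτ
    obtain ⟨-, -, -, h⟩ := hS z ⟨τ, hτ⟩
    obtain ⟨h1, h2, h3, h4, -⟩ := h τ hτ
    exact ⟨h2, h3, h4, h1⟩
  have hlab := occD_label (labM f) (X := Xext ξ.1.1 V a b) (V := Vext V a b)
    (y := fun z t => (Φ t z).1) (v := fun z t => relVel (Φ t z).2) (s := σ) (S := S)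
    (R1 := R1) (δ1 := d1) (ε1 := e1) (D1 := D1) (A := 1 / 2) (B := √D1 / 12) (a := a) (b := b)
    (L := win c0 P (2 ^ i)) (K := 4 * E0 / 2 ^ i) hR1 hd1 he1 hD1 hD2 hM (by norm_num) le_rfl
    (win_pos hc0 hP1 hQi) (by positivity) ha hab
    (fun t _ => (hasDerivAt_Xext hab hVc t).continuousAt.continuousWithinAt)
    (fun t _ => hasDerivAt_Xext hab hVc t)
    (fun t _ => (norm_relVel_lt _).le) (hVst.ext hab _ _)
    (fun z hz => (hchar z (hS z hz).1).cX.mono fun x hx => ⟨hx.1, hx.2.trans_lt hbT⟩)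
    (fun z hz t ht => (hchar z (hS z hz).1).dX t ⟨ht.1, ht.2.trans hbT⟩)
    (fun z hz => (hS z hz).2.1) (fun z τ hτ => (hSb z τ hτ).2.2.2.le)
    (fun z τ hτ => ⟨(hSb z τ hτ).2.1, (hSb z τ hτ).2.2.1⟩) ?_ ?_
    (fun z => by
      by_cases hz : (S z).Nonempty
      · exact (hS z hz).2.2.1
      · rw [not_nonempty_iff_eq_empty.1 hz]; exact injOn_empty _) ?_ ?_
  · refine le_trans (le_of_eq ?_) (hlab.trans (ENNReal.ofReal_le_ofReal ?_))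
    · refine lintegral_congr fun z => ?_
      by_cases hz : (S z).Nonempty
      · refine setLIntegral_congr_fun (hS z hz).2.1 fun τ hτ => ?_
        obtain ⟨-, h3, h4, -⟩ := hSb z τ hτ
        simp only [invδ]
        rw [hXe _ h3 h4, hVe _ h3 h4]
      · rw [not_nonempty_iff_eq_empty.1 hz]; simp
    · exact const_aux hE0 hR1 hQ1 hD1 hd1 hM hi3 (win_pos hc0 hP1 hQi) (win_pos hc0 hP1 hQ1)
        (win_half hc0 hP1 hQ1 hi3) (by linarith)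
  · -- shell membership
    intro z τ hτ
    obtain ⟨-, -, -, h⟩ := hS z ⟨τ, hτ⟩
    obtain ⟨h1, h2, h3, h4, h5, h6, -⟩ := h τ hτ
    obtain ⟨⟨k1, k2⟩, ⟨k3, k4⟩, ⟨k5, k6⟩, -, -⟩ := h6
    unfold Rr at k1 k2
    unfold dl at k3 k4
    unfold ep at k5
    rw [hnn] at k3 k4 k5
    refine ⟨h2, ?_, by linarith, by linarith, ?_, ?_, ?_, ?_⟩
    · rw [hXe _ h3 h4]; exact h5
    · rw [hXe _ h3 h4, hVe _ h3 h4]; exact k3
    · rw [hXe _ h3 h4, hVe _ h3 h4]; exact k4.le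
    · rw [hXe _ h3 h4]; exact k5
    · rw [hVe _ h3 h4]; exact hrel z τ hτ
  · -- derivative
    intro z τ hτ
    obtain ⟨-, -, -, h⟩ := hS z ⟨τ, hτ⟩
    obtain ⟨-, -, h3, h4, -, -, h7⟩ := h τ hτ
    rw [hXe _ h3 h4, hVe _ h3 h4]
    exact h7
  · -- windows
    intro α β hα hαβ hβ hwin z hz
    obtain ⟨τ, hτ, hτ2⟩ := hz
    have hz' : (S z).Nonempty := ⟨τ, hτ⟩
    obtain ⟨-, -, -, h⟩ := hS z hz'
    obtain ⟨-, -, -, -, -, h6, -⟩ := h τ hτ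
    obtain ⟨-, -, -, -, k9, k10⟩ := h6
    set ζ : Chr T f E B := ⟨(fun t => (Φ t z).1, fun t => (Φ t z).2), hchar z (hS z hz').1⟩ with hζ
    have hPz : en (Φ τ z).2 ≤ P := hbel ζ τ ⟨hα.trans hτ2.1, hτ2.2.trans (hβ.trans hbt)⟩
    obtain ⟨m1, m2⟩ := hi4 _ k9 k10 hPz
    have hst := window_stay hP0 hIncAt hhyp hi1 hi2 ζ hbig hα (hβ.trans hbt) (hβ.trans_lt hbT)
      hwin hτ2 m1 m2
    exact (window_vstab hP0 hIncAt hhyp hi1 hi2 ζ hα (hβ.trans hbt) hαβ hwin hst).mono le_rfl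
      (hBj _ (by linarith [min_le_left Q1 ((2:ℝ) ^ j)]))
  · -- mass
    intro α β hα hαβ hβ hwin
    have hsub : {z | (S z ∩ Icc α β).Nonempty} ⊆
        {z | ENNReal.ofReal ((2:ℝ) ^ i / 4) ≤ ENNReal.ofReal (gam (Φ α z).2)} := by
      rintro z ⟨τ, hτ, hτ2⟩
      have hz' : (S z).Nonempty := ⟨τ, hτ⟩
      obtain ⟨-, -, -, h⟩ := hS z hz'
      obtain ⟨-, -, -, -, -, h6, -⟩ := h τ hτ
      obtain ⟨-, -, -, -, k9, k10⟩ := h6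
      set ζ : Chr T f E B := ⟨(fun t => (Φ t z).1, fun t => (Φ t z).2), hchar z (hS z hz').1⟩
      have hPz : en (Φ τ z).2 ≤ P := hbel ζ τ ⟨hα.trans hτ2.1, hτ2.2.trans (hβ.trans hbt)⟩
      obtain ⟨m1, m2⟩ := hi4 _ k9 k10 hPz
      have hst := window_stay hP0 hIncAt hhyp hi1 hi2 ζ hbig hα (hβ.trans hbt) (hβ.trans_lt hbT)
        hwin hτ2 m1 m2
      exact ENNReal.ofReal_le_ofReal (hst α ⟨le_rfl, hαβ⟩).1
    have hαT : α ∈ Ico 0 T := ⟨hα, (hαβ.trans hβ).trans_lt hbT⟩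
    have hgm : Measurable (fun z => ENNReal.ofReal (gam (Φ α z).2)) := by
      refine ENNReal.measurable_ofReal.comp ?_
      have : Continuous gam := by unfold gam; fun_prop
      exact this.measurable.comp (measurable_snd.comp (hmeas α hαT))
    have hmk := mul_meas_ge_le_lintegral hgm (ENNReal.ofReal ((2:ℝ) ^ i / 4)) (μ := labM f)
    have h1 : ENNReal.ofReal ((2:ℝ) ^ i / 4) * labM f {z | (S z ∩ Icc α β).Nonempty} ≤
        ENNReal.ofReal E0 :=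
      (mul_le_mul_right (measure_mono hsub) _).trans (hmk.trans (hen0 α hαT))
    have h2 : ENNReal.ofReal (4 * E0 / 2 ^ i) =
        ENNReal.ofReal E0 / ENNReal.ofReal ((2:ℝ) ^ i / 4) := by
      rw [← ENNReal.ofReal_div_of_pos (by positivity)]
      congr 1
      field_simp
    rw [h2, ENNReal.le_div_iff_mul_le (Or.inl (by
      simp only [ne_eq, ENNReal.ofReal_eq_zero, not_le]; positivity)) (Or.inl ENNReal.ofReal_ne_top),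
      mul_comm]
    exact h1

end Crest.Agent.R106.Occ
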