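import Mathlib
import Crest.Agent.R106.OccD
import Crest.Agent.R106.ConeKap
import Crest.Agent.R106.CMsub

/-!
R106, module OCC (helper193): `CMP` from the label flow (146, 132, 350).
-/

set_option autoImplicit false
set_option maxHeartbeats 1000000

open MeasureTheory Set Filter Topology
open Crest.AnalysisR.VecCalc3 Crest.AnalysisR.PDE.RVM
open scoped InnerProductSpace ENNReal

noncomputable section

namespace Crest.Agent.R106.Occ

open Crest.Agent.R106.Mom Crest.Agent.R106.CM
open Crest.Agent.R106.GSR (gam)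

lemma measurable_relVel : Measurable relVel := continuous_relVel'.measurable

lemma measurable_gam : Measurable gam := by
  unfold gam
  exact (by fun_prop : Continuous fun p : R3 => Real.sqrt (1 + ‖p‖ ^ 2)).measurable

lemma measurableSet_shell {X p : ℝ → R3} (hX : Measurable X) (hp : Measurable p)
    (R1 d1 e1 D1 Q1 : ℝ) :
    MeasurableSet {w : ℝ × R3 × R3 | w.2 ∈ Mom.shell X p R1 d1 e1 D1 Q1 w.1} := by
  have h1 : Measurable (fun w : ℝ × R3 × R3 => Rr X w.1 w.2.1) := by
    unfold Rr; fun_prop
  have hn : Measurable (fun w : ℝ × R3 × R3 => nn X w.1 w.2.1) := by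
    unfold nn; fun_prop
  have hv : Measurable (fun w : ℝ × R3 × R3 => relVel w.2.2) :=
    measurable_relVel.comp (measurable_snd.comp measurable_snd)
  have hV : Measurable (fun w : ℝ × R3 × R3 => relVel (p w.1)) :=
    measurable_relVel.comp (hp.comp measurable_fst)
  have h2 : Measurable (fun w : ℝ × R3 × R3 => dl X p w.1 w.2.1) := by
    unfold dl; exact measurable_const.sub (hn.inner hV)
  have h3 : Measurable (fun w : ℝ × R3 × R3 => Mom.ep X w.1 w.2.1 w.2.2) := by
    unfold Mom.ep; exact measurable_const.sub (hn.inner hv)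
  have h4 : Measurable (fun w : ℝ × R3 × R3 => Dd p w.1 w.2.2) := by
    unfold Dd; exact measurable_const.sub (hV.inner hv)
  have h5 : Measurable (fun w : ℝ × R3 × R3 => gam w.2.2) :=
    measurable_gam.comp (measurable_snd.comp measurable_snd)
  exact ((measurableSet_le measurable_const h1).inter (measurableSet_lt h1 measurable_const)).inter
    (((measurableSet_le measurable_const h2).inter (measurableSet_lt h2 measurable_const)).inter
    (((measurableSet_le measurable_const h3).inter (measurableSet_lt h3 measurable_const)).inter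
    (((measurableSet_le measurable_const h4).inter (measurableSet_lt h4 measurable_const)).inter
    ((measurableSet_le measurable_const h5).inter (measurableSet_lt h5 measurable_const)))))

lemma shell_congr {X p X' p' : ℝ → R3} {s : ℝ} (hX : X s = X' s) (hp : p s = p' s)
    (R1 d1 e1 D1 Q1 : ℝ) :
    Mom.shell X p R1 d1 e1 D1 Q1 s = Mom.shell X' p' R1 d1 e1 D1 Q1 s := by
  unfold Mom.shell Rr dl Mom.ep Dd nn
  rw [hX, hp]

variable {T : ℝ} {a' : ℝ → Z → Z} {Φ Ψ : ℝ → Z → Z} {f : ℝ → R3 → R3 → ℝ} {E B : ℝ → R3 → R3}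

/-- **CMP** from the label flow and the energy bound. -/
theorem cmp_of (L : LFlow T a' Φ Ψ) (hv : ∀ τ w, (a' τ w).1 = relVel w.2)
    (hT : Transp T f Ψ) (hf : Measurable fun p : ℝ × R3 × R3 => f p.1 p.2.1 p.2.2)
    (hchar : ∀ z : R3 × R3, f 0 z.1 z.2 ≠ 0 →
      IsChar T f E B (fun t => (Φ t z).1) (fun t => (Φ t z).2))
    (hmp : ∀ t ∈ Ico 0 T, MeasurePreserving (Φ t) volume volume)
    {E0 : ℝ} (hE0 : 0 ≤ E0) (hen : ∀ t ∈ Ico 0 T,
      ∫⁻ z : R3 × R3, ENNReal.ofReal (gam z.2 * f t z.1 z.2) ≤ ENNReal.ofReal E0) :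
    CMP T f E B := by
  classical
  refine ⟨Φ, hchar, fun t ht => L.measurable_Phi ht, ⟨E0, hE0, ?_⟩, ?_⟩
  · -- energy
    intro t ht
    refine le_trans (le_of_eq ?_) (hen t ht)
    have hgm : Measurable (fun z : Z => ENNReal.ofReal (gam z.2)) :=
      (measurable_gam.comp measurable_snd).ennreal_ofReal
    have hft : Measurable (fun z : Z => ENNReal.ofReal (f t z.1 z.2)) :=
      (hf.comp (measurable_const.prodMk measurable_id)).ennreal_ofReal
    have h0 : Measurable (fun z : Z => ENNReal.ofReal (f 0 z.1 z.2)) := measurable_f0 hf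
    unfold labM
    rw [lintegral_withDensity_eq_lintegral_mul_non_measurable _ h0
      (Eventually.of_forall fun _ => ENNReal.ofReal_lt_top)]
    have h1 : ∀ z : Z, ((fun z : Z => ENNReal.ofReal (f 0 z.1 z.2)) *
        fun z : Z => ENNReal.ofReal (gam (Φ t z).2)) z =
        (fun w : Z => ENNReal.ofReal (gam w.2 * f t w.1 w.2)) (Φ t z) := by
      intro z
      have h2 : f t (Φ t z).1 (Φ t z).2 = f 0 z.1 z.2 := by
        rw [hT t ht (Φ t z), L.left_inv t ht]
      simp only [Pi.mul_apply]
      rw [h2, mul_comm, ENNReal.ofReal_mul (by unfold gam; positivity)]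
    rw [lintegral_congr h1]
    have h3 : (fun w : Z => ENNReal.ofReal (gam w.2 * f t w.1 w.2)) =
        fun w : Z => ENNReal.ofReal (gam w.2) * ENNReal.ofReal (f t w.1 w.2) := by
      funext w
      rw [ENNReal.ofReal_mul (by unfold gam; positivity)]
    have h4 : Measurable (fun w : Z => ENNReal.ofReal (gam w.2 * f t w.1 w.2)) := by
      rw [h3]; exact hgm.mul hft
    exact (hmp t ht).lintegral_comp h4
  · intro X p hXp R1 d1 e1 D1 Q1 hR1 hd1 he1 hD1 hQ1 b c hb hbc hc
    -- the test curve
    have hV1 : ∀ s ∈ Ioo 0 T, ‖relVel (p s)‖ < 1 := fun s _ => norm_relVel_lt _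
    have hXs : SubL T X := subL_of_deriv hXp.cX hXp.dX hV1
    have hYd : ∀ z : Z, ∀ τ ∈ Ioo 0 T, HasDerivAt (fun t => (Φ t z).1) (relVel (Φ τ z).2) τ := by
      intro z τ hτ
      have h := (ContinuousLinearMap.fst ℝ R3 R3).hasFDerivAt.comp_hasDerivAt τ (L.deriv τ hτ z)
      have h2 : (ContinuousLinearMap.fst ℝ R3 R3) (a' τ (Φ τ z)) = relVel (Φ τ z).2 := hv _ _
      rw [h2] at h
      exact h
    have hlip : ∀ s ∈ Icc 0 c, ∀ t ∈ Icc 0 c, ‖X s - X t‖ ≤ |s - t| := by
      intro s hs t ht
      have hs' : s ∈ Ico 0 T := ⟨hs.1, hs.2.trans_lt hc⟩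
      have ht' : t ∈ Ico 0 T := ⟨ht.1, ht.2.trans_lt hc⟩
      rcases lt_trichotomy s t with h | h | h
      · rw [norm_sub_rev, abs_sub_comm, abs_of_pos (by linarith)]
        exact (hXs s hs' t ht' h).le
      · subst h; simp
      · rw [abs_of_pos (by linarith)]
        exact (hXs t ht' s hs' h).le
    have hsubI : Icc b c ⊆ Ico 0 T := fun x hx => ⟨hb.trans hx.1, hx.2.trans_lt hc⟩
    -- measurable version of the curve
    set X' : ℝ → R3 := fun t => X (clamp b c t) with hX'
    set p' : ℝ → R3 := fun t => p (clamp b c t) with hp'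
    have hX'm : Measurable X' := ((hXp.cX.mono hsubI).comp_continuous (continuous_clamp b c)
      (clamp_mem hbc)).measurable
    have hp'm : Measurable p' := ((hXp.cp.mono hsubI).comp_continuous (continuous_clamp b c)
      (clamp_mem hbc)).measurable
    have hshc : ∀ s ∈ Icc b c, Mom.shell X p R1 d1 e1 D1 Q1 s =
        Mom.shell X' p' R1 d1 e1 D1 Q1 s := by
      intro s hs
      refine shell_congr ?_ ?_ _ _ _ _ _
      · simp only [hX']; rw [clamp_of_mem hs]
      · simp only [hp']; rw [clamp_of_mem hs]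
    obtain ⟨M, hMm, hMiff⟩ : ∃ M : Set (ℝ × Z), MeasurableSet M ∧
        ∀ s q, (s, q) ∈ M ↔ q ∈ Mom.shell X' p' R1 d1 e1 D1 Q1 s :=
      ⟨{w : ℝ × R3 × R3 | w.2 ∈ Mom.shell X' p' R1 d1 e1 D1 Q1 w.1},
        measurableSet_shell hX'm hp'm R1 d1 e1 D1 Q1, fun _ _ => Iff.rfl⟩
    have hMshell : ∀ s q, (s, q) ∈ M → q ∈ Mom.shell X' p' R1 d1 e1 D1 Q1 s :=
      fun s q h => (hMiff s q).1 h
    have hMs : ∀ s, MeasurableSet (Mom.shell X' p' R1 d1 e1 D1 Q1 s) := by
      intro s
      have h1 := hMm.preimage (measurable_const.prodMk measurable_id :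
        Measurable fun q : Z => (s, q))
      convert h1 using 1
      ext q
      exact (hMiff s q).symm
    obtain ⟨g, hg⟩ : ∃ g : ℝ → Z → ℝ≥0∞, ∀ s q, g s q = M.indicator 1 (s, q) :=
      ⟨fun s q => M.indicator 1 (s, q), fun _ _ => rfl⟩
    have hgm : Measurable (fun w : ℝ × Z => g w.1 w.2) := by
      have h1 : (fun w : ℝ × Z => g w.1 w.2) = M.indicator 1 := by
        funext w; exact hg w.1 w.2
      rw [h1]
      exact measurable_one.indicator hMm
    have hkap : ∀ s ∈ Icc b c, kap f X s (Mom.shell X p R1 d1 e1 D1 Q1 s) =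
        ∫⁻ q, g s q ∂(kap f X s) := by
      intro s hs
      rw [hshc s hs, ← lintegral_indicator_one (hMs s)]
      refine lintegral_congr fun q => ?_
      rw [hg]
      rcases Classical.em (q ∈ Mom.shell X' p' R1 d1 e1 D1 Q1 s) with hq | hq
      · rw [indicator_of_mem hq, indicator_of_mem ((hMiff s q).2 hq)]
        rfl
      · rw [indicator_of_notMem hq, indicator_of_notMem (fun h => hq (hMshell s q h))]
    -- A and S
    set A : Z → Set ℝ := fun z => {s | s ∈ Icc b c ∧ z ∈ alive X s ∧ (s, hit Φ s (X s) z) ∈ M}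
      with hA
    have hc0 : 0 ≤ c := hb.trans hbc
    have hAm : ∀ z, MeasurableSet (A z) := by
      intro z
      have h1 : coneW b c X ⊆ Mix.coneSet c X (fun τ z => (Φ τ z).1) := by
        rw [L.coneW_eq hb]; exact inter_subset_right
      have h2 : Mix.MeasOn (coneW b c X) (fun q : ℝ × Z => (q.1, hit Φ q.1 (X q.1) q.2)) :=
        (Mix.MeasOn.of_measurable measurable_fst).prodMk ((L.measOn_hit hc0 hc hlip).mono h1)
      have h3 := h2.measurableSet_inter (L.measurableSet_coneW hb hbc hc hlip) hMm
      have h4 := h3.preimage (measurable_id.prodMk (measurable_const (a := z)) :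
        Measurable fun s : ℝ => (s, z))
      convert h4 using 1
      ext s
      simp only [hA, coneW, mem_ofPred_eq, mem_preimage, mem_inter_iff, id, and_assoc]
    have hAmeet : ∀ z, A z ⊆ meet' T X (fun τ => (Φ τ z).1) := by
      rintro z s ⟨h1, h2, h3⟩
      have h2' : ‖X s - z.1‖ < s := h2
      have hs0 : 0 < s := lt_of_le_of_lt (norm_nonneg _) h2'
      refine ⟨⟨⟨hs0, h1.2.trans_lt hc⟩, ?_⟩, ?_⟩
      · show ‖X s - (Φ 0 z).1‖ < s
        rw [L.zero]; exact h2'
      · intro hcon
        have h4 := hMshell _ _ h3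
        rw [← hshc s h1] at h4
        have h5 : R1 ≤ ‖X s - (hit Φ s (X s) z).1‖ := h4.1.1
        have h6 : (hit Φ s (X s) z).1 = X s := hcon.symm
        rw [h6, sub_self, norm_zero] at h5
        linarith
    set S : Z → Set ℝ := fun z => if f 0 z.1 z.2 = 0 then ∅ else
      (fun s => rt (fun τ => (Φ τ z).1) s (X s)) '' (A z) with hS
    refine ⟨S, fun z => adv T X (fun τ => (Φ τ z).1), ?_, ?_⟩
    · -- the formula
      have e1 : ∫⁻ s in Icc b c, kap f X s (Mom.shell X p R1 d1 e1 D1 Q1 s) =
          ∫⁻ s in Icc b c, ∫⁻ q, g s q ∂(kap f X s) :=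
        setLIntegral_congr_fun measurableSet_Icc hkap
      rw [e1, L.lintegral_kap_time hT hf hb hbc hc hlip hv (Mix.MeasOn.of_measurable hgm)]
      have h0 : Measurable (fun z : Z => ENNReal.ofReal (f 0 z.1 z.2)) := measurable_f0 hf
      unfold m0 labM
      rw [lintegral_withDensity_eq_lintegral_mul_non_measurable _ h0
        (Eventually.of_forall fun _ => ENNReal.ofReal_lt_top),
        lintegral_withDensity_eq_lintegral_mul_non_measurable _ h0
        (Eventually.of_forall fun _ => ENNReal.ofReal_lt_top)]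
      refine lintegral_mono fun z => ?_
      simp only [Pi.mul_apply]
      by_cases hz : f 0 z.1 z.2 = 0
      · rw [hz]; simp
      · refine mul_le_mul_right ?_ _
        have hSz : S z = (fun s => rt (fun τ => (Φ τ z).1) s (X s)) '' (A z) := by
          simp only [hS]; rw [if_neg hz]
        rw [hSz]
        have e2 := lintegral_rt (T := T) (X := X) (Y := fun τ => (Φ τ z).1)
          (V := fun t => relVel (p t)) (v := fun τ => relVel (Φ τ z).2) hXs (L.subL z) hXp.dX
          (hYd z) hV1 (fun _ _ => norm_relVel_lt _) (hAm z) (hAmeet z) (fun _ => 1)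
        simp only [one_mul] at e2
        rw [← e2]
        have hms : MeasurableSet (Icc b c ∩ {s | z ∈ alive X s}) := by
          have := (L.measurableSet_coneW hb hbc hc hlip).preimage
            (measurable_id.prodMk (measurable_const (a := z)) : Measurable fun s : ℝ => (s, z))
          exact this
        rw [← lintegral_indicator hms, ← lintegral_indicator (hAm z)]
        refine lintegral_mono fun s => ?_
        by_cases hs : s ∈ Icc b c ∩ {s | z ∈ alive X s}
        · rw [indicator_of_mem hs]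
          by_cases hsM : (s, hit Φ s (X s) z) ∈ M
          · rw [indicator_of_mem (show s ∈ A z from ⟨hs.1, hs.2, hsM⟩)]
            unfold lint
            rw [hg, indicator_of_mem hsM, Pi.one_apply, one_div, ← ENNReal.ofReal_inv_of_pos
              (L.ep_pos _ _ _)]
            refine ENNReal.ofReal_le_ofReal (le_of_eq ?_)
            rw [CM.ep, hv, one_div]
            rfl
          · unfold lint
            rw [hg, indicator_of_notMem hsM]
            simp
        · rw [indicator_of_notMem hs]; exact zero_le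
    · intro z hz
      have hz0 : f 0 z.1 z.2 ≠ 0 := by
        intro h
        simp only [hS] at hz
        rw [if_pos h] at hz
        exact not_nonempty_empty hz
      have hSz : S z = (fun s => rt (fun τ => (Φ τ z).1) s (X s)) '' (A z) := by
        simp only [hS]; rw [if_neg hz0]
      rw [hSz]
      have hAm' : A z ⊆ meet T X (fun τ => (Φ τ z).1) := fun s hs => (hAmeet z hs).1
      refine ⟨hz0, measurableSet_image_rt hXs (L.subL z) (hAm z) hAm',
        adv_injOn hXs (L.subL z) hAm', fun τ hτ => ?_⟩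
      obtain ⟨k1, k2, k3, k4, k5, k6⟩ := image_rt_spec hXs (L.subL z) (hAmeet z) hτ
      have k1' := k1
      obtain ⟨m1, m2, m3⟩ := k1
      refine ⟨k3, k4, m1.1, m1.2, k5, ?_, ?_⟩
      · have h4 := hMshell _ _ m3
        rw [← hshc _ m1] at h4
        have h5 : hit Φ (adv T X (fun τ => (Φ τ z).1) τ)
            (X (adv T X (fun τ => (Φ τ z).1) τ)) z = Φ τ z := by
          unfold hit rtL
          rw [k2]
        rwa [h5] at h4
      · exact adv_hasDerivWithinAt (V := fun t => relVel (p t)) (v := fun τ => relVel (Φ τ z).2)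
          hXs (L.subL z) hXp.dX (hYd z) hV1 (fun _ _ => norm_relVel_lt _) (hAmeet z) hτ

end Crest.Agent.R106.Occ
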