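/-
Row 106, node OccD for the class of the new part (helper268; from 193's `cmp_of`, `occD`,
332's label flow, 412's energy).
-/
import Crest.Agent.R106.OccCM
import Crest.Agent.R106.FlowTo
import Crest.Agent.R106.EnLink

set_option autoImplicit false

open MeasureTheory Set Filter Topology
open Crest.AnalysisR.VecCalc3 Crest.AnalysisR.PDE.RVM
open scoped InnerProductSpace ENNReal ContDiff

noncomputable section

namespace Crest.Agent.R106.OccSolB

open Crest.Agent.R106.Mom Crest.Agent.R106.CM Crest.Agent.R106.Occ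
open Crest.Agent.R106.GSR (gam)

open Classical in
/-- `f` before time `T`, `0` afterwards -/
def ftr (T : ℝ) (f : ℝ → R3 → R3 → ℝ) (t : ℝ) (x v : R3) : ℝ := if t < T then f t x v else 0

variable {T : ℝ} {f : ℝ → R3 → R3 → ℝ} {E B : ℝ → R3 → R3}

lemma ftr_eq {t : ℝ} (ht : t < T) : ftr T f t = f t := by
  funext x v
  unfold ftr
  rw [if_pos ht]

lemma measurable_ftr
    (hf : ContDiffOn ℝ ∞ (fun p : ℝ × R3 × R3 => f p.1 p.2.1 p.2.2) (Set.Iio T ×ˢ Set.univ)) :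
    Measurable fun p : ℝ × R3 × R3 => ftr T f p.1 p.2.1 p.2.2 := by
  classical
  have hm : MeasurableSet (Set.Iio T ×ˢ (Set.univ : Set (R3 × R3))) :=
    measurableSet_Iio.prod MeasurableSet.univ
  have h1 := ContinuousOn.measurable_piecewise hf.continuousOn
    (continuousOn_const (c := (0 : ℝ))) hm
  convert h1 using 1
  funext p
  by_cases hp : p.1 < T
  · have : p ∈ Set.Iio T ×ˢ (Set.univ : Set (R3 × R3)) := ⟨hp, mem_univ _⟩
    rw [piecewise_eq_of_mem _ _ _ this]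
    simp only [ftr, if_pos hp]
  · have : p ∉ Set.Iio T ×ˢ (Set.univ : Set (R3 × R3)) := fun h => hp h.1
    rw [piecewise_eq_of_notMem _ _ _ this]
    simp only [ftr, if_neg hp]

lemma isChar_ftr (hT : 0 < T) {X p : ℝ → R3} :
    IsChar T (ftr T f) E B X p ↔ IsChar T f E B X p := by
  constructor
  · intro h
    exact ⟨h.cX, h.cp, h.dX, h.dp, by have := h.supp; rwa [ftr_eq hT] at this⟩
  · intro h
    exact ⟨h.cX, h.cp, h.dX, h.dp, by rw [ftr_eq hT]; exact h.supp⟩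

lemma kap_ftr {X : ℝ → R3} {s : ℝ} (hs : s < T) : kap (ftr T f) X s = kap f X s := by
  unfold kap
  congr 1
  funext q
  have h : ret X s q.1 < T := by
    unfold ret
    linarith [norm_nonneg (X s - q.1)]
  rw [ftr_eq h]

lemma labM_ftr (hT : 0 < T) : labM (ftr T f) = labM f := by
  unfold labM
  rw [ftr_eq hT]

/-- `CMP` only sees `f` before time `T`. -/
lemma cmp_ftr (hT : 0 < T) (h : CMP T (ftr T f) E B) : CMP T f E B := by
  obtain ⟨Φ, h1, h2, ⟨E0, hE0, h3⟩, h4⟩ := h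
  refine ⟨Φ, fun z hz => ?_, h2, ⟨E0, hE0, fun t ht => ?_⟩, ?_⟩
  · exact (isChar_ftr hT).1 (h1 z (by rw [ftr_eq hT]; exact hz))
  · rw [← labM_ftr hT]
    exact h3 t ht
  · intro X p hX R1 d1 e1 D1 Q1 hR hd he hD hQ a b ha hab hb
    obtain ⟨S, σ, h5, h6⟩ := h4 X p ((isChar_ftr hT).2 hX) R1 d1 e1 D1 Q1 hR hd he hD hQ a b ha hab hb
    refine ⟨S, σ, ?_, ?_⟩
    · rw [labM_ftr hT] at h5
      refine le_trans (le_of_eq ?_) h5
      refine setLIntegral_congr_fun measurableSet_Icc fun s hs => ?_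
      rw [kap_ftr (lt_of_le_of_lt hs.2 hb)]
    · intro z hz
      have := h6 z hz
      rwa [ftr_eq hT] at this

/-- energy of the particles -/
lemma exists_energy {f₀ : R3 → R3 → ℝ} {E₀ B₀ : R3 → R3} (h : Mom.SmoothSol T f₀ E₀ B₀ f E B) :
    ∃ E0 : ℝ, 0 ≤ E0 ∧ ∀ t ∈ Ico 0 T,
      ∫⁻ z : R3 × R3, ENNReal.ofReal (gam z.2 * f t z.1 z.2) ≤ ENNReal.ofReal E0 := by
  have hr : En.Reg T f E B := En.Reg.of_sol h.sol
  obtain ⟨hf, -⟩ := En.sol_bounds h.adm h.sol
  have hz : (0 : ℝ) ∈ Ico 0 T := ⟨le_rfl, h.T_pos⟩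
  have hL2 := h.sol.2.2.2.2.2.2.2.2 0 hz
  have htop := En.en_ne_top hr hz hL2.1 hL2.2.1
  refine ⟨(En.en f E B 0).toReal, ENNReal.toReal_nonneg, fun t ht => ?_⟩
  rw [ENNReal.ofReal_toReal htop, ← En.energy_eq hr hf hz ht]
  unfold En.en
  exact le_add_self

/-- **(d)** for the class of the new part. -/
theorem occD_sol {f₀ : R3 → R3 → ℝ} {E₀ B₀ : R3 → R3} (h : Mom.SmoothSol T f₀ E₀ B₀ f E B) :
    OccD T f E B := by
  have hS : SolTo T f₀ E₀ B₀ f E B := FlowTo.solTo_of_smoothSol h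
  have hT := h.T_pos
  obtain ⟨Zf, Zi, a, L, ha, -, hch, hfl, hmp, -, -, -⟩ := FlowTo.exists_labelFlow hT hS
  obtain ⟨E0, hE0, hen⟩ := exists_energy h
  refine occD (cmp_ftr hT (cmp_of (f := ftr T f) L (fun τ w => by rw [ha]) ?_
    (measurable_ftr h.smf) ?_ hmp hE0 ?_))
  · intro τ hτ w
    rw [ftr_eq hτ.2, ftr_eq hT]
    exact hfl τ hτ w
  · intro z hz
    rw [ftr_eq hT] at hz
    exact (isChar_ftr hT).2 (hch z hz)
  · intro t ht
    rw [ftr_eq ht.2]
    exact hen t ht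

end Crest.Agent.R106.OccSolB
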