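/-
Row 106, NEW PART (helper268): all nodes of `MomIface` for every solution of the class, from the
representation `GSR.RepU` (801) alone.
-/
import Crest.Agent.R106.MomTop
import Crest.Agent.R106.EnLink
import Crest.Agent.R106.HSmall
import Crest.Agent.R106.FlowTo
import Crest.Agent.R106.AbsTop
import Crest.Agent.R106.MixFinal
import Crest.Agent.R106.GsrFin
import Crest.Agent.R106.OccSolB

set_option autoImplicit false

open MeasureTheory Set Filter Topology
open Crest.AnalysisR.VecCalc3 Crest.AnalysisR.PDE.RVM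
open scoped ContDiff

namespace Crest.Agent.R106.Mom

theorem nodes_of (hrep : GSR.RepU) (T : ℝ) (f₀ : R3 → R3 → ℝ) (E₀ B₀ : R3 → R3)
    (f : ℝ → R3 → R3 → ℝ) (E B : ℝ → R3 → R3) (h : Mom.SmoothSol T f₀ E₀ B₀ f E B) :
    Nodes T f E B := by
  have hr : Link.Reg T f E B := Link.reg_of_sol h.sol
  have hch : CharP T f E B := FlowTo.charP_smoothSol h
  obtain ⟨hA, hB, hC, hcA, hcB⟩ := En.occ_core h
  have hS : SolTo T f₀ E₀ B₀ f E B := FlowTo.solTo_of_smoothSol h
  have hg : GsCor.GSRepOn T f E B := GSR.gsRepW hrep T h.T_pos f₀ E₀ B₀ h.adm f E B hS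
  exact
    { mix := Mix.mixP_sol h hg
      ft := Mix.ftP_sol h hg
      occA := hA
      occB := hB
      occC := hC
      coreA := hcA
      coreB := hcB
      fsrc := fsrcP E B
      occD := OccSolB.occD_sol h
      loc := HSmall.locP h.T_pos h.sol
      bsmall := Link.bsmallP_of hr Abs.finB h.T_pos hch hA hB
      abs := Link.absP_of hr Abs.finH
      lip := HSmall.lipP h.T_pos h.sol
      char := hch }

/-- (kept for `Top.lean`) the nodes that were open at 17:00 -/
structure OpenNodes : Prop where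
  repU : GSR.RepU
  mix : ∀ (T : ℝ) (f₀ : R3 → R3 → ℝ) (E₀ B₀ : R3 → R3) (f : ℝ → R3 → R3 → ℝ) (E B : ℝ → R3 → R3),
    Mom.SmoothSol T f₀ E₀ B₀ f E B → MixP T f E B
  occD : ∀ (T : ℝ) (f₀ : R3 → R3 → ℝ) (E₀ B₀ : R3 → R3) (f : ℝ → R3 → R3 → ℝ) (E B : ℝ → R3 → R3),
    Mom.SmoothSol T f₀ E₀ B₀ f E B → OccD T f E B
  finH : Link.FinH
  finB : Link.FinB

theorem momBound1_of_open (H : OpenNodes) : MomBound1 :=
  momBound1_of (nodes_of H.repU)

/-- the momentum bound of the new part, from the representation. -/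
theorem momBound1_of_repU (hrep : GSR.RepU) : MomBound1 :=
  momBound1_of (nodes_of hrep)

end Crest.Agent.R106.Mom
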