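import Crest.Agent.R106.Main0

/-!
Row 106, NEW PART: what the new part really proves (captain helper124).
`USol` = classical solution on `[0,T)` whose three functions are `C^∞` on all of `ℝ × ..`;
`MomBoundU` = momentum bound, uniform in `T' ≤ T` and in the solution.
Bridge `MomBoundU → MomBound` (smooth clamp of the time variable): file `R106/NewBridge.lean`
(helper4).
-/

set_option autoImplicit false
open MeasureTheory Set
open scoped ContDiff
open Crest.AnalysisR.VecCalc3 Crest.AnalysisR.PDE.RVM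

namespace Crest.Agent.R106

/-- Classical solution on `[0,T)` given by functions that are smooth on all of `ℝ × ..`. -/
structure USol (T : ℝ) (f₀ : R3 → R3 → ℝ) (E₀ B₀ : R3 → R3)
    (f : ℝ → R3 → R3 → ℝ) (E B : ℝ → R3 → R3) : Prop where
  sol : IsClassicalSolutionOn T f₀ E₀ B₀ f E B
  hf : ContDiff ℝ ∞ (fun p : ℝ × R3 × R3 => f p.1 p.2.1 p.2.2)
  hE : ContDiff ℝ ∞ (fun p : ℝ × R3 => E p.1 p.2)
  hB : ContDiff ℝ ∞ (fun p : ℝ × R3 => B p.1 p.2)

/-- Uniform momentum bound: `M` depends on the datum and `T` only. -/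
def MomBoundU : Prop :=
  ∀ (T : ℝ), 0 < T → ∀ (f₀ : R3 → R3 → ℝ) (E₀ B₀ : R3 → R3), IsAdmissibleDatum f₀ E₀ B₀ →
    ∃ M : ℝ, ∀ T' : ℝ, 0 < T' → T' ≤ T →
    ∀ (f : ℝ → R3 → R3 → ℝ) (E B : ℝ → R3 → R3), USol T' f₀ E₀ B₀ f E B →
    ∀ t ∈ Ico 0 T', ∀ x v : R3, M < ‖v‖ → f t x v = 0

end Crest.Agent.R106
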