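import Crest.Agent.R106.FlowPos
import Crest.Agent.R106.MixDefs
import Crest.Agent.R106.CostLink

/-!
Row 106: corollaries of FLOW for the assembly: `SolFlow` exists (input of MIX), the five cost nodes
hold (904 + 412 + FLOW), `CharP`.
-/

set_option autoImplicit false

open Set Filter Topology MeasureTheory
open scoped ContDiff
open Crest.AnalysisR.VecCalc3 Crest.AnalysisR.PDE.RVM

namespace Crest.Agent.R106

open Crest.Agent.R106.Mom

variable {T : ℝ} {f₀ : R3 → R3 → ℝ} {E₀ B₀ : R3 → R3} {f : ℝ → R3 → R3 → ℝ} {E B : ℝ → R3 → R3}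

/-- input `SolFlow` of MIX -/
theorem solFlow (hT : 0 < T) (h : SolTo T f₀ E₀ B₀ f E B) :
    Mix.SolFlow T f₀ f E B (FlowTo.Zf E B T) (FlowTo.Zi E B T) :=
  ⟨FlowTo.lFlow h.hE h.hB hT, fun _ hτ w => h.eq_label hτ w.1 w.2⟩

/-- the five cost nodes -/
theorem costs (h : Mom.SmoothSol T f₀ E₀ B₀ f E B) :
    OccA T f E B ∧ OccB T f E B ∧ OccC T f E B ∧ CoreA T f E B ∧ CoreB T f E B :=
  Cost.costs_of_values h
    (fun _ hτ x v => ⟨_, _, (FlowTo.solTo_of_smoothSol h).eq_label hτ x v⟩)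

end Crest.Agent.R106
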