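import Crest.Agent.R106.NumShell

/-!
# Row 106, node NUM: multiplicative form of the linear programs, one shell
-/

set_option autoImplicit false

namespace Crest.Agent.R106.Num

open Real

variable {C c0 P Qt R dl ep D Q mu mus : ℝ}

/-- all hypotheses on one shell -/
structure Hyp (C c0 P Qt R dl ep D Q mu mus : ℝ) : Prop where
  L : Large C c0 P
  C1 : 1 ≤ C
  c0p : 0 < c0
  c01 : c0 ≤ 1
  Qt1 : P ^ (11 / 20 : ℝ) ≤ Qt
  Qt2 : Qt ≤ P
  geo : Geo C P Qt R dl ep D Q
  occ : Occ C c0 P Qt R dl ep D Q mu mus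

lemma Hyp.Qt0 (h : Hyp C c0 P Qt R dl ep D Q mu mus) : 0 < Qt :=
  lt_of_lt_of_le (Real.rpow_pos_of_pos (by linarith [h.L.P1]) _) h.Qt1

lemma lg_lamc (hP : 1 < P) (hQt : 0 < Qt) :
    logb P (lamc P Qt) = 0.425 - 2.5 * (1 - logb P Qt) := by
  have hP0 : 0 < P := by linarith
  unfold lamc
  rw [lg_mul (by positivity) (by positivity), lg_rpow hP, lg_rpow' (by positivity),
    lg_div hQt hP0, Real.logb_self_eq_one hP]
  ring

lemma regE (h : Hyp C c0 P Qt R dl ep D Q mu mus) (hE : InE C P Qt dl ep Q) :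
    logb P Q ≤ 0.55 + 1/100000 ∨ -logb P ep ≤ bd (logb P Qt) (-logb P dl) + 1/100000 := by
  have hP := h.L.P1
  have hP0 : 0 < P := by linarith
  have hC0 : 0 < C := by linarith [h.C1]
  have hCl := lg_C h.L h.C1
  have hQt := h.Qt0
  rcases hE with hE | hE
  · left
    have h1 := lg_le hP h.geo.Q_pos hE
    rw [lg_mul hC0 (by positivity), lg_rpow hP] at h1
    linarith
  · right
    have hl : 0 < lamc P Qt := by unfold lamc; positivity
    have hdl := h.geo.dl_pos
    have h1 := lg_le hP (by positivity) hE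
    rw [lg_mul hC0 h.geo.ep_pos, lg_mul hl (by positivity), lg_pow, lg_lamc hP hQt] at h1
    push_cast at h1
    unfold bd
    linarith

lemma regC (h : Hyp C c0 P Qt R dl ep D Q mu mus) (hE : InC C P Qt dl ep Q) :
    0.55 ≤ logb P Q ∧ bd (logb P Qt) (-logb P dl) - 1/100000 ≤ -logb P ep := by
  have hP := h.L.P1
  have hP0 : 0 < P := by linarith
  have hC0 : 0 < C := by linarith [h.C1]
  have hCl := lg_C h.L h.C1
  have hQt := h.Qt0
  obtain ⟨h1, h2⟩ := hE
  constructor
  · have h1 := lg_le hP (by positivity) h1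
    rw [lg_rpow hP] at h1
    linarith
  · have hl : 0 < lamc P Qt := by unfold lamc; positivity
    have hdl := h.geo.dl_pos
    have h1 := lg_le hP h.geo.ep_pos h2
    rw [lg_mul hC0 (by positivity), lg_mul hl (by positivity), lg_pow, lg_lamc hP hQt] at h1
    push_cast at h1
    unfold bd
    linarith

lemma regB (h : Hyp C c0 P Qt R dl ep D Q mu mus) (hE : InB C P Qt dl ep Q) :
    0.55 ≤ logb P Q ∧ bd (logb P Qt) (-logb P dl) - 1/100000 ≤ -logb P ep ∧
      -logb P ep ≤ bd (logb P Qt) (-logb P dl) + 1/100000 := by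
  have hP := h.L.P1
  have hP0 : 0 < P := by linarith
  have hC0 : 0 < C := by linarith [h.C1]
  have hCl := lg_C h.L h.C1
  have hQt := h.Qt0
  obtain ⟨h1, h2, h3⟩ := hE
  refine ⟨(regC h ⟨h1, h2⟩).1, (regC h ⟨h1, h2⟩).2, ?_⟩
  have hl : 0 < lamc P Qt := by unfold lamc; positivity
  have hdl := h.geo.dl_pos
  have h1 := lg_le hP (by positivity) h3
  rw [lg_mul hC0 h.geo.ep_pos, lg_mul hl (by positivity), lg_pow, lg_lamc hP hQt] at h1
  push_cast at h1
  unfold bd
  linarith

/-- back from exponents -/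
lemma of_lg (hP : 1 < P) (hR : 0 < R) {c e : ℝ} (hc : 0 < c)
    (h : logb P c + (-logb P R)/1000 ≤ e) : c ≤ P ^ e * R ^ (1/1000 : ℝ) := by
  have hP0 : 0 < P := by linarith
  have h1 : c = P ^ (logb P c) := (Real.rpow_logb hP0 hP.ne' hc).symm
  have h2 : R ^ (1/1000 : ℝ) = P ^ (1/1000 * logb P R) := by
    rw [← lg_rpow' hR, Real.rpow_logb hP0 hP.ne' (by positivity)]
  rw [h2, ← Real.rpow_add hP0, h1]
  apply Real.rpow_le_rpow_of_exponent_le hP.le
  linarith

lemma lg_sq2 (hR : 0 < R) (hdl : 0 < dl) (hep : 0 < ep) (hD : 0 < D) (hQ : 0 < Q) (hmu : 0 < mu)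
    (hP : 1 < P) :
    logb P (sq2 R dl ep D Q mu) ≤ logb P Q - (-logb P ep) - (-logb P dl) + 2 * (-logb P ep)
      + 2 * (-logb P R) + logb P mu ∧
    logb P (sq2 R dl ep D Q mu) ≤ logb P Q - (-logb P D) - (-logb P dl) + 2 * (-logb P ep)
      + 2 * (-logb P R) + logb P mu := by
  have hm : 0 < min ep D := lt_min hep hD
  have h1 := lg_le hP hm (min_le_left ep D)
  have h2 := lg_le hP hm (min_le_right ep D)
  unfold sq2
  rw [lg_mul (by positivity) hmu, lg_mul (by positivity) (by positivity),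
    lg_mul (by positivity) hm, lg_div hdl (by positivity), lg_mul (by positivity) (by positivity),
    lg_mul (by positivity) (by positivity), lg_pow, lg_pow, lg_pow, lg_pow]
  push_cast
  constructor <;> linarith

theorem T_E_cost (h : Hyp C c0 P Qt R dl ep D Q mu mus) (hE : InE C P Qt dl ep Q) :
    cT R dl ep Q mu ≤ 2 * (P ^ (logb P Qt - 1/200) * R ^ (1/1000 : ℝ)) := by
  have hP := h.L.P1
  have hP0 : 0 < P := by linarith
  have hR := h.geo.R_pos
  have hdl := h.geo.dl_pos
  have hep := h.geo.ep_pos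
  have hQ := h.geo.Q_pos
  rcases h.occ.mu0.eq_or_lt with hmu | hmu
  · rw [← hmu]; unfold cT; simp only [mul_zero]; positivity
  obtain ⟨m, m', hl, hm, -⟩ := lph h.L h.C1 h.c0p h.c01 h.Qt1 h.Qt2 h.geo h.occ
  have hm := hm hmu
  subst hm
  have e1 : cT R dl ep Q mu = cT1 R ep Q mu + cT2 R dl ep Q mu := by
    unfold cT cT1 cT2; ring
  have k1 : cT1 R ep Q mu ≤ P ^ (logb P Qt - 1/200) * R ^ (1/1000 : ℝ) := by
    apply of_lg hP hR (by unfold cT1; positivity)
    apply T_E hl (by norm_num) le_rfl (regE h hE)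
    unfold cT1
    rw [lg_mul (by positivity) hmu, lg_div hep (by positivity),
      lg_mul (by positivity) (by positivity),
      lg_mul (by positivity) (by positivity), lg_pow, lg_pow, lg_pow]
    push_cast; linarith
  have k2 : cT2 R dl ep Q mu ≤ P ^ (logb P Qt - 1/200) * R ^ (1/1000 : ℝ) := by
    apply of_lg hP hR (by unfold cT2; positivity)
    apply T_E' hl (by norm_num) le_rfl (regE h hE)
    unfold cT2
    rw [lg_mul (by positivity) hmu, lg_div (by positivity) (by positivity),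
      lg_mul (by positivity) (by positivity),
      lg_mul (by positivity) (by positivity), lg_pow, lg_pow, lg_pow,
      lg_sqrt (by positivity), lg_mul hdl hep]
    push_cast; linarith
  rw [e1]; linarith

theorem T_all_cost (h : Hyp C c0 P Qt R dl ep D Q mu mus) :
    cT R dl ep Q mu ≤ 2 * (P ^ (logb P Qt + 1/500) * R ^ (1/1000 : ℝ)) := by
  have hP := h.L.P1
  have hP0 : 0 < P := by linarith
  have hR := h.geo.R_pos
  have hdl := h.geo.dl_pos
  have hep := h.geo.ep_pos
  have hQ := h.geo.Q_pos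
  rcases h.occ.mu0.eq_or_lt with hmu | hmu
  · rw [← hmu]; unfold cT; simp only [mul_zero]; positivity
  obtain ⟨m, m', hl, hm, -⟩ := lph h.L h.C1 h.c0p h.c01 h.Qt1 h.Qt2 h.geo h.occ
  have hm := hm hmu
  subst hm
  have e1 : cT R dl ep Q mu = cT1 R ep Q mu + cT2 R dl ep Q mu := by
    unfold cT cT1 cT2; ring
  have k1 : cT1 R ep Q mu ≤ P ^ (logb P Qt + 1/500) * R ^ (1/1000 : ℝ) := by
    apply of_lg hP hR (by unfold cT1; positivity)
    apply T_all hl (by norm_num) le_rfl
    unfold cT1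
    rw [lg_mul (by positivity) hmu, lg_div hep (by positivity),
      lg_mul (by positivity) (by positivity),
      lg_mul (by positivity) (by positivity), lg_pow, lg_pow, lg_pow]
    push_cast; linarith
  have k2 : cT2 R dl ep Q mu ≤ P ^ (logb P Qt + 1/500) * R ^ (1/1000 : ℝ) := by
    apply of_lg hP hR (by unfold cT2; positivity)
    apply T_all' hl (by norm_num) le_rfl
    unfold cT2
    rw [lg_mul (by positivity) hmu, lg_div (by positivity) (by positivity),
      lg_mul (by positivity) (by positivity),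
      lg_mul (by positivity) (by positivity), lg_pow, lg_pow, lg_pow,
      lg_sqrt (by positivity), lg_mul hdl hep]
    push_cast; linarith
  rw [e1]; linarith

theorem A_E_cost (h : Hyp C c0 P Qt R dl ep D Q mu mus) (hE : InE C P Qt dl ep Q) :
    cA (win c0 P Qt) R dl ep D Q mu ≤ P ^ (logb P Qt - 1/200) * R ^ (1/1000 : ℝ) := by
  have hP := h.L.P1
  have hP0 : 0 < P := by linarith
  have hR := h.geo.R_pos
  have hdl := h.geo.dl_pos
  have hep := h.geo.ep_pos
  have hD := h.geo.D_pos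
  have hQ := h.geo.Q_pos
  have hmin : 0 < min ep D := lt_min hep hD
  have hw := win_pos h.L h.c0p h.Qt0
  rcases h.occ.mu0.eq_or_lt with hmu | hmu
  · rw [← hmu]; unfold cA sq2; simp only [mul_zero, Real.sqrt_zero]; positivity
  obtain ⟨m, m', hl, hm, -⟩ := lph h.L h.C1 h.c0p h.c01 h.Qt1 h.Qt2 h.geo h.occ
  have hm := hm hmu
  subst hm
  have hsq : 0 < sq2 R dl ep D Q mu := by unfold sq2; positivity
  have h1 := lg_sq2 (P := P) hR hdl hep hD hQ hmu hP
  have h2 := lg_win_le h.L h.c0p h.c01 h.Qt0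
  have e1 : logb P (cA (win c0 P Qt) R dl ep D Q mu) =
      (logb P (win c0 P Qt) + logb P (sq2 R dl ep D Q mu)) / 2 := by
    unfold cA
    rw [lg_sqrt (by positivity), lg_mul hw hsq]
  apply of_lg hP hR (by unfold cA; positivity)
  apply A_E hl (by norm_num) le_rfl (regE h hE)
  · rw [e1]; linarith [h1.1]
  · rw [e1]; linarith [h1.2]

lemma lg_cB (h : Hyp C c0 P Qt R dl ep D Q mu mus) (hmu : 0 < mu) :
    logb P (cB (win c0 P Qt) R dl ep D Q mu) ≤
      max (-(2*(1-logb P Qt))) (-(-logb P R)) / 2 + (logb P Q - (-logb P ep) + (-logb P ep)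
      + 2*(-logb P R) + logb P mu)/2 + 1/10000000 ∧
    logb P (cB (win c0 P Qt) R dl ep D Q mu) ≤
      max (-(2*(1-logb P Qt))) (-(-logb P R)) / 2 + (logb P Q - (-logb P D) + (-logb P ep)
      + 2*(-logb P R) + logb P mu)/2 + 1/10000000 := by
  have hP := h.L.P1
  have hP0 : 0 < P := by linarith
  have hR := h.geo.R_pos
  have hdl := h.geo.dl_pos
  have hep := h.geo.ep_pos
  have hD := h.geo.D_pos
  have hQ := h.geo.Q_pos
  have hmin : 0 < min ep D := lt_min hep hD
  have hw := win_pos h.L h.c0p h.Qt0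
  have h1 := lg_lR h.L h.c0p h.c01 h.Qt0 hR
  have h2 := lg_le hP hmin (min_le_left ep D)
  have h3 := lg_le hP hmin (min_le_right ep D)
  unfold cB
  rw [lg_sqrt (by positivity), lg_mul (by positivity) (by positivity),
    lg_div (by positivity) hdl, lg_mul (by positivity) hmu, lg_mul (by positivity) (by positivity),
    lg_mul (by positivity) hmin, lg_div hdl (by positivity), lg_mul (by positivity) (by positivity),
    lg_mul (by positivity) hep, lg_pow, lg_pow, lg_pow]
  push_cast
  constructor <;> linarith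

theorem B_E_cost (h : Hyp C c0 P Qt R dl ep D Q mu mus) (hE : InE C P Qt dl ep Q) :
    cB (win c0 P Qt) R dl ep D Q mu ≤ P ^ (logb P Qt - 1/250) * R ^ (1/1000 : ℝ) := by
  have hP := h.L.P1
  have hP0 : 0 < P := by linarith
  have hR := h.geo.R_pos
  have hdl := h.geo.dl_pos
  have hep := h.geo.ep_pos
  have hD := h.geo.D_pos
  have hQ := h.geo.Q_pos
  have hmin : 0 < min ep D := lt_min hep hD
  have hw := win_pos h.L h.c0p h.Qt0
  rcases h.occ.mu0.eq_or_lt with hmu | hmu
  · rw [← hmu]; unfold cB; simp only [mul_zero, Real.sqrt_zero]; positivity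
  obtain ⟨m, m', hl, hm, -⟩ := lph h.L h.C1 h.c0p h.c01 h.Qt1 h.Qt2 h.geo h.occ
  have hm := hm hmu
  subst hm
  obtain ⟨h1, h2⟩ := lg_cB h hmu
  apply of_lg hP hR (by unfold cB; positivity)
  have := B_E hl (by norm_num) le_rfl (regE h hE)
    (A := logb P (cB (win c0 P Qt) R dl ep D Q mu) - 1/10000000) (by linarith) (by linarith)
  linarith

theorem B_all_cost (h : Hyp C c0 P Qt R dl ep D Q mu mus) :
    cB (win c0 P Qt) R dl ep D Q mu ≤ P ^ (logb P Qt + 1/50) * R ^ (1/1000 : ℝ) := by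
  have hP := h.L.P1
  have hP0 : 0 < P := by linarith
  have hR := h.geo.R_pos
  have hdl := h.geo.dl_pos
  have hep := h.geo.ep_pos
  have hD := h.geo.D_pos
  have hQ := h.geo.Q_pos
  have hmin : 0 < min ep D := lt_min hep hD
  have hw := win_pos h.L h.c0p h.Qt0
  rcases h.occ.mu0.eq_or_lt with hmu | hmu
  · rw [← hmu]; unfold cB; simp only [mul_zero, Real.sqrt_zero]; positivity
  obtain ⟨m, m', hl, hm, -⟩ := lph h.L h.C1 h.c0p h.c01 h.Qt1 h.Qt2 h.geo h.occ
  have hm := hm hmu
  subst hm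
  obtain ⟨h1, h2⟩ := lg_cB h hmu
  apply of_lg hP hR (by unfold cB; positivity)
  have := B_all hl (by norm_num) le_rfl
    (A := logb P (cB (win c0 P Qt) R dl ep D Q mu) - 1/10000000) (by linarith) (by linarith)
  linarith

theorem G_C_cost (h : Hyp C c0 P Qt R dl ep D Q mu mus) (hE : InC C P Qt dl ep Q) :
    cG Qt R dl ep mu ≤ 2 * (P ^ (logb P Qt - 1/200) * R ^ (1/1000 : ℝ)) := by
  have hP := h.L.P1
  have hP0 : 0 < P := by linarith
  have hR := h.geo.R_pos
  have hdl := h.geo.dl_pos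
  have hep := h.geo.ep_pos
  have hQ := h.geo.Q_pos
  have hQt := h.Qt0
  rcases h.occ.mu0.eq_or_lt with hmu | hmu
  · rw [← hmu]; unfold cG; simp only [mul_zero]; positivity
  obtain ⟨m, m', hl, hm, -⟩ := lph h.L h.C1 h.c0p h.c01 h.Qt1 h.Qt2 h.geo h.occ
  have hm := hm hmu
  subst hm
  have e1 : cG Qt R dl ep mu = dl / (Qt ^ 2 * dl ^ 2 * R ^ 2) * mu +
      √(dl * ep) / (Qt ^ 2 * dl ^ 2 * R ^ 2) * mu := by
    unfold cG; ring
  have k1 : dl / (Qt ^ 2 * dl ^ 2 * R ^ 2) * mu ≤
      P ^ (logb P Qt - 1/200) * R ^ (1/1000 : ℝ) := by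
    apply of_lg hP hR (by positivity)
    apply G2_C hl (by norm_num) le_rfl (regC h hE).1 (regC h hE).2
    rw [lg_mul (by positivity) hmu, lg_div hdl (by positivity),
      lg_mul (by positivity) (by positivity),
      lg_mul (by positivity) (by positivity), lg_pow, lg_pow, lg_pow]
    push_cast; linarith
  have k2 : √(dl * ep) / (Qt ^ 2 * dl ^ 2 * R ^ 2) * mu ≤
      P ^ (logb P Qt - 1/200) * R ^ (1/1000 : ℝ) := by
    apply of_lg hP hR (by positivity)
    apply G2_C' hl (by norm_num) le_rfl (regC h hE).1 (regC h hE).2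
    rw [lg_mul (by positivity) hmu, lg_div (by positivity) (by positivity),
      lg_mul (by positivity) (by positivity),
      lg_mul (by positivity) (by positivity), lg_pow, lg_pow, lg_pow,
      lg_sqrt (by positivity), lg_mul hdl hep]
    push_cast; linarith
  rw [e1]; linarith

theorem M_C_cost (h : Hyp C c0 P Qt R dl ep D Q mu mus) (hE : InC C P Qt dl ep Q) :
    cM R dl ep mus ≤ P ^ (logb P Qt - 1/10) * R ^ (1/1000 : ℝ) := by
  have hP := h.L.P1
  have hP0 : 0 < P := by linarith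
  have hR := h.geo.R_pos
  have hdl := h.geo.dl_pos
  have hep := h.geo.ep_pos
  rcases h.occ.mus0.eq_or_lt with hmu | hmu
  · rw [← hmu]; unfold cM; simp only [mul_zero]; positivity
  obtain ⟨m, m', hl, -, hm⟩ := lph h.L h.C1 h.c0p h.c01 h.Qt1 h.Qt2 h.geo h.occ
  have hm := hm hmu
  subst hm
  apply of_lg hP hR (by unfold cM; positivity)
  apply phm_C hl (by norm_num) le_rfl (regC h hE).1 (regC h hE).2
  unfold cM
  rw [lg_mul (by positivity) hmu, lg_div (by positivity) (by positivity),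
      lg_mul (by positivity) (by positivity), lg_sqrt (by positivity)]
  linarith

theorem b_C_cost (h : Hyp C c0 P Qt R dl ep D Q mu mus) (hE : InC C P Qt dl ep Q) :
    cb R dl ep mus ≤ P ^ (0.371 : ℝ) * R ^ (1/1000 : ℝ) := by
  have hP := h.L.P1
  have hP0 : 0 < P := by linarith
  have hR := h.geo.R_pos
  have hdl := h.geo.dl_pos
  have hep := h.geo.ep_pos
  rcases h.occ.mus0.eq_or_lt with hmu | hmu
  · rw [← hmu]; unfold cb; simp only [mul_zero]; positivity
  obtain ⟨m, m', hl, -, hm⟩ := lph h.L h.C1 h.c0p h.c01 h.Qt1 h.Qt2 h.geo h.occ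
  have hm := hm hmu
  subst hm
  apply of_lg hP hR (by unfold cb; positivity)
  apply bc_C hl (by norm_num) le_rfl (regC h hE).1 (regC h hE).2
  unfold cb
  rw [lg_mul (by positivity) hmu, lg_div (by positivity) (by positivity),
      lg_sqrt (by positivity), lg_div hep hdl]
  linarith

theorem H_C_cost (h : Hyp C c0 P Qt R dl ep D Q mu mus) (hE : InC C P Qt dl ep Q) :
    cH R dl ep D Q mu ≤ P ^ (1 + logb P Qt / 2 + 1/500) * R ^ (1/1000 : ℝ) := by
  have hP := h.L.P1
  have hP0 : 0 < P := by linarith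
  have hR := h.geo.R_pos
  have hdl := h.geo.dl_pos
  have hep := h.geo.ep_pos
  have hD := h.geo.D_pos
  have hQ := h.geo.Q_pos
  have hmin : 0 < min ep D := lt_min hep hD
  rcases h.occ.mu0.eq_or_lt with hmu | hmu
  · rw [← hmu]; unfold cH sq2; simp only [mul_zero, Real.sqrt_zero]; positivity
  obtain ⟨m, m', hl, hm, -⟩ := lph h.L h.C1 h.c0p h.c01 h.Qt1 h.Qt2 h.geo h.occ
  have hm := hm hmu
  subst hm
  have hsq : 0 < sq2 R dl ep D Q mu := by unfold sq2; positivity
  have h1 := lg_sq2 (P := P) hR hdl hep hD hQ hmu hP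
  have e1 : logb P (cH R dl ep D Q mu) = (logb P (sq2 R dl ep D Q mu)) / 2 := by
    unfold cH
    rw [lg_sqrt (by positivity)]
  apply of_lg hP hR (by unfold cH; positivity)
  apply h2_C hl (by norm_num) le_rfl (regC h hE).1 (regC h hE).2
  · rw [e1]; linarith [h1.1]
  · rw [e1]; linarith [h1.2]

/-- `‖Φ‖₂` of one shell -/
theorem P_C_cost (h : Hyp C c0 P Qt R dl ep D Q mu mus) (hE : InC C P Qt dl ep Q) :
    √(cM R dl ep mus * cP R dl ep mu) ≤
      P ^ (2 * logb P Qt - 1/200 - (1 + logb P Qt / 2 + 1/500)) * R ^ (1/1000 : ℝ) := by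
  have hP := h.L.P1
  have hP0 : 0 < P := by linarith
  have hR := h.geo.R_pos
  have hdl := h.geo.dl_pos
  have hep := h.geo.ep_pos
  rcases h.occ.mus0.eq_or_lt with hmus | hmus
  · rw [← hmus]; unfold cM; simp only [mul_zero, zero_mul, Real.sqrt_zero]; positivity
  rcases h.occ.mu0.eq_or_lt with hmu | hmu
  · rw [← hmu]; unfold cP; simp only [mul_zero, Real.sqrt_zero]; positivity
  obtain ⟨m, m', hl, hm, hm'⟩ := lph h.L h.C1 h.c0p h.c01 h.Qt1 h.Qt2 h.geo h.occ
  have hm := hm hmu
  have hm' := hm' hmus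
  subst hm hm'
  have p1 : 0 < cM R dl ep mus := by unfold cM; positivity
  have p2 : 0 < cP R dl ep mu := by unfold cP; positivity
  apply of_lg hP hR (by positivity)
  have := L2_C hl (by norm_num) le_rfl (regC h hE).1 (regC h hE).2
    (A := logb P (√(cM R dl ep mus * cP R dl ep mu))) (by
      rw [lg_sqrt (by positivity), lg_mul p1 p2]
      unfold cM cP
      rw [lg_mul (by positivity) hmu, lg_mul (by positivity) hmus,
        lg_div (by positivity) (by positivity),
        lg_mul (by positivity) (by positivity), lg_sqrt (by positivity)]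
      linarith)
  linarith

/-- cut-off cost away from the critical region -/
theorem Cut_cost (h : Hyp C c0 P Qt R dl ep D Q mu mus) (hE : InB C P Qt dl ep Q)
    (hcr : ¬ (P ^ (-(1 / 10) : ℝ) ≤ D ∧ logb P R ≤ -(2 * (1 - logb P Qt) + 0.02))) :
    cCut R dl ep D mu ≤ P ^ (logb P Qt - 1/100) * R ^ (1/1000 : ℝ) := by
  have hP := h.L.P1
  have hP0 : 0 < P := by linarith
  have hR := h.geo.R_pos
  have hdl := h.geo.dl_pos
  have hep := h.geo.ep_pos
  have hD := h.geo.D_pos
  have hmin : 0 < min dl ep := lt_min hdl hep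
  rcases h.occ.mu0.eq_or_lt with hmu | hmu
  · rw [← hmu]; unfold cCut; simp only [mul_zero]; positivity
  obtain ⟨m, m', hl, hm, -⟩ := lph h.L h.C1 h.c0p h.c01 h.Qt1 h.Qt2 h.geo h.occ
  have hm := hm hmu
  subst hm
  obtain ⟨b1, b2, b3⟩ := regB h hE
  apply of_lg hP hR (by unfold cCut; positivity)
  have e1 : logb P (cCut R dl ep D mu) =
      2 * (-logb P R) + logb P mu + (- logb P (min dl ep) - (-logb P D)) / 2 := by
    unfold cCut
    rw [lg_mul (by positivity) hmu, lg_div (by positivity) (by positivity),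
      lg_sqrt (by positivity), lg_div hD hmin, lg_pow]
    push_cast; ring
  rw [not_and_or] at hcr
  rcases hcr with hcr | hcr
  · have hd : 0.1 ≤ -logb P D := by
      push Not at hcr
      have := lg_le hP hD hcr.le
      rw [lg_rpow hP] at this
      linarith
    rcases le_total dl ep with h1 | h1
    · rw [min_eq_left h1] at e1
      exact CUT_D hl (by norm_num) le_rfl b1 b2 b3 (by rw [e1]) hd
    · rw [min_eq_right h1] at e1
      exact CUT_D' hl (by norm_num) le_rfl b1 b2 b3 (by rw [e1]) hd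
  · push Not at hcr
    rcases le_total dl ep with h1 | h1
    · rw [min_eq_left h1] at e1
      exact CUT_R hl (by norm_num) le_rfl b1 b2 b3 (by rw [e1]) (by linarith)
    · rw [min_eq_right h1] at e1
      exact CUT_R' hl (by norm_num) le_rfl b1 b2 b3 (by rw [e1]) (by linarith)

end Crest.Agent.R106.Num
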