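import Mathlib

/-!
# Row 106, exponent level of note 12143 (with slack `s` and a gain `r/1000` in `R`)

`Qt = P^g`, `Q = P^q`, `δ = P^-x`, `ε = P^-y`, `D = P^-d`, `R = P^-r`, `μ(Ω) = P^mu`,
`sup_s μ_s(Ω) = P^mus`, `l = P^{-2(1-g)}`.
-/

namespace Crest.Agent.R106.Num

/-- constraints of the linear programs (`s` = slack) -/
structure LPH (g q x y d r mu mus s : ℝ) : Prop where
  g1 : 0.55 ≤ g
  g2 : g ≤ 1
  q1 : -s ≤ q
  q2 : q ≤ 1 + s
  x1 : -s ≤ x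
  x2 : x ≤ 2*g + s
  y1 : -s ≤ y
  y2 : y ≤ 2*q + s
  d1 : -s ≤ d
  d2 : d ≤ 2*g + s
  d3 : d ≤ 2*q + s
  r1 : -s ≤ r
  zone : (d ≤ x + s ∧ x ≤ d + s ∧ x ≤ y + s) ∨ (d ≤ y + s ∧ y ≤ d + s ∧ y ≤ x + s) ∨
    (x ≤ y + s ∧ y ≤ x + s ∧ x ≤ d + s)
  ay : mu ≤ -(2*(1-g)) - 3*r - x + 3*q - y + s
  ad : mu ≤ -(2*(1-g)) - 3*r - x + 3*q - d + s
  b : mu ≤ -(2*(1-g)) - q + y + s
  c : mu ≤ max (-(2*(1-g))) (-r) - q + x + s
  dd : 0.55 ≤ q → 0.4 ≤ q - d/2 → 0.4 ≤ g - d/2 →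
    mu ≤ d/2 + max 0 (max (-(2*(1-g))) (-r) + 2*(1-q)) - r - q + (d + min x d)/2 + s
  ay' : mus ≤ -3*r - x + 3*q - y + s
  ad' : mus ≤ -3*r - x + 3*q - d + s
  b' : mus ≤ -q + y + s

/-- the border exponent -/
noncomputable def bd (g x : ℝ) : ℝ := 2*x - 0.425 + 2.5*(1-g)

variable {g q x y d r mu mus s : ℝ}

/-- the bound (d) with the minimum resolved -/
theorem LPH.dd' (h : LPH g q x y d r mu mus s) (e1 : 0.55 ≤ q) (e2 : 0.4 ≤ q - d/2)
    (e3 : 0.4 ≤ g - d/2) :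
    mu ≤ d/2 + max 0 (max (-(2*(1-g))) (-r) + 2*(1-q)) - r - q + (d + x)/2 + s ∧
    mu ≤ d/2 + max 0 (max (-(2*(1-g))) (-r) + 2*(1-q)) - r - q + d + s := by
  have h0 := h.dd e1 e2 e3
  have h1 := min_le_left x d
  have h2 := min_le_right x d
  constructor <;> linarith

set_option hygiene false in
local macro "lpgo" : tactic => `(tactic| (
  obtain ⟨g1, g2, q1, q2, x1, x2, y1, y2, d1, d2, d3, r1, zone, ay, ad, b, c, dd, ay', ad', b'⟩ := h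
  rcases le_total (-(2*(1-g))) (-r) with h2 | h2 <;>
    simp only [max_eq_left, max_eq_right, h2] at c dd' hcon hX
  all_goals
    rcases zone with hz | hz | hz <;> obtain ⟨z1, z2, z3⟩ := hz
  all_goals first
    | linarith
    | skip
  all_goals
    by_cases e1 : 0.55 ≤ q
    · by_cases e2 : 0.4 ≤ q - d/2
      · by_cases e3 : 0.4 ≤ g - d/2
        · obtain ⟨dd1, dd2⟩ := dd' e1 e2 e3
          first
          | (rcases max_cases 0 ((-r) + 2*(1-q)) with h4 | h4 <;>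
              rw [h4.1] at dd1 dd2 <;> obtain ⟨_, h4⟩ := h4 <;> linarith)
          | (rcases max_cases 0 (-(2*(1-g)) + 2*(1-q)) with h4 | h4 <;>
              rw [h4.1] at dd1 dd2 <;> obtain ⟨_, h4⟩ := h4 <;> linarith)
        · push Not at e3; linarith
      · push Not at e2; linarith
    · push Not at e1; linarith))

theorem A_E (h : LPH g q x y d r mu mus s) (_hs0 : 0 ≤ s) (hs : s ≤ 1/100000)
    (hE : q ≤ 0.55 + s ∨ y ≤ bd g x + s)
    {A : ℝ} (h1 : A ≤ -(1-g) + (q - y - x + 2*y + 2*r + mu)/2)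
    (h2 : A ≤ -(1-g) + (q - d - x + 2*y + 2*r + mu)/2) :
    A + r/1000 ≤ g - 1/200 := by
  have dd' := h.dd'
  have hX : (0:ℝ) ≤ max (-(2*(1-g))) (-r) - max (-(2*(1-g))) (-r) := by simp
  unfold bd at hE
  by_contra hcon
  push Not at hcon
  rcases hE with hE | hE
  · lpgo
  · lpgo

theorem B_E (h : LPH g q x y d r mu mus s) (_hs0 : 0 ≤ s) (hs : s ≤ 1/100000)
    (hE : q ≤ 0.55 + s ∨ y ≤ bd g x + s)
    {A : ℝ} (h1 : A ≤ max (-(2*(1-g))) (-r)/2 + (q - y + y + 2*r + mu)/2)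
    (h2 : A ≤ max (-(2*(1-g))) (-r)/2 + (q - d + y + 2*r + mu)/2) :
    A + r/1000 ≤ g - 1/200 := by
  have dd' := h.dd'
  have hX := And.intro h1 h2
  unfold bd at hE
  by_contra hcon
  push Not at hcon
  clear h1 h2
  rcases hE with hE | hE
  · lpgo
  · lpgo

theorem T_E (h : LPH g q x y d r mu mus s) (_hs0 : 0 ≤ s) (hs : s ≤ 1/100000)
    (hE : q ≤ 0.55 + s ∨ y ≤ bd g x + s)
    {A : ℝ} (h20 : A ≤ -2*q + 2*y + 2*r - y + mu) :
    A + r/1000 ≤ g - 1/200 := by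
  have dd' := h.dd'
  have hX := h20
  unfold bd at hE
  by_contra hcon
  push Not at hcon
  clear h20
  rcases hE with hE | hE
  · lpgo
  · lpgo

theorem T_E' (h : LPH g q x y d r mu mus s) (_hs0 : 0 ≤ s) (hs : s ≤ 1/100000)
    (hE : q ≤ 0.55 + s ∨ y ≤ bd g x + s)
    {A : ℝ} (h20 : A ≤ -2*q + 2*y + 2*r - (x+y)/2 + mu) :
    A + r/1000 ≤ g - 1/200 := by
  have dd' := h.dd'
  have hX := h20
  unfold bd at hE
  by_contra hcon
  push Not at hcon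
  clear h20
  rcases hE with hE | hE
  · lpgo
  · lpgo

theorem T_all (h : LPH g q x y d r mu mus s) (_hs0 : 0 ≤ s) (hs : s ≤ 1/100000)
    {A : ℝ} (h20 : A ≤ -2*q + 2*y + 2*r - y + mu) :
    A + r/1000 ≤ g + 1/500 := by
  have dd' := h.dd'
  have hX := h20
  by_contra hcon
  push Not at hcon
  clear h20
  lpgo

theorem T_all' (h : LPH g q x y d r mu mus s) (_hs0 : 0 ≤ s) (hs : s ≤ 1/100000)
    {A : ℝ} (h20 : A ≤ -2*q + 2*y + 2*r - (x+y)/2 + mu) :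
    A + r/1000 ≤ g + 1/500 := by
  have dd' := h.dd'
  have hX := h20
  by_contra hcon
  push Not at hcon
  clear h20
  lpgo

theorem B_all (h : LPH g q x y d r mu mus s) (_hs0 : 0 ≤ s) (hs : s ≤ 1/100000)
    {A : ℝ} (h20 : A ≤ max (-(2*(1-g))) (-r)/2 + (q - y + y + 2*r + mu)/2)
    (h21 : A ≤ max (-(2*(1-g))) (-r)/2 + (q - d + y + 2*r + mu)/2) :
    A + r/1000 ≤ g + 1/100 := by
  have dd' := h.dd'
  have hX := And.intro (h20) h21
  by_contra hcon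
  push Not at hcon
  clear h20 h21
  lpgo

theorem G2_C (h : LPH g q x y d r mu mus s) (_hs0 : 0 ≤ s) (hs : s ≤ 1/100000)
    (hq : 0.55 ≤ q) (hE : bd g x - s ≤ y)
    {A : ℝ} (h20 : A ≤ -2*g + 2*x + 2*r - x + mu) :
    A + r/1000 ≤ g - 1/200 := by
  have dd' := h.dd'
  have hX := h20
  unfold bd at hE
  by_contra hcon
  push Not at hcon
  clear h20
  lpgo

theorem G2_C' (h : LPH g q x y d r mu mus s) (_hs0 : 0 ≤ s) (hs : s ≤ 1/100000)
    (hq : 0.55 ≤ q) (hE : bd g x - s ≤ y)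
    {A : ℝ} (h20 : A ≤ -2*g + 2*x + 2*r - (x+y)/2 + mu) :
    A + r/1000 ≤ g - 1/200 := by
  have dd' := h.dd'
  have hX := h20
  unfold bd at hE
  by_contra hcon
  push Not at hcon
  clear h20
  lpgo

theorem phm_C (h : LPH g q x y d r mu mus s) (_hs0 : 0 ≤ s) (hs : s ≤ 1/100000)
    (hq : 0.55 ≤ q) (hE : bd g x - s ≤ y)
    {A : ℝ} (h20 : A ≤ -y/2 + x + r + mus) :
    A + r/1000 ≤ g - 1/10 := by
  have dd' := h.dd'
  have hX := h20
  unfold bd at hE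
  by_contra hcon
  push Not at hcon
  clear h20
  lpgo

theorem h2_C (h : LPH g q x y d r mu mus s) (_hs0 : 0 ≤ s) (hs : s ≤ 1/100000)
    (hq : 0.55 ≤ q) (hE : bd g x - s ≤ y)
    {A : ℝ} (h20 : A ≤ (q - y - x + 2*y + 2*r + mu)/2)
    (h21 : A ≤ (q - d - x + 2*y + 2*r + mu)/2) :
    A + r/1000 ≤ 1 + g/2 + 1/500 := by
  have dd' := h.dd'
  have hX := And.intro (h20) h21
  unfold bd at hE
  by_contra hcon
  push Not at hcon
  clear h20 h21
  lpgo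

theorem L2_C (h : LPH g q x y d r mu mus s) (_hs0 : 0 ≤ s) (hs : s ≤ 1/100000)
    (hq : 0.55 ≤ q) (hE : bd g x - s ≤ y)
    {A : ℝ} (h20 : A ≤ ((-y/2 + x + r + mus) + (-y/2 + x + r + mu))/2) :
    A + r/1000 + (1 + g/2 + 1/500) ≤ 2*g - 1/200 := by
  have dd' := h.dd'
  have hX := h20
  unfold bd at hE
  by_contra hcon
  push Not at hcon
  clear h20
  lpgo

theorem bc_C (h : LPH g q x y d r mu mus s) (_hs0 : 0 ≤ s) (hs : s ≤ 1/100000)
    (hq : 0.55 ≤ q) (hE : bd g x - s ≤ y)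
    {A : ℝ} (h20 : A ≤ -y/2 + x/2 + r + mus) :
    A + r/1000 ≤ 0.371 := by
  have dd' := h.dd'
  have hX := h20
  unfold bd at hE
  by_contra hcon
  push Not at hcon
  clear h20
  lpgo

theorem CUT_D (h : LPH g q x y d r mu mus s) (_hs0 : 0 ≤ s) (hs : s ≤ 1/100000)
    (hq : 0.55 ≤ q) (hE : bd g x - s ≤ y) (hE' : y ≤ bd g x + s)
    {A : ℝ} (h20 : A ≤ 2*r + mu + (x-d)/2)
    (h21 : 0.1 ≤ d) :
    A + r/1000 ≤ g - 1/100 := by
  have dd' := h.dd'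
  have hX := And.intro (h20) h21
  unfold bd at hE
  unfold bd at hE'
  by_contra hcon
  push Not at hcon
  clear h20 h21
  lpgo

theorem CUT_D' (h : LPH g q x y d r mu mus s) (_hs0 : 0 ≤ s) (hs : s ≤ 1/100000)
    (hq : 0.55 ≤ q) (hE : bd g x - s ≤ y) (hE' : y ≤ bd g x + s)
    {A : ℝ} (h20 : A ≤ 2*r + mu + (y-d)/2)
    (h21 : 0.1 ≤ d) :
    A + r/1000 ≤ g - 1/100 := by
  have dd' := h.dd'
  have hX := And.intro (h20) h21
  unfold bd at hE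
  unfold bd at hE'
  by_contra hcon
  push Not at hcon
  clear h20 h21
  lpgo

theorem CUT_R (h : LPH g q x y d r mu mus s) (_hs0 : 0 ≤ s) (hs : s ≤ 1/100000)
    (hq : 0.55 ≤ q) (hE : bd g x - s ≤ y) (hE' : y ≤ bd g x + s)
    {A : ℝ} (h20 : A ≤ 2*r + mu + (x-d)/2)
    (h21 : r ≤ 2*(1-g) + 0.02) :
    A + r/1000 ≤ g - 1/100 := by
  have dd' := h.dd'
  have hX := And.intro (h20) h21
  unfold bd at hE
  unfold bd at hE'
  by_contra hcon
  push Not at hcon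
  clear h20 h21
  lpgo

theorem CUT_R' (h : LPH g q x y d r mu mus s) (_hs0 : 0 ≤ s) (hs : s ≤ 1/100000)
    (hq : 0.55 ≤ q) (hE : bd g x - s ≤ y) (hE' : y ≤ bd g x + s)
    {A : ℝ} (h20 : A ≤ 2*r + mu + (y-d)/2)
    (h21 : r ≤ 2*(1-g) + 0.02) :
    A + r/1000 ≤ g - 1/100 := by
  have dd' := h.dd'
  have hX := And.intro (h20) h21
  unfold bd at hE
  unfold bd at hE'
  by_contra hcon
  push Not at hcon
  clear h20 h21
  lpgo

end Crest.Agent.R106.Num
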