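import Mathlib
import Crest.Agent.R106.OccCM
import Crest.Agent.R106.OccD
import Crest.Agent.R106.FlowTo
import Crest.Agent.R106.FlowPos
import Crest.Agent.R106.EnMain

/-!
# Row 106, OCC: the occupation bound (d) for the class `Mom.SmoothSol` (instance of `cmp_of`)
-/

set_option autoImplicit false

open MeasureTheory Set Filter Topology
open Crest.AnalysisR.VecCalc3 Crest.AnalysisR.PDE.RVM
open scoped ENNReal NNReal InnerProductSpace ContDiff

noncomputable section

namespace Crest.Agent.R106.OccSol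

open Crest.Agent.R106.CM Crest.Agent.R106.Mom Crest.Agent.R106.Occ
open Crest.Agent.R106.GSR (gam acc lor)

variable {T : ℝ} {f : ℝ → R3 → R3 → ℝ} {E B : ℝ → R3 → R3} {f₀ : R3 → R3 → ℝ} {E₀ B₀ : R3 → R3}

open Classical in
/-- `f` cut at time `T` -/
def cutT (T : ℝ) (f : ℝ → R3 → R3 → ℝ) : ℝ → R3 → R3 → ℝ :=
  fun t x v => if t < T then f t x v else 0

lemma cutT_eq {t : ℝ} (ht : t < T) : cutT T f t = f t := by
  funext x v; simp [cutT, ht]

lemma kap_cutT (X : ℝ → R3) {s : ℝ} (hs : s < T) : kap (cutT T f) X s = kap f X s := by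
  unfold kap
  congr 1
  funext q
  have : Mom.ret X s q.1 < T := by
    unfold Mom.ret
    linarith [norm_nonneg (X s - q.1)]
  rw [cutT_eq this]

lemma isChar_cutT (hT : 0 < T) {X p : ℝ → R3} : IsChar T (cutT T f) E B X p ↔ IsChar T f E B X p := by
  constructor
  · intro h
    exact ⟨h.cX, h.cp, h.dX, h.dp, by have := h.supp; rwa [cutT_eq hT] at this⟩
  · intro h
    exact ⟨h.cX, h.cp, h.dX, h.dp, by rw [cutT_eq hT]; exact h.supp⟩

lemma cmp_cutT (hT : 0 < T) (h : CMP T (cutT T f) E B) : CMP T f E B := by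
  obtain ⟨Φ, h1, h2, ⟨E0, hE0, h3⟩, h4⟩ := h
  have e0 : cutT T f 0 = f 0 := cutT_eq hT
  have eM : labM (cutT T f) = labM f := by unfold labM; rw [e0]
  refine ⟨Φ, fun z hz => (isChar_cutT hT).1 (h1 z (by rwa [e0])), h2, ⟨E0, hE0, fun t ht => ?_⟩, ?_⟩
  · have := h3 t ht
    rwa [eM] at this
  · intro X p hX R1 d1 e1 D1 Q1 hR1 hd1 he1 hD1 hQ1 a b ha hab hb
    obtain ⟨S, σ, h5, h6⟩ := h4 X p ((isChar_cutT hT).2 hX) R1 d1 e1 D1 Q1 hR1 hd1 he1 hD1 hQ1
      a b ha hab hb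
    refine ⟨S, σ, ?_, fun z hz => ?_⟩
    · have e : ∫⁻ s in Icc a b, kap f X s (shell X p R1 d1 e1 D1 Q1 s)
          = ∫⁻ s in Icc a b, kap (cutT T f) X s (shell X p R1 d1 e1 D1 Q1 s) := by
        refine setLIntegral_congr_fun measurableSet_Icc fun s hs => ?_
        rw [kap_cutT X (hs.2.trans_lt hb)]
      rw [e, ← eM]
      exact h5
    · have := h6 z hz
      rw [e0] at this
      exact this

theorem cmp_of_solTo (hT : 0 < T) (h : SolTo T f₀ E₀ B₀ f E B) (hd : IsAdmissibleDatum f₀ E₀ B₀) :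
    CMP T f E B := by
  classical
  obtain ⟨Zf, Zi, av, hL, hav, -, hchar, hfZi, hmp, -, hZf, hZi⟩ := FlowTo.exists_labelFlow hT h
  have hpos : ∀ t ∈ Ico 0 T, ∀ x v, 0 ≤ f t x v := fun t ht x v => h.nonneg hd.1 ht x v
  have hreg : En.Reg T f E B := En.Reg.of_sol h.sol
  have h0T : (0 : ℝ) ∈ Ico 0 T := ⟨le_rfl, hT⟩
  have hfin : En.en f E B 0 ≠ ⊤ := by
    have hm := h.sol.2.2.2.2.2.2.2.2 0 h0T
    exact En.en_ne_top hreg h0T hm.1 hm.2.1
  refine cmp_cutT hT (cmp_of hL (fun τ w => by rw [hav]) ?_ ?_ ?_ hmp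
    (E0 := (En.en f E B 0).toReal) ENNReal.toReal_nonneg ?_)
  · intro τ hτ w
    rw [cutT_eq hτ.2, cutT_eq hT]
    exact hfZi τ hτ w
  · have h1 : (fun p : ℝ × R3 × R3 => cutT T f p.1 p.2.1 p.2.2)
        = (Iio T ×ˢ (univ : Set (R3 × R3))).piecewise (fun p : ℝ × (R3 × R3) => f p.1 p.2.1 p.2.2)
          (fun _ => 0) := by
      funext p
      by_cases hp : p.1 < T
      · rw [Set.piecewise_eq_of_mem _ _ _ (show p ∈ Iio T ×ˢ (univ : Set (R3 × R3)) from
          ⟨hp, mem_univ _⟩)]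
        simp [cutT, hp]
      · rw [Set.piecewise_eq_of_notMem _ _ _ (show p ∉ Iio T ×ˢ (univ : Set (R3 × R3)) from
          fun h => hp h.1)]
        simp [cutT, hp]
    rw [h1]
    exact (h.hf.continuousOn).measurable_piecewise continuousOn_const
      (measurableSet_Iio.prod MeasurableSet.univ)
  · intro z hz
    rw [cutT_eq hT] at hz
    exact (isChar_cutT hT).2 (hchar z hz)
  · intro t ht
    rw [ENNReal.ofReal_toReal hfin, cutT_eq ht.2, ← En.energy_eq hreg hpos h0T ht]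
    exact le_add_self

/-- **The occupation bound (d) for smooth solutions.** -/
theorem occD_of_sol (h : Mom.SmoothSol T f₀ E₀ B₀ f E B) : OccD T f E B :=
  occD (cmp_of_solTo h.T_pos (FlowTo.solTo_of_smoothSol h) h.adm)

end Crest.Agent.R106.OccSol
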