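import Crest.Agent.R106.StdIface
import Crest.Agent.R106.IterNum
import Crest.Agent.R106.IterCReal

/-! Row 106, node PIC (helper797): uniform bounds and convergence of the Picard sequence. -/

set_option autoImplicit false
open MeasureTheory Set Filter Topology
open scoped ContDiff Nat
open Crest.AnalysisR.VecCalc3 Crest.AnalysisR.PDE.RVM
open Crest.Agent.R106.IterNum

noncomputable section

namespace Crest.Agent.R106.Std

private lemma FBd.mono {k : ℕ} {E B : ℝ → R3 → R3} {t c c' : ℝ} (h : FBd k E B t c) (hc : c ≤ c') :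
    FBd k E B t c' := fun x => ⟨(h x).1.trans hc, (h x).2.trans hc⟩

private lemma FBt.mono {E B : ℝ → R3 → R3} {t c c' : ℝ} (h : FBt E B t c) (hc : c ≤ c') :
    FBt E B t c' := fun x => ⟨(h x).1.trans hc, (h x).2.trans hc⟩

private lemma fBd.mono {k : ℕ} {f : ℝ → R3 → R3 → ℝ} {t c c' : ℝ} (h : fBd k f t c) (hc : c ≤ c') :
    fBd k f t c' := fun z => (h z).trans hc

lemma pic_mst_le' {C T t : ℝ} (hC : 0 ≤ C) (ht : |t| ≤ T) : mst C t ≤ C * Real.exp (C * T) :=
  mst_le hC (abs_le.1 ht)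

lemma pic_iteratedFDeriv_zero_field {E : ℝ → R3 → R3} (h : ∀ (t : ℝ) (x : R3), E t x = 0) (k : ℕ)
    (t : ℝ) (x : R3) : iteratedFDeriv ℝ k (E t) x = 0 := by
  have : E t = fun _ => (0 : R3) := funext (h t)
  rw [this, iteratedFDeriv_fun_zero]
  rfl

variable {P : ℝ} {G : R3 → (R3 × R3) →L[ℝ] R3} {f₀ : R3 → R3 → ℝ} {E₀ B₀ : R3 → R3}
  {E B : ℕ → ℝ → R3 → R3} {f : ℕ → ℝ → R3 → R3 → ℝ}

lemma Seq.pic_zero_FBd (h : Seq P G f₀ E₀ B₀ E B f) (k : ℕ) (t : ℝ) {c : ℝ} (hc : 0 ≤ c) :
    FBd k (E 0) (B 0) t c := by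
  intro x
  rw [pic_iteratedFDeriv_zero_field h.E0, pic_iteratedFDeriv_zero_field h.B0]
  simpa using hc

lemma Seq.pic_zero_FBt (h : Seq P G f₀ E₀ B₀ E B f) (t : ℝ) {c : ℝ} (hc : 0 ≤ c) :
    FBt (E 0) (B 0) t c := by
  intro x
  have h1 : (fun s => E 0 s x) = fun _ => (0 : R3) := funext fun s => h.E0 s x
  have h2 : (fun s => B 0 s x) = fun _ => (0 : R3) := funext fun s => h.B0 s x
  rw [h1, h2]
  simpa using hc

/-- level 0 of the densities -/
lemma pic_exists_datum_bound (hadm : IsAdmissibleDatum f₀ E₀ B₀) :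
    ∃ C : ℝ, 0 ≤ C ∧ ∀ x v, |f₀ x v| ≤ C := by
  obtain ⟨-, hs, hc, -⟩ := hadm
  obtain ⟨C, hC⟩ := hc.exists_bound_of_continuous hs.continuous
  refine ⟨C, (norm_nonneg _).trans (hC (0, 0)), fun x v => ?_⟩
  simpa using hC (x, v)

lemma Step.pic_fBd_zero {E₁ B₁ : ℝ → R3 → R3} {f₁ : ℝ → R3 → R3 → ℝ} {E₁' B₁' : ℝ → R3 → R3}
    (h : Step P G f₀ E₀ B₀ E₁ B₁ f₁ E₁' B₁') {C : ℝ} (hC : ∀ x v, |f₀ x v| ≤ C) (t : ℝ) :
    fBd 0 f₁ t C := by
  intro z
  rw [norm_iteratedFDeriv_zero]
  obtain ⟨y, w, hy⟩ := h.values t z.1 z.2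
  simp only [hy]
  simpa using hC y w

/-- uniform bounds of all levels -/
theorem pic_unif (b0 : B0) (b1 : B1) (bk : Bk) (hG : IsTrunc P G)
    (hadm : IsAdmissibleDatum f₀ E₀ B₀) (h : Seq P G f₀ E₀ B₀ E B f) (T : ℝ) (k : ℕ) :
    ∃ C : ℝ, 0 ≤ C ∧ ∀ (n : ℕ) (t : ℝ), |t| ≤ T → FBd k (E n) (B n) t C ∧ fBd k (f n) t C := by
  obtain ⟨F, hF0, hF⟩ := pic_exists_datum_bound hadm
  -- level 0
  obtain ⟨C0, hC0, H0⟩ := b0 P G hG f₀ E₀ B₀ hadm T
  have K0 : ∀ (n : ℕ) (t : ℝ), |t| ≤ T → FBd 0 (E n) (B n) t (mst C0 t) := by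
    intro n
    induction n with
    | zero => intro t _; exact h.pic_zero_FBd 0 t (mst_nonneg hC0 t)
    | succ n ih =>
      intro t ht
      have := H0 (E n) (B n) (f n) (E (n + 1)) (B (n + 1)) (mst C0) (h.step n)
        (continuous_mst C0) ih t ht
      rwa [mst_fix hC0] at this
  set A0 : ℝ := C0 * Real.exp (C0 * T) with hA0
  have hA0' : 0 ≤ A0 := by positivity
  have K0' : ∀ (n : ℕ) (t : ℝ), |t| ≤ T → FBd 0 (E n) (B n) t A0 :=
    fun n t ht => (K0 n t ht).mono (pic_mst_le' hC0 ht)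
  -- strong induction
  induction k using Nat.strong_induction_on with
  | _ k IH =>
    rcases Nat.lt_or_ge k 2 with hk | hk
    · interval_cases k
      · refine ⟨max A0 F, hA0'.trans (le_max_left _ _), fun n t ht => ⟨?_, ?_⟩⟩
        · exact (K0' n t ht).mono (le_max_left _ _)
        · exact ((h.step n).pic_fBd_zero hF t).mono (le_max_right _ _)
      · obtain ⟨C1, hC1, H1⟩ := b1 P G hG f₀ E₀ B₀ hadm T A0
        have K1 : ∀ (n : ℕ) (t : ℝ), |t| ≤ T →
            FBd 1 (E n) (B n) t (mst C1 t) ∧ FBt (E n) (B n) t (mst C1 t) := by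
          intro n
          induction n with
          | zero =>
            intro t _
            exact ⟨h.pic_zero_FBd 1 t (mst_nonneg hC1 t), h.pic_zero_FBt t (mst_nonneg hC1 t)⟩
          | succ n ih =>
            intro t ht
            have := H1 (E n) (B n) (f n) (E (n + 1)) (B (n + 1)) (mst C1) (h.step n)
              (continuous_mst C1) (K0' n) ih t ht
            rw [mst_fix hC1] at this
            exact ⟨this.2.1, this.2.2⟩
        set A1 : ℝ := C1 * Real.exp (C1 * T) with hA1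
        have hA1' : 0 ≤ A1 := by positivity
        refine ⟨max A1 (Real.exp A1), hA1'.trans (le_max_left _ _), fun n t ht => ⟨?_, ?_⟩⟩
        · exact (K1 n t ht).1.mono ((pic_mst_le' hC1 ht).trans (le_max_left _ _))
        · have := H1 (E n) (B n) (f n) (E (n + 1)) (B (n + 1)) (mst C1) (h.step n)
            (continuous_mst C1) (K0' n) (K1 n) t ht
          rw [mst_fix hC1] at this
          exact this.1.mono ((Real.exp_le_exp.2 (pic_mst_le' hC1 ht)).trans (le_max_right _ _))
    · -- a common bound of the lower levels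
      have hlow : ∃ A : ℝ, 0 ≤ A ∧ ∀ j < k, ∀ (n : ℕ) (t : ℝ), |t| ≤ T →
          FBd j (E n) (B n) t A ∧ fBd j (f n) t A := by
        choose! c hc0 hc using IH
        refine ⟨∑ j ∈ Finset.range k, c j, Finset.sum_nonneg fun j hj =>
          hc0 j (Finset.mem_range.1 hj), fun j hj n t ht => ?_⟩
        have hle : c j ≤ ∑ j ∈ Finset.range k, c j :=
          Finset.single_le_sum (f := c) (fun i hi => hc0 i (Finset.mem_range.1 hi))
            (Finset.mem_range.2 hj)
        exact ⟨(hc j hj n t ht).1.mono hle, (hc j hj n t ht).2.mono hle⟩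
      obtain ⟨A, hA, hlow⟩ := hlow
      obtain ⟨Ck, hCk, Hk⟩ := bk P G hG f₀ E₀ B₀ hadm k T A hk
      have Kk : ∀ (n : ℕ) (t : ℝ), |t| ≤ T → FBd k (E n) (B n) t (mst Ck t) := by
        intro n
        induction n with
        | zero =>
          intro t _
          exact h.pic_zero_FBd k t (mst_nonneg hCk t)
        | succ n ih =>
          intro t ht
          have := Hk (E n) (B n) (f n) (E (n + 1)) (B (n + 1)) (mst Ck) (h.step n)
            (continuous_mst Ck) (fun s hs j hj => hlow j hj n s hs) ih t ht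
          rw [mst_fix hCk] at this
          exact this.2
      refine ⟨Ck * Real.exp (Ck * T), by positivity, fun n t ht => ⟨?_, ?_⟩⟩
      · exact (Kk n t ht).mono (pic_mst_le' hCk ht)
      · have := Hk (E n) (B n) (f n) (E (n + 1)) (B (n + 1)) (mst Ck) (h.step n)
            (continuous_mst Ck) (fun s hs j hj => hlow j hj n s hs) (Kk n) t ht
        rw [mst_fix hCk] at this
        exact this.1.mono (pic_mst_le' hCk ht)

lemma pic_FBd_zero_norm {E B : ℝ → R3 → R3} {t c : ℝ} (h : FBd 0 E B t c) (x : R3) :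
    ‖E t x‖ ≤ c ∧ ‖B t x‖ ≤ c := by
  have := h x
  simpa [norm_iteratedFDeriv_zero] using this

/-- **PIC**. -/
theorem pic (b0 : B0) (b1 : B1) (bk : Bk) (hd : Cdiff) : Pic := by
  intro P G hG f₀ E₀ B₀ hadm E B f h
  refine ⟨fun T k => ?_, fun T => ?_⟩
  · obtain ⟨C, -, hC⟩ := pic_unif b0 b1 bk hG hadm h T k
    exact ⟨C, hC⟩
  · rcases lt_or_ge T 0 with hT | hT
    · exact ⟨fun _ => 0, summable_zero, fun n t ht => absurd (abs_nonneg t) (by linarith)⟩
    obtain ⟨A0, hA0, h0⟩ := pic_unif b0 b1 bk hG hadm h T 0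
    obtain ⟨A1, hA1, h1⟩ := pic_unif b0 b1 bk hG hadm h T 1
    obtain ⟨C, hC, H⟩ := hd P G hG f₀ E₀ B₀ hadm T (max A0 A1)
    set A : ℝ := 2 * A0 with hA
    have hAn : 0 ≤ A := by positivity
    -- the increments
    set D : ℕ → ℝ → R3 → ℝ := fun n t x =>
      max ‖E (n + 1) t x - E n t x‖ ‖B (n + 1) t x - B n t x‖ with hD
    have hstart : ∀ t, |t| ≤ T → ∀ x, D 0 t x ≤ A := by
      intro t ht x
      have e1 := pic_FBd_zero_norm (h0 1 t ht).1 x
      have e0 := pic_FBd_zero_norm (h0 0 t ht).1 x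
      refine max_le ?_ ?_
      · exact (norm_sub_le _ _).trans (by linarith [e1.1, e0.1])
      · exact (norm_sub_le _ _).trans (by linarith [e1.2, e0.2])
    have hA' : ∀ (n : ℕ) (s : ℝ), |s| ≤ T →
        FBd 0 (E (n + 1)) (B (n + 1)) s (max A0 A1) ∧ FBd 0 (E n) (B n) s (max A0 A1) ∧
          fBd 1 (f n) s (max A0 A1) := fun n s hs =>
      ⟨(h0 (n + 1) s hs).1.mono (le_max_left _ _), (h0 n s hs).1.mono (le_max_left _ _),
        (h1 n s hs).2.mono (le_max_right _ _)⟩
    have hstep : ∀ (n : ℕ) (w : ℝ → ℝ), Continuous w → (∀ s, 0 ≤ w s) →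
        (∀ s, |s| ≤ T → ∀ i, D n s i ≤ w s) →
        ∀ t, |t| ≤ T → ∀ i, D (n + 1) t i ≤ C * |∫ s in (0:ℝ)..t, w s| := by
      intro n w hw _ hDw t ht x
      have := H (E (n + 1)) (B (n + 1)) (f (n + 1)) (E (n + 2)) (B (n + 2))
        (E n) (B n) (f n) (E (n + 1)) (B (n + 1)) w (h.step (n + 1)) (h.step n) hw (hA' n)
        (fun s hs x => ⟨(le_max_left _ _).trans (hDw s hs x), (le_max_right _ _).trans (hDw s hs x)⟩)
        t ht
      exact max_le (this.2 x).1 (this.2 x).2
    have hfact := Crest.Agent.R106.IterC.fact_bound hC hAn hstart hstep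
    refine ⟨fun n => A * (C * T) ^ n / n ! + A * (C * T) ^ (n + 1) / (n + 1)!, ?_, ?_⟩
    · have hs : Summable fun n : ℕ => A * (C * T) ^ n / n ! := by
        simpa [mul_div_assoc] using (Real.summable_pow_div_factorial (C * T)).mul_left A
      exact hs.add ((summable_nat_add_iff 1).2 hs)
    · intro n t ht x
      have m0 : ∀ m : ℕ, A * (C * |t|) ^ m / m ! ≤ A * (C * T) ^ m / m ! := by
        intro m; gcongr
      have p0 : ∀ m : ℕ, 0 ≤ A * (C * T) ^ m / m ! := by
        intro m; positivity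
      have q := (hfact n t ht x).trans (m0 n)
      have hw : Continuous fun s : ℝ => A * (C * |s|) ^ n / n ! := by fun_prop
      have := (H (E (n + 1)) (B (n + 1)) (f (n + 1)) (E (n + 2)) (B (n + 2))
        (E n) (B n) (f n) (E (n + 1)) (B (n + 1)) (fun s => A * (C * |s|) ^ n / n !)
        (h.step (n + 1)) (h.step n) hw (hA' n)
        (fun s hs x => ⟨(le_max_left _ _).trans (hfact n s hs x),
          (le_max_right _ _).trans (hfact n s hs x)⟩) t ht).1 x
      have hint : C * |∫ s in (0:ℝ)..t, A * (C * |s|) ^ n / n !|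
          ≤ A * (C * T) ^ (n + 1) / (n + 1)! := by
        -- use the factorial bound for the model sequence
        have e : C * |∫ s in (0:ℝ)..t, A * (C * |s|) ^ n / n !|
            = A * (C * |t|) ^ (n + 1) / (n + 1)! := by
          have h2 : (∫ s in (0:ℝ)..t, A * (C * |s|) ^ n / n !)
              = (A * C ^ n / n !) * ∫ s in (0:ℝ)..t, |s| ^ n := by
            rw [← intervalIntegral.integral_const_mul]
            apply intervalIntegral.integral_congr
            intro s _
            simp only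
            rw [mul_pow]
            ring
          rw [h2, abs_mul, Crest.Agent.R106.IterC.abs_integral_abs_pow,
            abs_of_nonneg (by positivity : 0 ≤ A * C ^ n / n !), Nat.factorial_succ]
          push_cast
          have hn : ((n:ℝ) + 1) ≠ 0 := by positivity
          have hf : ((n ! : ℕ) : ℝ) ≠ 0 := by positivity
          rw [mul_pow]
          field_simp
          ring
        rw [e]
        exact m0 (n + 1)
      refine ⟨?_, ?_, fun v => ?_⟩
      · exact (le_max_left _ _).trans (q.trans (le_add_of_nonneg_right (p0 (n + 1))))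
      · exact (le_max_right _ _).trans (q.trans (le_add_of_nonneg_right (p0 (n + 1))))
      · exact ((this v).trans hint).trans (le_add_of_nonneg_left (p0 n))

end Crest.Agent.R106.Std
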