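import Mathlib
import Crest.Agent.R106.StdIface
import Crest.Agent.R106.LimDefs

/-!
Row 106, node PICEX (helper229): `picEx : Std.Trunc → Std.StepEx → Std.Pic → Std.TB → PicEx`.
-/

set_option autoImplicit false
open MeasureTheory Set Filter Topology
open scoped ContDiff
open Crest.AnalysisR.VecCalc3 Crest.AnalysisR.PDE.RVM

namespace Crest.Agent.R106.Std

/-- `TruncForce` from `IsTrunc`. -/
theorem IsTrunc.truncForce {P : ℝ} {G : R3 → (R3 × R3) →L[ℝ] R3} (hG : IsTrunc P G) :
    TruncForce P (fun v e b => G v (e, b)) := by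
  refine ⟨?_, ?_, fun v e b hv => hG.eq v e b hv⟩
  · exact (hG.smooth.comp contDiff_fst).clm_apply
      ((contDiff_fst.comp contDiff_snd).prodMk (contDiff_snd.comp contDiff_snd))
  · obtain ⟨C, hC⟩ := (isCompact_closedBall (0 : R3) (2 * P)).exists_bound_of_continuousOn
      (f := G) hG.smooth.continuous.continuousOn
    refine ⟨max C 0, le_max_right _ _, fun v e b => ?_⟩
    have hn : ‖G v‖ ≤ max C 0 := by
      by_cases hv : ‖v‖ ≤ 2 * P
      · exact (hC v (by simpa using hv)).trans (le_max_left _ _)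
      · push Not at hv
        rw [hG.supp v hv.le, norm_zero]; exact le_max_right _ _
    calc ‖G v (e, b)‖ ≤ ‖G v‖ * ‖(e, b)‖ := (G v).le_opNorm _
      _ ≤ max C 0 * (‖e‖ + ‖b‖) := by
        refine mul_le_mul hn ?_ (norm_nonneg _) (le_max_right _ _)
        rw [Prod.norm_mk]
        exact max_le_add_of_nonneg (norm_nonneg _) (norm_nonneg _)

/-- the zero field is smooth and bounded with all derivatives -/
theorem SF_zero : SF (fun _ _ => (0 : R3)) := by
  refine ⟨contDiff_const, fun T k => ⟨0, fun t _ x => ?_⟩⟩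
  rcases Nat.eq_zero_or_pos k with hk | hk
  · subst hk; simp
  · rw [iteratedFDeriv_const_of_ne (by omega)]; simp

/-- the Picard sequence exists -/
theorem exists_seq (hSt : StepEx) {P : ℝ} {G : R3 → (R3 × R3) →L[ℝ] R3} (hG : IsTrunc P G)
    {f₀ : R3 → R3 → ℝ} {E₀ B₀ : R3 → R3} (hadm : IsAdmissibleDatum f₀ E₀ B₀) :
    ∃ (E B : ℕ → ℝ → R3 → R3) (f : ℕ → ℝ → R3 → R3 → ℝ), Seq P G f₀ E₀ B₀ E B f := by
  classical
  let St := {s : (ℝ → R3 → R3) × (ℝ → R3 → R3) // SF s.1 ∧ SF s.2}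
  have hst : ∀ s : St, ∃ (f : ℝ → R3 → R3 → ℝ) (E' B' : ℝ → R3 → R3),
      Step P G f₀ E₀ B₀ s.1.1 s.1.2 f E' B' := fun s =>
    hSt P G hG f₀ E₀ B₀ hadm s.1.1 s.1.2 s.2.1 s.2.2
  choose F E' B' hS using hst
  let next : St → St := fun s => ⟨(E' s, B' s), (hS s).outE, (hS s).outB⟩
  let seq : ℕ → St := fun n => Nat.rec (⟨(fun _ _ => 0, fun _ _ => 0), SF_zero, SF_zero⟩ : St)
    (fun _ s => next s) n
  refine ⟨fun n => (seq n).1.1, fun n => (seq n).1.2, fun n => F (seq n),
    fun t x => rfl, fun t x => rfl, fun n => hS (seq n)⟩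

/-- bounds of the support of an admissible datum -/
theorem exists_supp {f₀ : R3 → R3 → ℝ} {E₀ B₀ : R3 → R3} (hadm : IsAdmissibleDatum f₀ E₀ B₀) :
    ∃ R : ℝ, 0 ≤ R ∧ ∀ x v : R3, (R < ‖x‖ ∨ R < ‖v‖) → f₀ x v = 0 := by
  obtain ⟨R, hR⟩ := (hadm.2.2.1.isCompact).isBounded.exists_norm_le
  refine ⟨max R 0, le_max_right _ _, fun x v hv => ?_⟩
  by_contra hne
  have h1 : (x, v) ∈ tsupport (Function.uncurry f₀) := subset_tsupport _ hne
  have h2 : ‖(x, v)‖ ≤ R := hR _ h1
  have h3 : ‖x‖ ≤ R := (norm_fst_le (x, v)).trans h2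
  have h4 : ‖v‖ ≤ R := (norm_snd_le (x, v)).trans h2
  have h5 : R ≤ max R 0 := le_max_left _ _
  rcases hv with h | h <;> linarith

/-- Node PICEX. -/
theorem picEx (hTr : Trunc) (hSt : StepEx) (hPic : Pic) (hTB : TB) : PicEx := by
  intro P hP
  obtain ⟨G, hG⟩ := hTr P hP
  refine ⟨fun v e b => G v (e, b), hG.truncForce, fun f₀ E₀ B₀ hadm => ?_⟩
  obtain ⟨E, B, f, hseq⟩ := exists_seq hSt hG hadm
  obtain ⟨hbd, hconv⟩ := hPic P G hG f₀ E₀ B₀ hadm E B f hseq
  have htb := hTB P G hG f₀ E₀ B₀ hadm E B f hseq hbd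
  have habs : ∀ {T t : ℝ}, t ∈ Icc (-T) T → |t| ≤ T := fun ht => abs_le.mpr ht
  refine ⟨f, E, B, ?_⟩
  exact {
    fs := fun n => (hseq.step n).pc.1
    Es := fun n => (hseq.step n).inE.1
    Bs := fun n => (hseq.step n).inB.1
    f0 := fun n => (hseq.step n).init
    E0 := fun n => (hseq.step n).initE
    B0 := fun n => (hseq.step n).initB
    vlasov := fun n t x v => (hseq.step n).trans t x v
    amp := fun n t x i => ((hseq.step n).maxwell t x).1 i
    far := fun n t x i => ((hseq.step n).maxwell t x).2.1 i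
    gauss := fun n t x => ((hseq.step n).maxwell t x).2.2.1
    nomon := fun n t x => ((hseq.step n).maxwell t x).2.2.2
    supp := by
      intro T
      obtain ⟨R, hR0, hR⟩ := exists_supp hadm
      refine ⟨max (max R (2 * P)) (R + T), fun n t ht x v hxv => ?_⟩
      rcases hxv with h | h
      · refine (hseq.step n).suppx R (fun x v hx => hR x v (Or.inl hx)) t x v ?_
        have h1 := habs ht
        have h2 : R + T < ‖x‖ := lt_of_le_of_lt (le_max_right _ _) h
        linarith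
      · refine (hseq.step n).suppv (max R (2 * P)) (le_max_right _ _)
          (fun x v hv => hR x v (Or.inr (lt_of_le_of_lt (le_max_left _ _) hv))) t x v ?_
        exact lt_of_le_of_lt (le_max_left _ _) h
    bdf := by
      intro T k
      obtain ⟨C, hC⟩ := htb T k
      exact ⟨C, fun n t ht x v => (hC n t (habs ht)).2 x v⟩
    bdE := by
      intro T k
      obtain ⟨C, hC⟩ := htb T k
      exact ⟨C, fun n t ht x => ((hC n t (habs ht)).1 x).1⟩
    bdB := by
      intro T k
      obtain ⟨C, hC⟩ := htb T k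
      exact ⟨C, fun n t ht x => ((hC n t (habs ht)).1 x).2⟩
    conv := by
      intro T
      obtain ⟨u, hu, hC⟩ := hconv T
      exact ⟨u, hu, fun n t ht x => hC n t (habs ht) x⟩ }

end Crest.Agent.R106.Std
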