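import Mathlib

/-!
Row 106, standard part, module SMOOTHLIM.

If `g n` are smooth on an open set `U` of a finite dimensional space, every derivative is bounded on
compact subsets of `U` uniformly in `n`, and `g n → g∞` pointwise on `U`, then `g∞` is smooth on `U`
and all derivatives converge locally uniformly.
-/

set_option autoImplicit false
open Filter Topology Set Metric
open scoped ContDiff

namespace Crest.Agent.R106.SmoothLim

universe u

/-- pointwise convergence + locally uniform bound of the derivative ⟹ locally uniform convergence -/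
theorem tendstoLocallyUniformlyOn_of_bounded_fderiv {E F : Type*} [NormedAddCommGroup E]
    [NormedSpace ℝ E] [FiniteDimensional ℝ E] [NormedAddCommGroup F] [NormedSpace ℝ F]
    {U : Set E} (hU : IsOpen U) {g : ℕ → E → F} {g8 : E → F}
    (hg : ∀ n, ∀ x ∈ U, DifferentiableAt ℝ (g n) x)
    (hb : ∀ K : Set E, K ⊆ U → IsCompact K → ∃ C : ℝ, ∀ n, ∀ x ∈ K, ‖fderiv ℝ (g n) x‖ ≤ C)
    (hlim : ∀ x ∈ U, Tendsto (fun n => g n x) atTop (𝓝 (g8 x))) :
    TendstoLocallyUniformlyOn g g8 atTop U := by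
  have : ProperSpace E := FiniteDimensional.proper ℝ E
  rw [Metric.tendstoLocallyUniformlyOn_iff]
  intro ε hε x hx
  obtain ⟨r, hr, hrU⟩ := Metric.isOpen_iff.1 hU x hx
  have hr2 : (0:ℝ) < r / 2 := by positivity
  have hsub : closedBall x (r / 2) ⊆ U :=
    (closedBall_subset_ball (by linarith)).trans hrU
  obtain ⟨C, hC⟩ := hb _ hsub (isCompact_closedBall x (r / 2))
  set D := max C 1 with hD
  have hD1 : 1 ≤ D := le_max_right _ _
  have hD0 : 0 < D := by linarith
  have hLip : ∀ n, ∀ y ∈ closedBall x (r / 2), ∀ z ∈ closedBall x (r / 2),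
      ‖g n z - g n y‖ ≤ D * ‖z - y‖ := by
    intro n y hy z hz
    exact Convex.norm_image_sub_le_of_norm_fderiv_le (fun w hw => hg n w (hsub hw))
      (fun w hw => (hC n w hw).trans (le_max_left _ _)) (convex_closedBall x (r / 2)) hy hz
  have hLip8 : ∀ y ∈ closedBall x (r / 2), ∀ z ∈ closedBall x (r / 2),
      ‖g8 z - g8 y‖ ≤ D * ‖z - y‖ := by
    intro y hy z hz
    have h1 : Tendsto (fun n => ‖g n z - g n y‖) atTop (𝓝 ‖g8 z - g8 y‖) :=
      ((hlim z (hsub hz)).sub (hlim y (hsub hy))).norm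
    exact le_of_tendsto' h1 (fun n => hLip n y hy z hz)
  set ρ := min (r / 2) (ε / (4 * D)) with hρ
  have hρ0 : 0 < ρ := lt_min hr2 (by positivity)
  refine ⟨ball x ρ, mem_nhdsWithin_of_mem_nhds (ball_mem_nhds x hρ0), ?_⟩
  have hx' : x ∈ closedBall x (r / 2) := mem_closedBall_self hr2.le
  have hev : ∀ᶠ n in atTop, dist (g n x) (g8 x) < ε / 4 :=
    (Metric.tendsto_nhds.1 (hlim x hx)) (ε / 4) (by positivity)
  filter_upwards [hev] with n hn y hy
  have hyb : y ∈ closedBall x (r / 2) := by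
    rw [mem_closedBall]
    exact (le_of_lt (mem_ball.1 hy)).trans (min_le_left _ _)
  have hyd : ‖y - x‖ ≤ ε / (4 * D) := by
    rw [← dist_eq_norm]
    exact (le_of_lt (mem_ball.1 hy)).trans (min_le_right _ _)
  have e1 : ‖g n y - g n x‖ ≤ ε / 4 := by
    refine (hLip n x hx' y hyb).trans ?_
    calc D * ‖y - x‖ ≤ D * (ε / (4 * D)) := by gcongr
      _ = ε / 4 := by field_simp
  have e2 : ‖g8 y - g8 x‖ ≤ ε / 4 := by
    refine (hLip8 x hx' y hyb).trans ?_
    calc D * ‖y - x‖ ≤ D * (ε / (4 * D)) := by gcongr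
      _ = ε / 4 := by field_simp
  rw [dist_eq_norm] at hn ⊢
  have : g8 y - g n y = (g8 y - g8 x) - (g n x - g8 x) - (g n y - g n x) := by abel
  rw [this]
  have h3 := norm_sub_le ((g8 y - g8 x) - (g n x - g8 x)) (g n y - g n x)
  have h4 := norm_sub_le (g8 y - g8 x) (g n x - g8 x)
  linarith

/-- The derivatives converge pointwise (Landau's inequality). -/
theorem exists_tendsto_fderiv {E F : Type*} [NormedAddCommGroup E]
    [NormedSpace ℝ E] [FiniteDimensional ℝ E] [NormedAddCommGroup F] [NormedSpace ℝ F]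
    [CompleteSpace F]
    {U : Set E} (hU : IsOpen U) {g : ℕ → E → F} {g8 : E → F}
    (hg : ∀ n, ∀ x ∈ U, DifferentiableAt ℝ (g n) x)
    (hg' : ∀ n, ∀ x ∈ U, DifferentiableAt ℝ (fderiv ℝ (g n)) x)
    (hb' : ∀ K : Set E, K ⊆ U → IsCompact K →
      ∃ C : ℝ, ∀ n, ∀ x ∈ K, ‖fderiv ℝ (fderiv ℝ (g n)) x‖ ≤ C)
    (hlim : TendstoLocallyUniformlyOn g g8 atTop U) {x : E} (hx : x ∈ U) :
    ∃ L : E →L[ℝ] F, Tendsto (fun n => fderiv ℝ (g n) x) atTop (𝓝 L) := by
  have : ProperSpace E := FiniteDimensional.proper ℝ E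
  apply cauchySeq_tendsto_of_complete
  rw [Metric.cauchySeq_iff]
  intro ε hε
  obtain ⟨r, hr, hrU⟩ := Metric.isOpen_iff.1 hU x hx
  have hr2 : (0:ℝ) < r / 2 := by positivity
  have hsub : closedBall x (r / 2) ⊆ U :=
    (closedBall_subset_ball (by linarith)).trans hrU
  obtain ⟨C, hC⟩ := hb' _ hsub (isCompact_closedBall x (r / 2))
  set D := max C 1 with hD
  have hD1 : 1 ≤ D := le_max_right _ _
  have hD0 : 0 < D := by linarith
  have hC' : ∀ n, ∀ y ∈ closedBall x (r / 2), ‖fderiv ℝ (fderiv ℝ (g n)) y‖ ≤ D :=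
    fun n y hy => (hC n y hy).trans (le_max_left _ _)
  -- step size
  set t := min (r / 2) (ε / (16 * D)) with ht
  have ht0 : 0 < t := lt_min hr2 (by positivity)
  have htr : t ≤ r / 2 := min_le_left _ _
  have htD : D * t ≤ ε / 16 := by
    calc D * t ≤ D * (ε / (16 * D)) := by gcongr; exact min_le_right _ _
      _ = ε / 16 := by field_simp
  have hunif : TendstoUniformlyOn g g8 atTop (closedBall x (r / 2)) :=
    (tendstoLocallyUniformlyOn_iff_forall_isCompact hU).1 hlim _ hsub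
      (isCompact_closedBall x (r / 2))
  rw [Metric.tendstoUniformlyOn_iff] at hunif
  obtain ⟨N, hN⟩ := eventually_atTop.1 (hunif (ε * t / 32) (by positivity))
  refine ⟨N, fun n hn m hm => ?_⟩
  -- the difference
  set h : E → F := fun y => g n y - g m y with hh
  have hdh : ∀ y ∈ U, HasFDerivAt h (fderiv ℝ (g n) y - fderiv ℝ (g m) y) y := fun y hy =>
    (hg n y hy).hasFDerivAt.sub (hg m y hy).hasFDerivAt
  have hx' : x ∈ closedBall x t := mem_closedBall_self ht0.le
  have hts : closedBall x t ⊆ closedBall x (r / 2) := closedBall_subset_closedBall htr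
  -- first derivative is Lipschitz
  have hl : ∀ k, ∀ y ∈ closedBall x t, ‖fderiv ℝ (g k) y - fderiv ℝ (g k) x‖ ≤ D * t := by
    intro k y hy
    have := Convex.norm_image_sub_le_of_norm_fderiv_le (f := fderiv ℝ (g k)) (C := D)
      (fun w hw => hg' k w (hsub (hts hw))) (fun w hw => hC' k w (hts hw))
      (convex_closedBall x t) hx' hy
    refine this.trans ?_
    gcongr
    rw [← dist_eq_norm]; exact hy
  have hsup : ∀ k, N ≤ k → ∀ y ∈ closedBall x t, ‖g8 y - g k y‖ ≤ ε * t / 32 := by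
    intro k hk y hy
    have := hN k hk y (hts hy)
    rw [dist_eq_norm] at this
    exact this.le
  have hhs : ∀ y ∈ closedBall x t, ‖h y‖ ≤ ε * t / 16 := by
    intro y hy
    have e : h y = (g8 y - g m y) - (g8 y - g n y) := by simp [hh]
    rw [e]
    have := norm_sub_le (g8 y - g m y) (g8 y - g n y)
    linarith [hsup n hn y hy, hsup m hm y hy]
  have hbd : ∀ y ∈ closedBall x t, ‖(fderiv ℝ (g n) y - fderiv ℝ (g m) y) -
      (fderiv ℝ (g n) x - fderiv ℝ (g m) x)‖ ≤ ε / 8 := by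
    intro y hy
    have e : (fderiv ℝ (g n) y - fderiv ℝ (g m) y) - (fderiv ℝ (g n) x - fderiv ℝ (g m) x)
      = (fderiv ℝ (g n) y - fderiv ℝ (g n) x) - (fderiv ℝ (g m) y - fderiv ℝ (g m) x) := by abel
    rw [e]
    have := norm_sub_le (fderiv ℝ (g n) y - fderiv ℝ (g n) x)
      (fderiv ℝ (g m) y - fderiv ℝ (g m) x)
    linarith [hl n y hy, hl m y hy]
  have key : ‖fderiv ℝ (g n) x - fderiv ℝ (g m) x‖ ≤ ε / 2 := by
    refine ContinuousLinearMap.opNorm_le_of_shell' (ε := t) (c := (1/2 : ℝ)) ht0 (by positivity)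
      (by norm_num) ?_
    intro v hv1 hv2
    have hv3 : t / 2 ≤ ‖v‖ := by
      have : ‖(1/2:ℝ)‖ = 1/2 := by norm_num
      rw [this] at hv1; linarith
    have hy : x + v ∈ closedBall x t := by simp [hv2.le]
    have := Convex.norm_image_sub_le_of_norm_hasFDerivWithin_le' (f := h)
      (f' := fun y => fderiv ℝ (g n) y - fderiv ℝ (g m) y)
      (φ := fderiv ℝ (g n) x - fderiv ℝ (g m) x) (C := ε / 8)
      (fun y hy => (hdh y (hsub (hts hy))).hasFDerivWithinAt) hbd (convex_closedBall x t) hx' hy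
    rw [add_sub_cancel_left] at this
    have h1 := hhs (x + v) hy
    have h2 := hhs x hx'
    have h3 : (fderiv ℝ (g n) x - fderiv ℝ (g m) x) v = (h (x + v) - h x) -
      (h (x + v) - h x - (fderiv ℝ (g n) x - fderiv ℝ (g m) x) v) := by abel
    have h4 := norm_sub_le (h (x + v) - h x)
      (h (x + v) - h x - (fderiv ℝ (g n) x - fderiv ℝ (g m) x) v)
    rw [← h3] at h4
    have h5 := norm_sub_le (h (x + v)) (h x)
    nlinarith [norm_nonneg v]
  rw [dist_eq_norm]
  linarith

/-- **SMOOTHLIM.** -/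
theorem smoothLim_aux (k : ℕ) : ∀ {E F : Type u} [NormedAddCommGroup E]
    [NormedSpace ℝ E] [FiniteDimensional ℝ E] [NormedAddCommGroup F] [NormedSpace ℝ F]
    [CompleteSpace F] {U : Set E} (_ : IsOpen U) (g : ℕ → E → F) (g8 : E → F)
    (_ : ∀ n, ContDiffOn ℝ ∞ (g n) U)
    (_ : ∀ j : ℕ, ∀ K : Set E, K ⊆ U → IsCompact K →
      ∃ C : ℝ, ∀ n, ∀ x ∈ K, ‖iteratedFDeriv ℝ j (g n) x‖ ≤ C)
    (_ : ∀ x ∈ U, Tendsto (fun n => g n x) atTop (𝓝 (g8 x))),
    ContDiffOn ℝ k g8 U ∧
      TendstoLocallyUniformlyOn (fun n => iteratedFDeriv ℝ k (g n)) (iteratedFDeriv ℝ k g8)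
        atTop U := by
  induction k with
  | zero =>
    intro E F _ _ _ _ _ _ U hU g g8 hg hb hlim
    have hd : ∀ n, ∀ x ∈ U, DifferentiableAt ℝ (g n) x := fun n x hx =>
      ((hg n).differentiableOn (by simp)).differentiableAt (hU.mem_nhds hx)
    have h0 : TendstoLocallyUniformlyOn g g8 atTop U := by
      refine tendstoLocallyUniformlyOn_of_bounded_fderiv hU hd ?_ hlim
      intro K hK hKc
      obtain ⟨C, hC⟩ := hb 1 K hK hKc
      refine ⟨C, fun n x hx => ?_⟩
      rw [← norm_iteratedFDeriv_one]; exact hC n x hx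
    refine ⟨?_, ?_⟩
    · simp only [Nat.cast_zero]
      rw [contDiffOn_zero]
      exact h0.continuousOn (Frequently.of_forall fun n => (hg n).continuousOn)
    · have := (continuousMultilinearCurryFin0 ℝ E F).symm.isometry.uniformContinuous.comp_tendstoLocallyUniformlyOn h0
      exact this
  | succ k ih =>
    intro E F _ _ _ _ _ _ U hU g g8 hg hb hlim
    have hd : ∀ n, ∀ x ∈ U, DifferentiableAt ℝ (g n) x := fun n x hx =>
      ((hg n).differentiableOn (by simp)).differentiableAt (hU.mem_nhds hx)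
    have h0 : TendstoLocallyUniformlyOn g g8 atTop U := by
      refine tendstoLocallyUniformlyOn_of_bounded_fderiv hU hd ?_ hlim
      intro K hK hKc
      obtain ⟨C, hC⟩ := hb 1 K hK hKc
      refine ⟨C, fun n x hx => ?_⟩
      rw [← norm_iteratedFDeriv_one]; exact hC n x hx
    have hg' : ∀ n, ContDiffOn ℝ ∞ (fderiv ℝ (g n)) U := fun n =>
      ((contDiffOn_infty_iff_fderiv_of_isOpen hU).1 (hg n)).2
    have hd' : ∀ n, ∀ x ∈ U, DifferentiableAt ℝ (fderiv ℝ (g n)) x := fun n x hx =>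
      ((hg' n).differentiableOn (by simp)).differentiableAt (hU.mem_nhds hx)
    have hb' : ∀ j : ℕ, ∀ K : Set E, K ⊆ U → IsCompact K →
        ∃ C : ℝ, ∀ n, ∀ x ∈ K, ‖iteratedFDeriv ℝ j (fderiv ℝ (g n)) x‖ ≤ C := by
      intro j K hK hKc
      obtain ⟨C, hC⟩ := hb (j + 1) K hK hKc
      refine ⟨C, fun n x hx => ?_⟩
      rw [norm_iteratedFDeriv_fderiv]; exact hC n x hx
    have hex : ∀ x ∈ U, ∃ L : E →L[ℝ] F, Tendsto (fun n => fderiv ℝ (g n) x) atTop (𝓝 L) := by
      intro x hx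
      refine exists_tendsto_fderiv hU hd hd' ?_ h0 hx
      intro K hK hKc
      obtain ⟨C, hC⟩ := hb' 1 K hK hKc
      refine ⟨C, fun n x hx => ?_⟩
      rw [← norm_iteratedFDeriv_one]; exact hC n x hx
    classical
    choose! L hL using hex
    have h1 := ih hU (fun n => fderiv ℝ (g n)) L hg' hb' hL
    have hLlu : TendstoLocallyUniformlyOn (fun n => fderiv ℝ (g n)) L atTop U := by
      refine tendstoLocallyUniformlyOn_of_bounded_fderiv hU hd' ?_ hL
      intro K hK hKc
      obtain ⟨C, hC⟩ := hb' 1 K hK hKc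
      refine ⟨C, fun n x hx => ?_⟩
      rw [← norm_iteratedFDeriv_one]; exact hC n x hx
    have hder : ∀ x ∈ U, HasFDerivAt g8 (L x) x := fun x hx =>
      hasFDerivAt_of_tendstoLocallyUniformlyOn hU hLlu
        (fun n y hy => (hd n y hy).hasFDerivAt) hlim hx
    have hEq : Set.EqOn (fderiv ℝ g8) L U := fun x hx => (hder x hx).fderiv
    have hcd : ContDiffOn ℝ k (fderiv ℝ g8) U := h1.1.congr hEq
    refine ⟨?_, ?_⟩
    · rw [Nat.cast_succ, contDiffOn_succ_iff_fderiv_of_isOpen hU]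
      exact ⟨fun x hx => (hder x hx).differentiableAt.differentiableWithinAt, by simp, hcd⟩
    · have hiso : UniformContinuous
          (continuousMultilinearCurryRightEquiv' ℝ k E F).symm :=
        (continuousMultilinearCurryRightEquiv' ℝ k E F).symm.isometry.uniformContinuous
      have h2 := hiso.comp_tendstoLocallyUniformlyOn h1.2
      have e1 : (fun n => iteratedFDeriv ℝ (k + 1) (g n)) = fun n =>
          (continuousMultilinearCurryRightEquiv' ℝ k E F).symm ∘
            iteratedFDeriv ℝ k (fderiv ℝ (g n)) := by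
        funext n x
        exact iteratedFDeriv_succ_eq_comp_right
      have e2 : Set.EqOn ((continuousMultilinearCurryRightEquiv' ℝ k E F).symm ∘
            iteratedFDeriv ℝ k L) (iteratedFDeriv ℝ (k + 1) g8) U := by
        intro x hx
        have : L =ᶠ[𝓝 x] fderiv ℝ g8 := by
          filter_upwards [hU.mem_nhds hx] with y hy using (hEq hy).symm
        rw [iteratedFDeriv_succ_eq_comp_right]
        simp only [Function.comp]
        rw [(this.iteratedFDeriv ℝ k).eq_of_nhds]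
      rw [e1]
      exact h2.congr_right e2

theorem smoothLim {E F : Type u} [NormedAddCommGroup E]
    [NormedSpace ℝ E] [FiniteDimensional ℝ E] [NormedAddCommGroup F] [NormedSpace ℝ F]
    [CompleteSpace F] {U : Set E} (hU : IsOpen U) (g : ℕ → E → F) (g8 : E → F)
    (hg : ∀ n, ContDiffOn ℝ ∞ (g n) U)
    (hb : ∀ j : ℕ, ∀ K : Set E, K ⊆ U → IsCompact K →
      ∃ C : ℝ, ∀ n, ∀ x ∈ K, ‖iteratedFDeriv ℝ j (g n) x‖ ≤ C)
    (hlim : ∀ x ∈ U, Tendsto (fun n => g n x) atTop (𝓝 (g8 x))) :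
    ContDiffOn ℝ ∞ g8 U ∧
      ∀ k : ℕ, TendstoLocallyUniformlyOn (fun n => iteratedFDeriv ℝ k (g n))
        (iteratedFDeriv ℝ k g8) atTop U := by
  refine ⟨contDiffOn_infty.2 fun k => (smoothLim_aux k hU g g8 hg hb hlim).1, fun k =>
    (smoothLim_aux k hU g g8 hg hb hlim).2⟩

/-- Version on the whole space, with bounds on compact sets. -/
theorem smoothLim_univ {E F : Type u} [NormedAddCommGroup E]
    [NormedSpace ℝ E] [FiniteDimensional ℝ E] [NormedAddCommGroup F] [NormedSpace ℝ F]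
    [CompleteSpace F] (g : ℕ → E → F) (g8 : E → F)
    (hg : ∀ n, ContDiff ℝ ∞ (g n))
    (hb : ∀ j : ℕ, ∀ K : Set E, IsCompact K →
      ∃ C : ℝ, ∀ n, ∀ x ∈ K, ‖iteratedFDeriv ℝ j (g n) x‖ ≤ C)
    (hlim : ∀ x, Tendsto (fun n => g n x) atTop (𝓝 (g8 x))) :
    ContDiff ℝ ∞ g8 ∧
      ∀ k : ℕ, TendstoLocallyUniformly (fun n => iteratedFDeriv ℝ k (g n))
        (iteratedFDeriv ℝ k g8) atTop := by
  have h := smoothLim isOpen_univ g g8 (fun n => (hg n).contDiffOn)
    (fun j K _ hK => hb j K hK) (fun x _ => hlim x)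
  refine ⟨contDiffOn_univ.1 h.1, fun k => ?_⟩
  rw [← tendstoLocallyUniformlyOn_univ]
  exact h.2 k

end Crest.Agent.R106.SmoothLim
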