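import Crest.Agent.R106.LimDefs
import Crest.Agent.R106.SmoothLim
import Crest.Agent.R106.Trunc

/-! Row 106: `SLim` and `TruncForce` from SMOOTHLIM and TRUNC. -/

set_option autoImplicit false
open Set Filter Topology
open scoped ContDiff
open Crest.AnalysisR.VecCalc3 Crest.AnalysisR.PDE.RVM

namespace Crest.Agent.R106

theorem sLim {X Y : Type} [NormedAddCommGroup X] [NormedSpace ℝ X] [FiniteDimensional ℝ X]
    [NormedAddCommGroup Y] [NormedSpace ℝ Y] [CompleteSpace Y] : SLim X Y := by
  intro g h hg hb hlim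
  obtain ⟨h1, h2⟩ := SmoothLim.smoothLim_univ g h hg hb hlim
  refine ⟨h1, fun x => ?_⟩
  have h3 : Tendsto (fun n => iteratedFDeriv ℝ 1 (g n) x) atTop (𝓝 (iteratedFDeriv ℝ 1 h x)) := by
    have := (h2 1)
    rw [← tendstoLocallyUniformlyOn_univ] at this
    exact this.tendsto_at (mem_univ x)
  rw [tendsto_iff_norm_sub_tendsto_zero] at h3 ⊢
  refine h3.congr fun n => ?_
  have hd1 : DifferentiableAt ℝ (g n) x := ((hg n).differentiable (by simp)) x
  have hd2 : DifferentiableAt ℝ h x := (h1.differentiable (by simp)) x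
  have e : iteratedFDeriv ℝ 1 (g n) x - iteratedFDeriv ℝ 1 h x
      = iteratedFDeriv ℝ 1 (fun y => g n y - h y) x := by
    exact (iteratedFDeriv_sub_apply (((hg n).contDiffAt).of_le (by exact_mod_cast le_top))
      ((h1.contDiffAt).of_le (by exact_mod_cast le_top))).symm
  rw [e, norm_iteratedFDeriv_one, fderiv_fun_sub hd1 hd2]

theorem truncForce {P : ℝ} (hP : 0 < P) : TruncForce P (Trunc.G P) where
  smooth := Trunc.G_contDiff P
  bdd := Trunc.G_bound hP
  agree := fun _ e b hv => Trunc.G_eq_lorentz hP hv e b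

end Crest.Agent.R106
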