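import Mathlib
import Crest.Prelude.Def_VlasovMaxwell

/-!
Row 106, module SRC / MOM (helper105): velocity moments of a smooth density are smooth, derivatives
pass under the integral, continuity equation.
-/

set_option autoImplicit false
set_option linter.unusedSectionVars false

open MeasureTheory Set Filter Topology
open scoped ContDiff
open Crest.AnalysisR.VecCalc3 Crest.AnalysisR.PDE.RVM

noncomputable section

namespace Crest.Agent.R106.Src

section General

variable {Y V F : Type*} [NormedAddCommGroup Y] [NormedSpace ℝ Y]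
  [NormedAddCommGroup V] [NormedSpace ℝ V] [FiniteDimensional ℝ V] [MeasurableSpace V]
  [BorelSpace V] {μ : Measure V} [IsLocallyFiniteMeasure μ]
  [NormedAddCommGroup F] [NormedSpace ℝ F]

/-- Locally uniform compact support in the integration variable. -/
def LocSupp (f : Y → V → F) (U : Set Y) : Prop :=
  ∀ y ∈ U, ∃ N ∈ 𝓝 y, ∃ R : ℝ, ∀ y' ∈ N, ∀ v, R < ‖v‖ → f y' v = 0

lemma LocSupp.mono {f : Y → V → F} {U U' : Set Y} (h : LocSupp f U) (hU : U' ⊆ U) :
    LocSupp f U' := fun y hy => h y (hU hy)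

/-- Integrals over the fibre are smooth. -/
theorem contDiffOn_integral [CompleteSpace F] {n : ℕ∞} {f : Y → V → F} {U : Set Y} (hU : IsOpen U)
    (hf : ContDiffOn ℝ n (fun p : Y × V => f p.1 p.2) (U ×ˢ univ)) (hs : LocSupp f U)
    [μ.IsAddHaarMeasure] :
    ContDiffOn ℝ n (fun y => ∫ v, f y v ∂μ) U := by
  intro y hy
  obtain ⟨N, hN, R, hR⟩ := hs y hy
  obtain ⟨N', hN'N, hN'o, hyN'⟩ := mem_nhds_iff.1 (inter_mem hN (hU.mem_nhds hy))
  have hconv := contDiffOn_convolution_right_with_param (𝕜 := ℝ) (μ := μ) (n := n)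
    (f := fun _ : V => (1 : ℝ)) (ContinuousLinearMap.lsmul ℝ ℝ : ℝ →L[ℝ] F →L[ℝ] F)
    (g := fun y' v => f y' (-v)) (s := N') (k := Metric.closedBall (0 : V) R) hN'o
    (isCompact_closedBall (0 : V) R)
    (fun p x hp hx => by
      apply hR p (hN'N hp).1
      rw [norm_neg]
      simpa using hx)
    (locallyIntegrable_const 1)
    (by
      have h1 : ContDiff ℝ n (fun p : Y × V => (p.1, -p.2)) := by fun_prop
      have h2 := hf.comp (h1.contDiffOn (s := N' ×ˢ univ)) (by
        rintro ⟨p, x⟩ ⟨hp, -⟩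
        exact ⟨(hN'N hp).2, trivial⟩)
      exact h2)
  have h1 : ContDiff ℝ n (fun y : Y => (y, (0 : V))) := by fun_prop
  have h2 := hconv.comp (h1.contDiffOn (s := N')) (fun p hp => ⟨hp, trivial⟩)
  have h3 : ContDiffOn ℝ n (fun y => ∫ v, f y v ∂μ) N' := by
    refine h2.congr (fun y' _ => ?_)
    simp only [Function.comp_apply, MeasureTheory.convolution, ContinuousLinearMap.lsmul_apply,
      one_smul, zero_sub, neg_neg]
  exact (h3.contDiffAt (hN'o.mem_nhds hyN')).contDiffWithinAt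

lemma continuous_slice {f : Y → V → F} {U : Set Y}
    (hf : ContinuousOn (fun p : Y × V => f p.1 p.2) (U ×ˢ univ)) {y : Y} (hy : y ∈ U) :
    Continuous (f y) :=
  hf.comp_continuous (f := fun v : V => (y, v)) (by fun_prop) (fun _ => ⟨hy, trivial⟩)

lemma hasCompactSupport_slice {f : Y → V → F} {U : Set Y} (hs : LocSupp f U) {y : Y} (hy : y ∈ U) :
    HasCompactSupport (f y) := by
  obtain ⟨N, hN, R, hR⟩ := hs y hy
  refine HasCompactSupport.intro (isCompact_closedBall (0 : V) R) (fun v hv => ?_)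
  exact hR y (mem_of_mem_nhds hN) v (by simpa using hv)

lemma integrable_slice {f : Y → V → F} {U : Set Y}
    (hf : ContinuousOn (fun p : Y × V => f p.1 p.2) (U ×ˢ univ)) (hs : LocSupp f U) {y : Y}
    (hy : y ∈ U) : Integrable (f y) μ :=
  (continuous_slice hf hy).integrable_of_hasCompactSupport (hasCompactSupport_slice hs hy)

/-- The partial derivative in the parameter, as a function with values in linear maps. -/
def dpar (f : Y → V → F) (y : Y) (v : V) : Y →L[ℝ] F := fderiv ℝ (fun y' => f y' v) y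

lemma hasFDerivAt_slice {f : Y → V → F} {U : Set Y} (hU : IsOpen U)
    (hf : ContDiffOn ℝ 1 (fun p : Y × V => f p.1 p.2) (U ×ˢ univ)) {y : Y} (hy : y ∈ U) (v : V) :
    HasFDerivAt (fun y' => f y' v)
      ((fderiv ℝ (fun p : Y × V => f p.1 p.2) (y, v)).comp (ContinuousLinearMap.inl ℝ Y V)) y := by
  have hd : DifferentiableAt ℝ (fun p : Y × V => f p.1 p.2) (y, v) :=
    (hf.differentiableOn one_ne_zero).differentiableAt
      ((hU.prod isOpen_univ).mem_nhds ⟨hy, trivial⟩)
  exact HasFDerivAt.comp y (f := fun y' : Y => ((y', v) : Y × V)) hd.hasFDerivAt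
    (hasFDerivAt_prodMk_left y v)

lemma dpar_eq {f : Y → V → F} {U : Set Y} (hU : IsOpen U)
    (hf : ContDiffOn ℝ 1 (fun p : Y × V => f p.1 p.2) (U ×ˢ univ)) {y : Y} (hy : y ∈ U) (v : V) :
    dpar f y v =
      (fderiv ℝ (fun p : Y × V => f p.1 p.2) (y, v)).comp (ContinuousLinearMap.inl ℝ Y V) :=
  (hasFDerivAt_slice hU hf hy v).fderiv

lemma continuousOn_dpar {f : Y → V → F} {U : Set Y} (hU : IsOpen U)
    (hf : ContDiffOn ℝ 1 (fun p : Y × V => f p.1 p.2) (U ×ˢ univ)) :
    ContinuousOn (fun p : Y × V => dpar f p.1 p.2) (U ×ˢ univ) := by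
  have h1 : ContinuousOn (fderiv ℝ (fun p : Y × V => f p.1 p.2)) (U ×ˢ univ) :=
    hf.continuousOn_fderiv_of_isOpen (hU.prod isOpen_univ) le_rfl
  have h2 : ContinuousOn (fun p : Y × V =>
      (fderiv ℝ (fun p : Y × V => f p.1 p.2) p).comp (ContinuousLinearMap.inl ℝ Y V))
      (U ×ˢ univ) := h1.clm_comp continuousOn_const
  refine h2.congr ?_
  rintro ⟨y, v⟩ ⟨hy, -⟩
  exact dpar_eq hU hf hy v

lemma LocSupp.dpar {f : Y → V → F} {U : Set Y} (hs : LocSupp f U) : LocSupp (dpar f) U := by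
  intro y hy
  obtain ⟨N, hN, R, hR⟩ := hs y hy
  refine ⟨interior N, interior_mem_nhds.2 hN, R, fun y' hy' v hv => ?_⟩
  have : (fun z => f z v) =ᶠ[𝓝 y'] fun _ => 0 := by
    filter_upwards [isOpen_interior.mem_nhds hy'] with z hz
    exact hR z (interior_subset hz) v hv
  rw [Src.dpar, this.fderiv_eq]
  simp

/-- Differentiation under the integral sign. -/
theorem hasFDerivAt_integral {f : Y → V → F} {U : Set Y} (hU : IsOpen U)
    (hf : ContDiffOn ℝ 1 (fun p : Y × V => f p.1 p.2) (U ×ˢ univ)) (hs : LocSupp f U) {y : Y}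
    (hy : y ∈ U) :
    HasFDerivAt (fun y => ∫ v, f y v ∂μ) (∫ v, dpar f y v ∂μ) y := by
  obtain ⟨N, hN, R, hR⟩ := hs y hy
  have hDc := continuousOn_dpar hU hf
  -- bound of the derivative near the compact set `{y} × closedBall 0 R`
  have hbd : ∃ N2 ∈ 𝓝 y, ∃ M : ℝ, ∀ y' ∈ N2, ∀ v, ‖v‖ ≤ R → ‖dpar f y' v‖ ≤ M := by
    have hK : IsCompact (({y} : Set Y) ×ˢ Metric.closedBall (0 : V) R) :=
      isCompact_singleton.prod (isCompact_closedBall _ _)
    have hcn : ContinuousOn (fun p : Y × V => ‖dpar f p.1 p.2‖) (U ×ˢ univ) := hDc.norm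
    obtain ⟨M, hM⟩ := hK.bddAbove_image (f := fun p : Y × V => ‖dpar f p.1 p.2‖)
      (hcn.mono (by rintro ⟨a, b⟩ ⟨ha, -⟩; rw [mem_singleton_iff] at ha; simp only at ha; subst ha
                    exact ⟨hy, trivial⟩))
    have hop : IsOpen ((U ×ˢ (univ : Set V)) ∩ (fun p : Y × V => ‖dpar f p.1 p.2‖) ⁻¹' (Iio (M + 1))) :=
      hcn.isOpen_inter_preimage (hU.prod isOpen_univ) isOpen_Iio
    obtain ⟨A, B, hA, hB, hyA, hRB, hAB⟩ := generalized_tube_lemma
      (isCompact_singleton (x := y)) (isCompact_closedBall (0 : V) R) hop (by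
        rintro ⟨a, b⟩ ⟨ha, hb⟩
        rw [mem_singleton_iff] at ha
        simp only at ha hb
        subst ha
        refine ⟨⟨hy, trivial⟩, ?_⟩
        have : ‖dpar f a b‖ ≤ M := hM ⟨(a, b), ⟨rfl, hb⟩, rfl⟩
        simp only [mem_preimage, mem_Iio]
        linarith)
    refine ⟨A, hA.mem_nhds (hyA rfl), M + 1, fun y' hy' v hv => ?_⟩
    have := (hAB (⟨hy', hRB (by simpa using hv)⟩ : ((y', v) : Y × V) ∈ A ×ˢ B)).2
    exact le_of_lt this
  obtain ⟨N2, hN2, M, hM⟩ := hbd
  set S := interior (N ∩ N2 ∩ U) with hS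
  have hSn : S ∈ 𝓝 y := interior_mem_nhds.2 (inter_mem (inter_mem hN hN2) (hU.mem_nhds hy))
  refine hasFDerivAt_integral_of_dominated_of_fderiv_le (𝕜 := ℝ) (s := S)
    (F := fun y v => f y v) (F' := fun y v => dpar f y v)
    (bound := (Metric.closedBall (0 : V) R).indicator (fun _ => M)) hSn ?_ ?_ ?_ ?_ ?_ ?_
  · filter_upwards [hU.mem_nhds hy] with y' hy'
    exact (continuous_slice hf.continuousOn hy').aestronglyMeasurable
  · exact integrable_slice hf.continuousOn hs hy
  · exact (continuous_slice hDc hy).aestronglyMeasurable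
  · refine Eventually.of_forall fun v y' hy' => ?_
    have hy'' := interior_subset hy'
    by_cases hv : ‖v‖ ≤ R
    · rw [indicator_of_mem (by simpa using hv)]
      exact hM y' hy''.1.2 v hv
    · rw [indicator_of_notMem (by simpa using hv)]
      have : (fun z => f z v) =ᶠ[𝓝 y'] fun _ => 0 := by
        filter_upwards [isOpen_interior.mem_nhds hy'] with z hz
        exact hR z (interior_subset hz).1.1 v (not_le.1 hv)
      rw [dpar, this.fderiv_eq]
      simp
  · rw [integrable_indicator_iff measurableSet_closedBall]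
    exact integrableOn_const (isCompact_closedBall (0 : V) R).measure_lt_top.ne
  · refine Eventually.of_forall fun v y' hy' => ?_
    have h1 := hasFDerivAt_slice hU hf (interior_subset hy').2 v
    rw [← dpar_eq hU hf (interior_subset hy').2 v] at h1
    exact h1

theorem fderiv_integral_apply {f : Y → V → F} {U : Set Y} (hU : IsOpen U)
    (hf : ContDiffOn ℝ 1 (fun p : Y × V => f p.1 p.2) (U ×ˢ univ)) (hs : LocSupp f U) {y : Y}
    (hy : y ∈ U) (e : Y) :
    fderiv ℝ (fun y => ∫ v, f y v ∂μ) y e = ∫ v, fderiv ℝ (fun y' => f y' v) y e ∂μ := by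
  rw [(hasFDerivAt_integral hU hf hs hy).fderiv]
  rw [ContinuousLinearMap.integral_apply]
  · rfl
  · exact integrable_slice (continuousOn_dpar hU hf) hs.dpar hy

end General

end Crest.Agent.R106.Src
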