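import Crest.Agent.R106.StdTop
import Crest.Agent.R106.FBDir
import Crest.Agent.R106.FBlogFin
import Crest.Agent.R106.FieldLogU
import Crest.Agent.R106.Gs2SupEst
import Crest.Agent.R106.Gs2GradEst

/-!
# Row 106, STANDARD PART: hypothesis-free (helper330).
-/

set_option autoImplicit false

namespace Crest.Agent.R106.Std

/-- global existence for the truncated system, hypothesis-free -/
theorem truncEx : TruncEx :=
  truncEx_of (FBDir.fb Gs2.supEst) (FBDir.fbz Gs2.supEst)
    (FieldStd.fbLog (Field.gslogU Gs2.gradEst))

end Crest.Agent.R106.Std
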