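import Crest.Agent.R106.StdIface
import Crest.Agent.R106.SmoothLim
import Crest.Agent.R106.Trunc

/-! Row 106: the frozen Props `Std.Trunc` and `Std.SmoothLim`. -/

set_option autoImplicit false
open Set Filter Topology
open scoped ContDiff
open Crest.AnalysisR.VecCalc3 Crest.AnalysisR.PDE.RVM

namespace Crest.Agent.R106.Std

theorem isTrunc_Gop {P : ℝ} (hP : 0 < P) : IsTrunc P (Crest.Agent.R106.Trunc.Gop P) where
  pos := hP
  smooth := Crest.Agent.R106.Trunc.Gop_contDiff P
  supp := fun _ hv => Crest.Agent.R106.Trunc.Gop_eq_zero hP hv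
  divfree := fun F v => Crest.Agent.R106.Trunc.div3_G P F.1 F.2 v
  eq := fun _ e b hv => Crest.Agent.R106.Trunc.G_eq_lorentz hP hv e b

/-- TRUNC. -/
theorem trunc : Trunc := fun _ hP => ⟨_, isTrunc_Gop hP⟩

/-- SMOOTHLIM. -/
theorem smoothLim : SmoothLim := by
  intro X Y _ _ _ _ _ _ g gl hg hb hlim
  have : CompleteSpace Y := FiniteDimensional.complete ℝ Y
  obtain ⟨h1, h2⟩ := Crest.Agent.R106.SmoothLim.smoothLim_univ g gl hg (fun j K hK => by
    obtain ⟨r, hr⟩ := hK.isBounded.exists_norm_le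
    obtain ⟨C, hC⟩ := hb j r
    exact ⟨C, fun n x hx => hC n x (hr x hx)⟩) hlim
  refine ⟨h1, fun k x => ?_⟩
  have := h2 k
  rw [← tendstoLocallyUniformlyOn_univ] at this
  exact this.tendsto_at (mem_univ x)

end Crest.Agent.R106.Std
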