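import Crest.Agent.R106.StdIface

/-!
Row 106, node ITER-A (helper201): existence of a Picard step.
-/

set_option autoImplicit false

open Set Filter Topology MeasureTheory
open scoped ContDiff
open Crest.AnalysisR.VecCalc3 Crest.AnalysisR.PDE.RVM

namespace Crest.Agent.R106.Std

theorem stepEx (hF : Flow) (hS : Src) (hM : Max) : StepEx := by
  intro P G hG f₀ E₀ B₀ hD E B hE hB
  obtain ⟨-, hf, hc, hE₀, hB₀, hbd, -, -, hdE, hdB⟩ := hD
  obtain ⟨f, hPC, h0, htr, hval, hsv, hsx⟩ := hF P G hG f₀ hf hc E B hE hB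
  obtain ⟨hρ, hj, hsupp, hcont⟩ := hS P G hG E B hE hB f hPC htr
  obtain ⟨E', B', hE', hB', hE0, hB0, hmax⟩ := hM (chargeDensity f) (currentDensity f) E₀ B₀ hρ hj
    hsupp hcont hE₀ hB₀ hbd (fun x => by rw [hdE x, chargeDensity, h0]) hdB
  exact ⟨f, E', B', ⟨hE, hB, hPC, h0, htr, hval, hsv, hsx, hE', hB', hE0, hB0, hmax⟩⟩

end Crest.Agent.R106.Std
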