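import Crest.Agent.R106.TBInt
import Crest.Agent.R106.Src2
import Crest.Agent.R106.StdIface

/-!
# Row 106, node TB: `theorem tb : Std.TB`
-/

set_option autoImplicit false
open MeasureTheory Set
open scoped ContDiff

namespace Crest.Agent.R106.TB

open Crest.AnalysisR.VecCalc3 Crest.AnalysisR.PDE.RVM Crest.Agent.R106.Std

variable {ι : Type*} {W : Type} [NormedAddCommGroup W] [NormedSpace ℝ W]

theorem MB.of_succ {Y : Type} [NormedAddCommGroup Y] [NormedSpace ℝ Y] {j : ℕ} :
    ∀ {S : Set ℝ} {F : ℕ → ℝ × Y → W}, MB j S (fun n => F (n + 1)) → F 0 = (fun _ => 0) →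
    MB j S F := by
  have key : ∀ {S : Set ℝ} {F : ℕ → ℝ × Y → W}, SpB S (fun n => F (n + 1)) → F 0 = (fun _ => 0) →
      SpB S F := by
    intro S F h h0 k
    obtain ⟨C, hC⟩ := h k
    refine ⟨max C 0, fun n t ht y => ?_⟩
    cases n with
    | zero =>
      rw [h0]
      rw [show (fun y : Y => (fun _ => (0 : W)) ((t, y) : ℝ × Y)) = (0 : Y → W) from rfl]
      simp
    | succ n => exact (hC n t ht y).trans (le_max_left _ _)
  induction j with
  | zero => intro S F h h0; exact key h h0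
  | succ j ih =>
    intro S F h h0
    refine ⟨key h.1 h0, ih h.2 ?_⟩
    rw [h0]
    funext p
    simp [dt]

/-- A compactly supported smooth function has bounded derivatives. -/
theorem bdd_of_support {V : Type} [NormedAddCommGroup V] [NormedSpace ℝ V] [FiniteDimensional ℝ V]
    {a : V → W} (ha : ContDiff ℝ ∞ a) {R : ℝ} (hs : ∀ v, R < ‖v‖ → a v = 0) (k : ℕ) :
    ∃ C : ℝ, ∀ v, ‖iteratedFDeriv ℝ k a v‖ ≤ C := by
  have hp : ProperSpace V := FiniteDimensional.proper ℝ V
  have hc : HasCompactSupport a :=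
    HasCompactSupport.intro (isCompact_closedBall (0 : V) R) (fun v hv => hs v (by simpa using hv))
  have hc' : HasCompactSupport (iteratedFDeriv ℝ k a) := hc.iteratedFDeriv k
  obtain ⟨C, hC⟩ := (ha.continuous_iteratedFDeriv (m := k) (by exact_mod_cast le_top)).bounded_above_of_compact_support hc'
  exact ⟨C, hC⟩

/-- the curl as a linear map of the derivative -/
noncomputable def curlL : (R3 →L[ℝ] R3) →ₗ[ℝ] R3 where
  toFun L := WithLp.toLp 2 ![L (EuclideanSpace.single 1 1) 2 - L (EuclideanSpace.single 2 1) 1,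
    L (EuclideanSpace.single 2 1) 0 - L (EuclideanSpace.single 0 1) 2,
    L (EuclideanSpace.single 0 1) 1 - L (EuclideanSpace.single 1 1) 0]
  map_add' L M := by
    ext i
    fin_cases i <;> simp <;> ring
  map_smul' c L := by
    ext i
    fin_cases i <;> simp <;> ring

theorem curl3_eq {E : ℝ → R3 → R3} (hE : ContDiff ℝ ∞ (fun p : ℝ × R3 => E p.1 p.2)) (t : ℝ)
    (x : R3) : curl3 (E t) x = curlL (dy (fun p : ℝ × R3 => E p.1 p.2) (t, x)) := by
  have hd : DifferentiableAt ℝ (E t) x :=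
    (contDiff_slice hE t).differentiable (by simp) x
  have h1 : fderiv ℝ (E t) x = dy (fun p : ℝ × R3 => E p.1 p.2) (t, x) :=
    congrFun (fderiv_slice hE t) x
  have h2 : ∀ i k : Fin 3, pderiv (fun y => E t y i) k x
      = dy (fun p : ℝ × R3 => E p.1 p.2) (t, x) (EuclideanSpace.single k 1) i := by
    intro i k
    unfold pderiv
    rw [← h1]
    have h3 : HasFDerivAt (fun y => E t y i)
        ((EuclideanSpace.proj i : R3 →L[ℝ] ℝ).comp (fderiv ℝ (E t) x)) x :=
      (EuclideanSpace.proj i : R3 →L[ℝ] ℝ).hasFDerivAt.comp x hd.hasFDerivAt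
    rw [h3.fderiv]
    rfl
  unfold curl3 curlL
  simp only [h2]
  rfl

theorem deriv_eq_dt {Y : Type} [NormedAddCommGroup Y] [NormedSpace ℝ Y] {F : ℝ × Y → W}
    (hF : ContDiff ℝ ∞ F) (t : ℝ) (y : Y) : deriv (fun s => F (s, y)) t = dt F (t, y) := by
  have h2 : HasDerivAt (fun s : ℝ => ((s, y) : ℝ × Y)) (1, 0) t :=
    (hasDerivAt_id t).prodMk (hasDerivAt_const t y)
  exact ((differentiable_of hF (t, y)).hasFDerivAt.comp_hasDerivAt t h2).deriv

theorem deriv_coord_eq {E : ℝ → R3 → R3} (hE : ContDiff ℝ ∞ (fun p : ℝ × R3 => E p.1 p.2)) (t : ℝ)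
    (x : R3) (i : Fin 3) :
    deriv (fun s => E s x i) t = dt (fun p : ℝ × R3 => E p.1 p.2) (t, x) i := by
  have h2 : HasDerivAt (fun s : ℝ => ((s, x) : ℝ × R3)) (1, 0) t :=
    (hasDerivAt_id t).prodMk (hasDerivAt_const t x)
  have h3 := (differentiable_of hE (t, x)).hasFDerivAt.comp_hasDerivAt t h2
  have h4 := ((EuclideanSpace.proj i : R3 →L[ℝ] ℝ).hasFDerivAt).comp_hasDerivAt t h3
  exact h4.deriv

/-- the transport equation in terms of `dt`, `dy` -/
theorem trans_eq {G : R3 → (R3 × R3) →L[ℝ] R3} {E B : ℝ → R3 → R3} {f : ℝ → R3 → R3 → ℝ}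
    (hf : ContDiff ℝ ∞ (fun p : ℝ × (R3 × R3) => f p.1 p.2.1 p.2.2)) {t : ℝ} {x v : R3}
    (h : TransEq G E B f t x v) :
    dt (fun p : ℝ × (R3 × R3) => f p.1 p.2.1 p.2.2) (t, x, v)
      = - dy (fun p : ℝ × (R3 × R3) => f p.1 p.2.1 p.2.2) (t, x, v)
          (relVel v, G v (E t x, B t x)) := by
  set F : ℝ × (R3 × R3) → ℝ := fun p => f p.1 p.2.1 p.2.2 with hF
  have hd : HasFDerivAt (fun z : R3 × R3 => F (t, z)) (dy F (t, x, v)) (x, v) := by
    have h1 := (contDiff_slice hf t).differentiable (by simp) (x, v)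
    have h2 := h1.hasFDerivAt
    rw [fderiv_slice hf t] at h2
    exact h2
  have hx : ∀ i, pderiv (fun y => f t y v) i x = dy F (t, x, v) (EuclideanSpace.single i 1, 0) := by
    intro i
    unfold pderiv
    have h1 : HasFDerivAt (fun y : R3 => ((y, v) : R3 × R3)) (ContinuousLinearMap.inl ℝ R3 R3) x :=
      hasFDerivAt_prodMk_left x v
    have h2 : HasFDerivAt (fun y : R3 => f t y v)
      ((dy F (t, x, v)).comp (ContinuousLinearMap.inl ℝ R3 R3)) x :=
      HasFDerivAt.comp (g := fun z : R3 × R3 => F (t, z)) x hd h1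
    rw [h2.fderiv]
    rfl
  have hv : ∀ i, pderiv (fun w => f t x w) i v = dy F (t, x, v) (0, EuclideanSpace.single i 1) := by
    intro i
    unfold pderiv
    have h1 : HasFDerivAt (fun w : R3 => ((x, w) : R3 × R3)) (ContinuousLinearMap.inr ℝ R3 R3) v :=
      hasFDerivAt_prodMk_right x v
    have h2 : HasFDerivAt (fun w : R3 => f t x w)
      ((dy F (t, x, v)).comp (ContinuousLinearMap.inr ℝ R3 R3)) v :=
      HasFDerivAt.comp (g := fun z : R3 × R3 => F (t, z)) v hd h1
    rw [h2.fderiv]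
    rfl
  have hdec : ∀ w : R3, w = ∑ i : Fin 3, w i • (EuclideanSpace.single i (1 : ℝ) : R3) := by
    intro w
    ext k
    fin_cases k <;> simp [Fin.sum_univ_three]
  unfold TransEq Tfree Gv at h
  have ht : deriv (fun s => f s x v) t = dt F (t, x, v) := deriv_eq_dt hf t (x, v)
  rw [ht] at h
  simp only [hx, hv] at h
  have e1 : ∀ w : R3, dy F (t, x, v) (w, 0)
      = ∑ i : Fin 3, w i * dy F (t, x, v) (EuclideanSpace.single i 1, 0) := by
    intro w
    have : ((w, 0) : R3 × R3) = ∑ i : Fin 3, w i • ((EuclideanSpace.single i (1 : ℝ), 0) : R3 × R3) := by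
      ext k
      · conv_lhs => rw [hdec w]
        simp [Prod.fst_sum]
      · simp [Prod.snd_sum]
    rw [this, map_sum]
    simp only [map_smul, smul_eq_mul]
  have e2 : ∀ w : R3, dy F (t, x, v) (0, w)
      = ∑ i : Fin 3, w i * dy F (t, x, v) (0, EuclideanSpace.single i 1) := by
    intro w
    have : ((0, w) : R3 × R3) = ∑ i : Fin 3, w i • ((0, EuclideanSpace.single i (1 : ℝ)) : R3 × R3) := by
      ext k
      · simp [Prod.fst_sum]
      · conv_lhs => rw [hdec w]
        simp [Prod.snd_sum]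
    rw [this, map_sum]
    simp only [map_smul, smul_eq_mul]
  have e3 : ((relVel v, G v (E t x, B t x)) : R3 × R3)
      = (relVel v, 0) + (0, G v (E t x, B t x)) := by simp
  rw [e3, map_add, e1, e2]
  linarith

theorem bdd_snd {a : R3 → W} (ha : ContDiff ℝ ∞ a)
    (hb : ∀ k, ∃ C : ℝ, ∀ v, ‖iteratedFDeriv ℝ k a v‖ ≤ C) (k : ℕ) :
    ∃ C : ℝ, ∀ z : R3 × R3, ‖iteratedFDeriv ℝ k (fun z : R3 × R3 => a z.2) z‖ ≤ C := by
  obtain ⟨C, hC⟩ := hb k
  refine ⟨C, fun z => ?_⟩
  have h2 := (ContinuousLinearMap.snd ℝ R3 R3).iteratedFDeriv_comp_right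
    ha z (i := k) (by exact_mod_cast le_top)
  have h1 : (fun z : R3 × R3 => a z.2) = a ∘ (ContinuousLinearMap.snd ℝ R3 R3) := rfl
  rw [h1, h2]
  refine (ContinuousMultilinearMap.norm_compContinuousLinearMap_le _ _).trans ?_
  have h5 : ∏ _i : Fin k, ‖(ContinuousLinearMap.snd ℝ R3 R3)‖ ≤ 1 :=
    Finset.prod_le_one (fun _ _ => norm_nonneg _)
      (fun _ _ => ContinuousLinearMap.norm_snd_le ℝ R3 R3)
  calc _ ≤ C * 1 := by
        refine mul_le_mul (hC z.2) h5 (Finset.prod_nonneg fun _ _ => norm_nonneg _) ?_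
        exact (norm_nonneg _).trans (hC z.2)
    _ = C := mul_one _

theorem tb : Std.TB := by
  intro P G hG f₀ E₀ B₀ hadm E B f hseq hbd T
  -- momentum support
  obtain ⟨R, hR2P, hRf⟩ : ∃ R : ℝ, 2 * P ≤ R ∧ ∀ x v : R3, R < ‖v‖ → f₀ x v = 0 := by
    obtain ⟨M, hM⟩ := (hadm.2.2.1.isCompact.isBounded.subset_closedBall (0 : R3 × R3))
    refine ⟨max (2 * P) M, le_max_left _ _, fun x v hv => ?_⟩
    by_contra hne
    have h1 : (x, v) ∈ tsupport (Function.uncurry f₀) := subset_tsupport _ hne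
    have h2 := hM h1
    rw [mem_closedBall_zero_iff] at h2
    have h3 : ‖v‖ ≤ ‖((x, v) : R3 × R3)‖ := norm_snd_le (x, v)
    have h4 := (le_max_right (2 * P) M).trans_lt hv
    linarith
  have hRpos : 0 < R := lt_of_lt_of_le (by linarith [hG.pos]) hR2P
  set S : Set ℝ := {t | |t| ≤ T} with hS
  let F : ℕ → ℝ × (R3 × R3) → ℝ := fun n p => f n p.1 p.2.1 p.2.2
  let Eh : ℕ → ℝ × R3 → R3 := fun n p => E n p.1 p.2
  let Bh : ℕ → ℝ × R3 → R3 := fun n p => B n p.1 p.2
  have hF : ∀ n, ContDiff ℝ ∞ (F n) := fun n => (hseq.step n).pc.1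
  have hE : ∀ n, ContDiff ℝ ∞ (Eh n) := fun n => (hseq.step n).inE.1
  have hB : ∀ n, ContDiff ℝ ∞ (Bh n) := fun n => (hseq.step n).inB.1
  have hVS : ∀ n, VS R (F n) := fun n t x v hv => (hseq.step n).suppv R hR2P hRf t x v hv
  -- spatial bounds
  have hFS : SpB S F := by
    intro k
    obtain ⟨C, hC⟩ := hbd T k
    exact ⟨C, fun n t ht z => (hC n t ht).2 z⟩
  have hES : SpB S Eh := by
    intro k
    obtain ⟨C, hC⟩ := hbd T k
    exact ⟨C, fun n t ht x => ((hC n t ht).1 x).1⟩
  have hBS : SpB S Bh := by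
    intro k
    obtain ⟨C, hC⟩ := hbd T k
    exact ⟨C, fun n t ht x => ((hC n t ht).1 x).2⟩
  -- cut-off velocity
  let χ : ContDiffBump (0 : R3) := ⟨R + 1, R + 2, by linarith, by linarith⟩
  let ut : R3 → R3 := fun v => χ v • relVel v
  have hut : ContDiff ℝ ∞ ut := χ.contDiff.smul Src.contDiff_relVel
  have hut0 : ∀ v, R + 2 < ‖v‖ → ut v = 0 := by
    intro v hv
    have : χ v = 0 := χ.zero_of_le_dist (by simpa using hv.le)
    simp only [ut, this, zero_smul]
  have hut1 : ∀ v, ‖v‖ ≤ R → ut v = relVel v := by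
    intro v hv
    have : χ v = 1 := χ.one_of_mem_closedBall (by
      rw [mem_closedBall_zero_iff]
      change ‖v‖ ≤ R + 1
      linarith)
    simp only [ut, this, one_smul]
  have hutb := bdd_of_support hut hut0
  have hGb : ∀ k, ∃ C : ℝ, ∀ v, ‖iteratedFDeriv ℝ k G v‖ ≤ C :=
    bdd_of_support hG.smooth (R := 2 * P) (fun v hv => hG.supp v hv.le)
  -- constant families
  have hcu : ∀ j, MB j S (fun (_ : ℕ) (p : ℝ × (R3 × R3)) => ut p.2.2) := fun j =>
    MB.const (a := fun z : R3 × R3 => ut z.2) (hut.comp contDiff_snd) (bdd_snd hut hutb)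
  have hcG : ∀ j, MB j S (fun (_ : ℕ) (p : ℝ × (R3 × R3)) => G p.2.2) := fun j =>
    MB.const (a := fun z : R3 × R3 => G z.2) (hG.smooth.comp contDiff_snd) (bdd_snd hG.smooth hGb)
  have hscu : ∀ _ : ℕ, ContDiff ℝ ∞ (fun (p : ℝ × (R3 × R3)) => ut p.2.2) := fun _ =>
    hut.comp (by fun_prop : ContDiff ℝ ∞ (fun p : ℝ × (R3 × R3) => p.2.2))
  have hscG : ∀ _ : ℕ, ContDiff ℝ ∞ (fun (p : ℝ × (R3 × R3)) => G p.2.2) := fun _ =>
    hG.smooth.comp (by fun_prop : ContDiff ℝ ∞ (fun p : ℝ × (R3 × R3) => p.2.2))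
  -- equations
  have heF : ∀ n p, dt (F n) p = - (dy (F n) p) (ut p.2.2, G p.2.2 (Eh n (p.1, p.2.1), Bh n (p.1, p.2.1))) := by
    rintro n ⟨t, x, v⟩
    have h1 := trans_eq (hF n) ((hseq.step n).trans t x v)
    rcases le_or_gt ‖v‖ R with hv | hv
    · rw [hut1 v hv]
      exact h1
    · have h2 : dy (F n) (t, x, v) = 0 := by
        unfold dy
        rw [(hVS n).fderiv hv, ContinuousLinearMap.zero_comp]
      have h3 : dt (F n) (t, x, v) = 0 := by
        unfold dt
        rw [(hVS n).fderiv hv]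
        rfl
      rw [h3, h2]
      simp
  let cL : (R3 →L[ℝ] R3) →L[ℝ] R3 := LinearMap.toContinuousLinearMap curlL
  let H : ℕ → ℝ × (R3 × R3) → R3 := fun n p => F n p • ut p.2.2
  have hHs : ∀ n, ContDiff ℝ ∞ (H n) := fun n => (hF n).smul (hscu n)
  have hHV : ∀ n, VS R (H n) := fun n t x v hv => by
    simp only [H, hVS n t x v hv, zero_smul]
  have hcur : ∀ n t x, currentDensity (f n) t x = J (H n) (t, x) := by
    intro n t x
    unfold currentDensity J
    refine integral_congr_ae (Filter.Eventually.of_forall fun v => ?_)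
    change f n t x v • relVel v = f n t x v • ut v
    rcases le_or_gt ‖v‖ R with hv | hv
    · rw [hut1 v hv]
    · have : f n t x v = 0 := hVS n t x v hv
      rw [this, zero_smul, zero_smul]
  have heE : ∀ n p, dt (Eh (n + 1)) p = cL (dy (Bh (n + 1)) p) + - J (H n) p := by
    rintro n ⟨t, x⟩
    ext i
    have h1 := ((hseq.step n).maxwell t x).1 i
    rw [deriv_coord_eq (hE (n + 1)), curl3_eq (hB (n + 1)), hcur n t x] at h1
    change dt (Eh (n + 1)) (t, x) i - cL (dy (Bh (n + 1)) (t, x)) i = - J (H n) (t, x) i at h1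
    rw [PiLp.add_apply, PiLp.neg_apply]
    linarith
  have heB : ∀ n p, dt (Bh (n + 1)) p = - cL (dy (Eh (n + 1)) p) := by
    rintro n ⟨t, x⟩
    ext i
    have h1 := ((hseq.step n).maxwell t x).2.1 i
    rw [deriv_coord_eq (hB (n + 1)), curl3_eq (hE (n + 1))] at h1
    change dt (Bh (n + 1)) (t, x) i + cL (dy (Eh (n + 1)) (t, x)) i = 0 at h1
    rw [PiLp.neg_apply]
    linarith
  have hE00 : Eh 0 = fun _ => 0 := by
    funext p
    exact hseq.E0 p.1 p.2
  have hB00 : Bh 0 = fun _ => 0 := by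
    funext p
    exact hseq.B0 p.1 p.2
  -- induction
  have key : ∀ j, MB j S F ∧ MB j S Eh ∧ MB j S Bh := by
    intro j
    induction j with
    | zero => exact ⟨hFS, hES, hBS⟩
    | succ j ih =>
      obtain ⟨iF, iE, iB⟩ := ih
      refine ⟨⟨hFS, ?_⟩, ⟨hES, ?_⟩, ⟨hBS, ?_⟩⟩
      · -- dt F
        have k1 : MB j S (fun n p => (ContinuousLinearMap.inl ℝ R3 R3) (Eh n p)
            + (ContinuousLinearMap.inr ℝ R3 R3) (Bh n p)) :=
          MB.add (fun n => (ContinuousLinearMap.contDiff _).comp (hE n))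
            (fun n => (ContinuousLinearMap.contDiff _).comp (hB n))
            (MB.clm _ hE iE) (MB.clm _ hB iB)
        have k1s : ∀ n, ContDiff ℝ ∞ (fun p => (ContinuousLinearMap.inl ℝ R3 R3) (Eh n p)
            + (ContinuousLinearMap.inr ℝ R3 R3) (Bh n p)) := fun n =>
          ((ContinuousLinearMap.contDiff _).comp (hE n)).add
            ((ContinuousLinearMap.contDiff _).comp (hB n))
        have k2 := MB.pb k1s k1
        have k3 := MB.bilin (ContinuousLinearMap.id ℝ ((R3 × R3) →L[ℝ] R3)) hscG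
          (fun n => contDiff_pb (k1s n)) (hcG j) k2
        have k3s : ∀ n : ℕ, ContDiff ℝ ∞ (fun p : ℝ × (R3 × R3) =>
            (ContinuousLinearMap.id ℝ ((R3 × R3) →L[ℝ] R3)) (G p.2.2)
              (TB.pb (fun p => (ContinuousLinearMap.inl ℝ R3 R3) (Eh n p)
            + (ContinuousLinearMap.inr ℝ R3 R3) (Bh n p)) p)) := fun n =>
          contDiff_bilin _ (hscG n) (contDiff_pb (k1s n))
        have k4 := MB.add (fun n => (ContinuousLinearMap.contDiff _).comp (hscu n))
          (fun n => (ContinuousLinearMap.contDiff _).comp (k3s n))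
          (MB.clm (ContinuousLinearMap.inl ℝ R3 R3) hscu (hcu j))
          (MB.clm (ContinuousLinearMap.inr ℝ R3 R3) k3s k3)
        have k4s : ∀ n : ℕ, ContDiff ℝ ∞ (fun p : ℝ × (R3 × R3) =>
            (ContinuousLinearMap.inl ℝ R3 R3) (ut p.2.2) + (ContinuousLinearMap.inr ℝ R3 R3)
            ((ContinuousLinearMap.id ℝ ((R3 × R3) →L[ℝ] R3)) (G p.2.2)
              (TB.pb (fun p => (ContinuousLinearMap.inl ℝ R3 R3) (Eh n p)
            + (ContinuousLinearMap.inr ℝ R3 R3) (Bh n p)) p))) := fun n =>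
          ((ContinuousLinearMap.contDiff _).comp (hscu n)).add
            ((ContinuousLinearMap.contDiff _).comp (k3s n))
        have k5 := MB.bilin (ContinuousLinearMap.id ℝ ((R3 × R3) →L[ℝ] ℝ))
          (fun n => contDiff_dy (hF n)) k4s (MB.dy hF iF) k4
        have k6 := MB.clm (-(ContinuousLinearMap.id ℝ ℝ))
          (fun n => contDiff_bilin _ (contDiff_dy (hF n)) (k4s n)) k5
        refine k6.congr ?_
        intro n p
        rw [heF n p]
        simp only [neg_apply, ContinuousLinearMap.id_apply, TB.pb,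
          ContinuousLinearMap.inl_apply, ContinuousLinearMap.inr_apply, Prod.mk_add_mk, add_zero,
          zero_add]
      · -- dt E
        refine MB.of_succ ?_ ?_
        · have j1 : MB j S H := by
            have := MB.bilin (ContinuousLinearMap.lsmul ℝ ℝ : ℝ →L[ℝ] R3 →L[ℝ] R3) hF hscu iF (hcu j)
            exact this.congr (fun n p => rfl)
          have j2 := MB.J hHs hHV j1
          have j3 := MB.clm (-(ContinuousLinearMap.id ℝ R3)) (fun n => contDiff_J (hHs n) (hHV n)) j2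
          have j4 : MB j S (fun n => dy (Bh (n + 1))) :=
            (MB.dy hB iB).reindex (fun n : ℕ => n + 1)
          have j5 := MB.clm cL (fun n : ℕ => contDiff_dy (hB (n + 1))) j4
          have j6 := MB.add (fun n : ℕ => cL.contDiff.comp (contDiff_dy (hB (n + 1))))
            (fun n => (ContinuousLinearMap.contDiff _).comp (contDiff_J (hHs n) (hHV n))) j5 j3
          refine j6.congr ?_
          intro n p
          rw [heE n p]
          rfl
        · rw [hE00]
          funext p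
          simp [dt]
      · refine MB.of_succ ?_ ?_
        · have j4 : MB j S (fun n => dy (Eh (n + 1))) :=
            (MB.dy hE iE).reindex (fun n : ℕ => n + 1)
          have j5 := MB.clm (-cL) (fun n : ℕ => contDiff_dy (hE (n + 1))) j4
          refine j5.congr ?_
          intro n p
          rw [heB n p]
          rfl
        · rw [hB00]
          funext p
          simp [dt]
  intro k
  obtain ⟨C1, hC1⟩ := UB_of_MB hF (fun j => (key j).1) k
  obtain ⟨C2, hC2⟩ := UB_of_MB hE (fun j => (key j).2.1) k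
  obtain ⟨C3, hC3⟩ := UB_of_MB hB (fun j => (key j).2.2) k
  refine ⟨max C1 (max C2 C3), fun n t ht => ⟨fun x => ⟨?_, ?_⟩, fun x v => ?_⟩⟩
  · exact (hC2 n t ht x).trans ((le_max_left _ _).trans (le_max_right _ _))
  · exact (hC3 n t ht x).trans ((le_max_right _ _).trans (le_max_right _ _))
  · exact (hC1 n t ht (x, v)).trans (le_max_left _ _)

end Crest.Agent.R106.TB
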