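import Crest.Agent.R106.TransB
import Crest.Agent.R106.FlowGen
import Crest.Agent.R106.StdIface

/-!
# Row 106, TRANS: the frozen Props `Tr0`, `Tr1`, `Trk` of `StdIface` (helper728)
-/

set_option autoImplicit false
set_option linter.unusedSectionVars false

open MeasureTheory Set Filter Topology
open scoped ContDiff
open Crest.AnalysisR.VecCalc3 Crest.AnalysisR.PDE.RVM
open Crest.Agent.R106.Trans

noncomputable section

namespace Crest.Agent.R106.Std

/-! ### Calculus lemmas -/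

section Calc

variable {D A B : Type} [NormedAddCommGroup D] [NormedSpace ℝ D] [NormedAddCommGroup A]
  [NormedSpace ℝ A] [NormedAddCommGroup B] [NormedSpace ℝ B]

lemma norm_iter_prodMk_le {f : D → A} {g : D → B} (hf : ContDiff ℝ ∞ f) (hg : ContDiff ℝ ∞ g)
    (k : ℕ) (x : D) : ‖iteratedFDeriv ℝ k (fun y => (f y, g y)) x‖ ≤
      ‖iteratedFDeriv ℝ k f x‖ + ‖iteratedFDeriv ℝ k g x‖ := by
  rw [iteratedFDeriv_prodMk hf.contDiffAt hg.contDiffAt (nat_le_infty' k),
    ContinuousMultilinearMap.opNorm_prod]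
  exact max_le (le_add_of_nonneg_right (norm_nonneg _)) (le_add_of_nonneg_left (norm_nonneg _))

lemma norm_iter_comp_le {f : A → B} (hf : ContDiff ℝ ∞ f) (L : D →L[ℝ] A) (hL : ‖L‖ ≤ 1)
    (k : ℕ) (x : D) : ‖iteratedFDeriv ℝ k (fun y => f (L y)) x‖ ≤ ‖iteratedFDeriv ℝ k f (L x)‖ := by
  have h := L.iteratedFDeriv_comp_right hf x (nat_le_infty' k)
  have e : (f ∘ L) = fun y => f (L y) := rfl
  rw [e] at h
  rw [h]
  refine (ContinuousMultilinearMap.norm_compContinuousLinearMap_le _ _).trans ?_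
  refine mul_le_of_le_one_right (norm_nonneg _) ?_
  rw [Finset.prod_const]
  exact pow_le_one₀ (norm_nonneg _) hL

lemma norm_iter_fst_le {f : A → D} (hf : ContDiff ℝ ∞ f) (k : ℕ) (x : A × B) :
    ‖iteratedFDeriv ℝ k (fun y : A × B => f y.1) x‖ ≤ ‖iteratedFDeriv ℝ k f x.1‖ :=
  norm_iter_comp_le hf (ContinuousLinearMap.fst ℝ A B) (ContinuousLinearMap.norm_fst_le ℝ A B) k x

lemma norm_iter_snd_le {f : B → D} (hf : ContDiff ℝ ∞ f) (k : ℕ) (x : A × B) :
    ‖iteratedFDeriv ℝ k (fun y : A × B => f y.2) x‖ ≤ ‖iteratedFDeriv ℝ k f x.2‖ :=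
  norm_iter_comp_le hf (ContinuousLinearMap.snd ℝ A B) (ContinuousLinearMap.norm_snd_le ℝ A B) k x

/-- all derivatives of a smooth compactly supported function are bounded -/
lemma exists_iter_bound {f : A → B} (hf : ContDiff ℝ ∞ f) (hc : HasCompactSupport f) :
    ∃ c : ℕ → ℝ, (∀ k, 0 ≤ c k) ∧ ∀ k x, ‖iteratedFDeriv ℝ k f x‖ ≤ c k := by
  have h : ∀ k, ∃ C, ∀ x, ‖iteratedFDeriv ℝ k f x‖ ≤ C := fun k =>
    (hf.continuous_iteratedFDeriv (nat_le_infty' k)).bounded_above_of_compact_support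
      (hc.iteratedFDeriv k)
  choose c hc using h
  exact ⟨c, fun k => (norm_nonneg _).trans (hc k 0), hc⟩

end Calc

lemma contDiff_relVel : ContDiff ℝ ∞ relVel := by
  unfold relVel
  have h1 : ContDiff ℝ ∞ (fun v : R3 => 1 + ‖v‖ ^ 2) := contDiff_const.add (contDiff_norm_sq ℝ)
  have h2 : ContDiff ℝ ∞ (fun v : R3 => (Real.sqrt (1 + ‖v‖ ^ 2))⁻¹) :=
    (h1.sqrt fun v => by positivity).inv fun v => by positivity
  exact h2.smul contDiff_id

lemma norm_relVel_le (v : R3) : ‖relVel v‖ ≤ 1 := by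
  have h0 : 0 < Real.sqrt (1 + ‖v‖ ^ 2) := Real.sqrt_pos.2 (by positivity)
  rw [relVel, norm_smul, norm_inv, Real.norm_of_nonneg h0.le, inv_mul_le_iff₀ h0, mul_one]
  exact Real.le_sqrt_of_sq_le (by linarith)

/-- the vector field of the characteristics, with velocity function `u` -/
def VF (u : R3 → R3) (G : R3 → (R3 × R3) →L[ℝ] R3) (E B : ℝ → R3 → R3) :
    ℝ × (R3 × R3) → R3 × R3 :=
  fun p => (u p.2.2, G p.2.2 (E p.1 p.2.1, B p.1 p.2.1))

section VF

variable {u : R3 → R3} {G : R3 → (R3 × R3) →L[ℝ] R3} {E B : ℝ → R3 → R3} {P : ℝ}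

lemma contDiff_VF (hu : ContDiff ℝ ∞ u) (hG : ContDiff ℝ ∞ G)
    (hE : ContDiff ℝ ∞ (fun p : ℝ × R3 => E p.1 p.2))
    (hB : ContDiff ℝ ∞ (fun p : ℝ × R3 => B p.1 p.2)) : ContDiff ℝ ∞ (VF u G E B) := by
  have h1 : ContDiff ℝ ∞ (fun p : ℝ × (R3 × R3) => (p.1, p.2.1)) := by fun_prop
  have h2 : ContDiff ℝ ∞ (fun p : ℝ × (R3 × R3) => p.2.2) := by fun_prop
  exact (hu.comp h2).prodMk ((hG.comp h2).clm_apply ((hE.comp h1).prodMk (hB.comp h1)))

lemma IsTrunc.hasCompactSupport (h : IsTrunc P G) : HasCompactSupport G := by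
  refine HasCompactSupport.of_support_subset_isCompact (isCompact_closedBall 0 (2 * P)) ?_
  intro v hv
  rw [mem_closedBall_zero_iff]
  by_contra hlt
  exact hv (h.supp v (not_le.1 hlt).le)

lemma SF.bdd (h : SF E) (T : ℝ) : ∃ C : ℝ, 0 ≤ C ∧ ∀ t, |t| ≤ T → ∀ x, ‖E t x‖ ≤ C := by
  obtain ⟨C, hC⟩ := h.2 T 0
  refine ⟨max C 0, le_max_right _ _, fun t ht x => ?_⟩
  have := hC t ht x
  rw [norm_iteratedFDeriv_zero] at this
  exact this.trans (le_max_left _ _)

lemma hasChar_VF (hu : ContDiff ℝ ∞ u) (hub : ∃ C, ∀ v, ‖u v‖ ≤ C) (hG : IsTrunc P G)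
    (hE : SF E) (hB : SF B) (t : ℝ) (z : R3 × R3) : HasChar (VF u G E B) t z := by
  obtain ⟨Cu, hCu⟩ := hub
  obtain ⟨g, hg0, hg⟩ := exists_iter_bound hG.smooth hG.hasCompactSupport
  set T : ℝ := |t| + 1 with hT
  obtain ⟨CE, hCE0, hCE⟩ := hE.bdd T
  obtain ⟨CB, hCB0, hCB⟩ := hB.bdd T
  have hgood : Flow.Good 1 (fun t z => VF u G E B (t, z)) (-T) T := by
    refine ⟨((contDiff_VF hu hG.smooth hE.1 hB.1).of_le (by simp)).contDiffOn, ?_⟩
    intro c d hc hd
    refine ⟨max Cu (g 0 * max CE CB), fun s hs z => ?_⟩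
    have hsT : |s| ≤ T := abs_le.2 ⟨by linarith [hs.1], by linarith [hs.2]⟩
    refine max_le_max (hCu _) ?_
    refine (ContinuousLinearMap.le_opNorm _ _).trans ?_
    have h1 : ‖G z.2‖ ≤ g 0 := by simpa [norm_iteratedFDeriv_zero] using hg 0 z.2
    exact mul_le_mul h1 (max_le_max (hCE s hsT _) (hCB s hsT _)) (norm_nonneg _) (hg0 0)
  have htI : t ∈ Ioo (-T) T := by
    constructor
    · linarith [neg_abs_le t]
    · linarith [le_abs_self t]
  have h0I : (0 : ℝ) ∈ Ioo (-T) T := by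
    constructor <;> linarith [abs_nonneg t]
  refine ⟨fun s => Flow.Φ (fun t z => VF u G E B (t, z)) (-T) T s t z, Flow.Φ_self hgood htI z, ?_⟩
  intro s hs
  have hsI : s ∈ Ioo (-T) T := by
    rcases le_total 0 t with h | h
    · rw [uIcc_of_le h] at hs
      exact ⟨by linarith [hs.1, h0I.1], by linarith [hs.2, htI.2]⟩
    · rw [uIcc_of_ge h] at hs
      exact ⟨by linarith [hs.1, htI.1], by linarith [hs.2, h0I.2]⟩
  exact Flow.hasDerivAt_Φ hgood hsI htI z

end VF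

/-! ### The transport derivative in coordinates -/

lemma sum_single (a : R3) : ∑ i : Fin 3, a i • (EuclideanSpace.single i (1 : ℝ) : R3) = a := by
  ext j
  fin_cases j <;> simp [Fin.sum_univ_three]

lemma tr_VF {u : R3 → R3} {G : R3 → (R3 × R3) →L[ℝ] R3} {E B : ℝ → R3 → R3}
    {f : ℝ → R3 → R3 → ℝ} (hf : ContDiff ℝ 1 (fun p : ℝ × R3 × R3 => f p.1 p.2.1 p.2.2))
    (t : ℝ) (x v : R3) :
    tr (VF u G E B) (fun p : ℝ × R3 × R3 => f p.1 p.2.1 p.2.2) (t, (x, v)) =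
      deriv (fun s => f s x v) t + ∑ i : Fin 3, u v i * pderiv (fun y => f t y v) i x +
      Gv G E B f t x v := by
  set F : ℝ × R3 × R3 → ℝ := fun p => f p.1 p.2.1 p.2.2 with hF
  have hd : HasFDerivAt F (fderiv ℝ F (t, x, v)) (t, x, v) :=
    (hf.differentiable (by simp) _).hasFDerivAt
  set L := fderiv ℝ F (t, x, v) with hL
  have h1 : deriv (fun s => f s x v) t = L (1, 0, 0) := by
    have h2 : HasDerivAt (fun s : ℝ => ((s, x, v) : ℝ × R3 × R3)) ((1 : ℝ), (0 : R3), (0 : R3)) t :=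
      (hasDerivAt_id t).prodMk (hasDerivAt_const t (x, v))
    have h3 := hd.comp_hasDerivAt t h2
    have h4 : HasDerivAt (fun s => f s x v) (L (1, 0, 0)) t := h3
    exact h4.deriv
  have h2 : ∀ i, pderiv (fun y => f t y v) i x = L (0, EuclideanSpace.single i 1, 0) := by
    intro i
    have h2 : HasFDerivAt (fun y : R3 => ((t, y, v) : ℝ × R3 × R3))
        ((0 : R3 →L[ℝ] ℝ).prod ((ContinuousLinearMap.id ℝ R3).prod (0 : R3 →L[ℝ] R3))) x :=
      (hasFDerivAt_const t x).prodMk ((hasFDerivAt_id x).prodMk (hasFDerivAt_const v x))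
    have h3 := hd.comp x h2
    have h4 : HasFDerivAt (fun y => f t y v) (L.comp ((0 : R3 →L[ℝ] ℝ).prod
        ((ContinuousLinearMap.id ℝ R3).prod (0 : R3 →L[ℝ] R3)))) x := h3
    rw [pderiv, h4.fderiv]
    simp
  have h3 : ∀ i, pderiv (fun w => f t x w) i v = L (0, 0, EuclideanSpace.single i 1) := by
    intro i
    have h2 : HasFDerivAt (fun w : R3 => ((t, x, w) : ℝ × R3 × R3))
        ((0 : R3 →L[ℝ] ℝ).prod ((0 : R3 →L[ℝ] R3).prod (ContinuousLinearMap.id ℝ R3))) v :=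
      (hasFDerivAt_const t v).prodMk ((hasFDerivAt_const x v).prodMk (hasFDerivAt_id v))
    have h3 := hd.comp v h2
    have h4 : HasFDerivAt (fun w => f t x w) (L.comp ((0 : R3 →L[ℝ] ℝ).prod
        ((0 : R3 →L[ℝ] R3).prod (ContinuousLinearMap.id ℝ R3)))) v := h3
    rw [pderiv, h4.fderiv]
    simp
  have e1 : ∀ a : R3, L (0, a, 0) = ∑ i : Fin 3, a i * L (0, EuclideanSpace.single i 1, 0) := by
    intro a
    have : ((0 : ℝ), a, (0 : R3)) = (ContinuousLinearMap.inr ℝ ℝ (R3 × R3)).comp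
      (ContinuousLinearMap.inl ℝ R3 R3) a := rfl
    rw [this]
    conv_lhs => rw [← sum_single a]
    rw [map_sum, map_sum]
    refine Finset.sum_congr rfl fun i _ => ?_
    rw [map_smul, map_smul, smul_eq_mul]
    rfl
  have e2 : ∀ a : R3, L (0, 0, a) = ∑ i : Fin 3, a i * L (0, 0, EuclideanSpace.single i 1) := by
    intro a
    have : ((0 : ℝ), (0 : R3), a) = (ContinuousLinearMap.inr ℝ ℝ (R3 × R3)).comp
      (ContinuousLinearMap.inr ℝ R3 R3) a := rfl
    rw [this]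
    conv_lhs => rw [← sum_single a]
    rw [map_sum, map_sum]
    refine Finset.sum_congr rfl fun i _ => ?_
    rw [map_smul, map_smul, smul_eq_mul]
    rfl
  have e3 : tr (VF u G E B) F (t, (x, v)) = L (1, u v, G v (E t x, B t x)) := rfl
  have e4 : ((1 : ℝ), u v, G v (E t x, B t x)) =
      (1, 0, 0) + (0, u v, 0) + (0, 0, G v (E t x, B t x)) := by simp
  rw [e3, e4, map_add, map_add, e1, e2, h1, Gv]
  simp only [h2, h3]

/-! ### Tr0 -/

lemma PC.one {f : ℝ → R3 → R3 → ℝ} (h : PC f) :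
    ContDiff ℝ 1 (fun p : ℝ × R3 × R3 => f p.1 p.2.1 p.2.2) := h.1.of_le (by simp)

theorem tr0 : Tr0 := by
  intro P G hG E B hE hB r T a φ hr hφ h0 hS t ht x v
  have hz : HasChar (VF relVel G E B) t (x, v) :=
    hasChar_VF contDiff_relVel ⟨1, norm_relVel_le⟩ hG hE hB t (x, v)
  have habs : ∀ s ∈ uIcc 0 t, |s| ≤ T := fun s hs => by
    refine le_trans ?_ ht
    rcases le_total 0 t with h | h
    · rw [uIcc_of_le h] at hs
      rw [abs_of_nonneg hs.1, abs_of_nonneg h]; exact hs.2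
    · rw [uIcc_of_ge h] at hs
      rw [abs_of_nonpos hs.2, abs_of_nonpos h]; linarith [hs.1]
  have h := bound_zero (I := univ) (X := R3 × R3) (Y := ℝ)
    (F := fun p : ℝ × R3 × R3 => r p.1 p.2.1 p.2.2) isOpen_univ
    (contDiff_VF contDiff_relVel hG.smooth hE.1 hB.1).contDiffOn hr.1.contDiffOn
    (subset_univ _) hz (c := a) (q := φ) hφ.continuousOn (fun y => h0 y.1 y.2)
    (fun s hs y => by
      have := hS s (habs s hs) y.1 y.2
      rw [tr_VF hr.one s y.1 y.2]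
      simpa [Tfree, Real.norm_eq_abs] using this)
  exact h

/-! ### Bounds of the vector field -/

section bounds

variable {u : R3 → R3} {G : R3 → (R3 × R3) →L[ℝ] R3} {E B : ℝ → R3 → R3} {P : ℝ}

lemma SF.slice (h : SF E) (s : ℝ) : ContDiff ℝ ∞ (E s) := by
  have h2 : ContDiff ℝ ∞ (fun x : R3 => ((s, x) : ℝ × R3)) := by fun_prop
  exact h.1.comp h2

lemma N_VF_le (hu : ContDiff ℝ ∞ u) (hG : ContDiff ℝ ∞ G) (hE : SF E) (hB : SF B)
    {cu g : ℕ → ℝ} (hcu : ∀ k v, ‖iteratedFDeriv ℝ k u v‖ ≤ cu k)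
    (hg : ∀ k v, ‖iteratedFDeriv ℝ k G v‖ ≤ g k) (k : ℕ) {s e : ℝ}
    (he : ∀ i ≤ k, FBd i E B s e) (z : R3 × R3) :
    N k (VF u G E B) (s, z) ≤
      cu k + (∑ i ∈ Finset.range (k + 1), (k.choose i : ℝ) * g i) * (2 * e) := by
  have hEs := hE.slice s
  have hBs := hB.slice s
  have hK : ContDiff ℝ ∞ (fun y : R3 => (E s y, B s y)) := hEs.prodMk hBs
  have h1 : ContDiff ℝ ∞ (fun y : R3 × R3 => u y.2) := hu.comp contDiff_snd
  have h2 : ContDiff ℝ ∞ (fun y : R3 × R3 => G y.2) := hG.comp contDiff_snd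
  have h3 : ContDiff ℝ ∞ (fun y : R3 × R3 => (E s y.1, B s y.1)) := hK.comp contDiff_fst
  have e1 : N k (VF u G E B) (s, z) ≤ ‖iteratedFDeriv ℝ k (fun y : R3 × R3 => u y.2) z‖ +
      ‖iteratedFDeriv ℝ k (fun y : R3 × R3 => G y.2 (E s y.1, B s y.1)) z‖ :=
    norm_iter_prodMk_le h1 (h2.clm_apply h3) k z
  refine e1.trans (add_le_add ((norm_iter_snd_le hu k z).trans (hcu k _)) ?_)
  refine (norm_iteratedFDeriv_clm_apply (N := ∞) h2 h3 z (nat_le_infty' k)).trans ?_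
  rw [Finset.sum_mul]
  refine Finset.sum_le_sum fun i hi => ?_
  have h0 : ‖iteratedFDeriv ℝ (k - i) (fun y : R3 × R3 => (E s y.1, B s y.1)) z‖ ≤ 2 * e := by
    refine (norm_iter_fst_le hK (k - i) z).trans ((norm_iter_prodMk_le hEs hBs _ _).trans ?_)
    have := he (k - i) (Nat.sub_le _ _) z.1
    linarith [this.1, this.2]
  have h4 : ‖iteratedFDeriv ℝ i (fun y : R3 × R3 => G y.2) z‖ ≤ g i :=
    (norm_iter_snd_le hG i z).trans (hg i _)
  have h5 : 0 ≤ g i := (norm_nonneg _).trans h4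
  gcongr

end bounds

/-! ### Momentum support and the cut-off velocity -/

lemma PC.supp_v {G : R3 → (R3 × R3) →L[ℝ] R3} {P : ℝ} (hG : IsTrunc P G)
    {E B : ℝ → R3 → R3} {f : ℝ → R3 → R3 → ℝ} (hf : PC f)
    (hT : ∀ (t : ℝ) (x v : R3), TransEq G E B f t x v) {R : ℝ} (hR : 2 * P ≤ R)
    (h0 : ∀ x v : R3, R < ‖v‖ → f 0 x v = 0) (t : ℝ) (x v : R3) (hv : R < ‖v‖) :
    f t x v = 0 := by
  have hz : ∀ s ∈ uIcc 0 t, HasDerivAt (fun s : ℝ => ((x + (s - t) • relVel v, v) : R3 × R3))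
      (VF relVel G E B (s, (x + (s - t) • relVel v, v))) s := by
    intro s _
    have e : VF relVel G E B (s, (x + (s - t) • relVel v, v)) = ((1 : ℝ) • relVel v, (0 : R3)) := by
      rw [VF]
      simp only [one_smul, Prod.mk.injEq, true_and]
      rw [hG.supp v (hR.trans hv.le)]
      rfl
    rw [e]
    exact ((((hasDerivAt_id s).sub_const t).smul_const (relVel v)).const_add x).prodMk
      (hasDerivAt_const s v)
  have h := const_along (I := univ) (X := R3 × R3) (Y := ℝ)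
    (F := fun p : ℝ × R3 × R3 => f p.1 p.2.1 p.2.2) isOpen_univ hf.1.contDiffOn
    (subset_univ _) hz (fun s _ => by
      rw [tr_VF hf.one s _ v]
      exact hT s _ v)
  simp only [sub_self, zero_smul, add_zero] at h
  rw [h]
  exact h0 _ _ hv

lemma exists_cutoff {P : ℝ} {G : R3 → (R3 × R3) →L[ℝ] R3} (hG : IsTrunc P G)
    {f₀ : R3 → R3 → ℝ} (hc : HasCompactSupport (Function.uncurry f₀)) :
    ∃ u : R3 → R3, ContDiff ℝ ∞ u ∧ HasCompactSupport u ∧
      ∀ (E B : ℝ → R3 → R3) (f : ℝ → R3 → R3 → ℝ), PC f → f 0 = f₀ →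
        (∀ (t : ℝ) (x v : R3), TransEq G E B f t x v) → ∀ (t : ℝ) (y : R3 × R3),
        tr (VF u G E B) (fun p : ℝ × R3 × R3 => f p.1 p.2.1 p.2.2) (t, y) = 0 := by
  obtain ⟨R1, hR1⟩ := hc.isCompact.isBounded.subset_closedBall (0 : R3 × R3)
  set R : ℝ := max (2 * P) (max R1 0) with hR
  have hRP : 2 * P ≤ R := le_max_left _ _
  have hR0 : 0 ≤ R := (le_max_right _ _).trans (le_max_right _ _)
  have hRR1 : R1 ≤ R := (le_max_left _ _).trans (le_max_right _ _)
  have hf0 : ∀ x v : R3, R < ‖v‖ → f₀ x v = 0 := by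
    intro x v hv
    by_contra hne
    have h1 : (x, v) ∈ Metric.closedBall (0 : R3 × R3) R1 := hR1 (subset_tsupport _ hne)
    rw [mem_closedBall_zero_iff] at h1
    have h2 : ‖v‖ ≤ ‖((x, v) : R3 × R3)‖ := le_max_right _ _
    linarith
  let χ : ContDiffBump (0 : R3) := ⟨R + 1, R + 2, by linarith, by linarith⟩
  refine ⟨fun v => χ v • relVel v, χ.contDiff.smul contDiff_relVel,
    χ.hasCompactSupport.smul_right, ?_⟩
  intro E B f hf hf0' hT t y
  have hsupp := PC.supp_v hG hf hT hRP (fun x v hv => by rw [hf0']; exact hf0 x v hv)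
  rcases le_or_gt ‖y.2‖ R with hy | hy
  · have e : tr (VF (fun v => χ v • relVel v) G E B)
        (fun p : ℝ × R3 × R3 => f p.1 p.2.1 p.2.2) (t, y) =
        tr (VF relVel G E B) (fun p : ℝ × R3 × R3 => f p.1 p.2.1 p.2.2) (t, y) := by
      have h1 : χ y.2 = 1 := χ.one_of_mem_closedBall (by
        rw [mem_closedBall_zero_iff]; change ‖y.2‖ ≤ R + 1; linarith)
      simp only [tr, VF, h1, one_smul]
    rw [e]
    obtain ⟨x, v⟩ := y
    rw [tr_VF hf.one t x v]
    exact hT t x v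
  · have hopen : IsOpen {p : ℝ × R3 × R3 | R < ‖p.2.2‖} :=
      isOpen_lt continuous_const (by fun_prop)
    have hz : (fun p : ℝ × R3 × R3 => f p.1 p.2.1 p.2.2) =ᶠ[𝓝 (t, y)] fun _ => 0 := by
      filter_upwards [hopen.mem_nhds (show (t, y) ∈ {p : ℝ × R3 × R3 | R < ‖p.2.2‖} from hy)]
        with p hp using hsupp p.1 p.2.1 p.2.2 hp
    rw [tr, hz.fderiv_eq]
    simp

/-! ### Tr1, Trk -/

lemma abs_le_of_mem_uIcc {s t T : ℝ} (hs : s ∈ uIcc 0 t) (ht : |t| ≤ T) : |s| ≤ T := by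
  refine le_trans ?_ ht
  rcases le_total 0 t with h | h
  · rw [uIcc_of_le h] at hs
    rw [abs_of_nonneg hs.1, abs_of_nonneg h]; exact hs.2
  · rw [uIcc_of_ge h] at hs
    rw [abs_of_nonpos hs.2, abs_of_nonpos h]; linarith [hs.1]

lemma abs_int_affine_le {φ : ℝ → ℝ} (hφ : Continuous φ) {a b t T : ℝ} (ha : 0 ≤ a) (hb : 0 ≤ b)
    (ht : |t| ≤ T) :
    |∫ s in (0 : ℝ)..t, (a + b * φ s)| ≤ a * T + b * |∫ s in (0 : ℝ)..t, φ s| := by
  rw [intervalIntegral.integral_add intervalIntegrable_const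
    ((hφ.intervalIntegrable _ _).const_mul _), intervalIntegral.integral_const_mul,
    intervalIntegral.integral_const]
  refine (abs_add_le _ _).trans ?_
  rw [abs_mul, abs_of_nonneg hb, smul_eq_mul, sub_zero, abs_mul, abs_of_nonneg ha, mul_comm a]
  gcongr

theorem tr1 : Tr1 := by
  intro P G hG f₀ hf₀ hc T A
  obtain ⟨u, hu, huc, htr⟩ := exists_cutoff hG hc
  obtain ⟨cu, hcu0, hcu⟩ := exists_iter_bound hu huc
  obtain ⟨g, hg0, hg⟩ := exists_iter_bound hG.smooth hG.hasCompactSupport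
  obtain ⟨c, hc0, hcb⟩ := exists_iter_bound hf₀ hc
  set S : ℝ := ∑ i ∈ Finset.range (1 + 1), ((1 : ℕ).choose i : ℝ) * g i with hS
  have hS0 : 0 ≤ S := Finset.sum_nonneg fun i _ => mul_nonneg (by positivity) (hg0 i)
  refine ⟨c 1 + (cu 1 + S * (2 * |A|)) * |T| + S * 2, by have := hc0 1; have := hcu0 1; positivity, ?_⟩
  intro E B f φ hE hB hf hf0 hT hA hφ hφ1 t ht z
  have hT0 : 0 ≤ T := (abs_nonneg t).trans ht
  have hz : HasChar (VF u G E B) t z :=
    hasChar_VF hu ⟨cu 0, fun v => by simpa [norm_iteratedFDeriv_zero] using hcu 0 v⟩ hG hE hB t z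
  have hφ0 : ∀ s, |s| ≤ T → 0 ≤ φ s := fun s hs => (norm_nonneg _).trans (hφ1 s hs 0).1
  have hW1 : ∀ s ∈ uIcc 0 t, ∀ y, N 1 (VF u G E B) (s, y) ≤
      (cu 1 + S * (2 * |A|)) + (S * 2) * φ s := by
    intro s hs y
    have hsT := abs_le_of_mem_uIcc hs ht
    have he : ∀ i ≤ 1, FBd i E B s (|A| + φ s) := by
      intro i hi x
      have h0 := hφ0 s hsT
      interval_cases i
      · have := hA s hsT x
        have h3 := le_abs_self A
        exact ⟨by linarith [this.1], by linarith [this.2]⟩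
      · have := hφ1 s hsT x
        have h3 := abs_nonneg A
        exact ⟨by linarith [this.1], by linarith [this.2]⟩
    refine (N_VF_le hu hG.smooth hE hB hcu hg 1 he y).trans (le_of_eq ?_)
    rw [← hS]; ring
  have h := bound_one (I := univ) (X := R3 × R3) (Y := ℝ)
    (F := fun p : ℝ × R3 × R3 => f p.1 p.2.1 p.2.2) isOpen_univ
    (contDiff_VF hu hG.smooth hE.1 hB.1).contDiffOn hf.1.contDiffOn
    (subset_univ _) hz (c := c 1) (a := fun s => (cu 1 + S * (2 * |A|)) + (S * 2) * φ s)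
    (q := fun _ => 0) (by fun_prop) continuousOn_const
    (fun y => by
      have h1 : N 1 (fun p : ℝ × R3 × R3 => f p.1 p.2.1 p.2.2) (0, y) =
          ‖iteratedFDeriv ℝ 1 (Function.uncurry f₀) y‖ := by
        rw [N]; simp only [hf0]; rfl
      rw [h1]; exact hcb 1 y) hW1
    (fun s hs y => by
      have h1 : (fun y => tr (VF u G E B) (fun p : ℝ × R3 × R3 => f p.1 p.2.1 p.2.2) (s, y)) =
          fun _ => 0 := funext fun y => htr E B f hf hf0 hT s y
      have h2 : N 1 (tr (VF u G E B) (fun p : ℝ × R3 × R3 => f p.1 p.2.1 p.2.2)) (s, y) = 0 := by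
        rw [N]; simp only [h1]
        rw [norm_iteratedFDeriv_one]; simp
      rw [h2])
  have h' : ‖iteratedFDeriv ℝ 1 (fun z : R3 × R3 => f t z.1 z.2) z‖ ≤
      (c 1 + |∫ s in (0 : ℝ)..t, (0 : ℝ)|) * Real.exp |∫ s in (0 : ℝ)..t,
        ((cu 1 + S * (2 * |A|)) + (S * 2) * φ s)| := h
  refine h'.trans ?_
  rw [intervalIntegral.integral_zero, abs_zero, add_zero]
  have h1 : c 1 ≤ Real.exp (c 1) := by linarith [Real.add_one_le_exp (c 1)]
  have hcu1 := hcu0 1
  have hc1 := hc0 1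
  have h2 := abs_int_affine_le hφ (a := cu 1 + S * (2 * |A|)) (b := S * 2) (by positivity)
    (by positivity) ht
  calc _ ≤ Real.exp (c 1) * Real.exp ((cu 1 + S * (2 * |A|)) * T +
        S * 2 * |∫ s in (0 : ℝ)..t, φ s|) :=
        mul_le_mul h1 (Real.exp_le_exp.2 h2) (Real.exp_pos _).le (Real.exp_pos _).le
    _ = Real.exp (c 1 + ((cu 1 + S * (2 * |A|)) * T + S * 2 * |∫ s in (0 : ℝ)..t, φ s|)) :=
        (Real.exp_add _ _).symm
    _ ≤ _ := by
        refine Real.exp_le_exp.2 ?_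
        have hI : 0 ≤ |∫ s in (0 : ℝ)..t, φ s| := abs_nonneg _
        have hTT : T ≤ |T| := le_abs_self T
        have h3 : (cu 1 + S * (2 * |A|)) * T ≤ (cu 1 + S * (2 * |A|)) * |T| := by gcongr
        have h4 : 0 ≤ (cu 1 + S * (2 * |A|)) * |T| := by positivity
        nlinarith [mul_nonneg hc1 hI, mul_nonneg h4 hI, mul_nonneg hS0 hI]

theorem trk : Trk := by
  intro P G hG f₀ hf₀ hc k T A hk
  obtain ⟨u, hu, huc, htr⟩ := exists_cutoff hG hc
  obtain ⟨cu, hcu0, hcu⟩ := exists_iter_bound hu huc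
  obtain ⟨g, hg0, hg⟩ := exists_iter_bound hG.smooth hG.hasCompactSupport
  obtain ⟨c, hc0, hcb⟩ := exists_iter_bound hf₀ hc
  set S : ℕ → ℝ := fun j => ∑ i ∈ Finset.range (j + 1), (j.choose i : ℝ) * g i with hS
  have hS0 : ∀ j, 0 ≤ S j := fun j => Finset.sum_nonneg fun i _ => mul_nonneg (by positivity) (hg0 i)
  set b : ℕ → ℝ := fun j => cu j + S j * (2 * |A|) with hb
  have hb0 : ∀ j, 0 ≤ b j := fun j => by
    have := hcu0 j; have := hS0 j
    positivity
  have hSg0 : 0 ≤ ∑ i ∈ Finset.Ico 1 (k - 1), |A| * b (k - i) :=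
    Finset.sum_nonneg fun i _ => mul_nonneg (abs_nonneg _) (hb0 _)
  set Sg : ℝ := ∑ i ∈ Finset.Ico 1 (k - 1), |A| * b (k - i) with hSg
  have hck := hc0 k
  have hbk := hb0 k
  have hSk := hS0 k
  have hb1 := hb0 1
  refine ⟨(c k + 2 ^ k * (|A| * (b k * |T| + S k * 2) + |T| * Sg)) *
    Real.exp (2 ^ k * b 1 * |T|), by positivity, ?_⟩
  intro E B f φ hE hB hf hf0 hT hA hφ hφk t ht z
  have hT0 : 0 ≤ T := (abs_nonneg t).trans ht
  have hTT : |T| = T := abs_of_nonneg hT0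
  have hA0 : 0 ≤ A := (norm_nonneg _).trans ((hA 0 (by simpa using hT0) 0 (by omega)).1 0).1
  have hz : HasChar (VF u G E B) t z :=
    hasChar_VF hu ⟨cu 0, fun v => by simpa [norm_iteratedFDeriv_zero] using hcu 0 v⟩ hG hE hB t z
  have hφ0 : ∀ s, |s| ≤ T → 0 ≤ φ s := fun s hs => (norm_nonneg _).trans (hφk s hs 0).1
  have h := bound_succ (I := univ) (X := R3 × R3) (Y := ℝ) (W := VF u G E B)
    (F := fun p : ℝ × R3 × R3 => f p.1 p.2.1 p.2.2) isOpen_univ
    (contDiff_VF hu hG.smooth hE.1 hB.1).contDiffOn hf.1.contDiffOn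
    (subset_univ _) hz hk (c := c k) (b := b) (M := fun _ => |A|)
    (w := fun s => b k + (S k * 2) * φ s) (q := fun _ => 0) (by fun_prop) continuousOn_const
    (fun y => by
      have h1 : N k (fun p : ℝ × R3 × R3 => f p.1 p.2.1 p.2.2) (0, y) =
          ‖iteratedFDeriv ℝ k (Function.uncurry f₀) y‖ := by
        rw [N]; simp only [hf0]; rfl
      rw [h1]; exact hcb k y)
    (fun j h1 h2 s hs y => by
      have hsT := abs_le_of_mem_uIcc hs ht
      refine (N_VF_le hu hG.smooth hE hB hcu hg j (e := |A|) (fun i hi x => ?_) y)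
      have := (hA s hsT i (by omega)).1 x
      have h3 := le_abs_self A
      exact ⟨by linarith [this.1], by linarith [this.2]⟩)
    (fun j h1 h2 s hs y => by
      have hsT := abs_le_of_mem_uIcc hs ht
      exact ((hA s hsT j h2).2 y).trans (le_abs_self A))
    (fun s hs y => by
      have hsT := abs_le_of_mem_uIcc hs ht
      have h0 := hφ0 s hsT
      refine (N_VF_le hu hG.smooth hE hB hcu hg k (e := |A| + φ s) (fun i hi x => ?_) y).trans
        (le_of_eq ?_)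
      · rcases Nat.lt_or_ge i k with h4 | h4
        · have := (hA s hsT i h4).1 x
          have h3 := le_abs_self A
          exact ⟨by linarith [this.1], by linarith [this.2]⟩
        · obtain rfl : i = k := le_antisymm hi h4
          have := hφk s hsT x
          have h3 := abs_nonneg A
          exact ⟨by linarith [this.1], by linarith [this.2]⟩
      · simp only [hb, hS]; ring)
    (fun s hs y => by
      have h1 : (fun y => tr (VF u G E B) (fun p : ℝ × R3 × R3 => f p.1 p.2.1 p.2.2) (s, y)) =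
          fun _ => 0 := funext fun y => htr E B f hf hf0 hT s y
      have h2 : N k (tr (VF u G E B) (fun p : ℝ × R3 × R3 => f p.1 p.2.1 p.2.2)) (s, y) = 0 := by
        rw [N]; simp only [h1]
        rw [iteratedFDeriv_fun_zero]; simp
      rw [h2])
  refine le_trans h ?_
  rw [intervalIntegral.integral_zero, abs_zero, add_zero, hTT]
  have h2 := abs_int_affine_le hφ (a := b k) (b := S k * 2) hbk (by positivity) ht
  have hI : 0 ≤ |∫ s in (0 : ℝ)..t, φ s| := abs_nonneg _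
  set I := |∫ s in (0 : ℝ)..t, φ s|
  have hAA := abs_nonneg A
  have e1 : c k + 2 ^ k * (|A| * |∫ s in (0 : ℝ)..t, (b k + S k * 2 * φ s)| + |t| * Sg) ≤
      (c k + 2 ^ k * (|A| * (b k * T + S k * 2) + T * Sg)) * (1 + I) := by
    have t1 : 2 ^ k * (|A| * |∫ s in (0 : ℝ)..t, (b k + S k * 2 * φ s)| + |t| * Sg) ≤
        2 ^ k * (|A| * (b k * T + S k * 2 * I) + T * Sg) := by gcongr
    have t2 : 0 ≤ c k * I + 2 ^ k * (|A| * (b k * T * I + S k * 2) + T * Sg * I) := by positivity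
    nlinarith [t1, t2]
  have e2 : Real.exp (2 ^ k * b 1 * |t|) ≤ Real.exp (2 ^ k * b 1 * T) := by gcongr
  calc _ ≤ ((c k + 2 ^ k * (|A| * (b k * T + S k * 2) + T * Sg)) * (1 + I)) *
        Real.exp (2 ^ k * b 1 * T) := mul_le_mul e1 e2 (Real.exp_pos _).le (by positivity)
    _ = _ := by ring

end Crest.Agent.R106.Std
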