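import Crest.Agent.R106.PicEx
import Crest.Agent.R106.Pic
import Crest.Agent.R106.LimEx
import Crest.Agent.R106.SLimFin
import Crest.Agent.R106.L2FAd
import Crest.Agent.R106.StdTrunc
import Crest.Agent.R106.StepEx
import Crest.Agent.R106.FlowAd
import Crest.Agent.R106.SrcStd
import Crest.Agent.R106.IterB
import Crest.Agent.R106.IterBk
import Crest.Agent.R106.Rev
import Crest.Agent.R106.IterC
import Crest.Agent.R106.TransStd
import Crest.Agent.R106.TBTop
import Crest.Agent.R106.Max
import Crest.Agent.R106.FBDir
import Crest.Agent.R106.FBlogFin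
import Crest.Agent.R106.FieldLogU
import Crest.Agent.R106.Gs2SupEst
import Crest.Agent.R106.Gs2GradEst

/-!
# Row 106, STANDARD PART: top link (helper775).

`truncEx_of` : the truncated system has global smooth solutions, from `FB`, `FBz`, `FBlog`.
`truncEx` : the same, unconditional.
-/

set_option autoImplicit false

namespace Crest.Agent.R106.Std

/-- global existence for the truncated system from the open leaves of `StdIface.lean`. -/
theorem truncEx_of (hFB : FB) (hFBz : FBz) (hFBlog : FBlog) : TruncEx :=
  Lim.truncEx
    (picEx trunc (stepEx flow src R106.Max.max)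
      (pic (b0_of_fb hFB) (b1_of hFBlog tr1) (bk_of hFB trk) (IterC.cdiff hFBz tr0)) TB.tb)
    sLim sLim l2Clause

/-- **THE STANDARD PART OF ROW 106**: the truncated system has global smooth solutions. -/
theorem truncEx : TruncEx :=
  truncEx_of (FBDir.fb Gs2.supEst) (FBDir.fbz Gs2.supEst) (FieldStd.fbLog (Field.gslogU Gs2.gradEst))

end Crest.Agent.R106.Std
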