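import Crest.Agent.R106.StepEx
import Crest.Agent.R106.FlowAd

import Crest.Agent.R106.SrcStd
import Crest.Agent.R106.Max

/-!
Row 106, node ITER-A (helper201): existence of a Picard step, hypothesis-free.
-/

set_option autoImplicit false

open Crest.AnalysisR.VecCalc3 Crest.AnalysisR.PDE.RVM

namespace Crest.Agent.R106.Std

theorem stepEx_holds : StepEx := stepEx flow src Crest.Agent.R106.Max.max

end Crest.Agent.R106.Std
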