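import Mathlib

/-!
# Row 106, node TB: time-derivative bootstrap

Families `F : ι → ℝ × Y → W` of smooth functions of `(t, y)`.
* `SpB S F` : all spatial derivatives are bounded, uniformly in `i`, `t ∈ S`, `y`.
* `UB S F`  : all (mixed) derivatives are bounded, uniformly in `i`, `t ∈ S`, `y`.
* `MB j S F`: `SpB` for the first `j` time derivatives.
-/

set_option autoImplicit false
open MeasureTheory Set
open scoped ContDiff

namespace Crest.Agent.R106.TB

variable {ι : Type*} {Y W W₁ W₂ W₃ : Type}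
  [NormedAddCommGroup Y] [NormedSpace ℝ Y] [NormedAddCommGroup W] [NormedSpace ℝ W]
  [NormedAddCommGroup W₁] [NormedSpace ℝ W₁] [NormedAddCommGroup W₂] [NormedSpace ℝ W₂]
  [NormedAddCommGroup W₃] [NormedSpace ℝ W₃]

/-- All spatial derivatives bounded, uniformly. -/
def SpB (S : Set ℝ) (F : ι → ℝ × Y → W) : Prop :=
  ∀ k : ℕ, ∃ C : ℝ, ∀ i, ∀ t ∈ S, ∀ y, ‖iteratedFDeriv ℝ k (fun y => F i (t, y)) y‖ ≤ C

/-- All derivatives bounded, uniformly. -/
def UB (S : Set ℝ) (F : ι → ℝ × Y → W) : Prop :=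
  ∀ m : ℕ, ∃ C : ℝ, ∀ i, ∀ t ∈ S, ∀ y, ‖iteratedFDeriv ℝ m (F i) (t, y)‖ ≤ C

/-- Time derivative. -/
noncomputable def dt (F : ℝ × Y → W) : ℝ × Y → W := fun p => fderiv ℝ F p (1, 0)

/-- Spatial derivative. -/
noncomputable def dy (F : ℝ × Y → W) : ℝ × Y → (Y →L[ℝ] W) :=
  fun p => (fderiv ℝ F p).comp (ContinuousLinearMap.inr ℝ ℝ Y)

/-- `SpB` for the first `j` time derivatives. -/
def MB : ℕ → (S : Set ℝ) → (F : ι → ℝ × Y → W) → Prop
  | 0, S, F => SpB S F
  | (j + 1), S, F => SpB S F ∧ MB j S (fun i => dt (F i))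

theorem MB.spB {j : ℕ} {S : Set ℝ} {F : ι → ℝ × Y → W} (h : MB j S F) : SpB S F := by
  cases j with
  | zero => exact h
  | succ j => exact h.1

theorem MB.mono_succ {j : ℕ} : ∀ {S : Set ℝ} {F : ι → ℝ × Y → W}, MB (j + 1) S F → MB j S F := by
  induction j with
  | zero => intro S F h; exact h.1
  | succ j ih => intro S F h; exact ⟨h.1, ih h.2⟩

theorem contDiff_dt {F : ℝ × Y → W} (hF : ContDiff ℝ ∞ F) : ContDiff ℝ ∞ (dt F) :=
  (hF.fderiv_right (m := ∞) (by simp)).clm_apply contDiff_const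

theorem contDiff_dy {F : ℝ × Y → W} (hF : ContDiff ℝ ∞ F) : ContDiff ℝ ∞ (dy F) :=
  (hF.fderiv_right (m := ∞) (by simp)).clm_comp contDiff_const

theorem differentiable_of {F : ℝ × Y → W} (hF : ContDiff ℝ ∞ F) : Differentiable ℝ F :=
  hF.differentiable (by simp)

theorem dt_dy {F : ℝ × Y → W} (hF : ContDiff ℝ ∞ F) : dt (dy F) = dy (dt F) := by
  funext p
  have hd : Differentiable ℝ (fderiv ℝ F) :=
    (hF.fderiv_right (m := ∞) (by simp)).differentiable (by simp)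
  have hsym : IsSymmSndFDerivAt ℝ F p :=
    (hF.contDiffAt).isSymmSndFDerivAt (by simp only [minSmoothness_of_isRCLikeNormedField]; exact WithTop.coe_le_coe.2 le_top)
  ext y
  have h1 : dt (dy F) p y = fderiv ℝ (fderiv ℝ F) p (1, 0) (0, y) := by
    unfold dt dy
    have : HasFDerivAt (fun p => (fderiv ℝ F p).comp (ContinuousLinearMap.inr ℝ ℝ Y))
        (((ContinuousLinearMap.compL ℝ Y (ℝ × Y) W).flip
          (ContinuousLinearMap.inr ℝ ℝ Y)).comp (fderiv ℝ (fderiv ℝ F) p)) p := by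
      exact (((ContinuousLinearMap.compL ℝ Y (ℝ × Y) W).flip
          (ContinuousLinearMap.inr ℝ ℝ Y)).hasFDerivAt).comp p (hd p).hasFDerivAt
    rw [this.fderiv]
    simp
  have h2 : dy (dt F) p y = fderiv ℝ (fderiv ℝ F) p (0, y) (1, 0) := by
    unfold dt dy
    have : HasFDerivAt (fun p => fderiv ℝ F p ((1 : ℝ), (0 : Y)))
        ((ContinuousLinearMap.apply ℝ W ((1 : ℝ), (0 : Y))).comp (fderiv ℝ (fderiv ℝ F) p)) p := by
      exact ((ContinuousLinearMap.apply ℝ W ((1 : ℝ), (0 : Y))).hasFDerivAt).comp p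
        (hd p).hasFDerivAt
    rw [this.fderiv]
    simp
  rw [h1, h2]
  exact hsym (1, 0) (0, y)

theorem fderiv_slice {F : ℝ × Y → W} (hF : ContDiff ℝ ∞ F) (t : ℝ) :
    fderiv ℝ (fun y => F (t, y)) = fun y => dy F (t, y) := by
  funext y
  have h1 : HasFDerivAt (fun y : Y => (t, y)) (ContinuousLinearMap.inr ℝ ℝ Y) y :=
    hasFDerivAt_prodMk_right t y
  exact ((differentiable_of hF (t, y)).hasFDerivAt.comp y h1).fderiv

theorem SpB.dy {S : Set ℝ} {F : ι → ℝ × Y → W} (hF : ∀ i, ContDiff ℝ ∞ (F i)) (h : SpB S F) :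
    SpB S (fun i => dy (F i)) := by
  intro k
  obtain ⟨C, hC⟩ := h (k + 1)
  refine ⟨C, fun i t ht y => ?_⟩
  rw [← fderiv_slice (hF i) t, norm_iteratedFDeriv_fderiv]
  exact hC i t ht y

theorem MB.dy {j : ℕ} : ∀ {S : Set ℝ} {F : ι → ℝ × Y → W}, (∀ i, ContDiff ℝ ∞ (F i)) →
    MB j S F → MB j S (fun i => dy (F i)) := by
  induction j with
  | zero => intro S F hF h; exact SpB.dy hF h
  | succ j ih =>
    intro S F hF h
    refine ⟨SpB.dy hF h.1, ?_⟩
    have h1 := ih (fun i => contDiff_dt (hF i)) h.2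
    have h2 : (fun i => TB.dt (TB.dy (F i))) = fun i => TB.dy (TB.dt (F i)) := by
      funext i; exact dt_dy (hF i)
    rw [h2]
    exact h1

theorem contDiff_slice {F : ℝ × Y → W} (hF : ContDiff ℝ ∞ F) (t : ℝ) :
    ContDiff ℝ ∞ (fun y => F (t, y)) := hF.comp (contDiff_const.prodMk contDiff_id)

/-- Products. -/
theorem SpB.bilin {S : Set ℝ} (B : W₁ →L[ℝ] W₂ →L[ℝ] W₃) {F : ι → ℝ × Y → W₁}
    {G : ι → ℝ × Y → W₂} (hF : ∀ i, ContDiff ℝ ∞ (F i)) (hG : ∀ i, ContDiff ℝ ∞ (G i))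
    (h1 : SpB S F) (h2 : SpB S G) : SpB S (fun i p => B (F i p) (G i p)) := by
  intro k
  choose C1 hC1 using h1
  choose C2 hC2 using h2
  refine ⟨‖B‖ * ∑ l ∈ Finset.range (k + 1), (k.choose l : ℝ) * C1 l * C2 (k - l),
    fun i t ht y => ?_⟩
  have hk := B.norm_iteratedFDeriv_le_of_bilinear (contDiff_slice (hF i) t)
    (contDiff_slice (hG i) t) y (n := k) (by exact_mod_cast le_top)
  refine hk.trans ?_
  have hnn : ∀ l, 0 ≤ C1 l := fun l => (norm_nonneg _).trans (hC1 l i t ht y)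
  gcongr with l hl
  · exact mul_nonneg (by positivity) (hnn l)
  · exact hC1 l i t ht y
  · exact hC2 _ i t ht y

theorem SpB.add {S : Set ℝ} {F G : ι → ℝ × Y → W} (hF : ∀ i, ContDiff ℝ ∞ (F i))
    (hG : ∀ i, ContDiff ℝ ∞ (G i)) (h1 : SpB S F) (h2 : SpB S G) :
    SpB S (fun i p => F i p + G i p) := by
  intro k
  obtain ⟨C1, hC1⟩ := h1 k
  obtain ⟨C2, hC2⟩ := h2 k
  refine ⟨C1 + C2, fun i t ht y => ?_⟩
  have e : iteratedFDeriv ℝ k (fun y => F i (t, y) + G i (t, y)) y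
      = iteratedFDeriv ℝ k (fun y => F i (t, y)) y + iteratedFDeriv ℝ k (fun y => G i (t, y)) y := by
    have := iteratedFDeriv_add_apply (𝕜 := ℝ) (i := k) (x := y)
      ((contDiff_slice (hF i) t).contDiffAt.of_le (by exact_mod_cast le_top))
      ((contDiff_slice (hG i) t).contDiffAt.of_le (by exact_mod_cast le_top))
    exact this
  rw [e]
  exact (norm_add_le _ _).trans (add_le_add (hC1 i t ht y) (hC2 i t ht y))

/-- Fixed linear maps. -/
theorem SpB.clm {S : Set ℝ} (L : W₁ →L[ℝ] W₂) {F : ι → ℝ × Y → W₁}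
    (hF : ∀ i, ContDiff ℝ ∞ (F i)) (h1 : SpB S F) : SpB S (fun i p => L (F i p)) := by
  intro k
  obtain ⟨C, hC⟩ := h1 k
  refine ⟨‖L‖ * C, fun i t ht y => ?_⟩
  have := L.norm_iteratedFDeriv_comp_left (n := k)
    ((contDiff_slice (hF i) t).contDiffAt (x := y)) (by exact_mod_cast le_top)
  refine (this).trans ?_
  gcongr
  exact hC i t ht y

theorem SpB.const {S : Set ℝ} {a : Y → W} (ha : ∀ k, ∃ C : ℝ, ∀ y, ‖iteratedFDeriv ℝ k a y‖ ≤ C) :
    SpB S (fun (_ : ι) (p : ℝ × Y) => a p.2) := by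
  intro k
  obtain ⟨C, hC⟩ := ha k
  exact ⟨C, fun i t ht y => hC y⟩

theorem SpB.zero {S : Set ℝ} : SpB S (fun (_ : ι) (_ : ℝ × Y) => (0 : W)) := by
  intro k
  refine ⟨0, fun i t ht y => ?_⟩
  rw [show (fun y : Y => (0 : W)) = 0 from rfl]
  simp

/-! ### Closure of `MB` -/

theorem dt_add {F G : ℝ × Y → W} (hF : ContDiff ℝ ∞ F) (hG : ContDiff ℝ ∞ G) :
    dt (fun p => F p + G p) = fun p => dt F p + dt G p := by
  funext p
  unfold dt
  have := ((differentiable_of hF p).hasFDerivAt.add (differentiable_of hG p).hasFDerivAt).fderiv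
  change fderiv ℝ (F + G) p (1, 0) = _
  rw [this]
  rfl

theorem dt_clm (L : W₁ →L[ℝ] W₂) {F : ℝ × Y → W₁} (hF : ContDiff ℝ ∞ F) :
    dt (fun p => L (F p)) = fun p => L (dt F p) := by
  funext p
  unfold dt
  have := (L.hasFDerivAt.comp p (differentiable_of hF p).hasFDerivAt).fderiv
  change fderiv ℝ (L ∘ F) p (1, 0) = _
  rw [this]
  rfl

theorem dt_bilin (B : W₁ →L[ℝ] W₂ →L[ℝ] W₃) {F : ℝ × Y → W₁} {G : ℝ × Y → W₂}
    (hF : ContDiff ℝ ∞ F) (hG : ContDiff ℝ ∞ G) :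
    dt (fun p => B (F p) (G p)) = fun p => B (dt F p) (G p) + B (F p) (dt G p) := by
  funext p
  unfold dt
  have := (B.hasFDerivAt_of_bilinear (differentiable_of hF p).hasFDerivAt
    (differentiable_of hG p).hasFDerivAt).fderiv
  rw [this]
  simp [add_comm]

theorem dt_const (a : Y → W) (ha : ContDiff ℝ ∞ a) :
    dt (fun p : ℝ × Y => a p.2) = fun _ => 0 := by
  funext p
  unfold dt
  have h1 : HasFDerivAt (fun p : ℝ × Y => a p.2)
      ((fderiv ℝ a p.2).comp (ContinuousLinearMap.snd ℝ ℝ Y)) p :=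
    (ha.differentiable (by simp) p.2).hasFDerivAt.comp p hasFDerivAt_snd
  rw [h1.fderiv]
  simp

theorem MB.zero {j : ℕ} {S : Set ℝ} : MB j S (fun (_ : ι) (_ : ℝ × Y) => (0 : W)) := by
  induction j with
  | zero => exact SpB.zero
  | succ j ih =>
    refine ⟨SpB.zero, ?_⟩
    have : (fun (_ : ι) => dt (fun (_ : ℝ × Y) => (0 : W))) = fun _ _ => 0 := by
      funext i p
      simp [dt]
    rw [this]
    exact ih

theorem MB.const {j : ℕ} {S : Set ℝ} {a : Y → W} (has : ContDiff ℝ ∞ a)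
    (ha : ∀ k, ∃ C : ℝ, ∀ y, ‖iteratedFDeriv ℝ k a y‖ ≤ C) :
    MB j S (fun (_ : ι) (p : ℝ × Y) => a p.2) := by
  cases j with
  | zero => exact SpB.const ha
  | succ j =>
    refine ⟨SpB.const ha, ?_⟩
    rw [show (fun (_ : ι) => dt (fun p : ℝ × Y => a p.2)) = fun _ _ => 0 from by
      funext i; exact dt_const a has]
    exact MB.zero

theorem MB.add {j : ℕ} : ∀ {S : Set ℝ} {F G : ι → ℝ × Y → W}, (∀ i, ContDiff ℝ ∞ (F i)) →
    (∀ i, ContDiff ℝ ∞ (G i)) → MB j S F → MB j S G → MB j S (fun i p => F i p + G i p) := by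
  induction j with
  | zero => intro S F G hF hG h1 h2; exact SpB.add hF hG h1 h2
  | succ j ih =>
    intro S F G hF hG h1 h2
    refine ⟨SpB.add hF hG h1.1 h2.1, ?_⟩
    rw [show (fun i => dt (fun p => F i p + G i p)) = fun i p => dt (F i) p + dt (G i) p from by
      funext i; exact dt_add (hF i) (hG i)]
    exact ih (fun i => contDiff_dt (hF i)) (fun i => contDiff_dt (hG i)) h1.2 h2.2

theorem MB.clm {j : ℕ} (L : W₁ →L[ℝ] W₂) : ∀ {S : Set ℝ} {F : ι → ℝ × Y → W₁},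
    (∀ i, ContDiff ℝ ∞ (F i)) → MB j S F → MB j S (fun i p => L (F i p)) := by
  induction j with
  | zero => intro S F hF h; exact SpB.clm L hF h
  | succ j ih =>
    intro S F hF h
    refine ⟨SpB.clm L hF h.1, ?_⟩
    rw [show (fun i => dt (fun p => L (F i p))) = fun i p => L (dt (F i) p) from by
      funext i; exact dt_clm L (hF i)]
    exact ih (fun i => contDiff_dt (hF i)) h.2

theorem contDiff_bilin (B : W₁ →L[ℝ] W₂ →L[ℝ] W₃) {F : ℝ × Y → W₁} {G : ℝ × Y → W₂}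
    (hF : ContDiff ℝ ∞ F) (hG : ContDiff ℝ ∞ G) : ContDiff ℝ ∞ (fun p => B (F p) (G p)) :=
  B.isBoundedBilinearMap.contDiff.comp (hF.prodMk hG)

theorem MB.bilin {j : ℕ} (B : W₁ →L[ℝ] W₂ →L[ℝ] W₃) : ∀ {S : Set ℝ} {F : ι → ℝ × Y → W₁}
    {G : ι → ℝ × Y → W₂}, (∀ i, ContDiff ℝ ∞ (F i)) → (∀ i, ContDiff ℝ ∞ (G i)) →
    MB j S F → MB j S G → MB j S (fun i p => B (F i p) (G i p)) := by
  induction j with
  | zero => intro S F G hF hG h1 h2; exact SpB.bilin B hF hG h1 h2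
  | succ j ih =>
    intro S F G hF hG h1 h2
    refine ⟨SpB.bilin B hF hG h1.1 h2.1, ?_⟩
    rw [show (fun i => dt (fun p => B (F i p) (G i p)))
        = fun i p => B (dt (F i) p) (G i p) + B (F i p) (dt (G i) p) from by
      funext i; exact dt_bilin B (hF i) (hG i)]
    exact MB.add (fun i => contDiff_bilin B (contDiff_dt (hF i)) (hG i))
      (fun i => contDiff_bilin B (hF i) (contDiff_dt (hG i)))
      (ih (fun i => contDiff_dt (hF i)) hG h1.2 h2.mono_succ)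
      (ih hF (fun i => contDiff_dt (hG i)) h1.mono_succ h2.2)

/-- Congruence. -/
theorem MB.congr {j : ℕ} {S : Set ℝ} {F G : ι → ℝ × Y → W} (h : MB j S F)
    (e : ∀ i p, F i p = G i p) : MB j S G := by
  have : F = G := by funext i p; exact e i p
  rwa [this] at h

/-- Reindexing. -/
theorem SpB.reindex {κ : Type*} {S : Set ℝ} {F : ι → ℝ × Y → W} (φ : κ → ι) (h : SpB S F) :
    SpB S (fun k => F (φ k)) := by
  intro k
  obtain ⟨C, hC⟩ := h k
  exact ⟨C, fun i => hC (φ i)⟩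

theorem MB.reindex {κ : Type*} {j : ℕ} (φ : κ → ι) : ∀ {S : Set ℝ} {F : ι → ℝ × Y → W},
    MB j S F → MB j S (fun k => F (φ k)) := by
  induction j with
  | zero => intro S F h; exact SpB.reindex φ h
  | succ j ih => intro S F h; exact ⟨SpB.reindex φ h.1, ih h.2⟩

/-! ### From `MB` to `UB` -/

theorem UB_of_MB_aux (m : ℕ) : ∀ {W : Type} [NormedAddCommGroup W] [NormedSpace ℝ W]
    {S : Set ℝ} {F : ι → ℝ × Y → W}, (∀ i, ContDiff ℝ ∞ (F i)) → MB m S F →
    ∃ C : ℝ, ∀ i, ∀ t ∈ S, ∀ y, ‖iteratedFDeriv ℝ m (F i) (t, y)‖ ≤ C := by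
  induction m with
  | zero =>
    intro W _ _ S F hF h
    obtain ⟨C, hC⟩ := h 0
    refine ⟨C, fun i t ht y => ?_⟩
    have := hC i t ht y
    rw [norm_iteratedFDeriv_zero] at this ⊢
    exact this
  | succ m ih =>
    intro W _ _ S F hF h
    obtain ⟨C1, hC1⟩ := ih (fun i => contDiff_dt (hF i)) h.2
    obtain ⟨C2, hC2⟩ := ih (fun i => contDiff_dy (hF i)) (MB.dy hF h.mono_succ)
    -- fderiv F p = fst ⊗ dt F + dy F ∘ snd
    let L1 : W →L[ℝ] ((ℝ × Y) →L[ℝ] W) :=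
      ContinuousLinearMap.smulRightL ℝ (ℝ × Y) W (ContinuousLinearMap.fst ℝ ℝ Y)
    let L2 : (Y →L[ℝ] W) →L[ℝ] ((ℝ × Y) →L[ℝ] W) :=
      (ContinuousLinearMap.compL ℝ (ℝ × Y) Y W).flip (ContinuousLinearMap.snd ℝ ℝ Y)
    refine ⟨‖L1‖ * C1 + ‖L2‖ * C2, fun i t ht y => ?_⟩
    have e : fderiv ℝ (F i) = (fun p => L1 (dt (F i) p)) + fun p => L2 (TB.dy (F i) p) := by
      funext p
      ext q
      · simp [L1, L2, dt, TB.dy]
        exact (fderiv ℝ (F i) p).map_zero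
      · simp [L1, L2, dt, TB.dy]
    rw [← norm_iteratedFDeriv_fderiv, e]
    have hs1 : ContDiff ℝ ∞ (fun p => L1 (dt (F i) p)) := L1.contDiff.comp (contDiff_dt (hF i))
    have hs2 : ContDiff ℝ ∞ (fun p => L2 (TB.dy (F i) p)) := L2.contDiff.comp (contDiff_dy (hF i))
    rw [iteratedFDeriv_add_apply (hs1.contDiffAt.of_le (by exact_mod_cast le_top))
      (hs2.contDiffAt.of_le (by exact_mod_cast le_top))]
    refine (norm_add_le _ _).trans (add_le_add ?_ ?_)
    · have := L1.norm_iteratedFDeriv_comp_left (n := m)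
        ((contDiff_dt (hF i)).contDiffAt (x := (t, y))) (by exact_mod_cast le_top)
      refine this.trans ?_
      gcongr
      exact hC1 i t ht y
    · have := L2.norm_iteratedFDeriv_comp_left (n := m)
        ((contDiff_dy (hF i)).contDiffAt (x := (t, y))) (by exact_mod_cast le_top)
      refine this.trans ?_
      gcongr
      exact hC2 i t ht y

theorem UB_of_MB {S : Set ℝ} {F : ι → ℝ × Y → W} (hF : ∀ i, ContDiff ℝ ∞ (F i))
    (h : ∀ j, MB j S F) : UB S F := fun m => UB_of_MB_aux m hF (h m)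

end Crest.Agent.R106.TB
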