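import Crest.Agent.R106.TB
import Crest.Agent.R106.Src

/-!
# Row 106, node TB, part 2: momentum integrals and pull-backs
-/

set_option autoImplicit false
open MeasureTheory Set
open scoped ContDiff

namespace Crest.Agent.R106.TB

open Crest.AnalysisR.VecCalc3

variable {ι : Type*} {W : Type} [NormedAddCommGroup W] [NormedSpace ℝ W]

/-- momentum integral -/
noncomputable def J (H : ℝ × (R3 × R3) → W) : ℝ × R3 → W := fun p => ∫ v, H (p.1, p.2, v)

/-- pull-back of a field to phase space -/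
def pb (K : ℝ × R3 → W) : ℝ × (R3 × R3) → W := fun p => K (p.1, p.2.1)

/-- momentum support -/
def VS (R : ℝ) (H : ℝ × (R3 × R3) → W) : Prop := ∀ t x v, R < ‖v‖ → H (t, x, v) = 0

theorem VS.fderiv {R : ℝ} {H : ℝ × (R3 × R3) → W} (h : VS R H) {t : ℝ} {x v : R3}
    (hv : R < ‖v‖) : fderiv ℝ H (t, x, v) = 0 := by
  have hev : H =ᶠ[nhds (t, x, v)] fun _ => 0 := by
    have hopen : IsOpen {p : ℝ × (R3 × R3) | R < ‖p.2.2‖} :=
      isOpen_lt continuous_const (continuous_snd.snd.norm)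
    filter_upwards [hopen.mem_nhds (show (t, x, v) ∈ {p : ℝ × (R3 × R3) | R < ‖p.2.2‖} from hv)]
      with p hp
    exact h p.1 p.2.1 p.2.2 hp
  rw [hev.fderiv_eq]
  simp

theorem VS.dt {R : ℝ} {H : ℝ × (R3 × R3) → W} (h : VS R H) : VS R (dt H) := by
  intro t x v hv
  unfold TB.dt
  rw [h.fderiv hv]
  rfl

theorem contDiff_J [CompleteSpace W] {R : ℝ} {H : ℝ × (R3 × R3) → W} (hH : ContDiff ℝ ∞ H)
    (h : VS R H) : ContDiff ℝ ∞ (J H) := by
  rw [← contDiffOn_univ]
  refine Src.contDiffOn_integral (μ := volume) (Y := ℝ × R3) (V := R3) (n := ⊤)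
    (f := fun q v => H (q.1, q.2, v)) isOpen_univ ?_ ?_
  · exact (hH.comp (by fun_prop :
      ContDiff ℝ ∞ (fun p : (ℝ × R3) × R3 => (p.1.1, p.1.2, p.2)))).contDiffOn
  · intro y _
    exact ⟨univ, Filter.univ_mem, R, fun y' _ v hv => h _ _ _ hv⟩

theorem dt_J [CompleteSpace W] {R : ℝ} {H : ℝ × (R3 × R3) → W} (hH : ContDiff ℝ ∞ H)
    (h : VS R H) : dt (J H) = J (dt H) := by
  funext q
  have h1 := Src.fderiv_integral_apply (μ := volume) (Y := ℝ × R3) (V := R3)
    (f := fun q v => H (q.1, q.2, v)) (U := univ) isOpen_univ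
    (((hH.of_le (by exact_mod_cast le_top)).comp (by fun_prop :
      ContDiff ℝ 1 (fun p : (ℝ × R3) × R3 => (p.1.1, p.1.2, p.2)))).contDiffOn)
    (fun y _ => ⟨univ, Filter.univ_mem, R, fun y' _ v hv => h _ _ _ hv⟩) (mem_univ q)
    ((1 : ℝ), (0 : R3))
  unfold dt J
  refine h1.trans ?_
  refine integral_congr_ae (Filter.Eventually.of_forall fun v => ?_)
  have h2 : HasFDerivAt (fun y' : ℝ × R3 => ((y'.1, y'.2, v) : ℝ × (R3 × R3)))
      ((ContinuousLinearMap.fst ℝ ℝ R3).prod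
        ((ContinuousLinearMap.snd ℝ ℝ R3).prod (0 : (ℝ × R3) →L[ℝ] R3))) q :=
    hasFDerivAt_fst.prodMk (hasFDerivAt_snd.prodMk (hasFDerivAt_const v q))
  have h3 := (HasFDerivAt.comp q (differentiable_of hH (q.1, q.2, v)).hasFDerivAt h2).fderiv
  change fderiv ℝ (H ∘ fun y' : ℝ × R3 => ((y'.1, y'.2, v) : ℝ × (R3 × R3))) q (1, 0) = _
  rw [h3]
  rfl

theorem norm_iteratedFDeriv_int (k : ℕ) : ∀ {W : Type} [NormedAddCommGroup W] [NormedSpace ℝ W]
    [CompleteSpace W] {R C : ℝ} {g : R3 × R3 → W}, ContDiff ℝ ∞ g →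
    (∀ x v, R < ‖v‖ → g (x, v) = 0) → (∀ z, ‖iteratedFDeriv ℝ k g z‖ ≤ C) →
    ∀ x, ‖iteratedFDeriv ℝ k (fun x => ∫ v, g (x, v)) x‖
      ≤ C * (volume (Metric.closedBall (0 : R3) R)).toReal := by
  induction k with
  | zero =>
    intro W _ _ _ R C g hg hs hC x
    rw [norm_iteratedFDeriv_zero]
    have e : ∫ v, g (x, v) = ∫ v in Metric.closedBall (0 : R3) R, g (x, v) := by
      rw [setIntegral_eq_integral_of_forall_compl_eq_zero]
      intro v hv
      exact hs x v (by simpa using hv)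
    rw [e]
    refine norm_setIntegral_le_of_norm_le_const (isCompact_closedBall (0 : R3) R).measure_lt_top ?_
    intro v _
    have := hC (x, v)
    rwa [norm_iteratedFDeriv_zero] at this
  | succ k ih =>
    intro W _ _ _ R C g hg hs hC x
    set g' : R3 × R3 → (R3 →L[ℝ] W) :=
      fun z => (fderiv ℝ g z).comp (ContinuousLinearMap.inl ℝ R3 R3) with hg'
    have hg's : ContDiff ℝ ∞ g' := (hg.fderiv_right (m := ∞) (by simp)).clm_comp contDiff_const
    have hf0 : ∀ x v, R < ‖v‖ → fderiv ℝ g (x, v) = 0 := by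
      intro x v hv
      have hev : g =ᶠ[nhds (x, v)] fun _ => 0 := by
        have hopen : IsOpen {p : R3 × R3 | R < ‖p.2‖} :=
          isOpen_lt continuous_const (continuous_snd.norm)
        filter_upwards [hopen.mem_nhds (show (x, v) ∈ {p : R3 × R3 | R < ‖p.2‖} from hv)]
          with p hp
        exact hs p.1 p.2 hp
      rw [hev.fderiv_eq]
      simp
    have hg'0 : ∀ x v, R < ‖v‖ → g' (x, v) = 0 := by
      intro x v hv
      simp only [hg', hf0 x v hv, ContinuousLinearMap.zero_comp]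
    have hfd : fderiv ℝ (fun x => ∫ v, g (x, v)) = fun x => ∫ v, g' (x, v) := by
      funext x
      have h1 := (Src.hasFDerivAt_integral (μ := volume) (Y := R3) (V := R3)
        (f := fun q v => g (q, v)) (U := univ) isOpen_univ
        ((hg.of_le (by exact_mod_cast le_top)).contDiffOn)
        (fun y _ => ⟨univ, Filter.univ_mem, R, fun y' _ v hv => hs _ _ hv⟩) (mem_univ x)).fderiv
      rw [h1]
      refine integral_congr_ae (Filter.Eventually.of_forall fun v => ?_)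
      exact Src.dpar_eq (f := fun q v => g (q, v)) (U := univ) isOpen_univ
        ((hg.of_le (by exact_mod_cast le_top)).contDiffOn) (mem_univ x) v
    rw [← norm_iteratedFDeriv_fderiv, hfd]
    refine ih hg's hg'0 ?_ x
    intro z
    have hL := ((ContinuousLinearMap.compL ℝ R3 (R3 × R3) W).flip
      (ContinuousLinearMap.inl ℝ R3 R3)).norm_iteratedFDeriv_comp_left (n := k)
      (((hg.fderiv_right (m := ∞) (by simp))).contDiffAt (x := z)) (by exact_mod_cast le_top)
    have hn : ‖(ContinuousLinearMap.compL ℝ R3 (R3 × R3) W).flip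
        (ContinuousLinearMap.inl ℝ R3 R3)‖ ≤ 1 := by
      refine ContinuousLinearMap.opNorm_le_bound _ zero_le_one (fun L => ?_)
      simp only [ContinuousLinearMap.flip_apply, ContinuousLinearMap.compL_apply, one_mul]
      refine (ContinuousLinearMap.opNorm_comp_le _ _).trans ?_
      calc ‖L‖ * ‖ContinuousLinearMap.inl ℝ R3 R3‖ ≤ ‖L‖ * 1 := by
            gcongr
            exact ContinuousLinearMap.norm_inl_le_one ℝ R3 R3
        _ = ‖L‖ := mul_one _
    calc ‖iteratedFDeriv ℝ k g' z‖ ≤ _ := hL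
      _ ≤ 1 * ‖iteratedFDeriv ℝ k (_root_.fderiv ℝ g) z‖ := by gcongr
      _ = ‖iteratedFDeriv ℝ (k + 1) g z‖ := by rw [one_mul, norm_iteratedFDeriv_fderiv]
      _ ≤ C := hC z

theorem SpB.J [CompleteSpace W] {S : Set ℝ} {R : ℝ} {H : ι → ℝ × (R3 × R3) → W}
    (hH : ∀ i, ContDiff ℝ ∞ (H i)) (hs : ∀ i, VS R (H i)) (h : SpB S H) :
    SpB S (fun i => J (H i)) := by
  intro k
  obtain ⟨C, hC⟩ := h k
  refine ⟨C * (volume (Metric.closedBall (0 : R3) R)).toReal, fun i t ht x => ?_⟩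
  exact norm_iteratedFDeriv_int k (g := fun z => H i (t, z)) (contDiff_slice (hH i) t)
    (fun x v hv => hs i t x v hv) (fun z => hC i t ht z) x

theorem MB.J [CompleteSpace W] {j : ℕ} {R : ℝ} : ∀ {S : Set ℝ} {H : ι → ℝ × (R3 × R3) → W},
    (∀ i, ContDiff ℝ ∞ (H i)) → (∀ i, VS R (H i)) → MB j S H → MB j S (fun i => TB.J (H i)) := by
  induction j with
  | zero => intro S H hH hs h; exact SpB.J hH hs h
  | succ j ih =>
    intro S H hH hs h
    refine ⟨SpB.J hH hs h.1, ?_⟩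
    rw [show (fun i => TB.dt (TB.J (H i))) = fun i => TB.J (TB.dt (H i)) from by
      funext i; exact dt_J (hH i) (hs i)]
    exact ih (fun i => contDiff_dt (hH i)) (fun i => (hs i).dt) h.2

theorem contDiff_pb {K : ℝ × R3 → W} (hK : ContDiff ℝ ∞ K) : ContDiff ℝ ∞ (pb K) :=
  hK.comp (by fun_prop : ContDiff ℝ ∞ (fun p : ℝ × (R3 × R3) => (p.1, p.2.1)))

theorem dt_pb {K : ℝ × R3 → W} (hK : ContDiff ℝ ∞ K) : dt (pb K) = pb (dt K) := by
  funext p
  have h2 : HasFDerivAt (fun p : ℝ × (R3 × R3) => ((p.1, p.2.1) : ℝ × R3))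
      ((ContinuousLinearMap.fst ℝ ℝ (R3 × R3)).prod
        ((ContinuousLinearMap.fst ℝ R3 R3).comp (ContinuousLinearMap.snd ℝ ℝ (R3 × R3)))) p :=
    hasFDerivAt_fst.prodMk (hasFDerivAt_fst.comp p hasFDerivAt_snd)
  have h3 := (HasFDerivAt.comp p (differentiable_of hK (p.1, p.2.1)).hasFDerivAt h2).fderiv
  unfold dt pb
  change fderiv ℝ (K ∘ fun p : ℝ × (R3 × R3) => ((p.1, p.2.1) : ℝ × R3)) p (1, 0) = _
  rw [h3]
  rfl

theorem SpB.pb {S : Set ℝ} {K : ι → ℝ × R3 → W} (hK : ∀ i, ContDiff ℝ ∞ (K i)) (h : SpB S K) :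
    SpB S (fun i => TB.pb (K i)) := by
  intro k
  obtain ⟨C, hC⟩ := h k
  refine ⟨C, fun i t ht z => ?_⟩
  have h1 : (fun z : R3 × R3 => TB.pb (K i) (t, z))
      = (fun x => K i (t, x)) ∘ (ContinuousLinearMap.fst ℝ R3 R3) := by
    funext z; rfl
  have h2 := (ContinuousLinearMap.fst ℝ R3 R3).iteratedFDeriv_comp_right
    (contDiff_slice (hK i) t) z (i := k) (by exact_mod_cast le_top)
  rw [h1, h2]
  refine (ContinuousMultilinearMap.norm_compContinuousLinearMap_le _ _).trans ?_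
  have h5 : ∏ _i : Fin k, ‖(ContinuousLinearMap.fst ℝ R3 R3)‖ ≤ 1 :=
    Finset.prod_le_one (fun _ _ => norm_nonneg _)
      (fun _ _ => ContinuousLinearMap.norm_fst_le ℝ R3 R3)
  calc _ ≤ C * 1 := by
        refine mul_le_mul (hC i t ht z.1) h5 (Finset.prod_nonneg fun _ _ => norm_nonneg _) ?_
        exact (norm_nonneg _).trans (hC i t ht z.1)
    _ = C := mul_one _

theorem MB.pb {j : ℕ} : ∀ {S : Set ℝ} {K : ι → ℝ × R3 → W}, (∀ i, ContDiff ℝ ∞ (K i)) →
    MB j S K → MB j S (fun i => TB.pb (K i)) := by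
  induction j with
  | zero => intro S K hK h; exact SpB.pb hK h
  | succ j ih =>
    intro S K hK h
    refine ⟨SpB.pb hK h.1, ?_⟩
    rw [show (fun i => TB.dt (TB.pb (K i))) = fun i => TB.pb (TB.dt (K i)) from by
      funext i; exact dt_pb (hK i)]
    exact ih (fun i => contDiff_dt (hK i)) h.2

end Crest.Agent.R106.TB
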