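import Crest.Agent.R106.UniqM
import Crest.Agent.R106.StdTop
import Crest.Agent.R106.FBDir
import Crest.Agent.R106.Gs2SupEst
import Crest.Agent.R106.FBlogTop
import Crest.Agent.R106.MomNodes
import Crest.Agent.R106.AbsTop
import Crest.Agent.R106.MixFinal
import Crest.Agent.R106.Glue1

/-!
# Row 106 (S0140): TOP LINK (helper709).
-/

set_option autoImplicit false
open MeasureTheory Set Filter Topology
open Crest.AnalysisR.VecCalc3 Crest.AnalysisR.PDE.RVM
open scoped ContDiff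

namespace Crest.Agent.R106.Top

/-- Standard part: complete. -/
theorem truncEx : TruncEx :=
  Std.truncEx_of (FBDir.fb Gs2.supEst) (FBDir.fbz Gs2.supEst) Std.fbLog

/-- OCC (193, 743, 146): open. -/
def OccDN : Prop := ∀ (T : ℝ) (f₀ : R3 → R3 → ℝ) (E₀ B₀ : R3 → R3) (f : ℝ → R3 → R3 → ℝ)
  (E B : ℝ → R3 → R3), Mom.SmoothSol T f₀ E₀ B₀ f E B → Mom.OccD T f E B

theorem repOn (hRep : GSR.RepU) {T : ℝ} {f₀ : R3 → R3 → ℝ} {E₀ B₀ : R3 → R3}
    {f : ℝ → R3 → R3 → ℝ} {E B : ℝ → R3 → R3} (h : Mom.SmoothSol T f₀ E₀ B₀ f E B) :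
    GsCor.GSRepOn T f E B :=
  GSR.gsRepW hRep T h.T_pos f₀ E₀ B₀ h.adm f E B (FlowTo.solTo_of_smoothSol h)

theorem goal_of (hRep : GSR.RepU) (hD : OccDN) : Goal :=
  glue1 uniq truncEx (Mom.momBound1_of_open
    { repU := hRep
      mix := fun _ _ _ _ _ _ _ h => Mix.mixP_sol h (repOn hRep h)
      occD := hD
      finH := Abs.finH
      finB := Abs.finB })

end Crest.Agent.R106.Top
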