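import Crest.Agent.R106.Top
import Crest.Agent.R106.GsrRepU
import Crest.Agent.R106.OccSol

/-!
# Row 106 (S0140): final link (helper709).
-/

set_option autoImplicit false

namespace Crest.Agent.R106.Top

theorem goal : Goal := goal_of GsrU.repU fun _ _ _ _ _ _ _ h => OccSol.occD_of_sol h

end Crest.Agent.R106.Top
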