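import Mathlib
import Crest.Prelude.Def_VlasovMaxwell

/-!
Row 106 (S0140): vector calculus on R3 (helper756).
-/

set_option autoImplicit false
set_option linter.unusedSectionVars false

open MeasureTheory Set Topology Filter
open scoped ContDiff
open Crest.AnalysisR.VecCalc3 Crest.AnalysisR.PDE.RVM

namespace Crest.Agent.R106.UQ

theorem norm_sq3 (x : R3) : ‖x‖ ^ 2 = x 0 ^ 2 + x 1 ^ 2 + x 2 ^ 2 := by
  rw [EuclideanSpace.norm_sq_eq, Fin.sum_univ_three]
  simp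

theorem abs_apply_le (x : R3) (i : Fin 3) : |x i| ≤ ‖x‖ := by
  have := PiLp.norm_apply_le x i
  simpa using this

@[simp] theorem cross3_0 (a b : R3) : cross3 a b 0 = a 1 * b 2 - a 2 * b 1 := rfl
@[simp] theorem cross3_1 (a b : R3) : cross3 a b 1 = a 2 * b 0 - a 0 * b 2 := rfl
@[simp] theorem cross3_2 (a b : R3) : cross3 a b 2 = a 0 * b 1 - a 1 * b 0 := rfl

@[simp] theorem curl3_0 (F : R3 → R3) (x : R3) :
    curl3 F x 0 = pderiv (fun y => F y 2) 1 x - pderiv (fun y => F y 1) 2 x := rfl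
@[simp] theorem curl3_1 (F : R3 → R3) (x : R3) :
    curl3 F x 1 = pderiv (fun y => F y 0) 2 x - pderiv (fun y => F y 2) 0 x := rfl
@[simp] theorem curl3_2 (F : R3 → R3) (x : R3) :
    curl3 F x 2 = pderiv (fun y => F y 1) 0 x - pderiv (fun y => F y 0) 1 x := rfl

theorem one_add_pos (v : R3) : 0 < 1 + ‖v‖ ^ 2 := by positivity

theorem relVel_apply (v : R3) (i : Fin 3) : relVel v i = (Real.sqrt (1 + ‖v‖ ^ 2))⁻¹ * v i := rfl

theorem contDiff_lam {n : ℕ∞ω} : ContDiff ℝ n (fun v : R3 => (Real.sqrt (1 + ‖v‖ ^ 2))⁻¹) := by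
  refine ContDiff.inv ?_ fun v => (Real.sqrt_pos.2 (one_add_pos v)).ne'
  refine ContDiff.sqrt ?_ fun v => (one_add_pos v).ne'
  exact contDiff_const.add (contDiff_norm_sq ℝ)

theorem contDiff_coord {n : ℕ∞ω} (i : Fin 3) : ContDiff ℝ n (fun v : R3 => v i) :=
  (EuclideanSpace.proj i : R3 →L[ℝ] ℝ).contDiff

theorem contDiff_relVel {n : ℕ∞ω} : ContDiff ℝ n relVel :=
  contDiff_lam.smul contDiff_id

theorem contDiff_relVel_apply {n : ℕ∞ω} (i : Fin 3) : ContDiff ℝ n (fun v => relVel v i) :=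
  contDiff_lam.mul (contDiff_coord i)

theorem norm_relVel_lt (v : R3) : ‖relVel v‖ < 1 := by
  have h1 := one_add_pos v
  have h2 : ‖v‖ < Real.sqrt (1 + ‖v‖ ^ 2) := Real.lt_sqrt_of_sq_lt (by linarith)
  have h3 : 0 < Real.sqrt (1 + ‖v‖ ^ 2) := Real.sqrt_pos.2 h1
  rw [relVel, norm_smul, Real.norm_eq_abs, abs_inv, abs_of_pos h3, inv_mul_lt_iff₀ h3]
  simpa using h2

theorem abs_relVel_le (v : R3) (i : Fin 3) : |relVel v i| ≤ 1 :=
  (abs_apply_le _ i).trans (norm_relVel_lt v).le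

/-! ### partial derivatives -/

theorem pderiv_add {f g : R3 → ℝ} {x : R3} (hf : DifferentiableAt ℝ f x)
    (hg : DifferentiableAt ℝ g x) (i : Fin 3) :
    pderiv (fun y => f y + g y) i x = pderiv f i x + pderiv g i x := by
  simp only [pderiv]
  rw [fderiv_fun_add hf hg]; rfl

theorem pderiv_sub {f g : R3 → ℝ} {x : R3} (hf : DifferentiableAt ℝ f x)
    (hg : DifferentiableAt ℝ g x) (i : Fin 3) :
    pderiv (fun y => f y - g y) i x = pderiv f i x - pderiv g i x := by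
  simp only [pderiv]
  rw [fderiv_fun_sub hf hg]; rfl

theorem pderiv_mul {f g : R3 → ℝ} {x : R3} (hf : DifferentiableAt ℝ f x)
    (hg : DifferentiableAt ℝ g x) (i : Fin 3) :
    pderiv (fun y => f y * g y) i x = f x * pderiv g i x + g x * pderiv f i x := by
  simp only [pderiv]
  rw [fderiv_fun_mul hf hg]; rfl

theorem pderiv_const (c : ℝ) (i : Fin 3) (x : R3) : pderiv (fun _ => c) i x = 0 := by
  simp [pderiv]

theorem pderiv_coord (i j : Fin 3) (x : R3) : pderiv (fun y : R3 => y j) i x = if j = i then 1 else 0 := by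
  simp only [pderiv]
  have : (fun y : R3 => y j) = (EuclideanSpace.proj j : R3 →L[ℝ] ℝ) := rfl
  rw [this, ContinuousLinearMap.fderiv]
  simp

theorem hasFDerivAt_lam (v : R3) : HasFDerivAt (fun v : R3 => (Real.sqrt (1 + ‖v‖ ^ 2))⁻¹)
    (-((Real.sqrt (1 + ‖v‖ ^ 2))⁻¹) ^ 3 • innerSL ℝ v) v := by
  have h0 : HasFDerivAt (fun v : R3 => 1 + ‖v‖ ^ 2) (2 • innerSL ℝ v) v :=
    (hasStrictFDerivAt_norm_sq v).hasFDerivAt.const_add 1
  have h1 := h0.sqrt (one_add_pos v).ne'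
  have hs : Real.sqrt (1 + ‖v‖ ^ 2) ≠ 0 := (Real.sqrt_pos.2 (one_add_pos v)).ne'
  have h2 := (hasDerivAt_inv hs).comp_hasFDerivAt v h1
  refine h2.congr_fderiv ?_
  ext w
  simp
  field_simp

theorem pderiv_lam (v : R3) (i : Fin 3) : pderiv (fun v : R3 => (Real.sqrt (1 + ‖v‖ ^ 2))⁻¹) i v =
    -((Real.sqrt (1 + ‖v‖ ^ 2))⁻¹) ^ 3 * v i := by
  rw [pderiv, (hasFDerivAt_lam v).fderiv]
  simp [EuclideanSpace.inner_single_right]

theorem pderiv_relVel (v : R3) (i j : Fin 3) : pderiv (fun v => relVel v j) i v =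
    (Real.sqrt (1 + ‖v‖ ^ 2))⁻¹ * (if j = i then 1 else 0) -
      ((Real.sqrt (1 + ‖v‖ ^ 2))⁻¹) ^ 3 * v i * v j := by
  have h : (fun v => relVel v j) = fun v : R3 => (Real.sqrt (1 + ‖v‖ ^ 2))⁻¹ * v j := rfl
  rw [h, pderiv_mul ((hasFDerivAt_lam v).differentiableAt)
    ((contDiff_coord (n := 1) j).differentiable one_ne_zero v), pderiv_coord, pderiv_lam]
  ring

/-- `div_v (u(v) × B) = 0`. -/
theorem div_cross_relVel (B v : R3) : ∑ i, pderiv (fun w => cross3 (relVel w) B i) i v = 0 := by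
  have hd : ∀ j, DifferentiableAt ℝ (fun w : R3 => relVel w j) v := fun j =>
    (contDiff_relVel_apply (n := 1) j).differentiable one_ne_zero v
  have h : ∀ (j k : Fin 3) (i : Fin 3) (a b : ℝ),
      pderiv (fun w => relVel w j * a - relVel w k * b) i v =
        pderiv (fun w => relVel w j) i v * a - pderiv (fun w => relVel w k) i v * b := by
    intro j k i a b
    rw [pderiv_sub ((hd j).mul_const a) ((hd k).mul_const b),
      pderiv_mul (hd j) (differentiableAt_const a), pderiv_mul (hd k) (differentiableAt_const b),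
      pderiv_const, pderiv_const]
    ring
  rw [Fin.sum_univ_three]
  simp only [cross3_0, cross3_1, cross3_2]
  rw [h, h, h]
  simp only [pderiv_relVel]
  simp
  ring

/-- partial derivatives as Fréchet derivatives on the product -/
theorem pderiv_fst {h : R3 × R3 → ℝ} {x v : R3} (hh : DifferentiableAt ℝ h (x, v)) (i : Fin 3) :
    pderiv (fun y => h (y, v)) i x = fderiv ℝ h (x, v) (EuclideanSpace.single i 1, 0) := by
  have h2 := hh.hasFDerivAt.comp (f := fun y : R3 => ((y, v) : R3 × R3)) x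
    ((hasFDerivAt_id x).prodMk (hasFDerivAt_const v x))
  rw [pderiv]
  have : (fun y => h (y, v)) = h ∘ (fun y : R3 => ((y, v) : R3 × R3)) := rfl
  rw [this, h2.fderiv]
  simp

theorem pderiv_snd {h : R3 × R3 → ℝ} {x v : R3} (hh : DifferentiableAt ℝ h (x, v)) (i : Fin 3) :
    pderiv (fun w => h (x, w)) i v = fderiv ℝ h (x, v) (0, EuclideanSpace.single i 1) := by
  have h2 := hh.hasFDerivAt.comp (f := fun w : R3 => ((x, w) : R3 × R3)) v
    ((hasFDerivAt_const x v).prodMk (hasFDerivAt_id v))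
  rw [pderiv]
  have : (fun w => h (x, w)) = h ∘ (fun w : R3 => ((x, w) : R3 × R3)) := rfl
  rw [this, h2.fderiv]
  simp

/-- `|a·(b×c)| ≤ |a||b||c|` in squared form. -/
theorem triple_sq_le (a b c : R3) : (∑ i, a i * cross3 b c i) ^ 2 ≤ ‖a‖ ^ 2 * (‖b‖ ^ 2 * ‖c‖ ^ 2) := by
  rw [Fin.sum_univ_three, norm_sq3, norm_sq3, norm_sq3, cross3_0, cross3_1, cross3_2]
  have h1 : (b 1 * c 2 - b 2 * c 1) ^ 2 + (b 2 * c 0 - b 0 * c 2) ^ 2 + (b 0 * c 1 - b 1 * c 0) ^ 2 ≤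
      (b 0 ^ 2 + b 1 ^ 2 + b 2 ^ 2) * (c 0 ^ 2 + c 1 ^ 2 + c 2 ^ 2) := by
    nlinarith [sq_nonneg (b 0 * c 0 + b 1 * c 1 + b 2 * c 2)]
  set p := b 1 * c 2 - b 2 * c 1
  set q := b 2 * c 0 - b 0 * c 2
  set r := b 0 * c 1 - b 1 * c 0
  have h2 : (a 0 * p + a 1 * q + a 2 * r) ^ 2 ≤ (a 0 ^ 2 + a 1 ^ 2 + a 2 ^ 2) * (p ^ 2 + q ^ 2 + r ^ 2) := by
    nlinarith [sq_nonneg (a 0 * q - a 1 * p), sq_nonneg (a 0 * r - a 2 * p), sq_nonneg (a 1 * r - a 2 * q)]
  have h3 : 0 ≤ a 0 ^ 2 + a 1 ^ 2 + a 2 ^ 2 := by positivity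
  exact h2.trans (mul_le_mul_of_nonneg_left h1 h3)

theorem triple_le {a : R3} (ha : ‖a‖ ≤ 1) (b c : R3) :
    2 * |∑ i, a i * cross3 b c i| ≤ ‖b‖ ^ 2 + ‖c‖ ^ 2 := by
  have h := triple_sq_le a b c
  have h1 : (∑ i, a i * cross3 b c i) ^ 2 ≤ (‖b‖ * ‖c‖) ^ 2 := by
    refine h.trans ?_
    have : ‖a‖ ^ 2 ≤ 1 := by nlinarith [norm_nonneg a]
    have h2 : 0 ≤ ‖b‖ ^ 2 * ‖c‖ ^ 2 := by positivity
    nlinarith
  have h2 := abs_le_of_sq_le_sq h1 (by positivity)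
  have h3 := two_mul_le_add_sq ‖b‖ ‖c‖
  linarith

theorem abs_cross3_le {a : R3} (ha : ‖a‖ ≤ 1) (b : R3) (i : Fin 3) : |cross3 a b i| ≤ 2 * ‖b‖ := by
  have h : ∀ j k l m : Fin 3, |a j * b k - a l * b m| ≤ 2 * ‖b‖ := by
    intro j k l m
    have h1 : |a j * b k| ≤ 1 * ‖b‖ := by
      rw [abs_mul]
      exact mul_le_mul ((abs_apply_le a j).trans ha) (abs_apply_le b k) (abs_nonneg _) zero_le_one
    have h2 : |a l * b m| ≤ 1 * ‖b‖ := by
      rw [abs_mul]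
      exact mul_le_mul ((abs_apply_le a l).trans ha) (abs_apply_le b m) (abs_nonneg _) zero_le_one
    have h3 := abs_sub (a j * b k) (a l * b m)
    linarith
  fin_cases i
  · exact h 1 2 2 1
  · exact h 2 0 0 2
  · exact h 0 1 1 0

theorem cross3_sub_right (a b c : R3) (i : Fin 3) : cross3 a (b - c) i = cross3 a b i - cross3 a c i := by
  fin_cases i <;> simp [cross3] <;> ring

end Crest.Agent.R106.UQ
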