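import Mathlib
import Crest.Agent.R106.Cal
import Crest.Agent.R106.VC

/-!
Row 106 (S0140): pointwise identities for the energy method (helper756).
-/

set_option autoImplicit false
set_option linter.unusedSectionVars false

open MeasureTheory Set Topology Filter
open scoped ContDiff
open Crest.AnalysisR.VecCalc3 Crest.AnalysisR.PDE.RVM

namespace Crest.Agent.R106.UQ

/-- Maxwell energy identity, pointwise, with cutoff. -/
theorem maxwell_pt {e b : R3 → R3} {φ : R3 → ℝ} {x : R3} (he : DifferentiableAt ℝ e x)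
    (hb : DifferentiableAt ℝ b x) (hφ : DifferentiableAt ℝ φ x) :
    φ x * ∑ i, (e x i * curl3 b x i - b x i * curl3 e x i) =
      - ∑ i, pderiv (fun y => φ y * cross3 (e y) (b y) i) i x +
        ∑ i, pderiv φ i x * cross3 (e x) (b x) i := by
  have he' : ∀ j, DifferentiableAt ℝ (fun y => e y j) x := fun j =>
    ((EuclideanSpace.proj j : R3 →L[ℝ] ℝ).differentiableAt).comp x he
  have hb' : ∀ j, DifferentiableAt ℝ (fun y => b y j) x := fun j =>
    ((EuclideanSpace.proj j : R3 →L[ℝ] ℝ).differentiableAt).comp x hb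
  have h : ∀ j k i : Fin 3, pderiv (fun y => φ y * (e y j * b y k - e y k * b y j)) i x =
      φ x * (e x j * pderiv (fun y => b y k) i x + b x k * pderiv (fun y => e y j) i x -
        (e x k * pderiv (fun y => b y j) i x + b x j * pderiv (fun y => e y k) i x)) +
        (e x j * b x k - e x k * b x j) * pderiv φ i x := by
    intro j k i
    rw [pderiv_mul hφ (((he' j).fun_mul (hb' k)).fun_sub ((he' k).fun_mul (hb' j))),
      pderiv_sub ((he' j).fun_mul (hb' k)) ((he' k).fun_mul (hb' j)), pderiv_mul (he' j) (hb' k),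
      pderiv_mul (he' k) (hb' j)]
  simp only [Fin.sum_univ_three, cross3_0, cross3_1, cross3_2, curl3_0, curl3_1, curl3_2]
  rw [h 1 2 0, h 2 0 1, h 0 1 2]
  ring

/-- Vlasov: pointwise identity for the square of the difference. -/
theorem vlasov_pt {f f' : R3 → R3 → ℝ} {E B E' B' : R3 → R3} {x v : R3} {ft ft' : ℝ}
    (hx : DifferentiableAt ℝ (fun y => f y v) x) (hx' : DifferentiableAt ℝ (fun y => f' y v) x)
    (hv : DifferentiableAt ℝ (fun w => f x w) v) (hv' : DifferentiableAt ℝ (fun w => f' x w) v)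
    (h : ft + ∑ i : Fin 3, relVel v i * pderiv (fun y => f y v) i x
      + ∑ i : Fin 3, (E x i + cross3 (relVel v) (B x) i) * pderiv (fun w => f x w) i v = 0)
    (h' : ft' + ∑ i : Fin 3, relVel v i * pderiv (fun y => f' y v) i x
      + ∑ i : Fin 3, (E' x i + cross3 (relVel v) (B' x) i) * pderiv (fun w => f' x w) i v = 0) :
    2 * (f x v - f' x v) * (ft - ft') =
      - ∑ i, pderiv (fun y => relVel v i * ((f y v - f' y v) * (f y v - f' y v))) i x
      - ∑ i, pderiv (fun w => (E x i + cross3 (relVel w) (B x) i) *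
          ((f x w - f' x w) * (f x w - f' x w))) i v
      - 2 * (f x v - f' x v) * ∑ i, ((E x i - E' x i) + cross3 (relVel v) (B x - B' x) i) *
          pderiv (fun w => f' x w) i v := by
  have hg := hx.fun_sub hx'
  have hgv := hv.fun_sub hv'
  have h1 : ∀ i, pderiv (fun y => relVel v i * ((f y v - f' y v) * (f y v - f' y v))) i x =
      relVel v i * (2 * (f x v - f' x v) *
        (pderiv (fun y => f y v) i x - pderiv (fun y => f' y v) i x)) := by
    intro i
    rw [pderiv_mul (f := fun _ : R3 => relVel v i) (differentiableAt_const _) (hg.fun_mul hg) i,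
      pderiv_mul hg hg i, pderiv_sub hx hx' i, pderiv_const]
    ring
  have hK : ∀ i, DifferentiableAt ℝ (fun w => cross3 (relVel w) (B x) i) v := by
    intro i
    have hd : ∀ j, DifferentiableAt ℝ (fun w : R3 => relVel w j) v := fun j =>
      (contDiff_relVel_apply (n := 1) j).differentiable one_ne_zero v
    fin_cases i
    · exact ((hd 1).mul_const _).fun_sub ((hd 2).mul_const _)
    · exact ((hd 2).mul_const _).fun_sub ((hd 0).mul_const _)
    · exact ((hd 0).mul_const _).fun_sub ((hd 1).mul_const _)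
  have h2 : ∀ i, pderiv (fun w => (E x i + cross3 (relVel w) (B x) i) *
          ((f x w - f' x w) * (f x w - f' x w))) i v =
      (E x i + cross3 (relVel v) (B x) i) * (2 * (f x v - f' x v) *
        (pderiv (fun w => f x w) i v - pderiv (fun w => f' x w) i v)) +
      ((f x v - f' x v) * (f x v - f' x v)) * pderiv (fun w => cross3 (relVel w) (B x) i) i v := by
    intro i
    have hKi : DifferentiableAt ℝ (fun w => E x i + cross3 (relVel w) (B x) i) v :=
      (differentiableAt_const _).fun_add (hK i)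
    rw [pderiv_mul hKi (hgv.fun_mul hgv) i, pderiv_mul hgv hgv i, pderiv_sub hv hv' i,
      pderiv_add (f := fun _ : R3 => E x i) (differentiableAt_const _) (hK i) i, pderiv_const]
    ring
  have h3 := div_cross_relVel (B x) v
  simp only [h1, h2, cross3_sub_right]
  have h4 : ∑ i, ((E x i + cross3 (relVel v) (B x) i) * (2 * (f x v - f' x v) *
        (pderiv (fun w => f x w) i v - pderiv (fun w => f' x w) i v)) +
      ((f x v - f' x v) * (f x v - f' x v)) * pderiv (fun w => cross3 (relVel w) (B x) i) i v) =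
      ∑ i, (E x i + cross3 (relVel v) (B x) i) * (2 * (f x v - f' x v) *
        (pderiv (fun w => f x w) i v - pderiv (fun w => f' x w) i v)) := by
    rw [Finset.sum_add_distrib, ← Finset.mul_sum, h3]; ring
  rw [h4]
  simp only [Fin.sum_univ_three] at h h' ⊢
  linear_combination (2 * (f x v - f' x v)) * h - (2 * (f x v - f' x v)) * h'

/-- the space-time cutoff -/
noncomputable def cut (N s : ℝ) (x : R3) : ℝ :=
  Real.smoothTransition (N + 1 - s - Real.sqrt (1 + ‖x‖ ^ 2))

theorem cut_nonneg (N s : ℝ) (x : R3) : 0 ≤ cut N s x := Real.smoothTransition.nonneg _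
theorem cut_le_one (N s : ℝ) (x : R3) : cut N s x ≤ 1 := Real.smoothTransition.le_one _
theorem cut_eq_one {N s : ℝ} {x : R3} (h : s + Real.sqrt (1 + ‖x‖ ^ 2) ≤ N) : cut N s x = 1 :=
  Real.smoothTransition.one_of_one_le (by linarith)
theorem cut_eq_zero {N s : ℝ} (hs : 0 ≤ s) {x : R3} (h : x ∉ Metric.closedBall (0 : R3) (|N| + 1)) :
    cut N s x = 0 := by
  refine Real.smoothTransition.zero_of_nonpos ?_
  have h1 : |N| + 1 < ‖x‖ := by simpa using h
  have h2 : ‖x‖ ≤ Real.sqrt (1 + ‖x‖ ^ 2) := Real.le_sqrt_of_sq_le (by linarith)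
  have h3 := le_abs_self N
  linarith

theorem contDiff_bracket {n : ℕ∞ω} : ContDiff ℝ n (fun x : R3 => Real.sqrt (1 + ‖x‖ ^ 2)) :=
  ContDiff.sqrt (contDiff_const.add (contDiff_norm_sq ℝ)) fun v => (one_add_pos v).ne'

theorem contDiff_cut (N : ℝ) {n : ℕ∞} : ContDiff ℝ n (fun p : ℝ × R3 => cut N p.1 p.2) := by
  have h : ContDiff ℝ n (fun p : ℝ × R3 => N + 1 - p.1 - Real.sqrt (1 + ‖p.2‖ ^ 2)) :=
    (contDiff_const.sub contDiff_fst).sub (contDiff_bracket.comp contDiff_snd)
  exact Real.smoothTransition.contDiff.comp h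

/-- the (nonnegative) derivative of the profile -/
noncomputable def cutD (N s : ℝ) (x : R3) : ℝ :=
  deriv Real.smoothTransition (N + 1 - s - Real.sqrt (1 + ‖x‖ ^ 2))

theorem cutD_nonneg (N s : ℝ) (x : R3) : 0 ≤ cutD N s x :=
  Real.smoothTransition.monotone.deriv_nonneg

theorem hasDerivAt_smoothTransition (r : ℝ) :
    HasDerivAt Real.smoothTransition (deriv Real.smoothTransition r) r :=
  ((Real.smoothTransition.contDiff (n := 1)).differentiable one_ne_zero r).hasDerivAt

theorem cut_time (N s : ℝ) (x : R3) : HasDerivAt (fun r => cut N r x) (-cutD N s x) s := by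
  have h : HasDerivAt (fun r : ℝ => N + 1 - r - Real.sqrt (1 + ‖x‖ ^ 2)) (-1) s := by
    have := ((hasDerivAt_id s).const_sub (N + 1)).sub_const (Real.sqrt (1 + ‖x‖ ^ 2))
    simpa using this
  have h2 := (hasDerivAt_smoothTransition (N + 1 - s - Real.sqrt (1 + ‖x‖ ^ 2))).comp s h
  simpa [cutD, cut, Function.comp_def] using h2

theorem hasFDerivAt_bracket (x : R3) : HasFDerivAt (fun v : R3 => Real.sqrt (1 + ‖v‖ ^ 2))
    ((Real.sqrt (1 + ‖x‖ ^ 2))⁻¹ • innerSL ℝ x) x := by
  have h0 : HasFDerivAt (fun v : R3 => 1 + ‖v‖ ^ 2) (2 • innerSL ℝ x) x :=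
    (hasStrictFDerivAt_norm_sq x).hasFDerivAt.const_add 1
  have h1 := h0.sqrt (one_add_pos x).ne'
  refine h1.congr_fderiv ?_
  ext w
  simp
  ring

theorem cut_space (N s : ℝ) (x : R3) (i : Fin 3) :
    pderiv (cut N s) i x = -cutD N s x * relVel x i := by
  have h : HasFDerivAt (fun y : R3 => N + 1 - s - Real.sqrt (1 + ‖y‖ ^ 2))
      (-((Real.sqrt (1 + ‖x‖ ^ 2))⁻¹ • innerSL ℝ x)) x :=
    (hasFDerivAt_bracket x).const_sub _
  have h2 := (hasDerivAt_smoothTransition (N + 1 - s - Real.sqrt (1 + ‖x‖ ^ 2))).comp_hasFDerivAt x h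
  have h3 : (Real.smoothTransition ∘ fun y : R3 => N + 1 - s - Real.sqrt (1 + ‖y‖ ^ 2)) = cut N s :=
    rfl
  rw [h3] at h2
  rw [pderiv, h2.fderiv]
  simp [cutD, relVel_apply, EuclideanSpace.inner_single_right]

end Crest.Agent.R106.UQ
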