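import Crest.Agent.R106.Main0
import Crest.Agent.R106.Uniq

/-! Row 106 (S0140): the frozen statement `Uniq` (helper756). -/

set_option autoImplicit false
open MeasureTheory Set
open Crest.AnalysisR.VecCalc3 Crest.AnalysisR.PDE.RVM

namespace Crest.Agent.R106

theorem uniq : Uniq := by
  intro T f₀ E₀ B₀ f E B f' E' B' h h'
  exact UQ.uniq h h'

end Crest.Agent.R106
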