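import Crest.Agent.R106.StdFin
import Crest.Agent.R106.UniqM
import Crest.Agent.R106.Glue1

/-!
# Row 106: everything but the momentum bound (helper330).
-/

set_option autoImplicit false

namespace Crest.Agent.R106

/-- S0140 from the momentum bound. -/
theorem goal_of_mom (h : MomBound1) : Goal := glue1 uniq Std.truncEx h

end Crest.Agent.R106
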