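import Crest.Agent.R106.Trans

/-!
# Row 106, module TRANS, part 2: all orders, differences
-/

set_option autoImplicit false
set_option linter.unusedSectionVars false

open Set Filter Topology
open scoped ContDiff

noncomputable section

namespace Crest.Agent.R106.Trans

universe u

variable {X : Type u} [NormedAddCommGroup X] [NormedSpace ℝ X]
variable {Y : Type u} [NormedAddCommGroup Y] [NormedSpace ℝ Y]
variable {I : Set ℝ}

lemma abs_int_const (c t : ℝ) (hc : 0 ≤ c) : |∫ _s in (0 : ℝ)..t, c| = |t| * c := by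
  rw [intervalIntegral.integral_const, smul_eq_mul, sub_zero, abs_mul, abs_of_nonneg hc]

/-- The constants of `bound_const`: bounds of all space derivatives in terms of bounds `b j` of
the derivatives of `W` (`1 ≤ j`), `c j` of `F` at time `0`, `q j` of the source, `|t| ≤ T`. -/
def Mc (b c q : ℕ → ℝ) (T : ℝ) (k : ℕ) : ℝ :=
  if k = 0 then c 0 + T * q 0
  else if k = 1 then (c 1 + T * q 1) * Real.exp (T * b 1)
  else (c k + T * q k + 2 ^ k * (Mc b c q T 1 * (T * b k) +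
      T * ∑ i : Fin k, if _h : 1 ≤ i.1 ∧ i.1 + 1 < k then Mc b c q T (i.1 + 1) * b (k - i.1) else 0)) *
    Real.exp (2 ^ k * b 1 * T)
termination_by k
decreasing_by
  all_goals omega

/-- All orders, constant bounds. -/
theorem bound_const {W : ℝ × X → X} {F : ℝ × X → Y} (hI : IsOpen I)
    (hW : ContDiffOn ℝ ∞ W (I ×ˢ univ)) (hF : ContDiffOn ℝ ∞ F (I ×ˢ univ))
    {T : ℝ} (hT : 0 ≤ T) (hTI : Icc (-T) T ⊆ I)
    (hz : ∀ t ∈ Icc (-T) T, ∀ x, HasChar W t x) {b c q : ℕ → ℝ}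
    (n : ℕ)
    (h0 : ∀ j ≤ n, ∀ y, N j F (0, y) ≤ c j)
    (hb : ∀ j, 1 ≤ j → j ≤ n → ∀ s ∈ Icc (-T) T, ∀ y, N j W (s, y) ≤ b j)
    (hS : ∀ j ≤ n, ∀ s ∈ Icc (-T) T, ∀ y, N j (tr W F) (s, y) ≤ q j) :
    ∀ k ≤ n, ∀ t ∈ Icc (-T) T, ∀ x, N k F (t, x) ≤ Mc b c q T k := by
  have hsub : ∀ t ∈ Icc (-T) T, uIcc 0 t ⊆ Icc (-T) T := fun t ht =>
    uIcc_subset_Icc ⟨by linarith, hT⟩ ht
  have habs : ∀ t ∈ Icc (-T) T, |t| ≤ T := fun t ht => abs_le.2 ⟨ht.1, ht.2⟩
  have h0T : (0 : ℝ) ∈ Icc (-T) T := ⟨by linarith, hT⟩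
  intro k
  induction k using Nat.strong_induction_on with
  | _ k ih =>
    intro hk t ht x
    have hq0 : 0 ≤ q k := (N_nonneg _ _ _).trans (hS k hk 0 h0T 0)
    rcases Nat.lt_or_ge k 2 with h2 | h2
    · interval_cases k
      · rw [Mc, if_pos rfl, N_zero]
        have h := bound_zero hI hW hF ((hsub t ht).trans hTI) (hz t ht x) (c := c 0)
          (q := fun _ => q 0) continuousOn_const (fun y => by simpa [N_zero] using h0 0 (Nat.zero_le _) y)
          (fun s hs y => by simpa [N_zero] using hS 0 (Nat.zero_le _) s (hsub t ht hs) y)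
        rw [abs_int_const _ _ hq0] at h
        exact h.trans (by gcongr; exact habs t ht)
      · have hb1 : 0 ≤ b 1 := (N_nonneg _ _ _).trans (hb 1 le_rfl hk 0 h0T 0)
        have hc1 : 0 ≤ c 1 := (N_nonneg _ _ _).trans (h0 1 hk 0)
        rw [Mc, if_neg (by norm_num), if_pos rfl]
        have h := bound_one hI hW hF ((hsub t ht).trans hTI) (hz t ht x) (c := c 1)
          (a := fun _ => b 1) (q := fun _ => q 1) continuousOn_const continuousOn_const
          (h0 1 hk) (fun s hs y => hb 1 le_rfl hk s (hsub t ht hs) y)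
          (fun s hs y => hS 1 hk s (hsub t ht hs) y)
        rw [abs_int_const _ _ hq0, abs_int_const _ _ hb1] at h
        have := habs t ht
        exact h.trans (by gcongr)
    · have hb1 : 0 ≤ b 1 := (N_nonneg _ _ _).trans (hb 1 le_rfl (by omega) 0 h0T 0)
      have hbk : 0 ≤ b k := (N_nonneg _ _ _).trans (hb k (by omega) hk 0 h0T 0)
      have hck : 0 ≤ c k := (N_nonneg _ _ _).trans (h0 k hk 0)
      have hM1 : 0 ≤ Mc b c q T 1 := (N_nonneg _ _ _).trans (ih 1 (by omega) (by omega) 0 h0T 0)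
      have h := bound_succ hI hW hF ((hsub t ht).trans hTI) (hz t ht x) h2 (c := c k)
        (b := b) (M := Mc b c q T) (w := fun _ => b k) (q := fun _ => q k) continuousOn_const
        continuousOn_const (h0 k hk)
        (fun j h1 h2 s hs y => hb j h1 (by omega) s (hsub t ht hs) y)
        (fun j h1 h2 s hs y => ih j h2 (by omega) s (hsub t ht hs) y)
        (fun s hs y => hb k (by omega) hk s (hsub t ht hs) y)
        (fun s hs y => hS k hk s (hsub t ht hs) y)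
      rw [abs_int_const _ _ hq0, abs_int_const _ _ hbk] at h
      rw [Mc, if_neg (by omega), if_neg (by omega)]
      have e : ∑ i : Fin k, (if _h : 1 ≤ i.1 ∧ i.1 + 1 < k then Mc b c q T (i.1 + 1) * b (k - i.1)
          else 0) = ∑ i ∈ Finset.Ico 1 (k - 1), Mc b c q T (i + 1) * b (k - i) := by
        rw [Fin.sum_univ_eq_sum_range (fun i => if _h : 1 ≤ i ∧ i + 1 < k then
          Mc b c q T (i + 1) * b (k - i) else 0) k]
        simp only [dite_eq_ite]
        rw [← Finset.sum_filter]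
        refine Finset.sum_congr ?_ fun _ _ => rfl
        ext i
        simp only [Finset.mem_filter, Finset.mem_range, Finset.mem_Ico]
        omega
      rw [e]
      have hS0 : 0 ≤ ∑ i ∈ Finset.Ico 1 (k - 1), Mc b c q T (i + 1) * b (k - i) := by
        refine Finset.sum_nonneg fun i hi => ?_
        rw [Finset.mem_Ico] at hi
        exact mul_nonneg ((N_nonneg _ _ _).trans (ih _ (by omega) (by omega) 0 h0T 0))
          ((N_nonneg _ _ _).trans (hb _ (by omega) (by omega) 0 h0T 0))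
      have := habs t ht
      exact h.trans (by gcongr)

/-- The constant of `bound_lin`. -/
def Lc (b c q : ℕ → ℝ) (T : ℝ) (k : ℕ) : ℝ :=
  (c k + 1 + 2 ^ k * (Mc b c q T 1 +
      T * ∑ i ∈ Finset.Ico 1 (k - 1), Mc b c q T (i + 1) * b (k - i))) *
    Real.exp (2 ^ k * b 1 * T)

/-- Order `k ≥ 2`, linear in the top order of `W` and of the source; lower orders by constants. -/
theorem bound_lin {W : ℝ × X → X} {F : ℝ × X → Y} (hI : IsOpen I)
    (hW : ContDiffOn ℝ ∞ W (I ×ˢ univ)) (hF : ContDiffOn ℝ ∞ F (I ×ˢ univ))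
    {T : ℝ} (hT : 0 ≤ T) (hTI : Icc (-T) T ⊆ I)
    (hz : ∀ t ∈ Icc (-T) T, ∀ x, HasChar W t x) {b c q : ℕ → ℝ}
    {k : ℕ} (hk : 2 ≤ k)
    (h0 : ∀ j ≤ k, ∀ y, N j F (0, y) ≤ c j)
    (hb : ∀ j, 1 ≤ j → j < k → ∀ s ∈ Icc (-T) T, ∀ y, N j W (s, y) ≤ b j)
    (hS : ∀ j < k, ∀ s ∈ Icc (-T) T, ∀ y, N j (tr W F) (s, y) ≤ q j)
    {t : ℝ} (ht : t ∈ Icc (-T) T) {w p : ℝ → ℝ}
    (hw : ContinuousOn w (uIcc 0 t)) (hp : ContinuousOn p (uIcc 0 t))
    (hWk : ∀ s ∈ uIcc 0 t, ∀ y, N k W (s, y) ≤ w s)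
    (hSk : ∀ s ∈ uIcc 0 t, ∀ y, N k (tr W F) (s, y) ≤ p s) (x : X) :
    N k F (t, x) ≤ Lc b c q T k * (1 + |∫ s in (0 : ℝ)..t, w s| + |∫ s in (0 : ℝ)..t, p s|) := by
  have hsub : ∀ t ∈ Icc (-T) T, uIcc 0 t ⊆ Icc (-T) T := fun t ht =>
    uIcc_subset_Icc ⟨by linarith, hT⟩ ht
  have habs : |t| ≤ T := abs_le.2 ⟨ht.1, ht.2⟩
  have h0T : (0 : ℝ) ∈ Icc (-T) T := ⟨by linarith, hT⟩
  have hM := bound_const hI hW hF hT hTI hz (b := b) (c := c) (q := q) (k - 1)
    (fun j hj => h0 j (by omega)) (fun j h1 h2 => hb j h1 (by omega))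
    (fun j hj => hS j (by omega))
  have hb1 : 0 ≤ b 1 := (N_nonneg _ _ _).trans (hb 1 le_rfl (by omega) 0 h0T 0)
  have hck : 0 ≤ c k := (N_nonneg _ _ _).trans (h0 k le_rfl 0)
  have hM1 : 0 ≤ Mc b c q T 1 := (N_nonneg _ _ _).trans (hM 1 (by omega) 0 h0T 0)
  have h := bound_succ hI hW hF ((hsub t ht).trans hTI) (hz t ht x) hk (c := c k)
    (b := b) (M := Mc b c q T) hw hp (h0 k le_rfl)
    (fun j h1 h2 s hs y => hb j h1 h2 s (hsub t ht hs) y)
    (fun j h1 h2 s hs y => hM j (by omega) s (hsub t ht hs) y) hWk hSk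
  set Sg : ℝ := ∑ i ∈ Finset.Ico 1 (k - 1), Mc b c q T (i + 1) * b (k - i) with hSg
  have hS0 : 0 ≤ Sg := by
    refine Finset.sum_nonneg fun i hi => ?_
    rw [Finset.mem_Ico] at hi
    exact mul_nonneg ((N_nonneg _ _ _).trans (hM _ (by omega) 0 h0T 0))
      ((N_nonneg _ _ _).trans (hb _ (by omega) (by omega) 0 h0T 0))
  refine h.trans ?_
  rw [Lc, ← hSg]
  have hA : 0 ≤ |∫ s in (0 : ℝ)..t, w s| := abs_nonneg _
  have hB : 0 ≤ |∫ s in (0 : ℝ)..t, p s| := abs_nonneg _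
  set A := |∫ s in (0 : ℝ)..t, w s|
  set B := |∫ s in (0 : ℝ)..t, p s|
  have h2k : (0 : ℝ) ≤ 2 ^ k := by positivity
  have e1 : c k + B + 2 ^ k * (Mc b c q T 1 * A + |t| * Sg) ≤
      (c k + 1 + 2 ^ k * (Mc b c q T 1 + T * Sg)) * (1 + A + B) := by
    have t1 : |t| * Sg ≤ T * Sg := by gcongr
    have t2 : (2 : ℝ) ^ k * (Mc b c q T 1 * A + |t| * Sg) ≤
        2 ^ k * (Mc b c q T 1 * A + T * Sg) := by gcongr
    have t3 : 0 ≤ T * Sg := mul_nonneg hT hS0
    have t4 : 0 ≤ c k * (A + B) := mul_nonneg hck (add_nonneg hA hB)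
    have t5 : 0 ≤ 2 ^ k * (Mc b c q T 1 * (1 + B) + T * Sg * (A + B)) := by positivity
    nlinarith [t2, t4, t5]
  have e2 : Real.exp (2 ^ k * b 1 * |t|) ≤ Real.exp (2 ^ k * b 1 * T) := by gcongr
  calc _ ≤ ((c k + 1 + 2 ^ k * (Mc b c q T 1 + T * Sg)) * (1 + A + B)) *
        Real.exp (2 ^ k * b 1 * T) := by
        refine mul_le_mul e1 e2 (Real.exp_pos _).le ?_
        have : 0 ≤ T * Sg := mul_nonneg hT hS0
        positivity
    _ = _ := by ring

/-! ### Differences -/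

lemma tr_sub {W : ℝ × X → X} {F G : ℝ × X → Y} (hI : IsOpen I)
    (hF : ContDiffOn ℝ ∞ F (I ×ˢ univ)) (hG : ContDiffOn ℝ ∞ G (I ×ˢ univ)) {p : ℝ × X}
    (hp : p.1 ∈ I) : tr W (fun q => F q - G q) p = tr W F p - tr W G p := by
  have h1 := diffAt hI (hF.of_le (by simp)) hp
  have h2 := diffAt hI (hG.of_le (by simp)) hp
  rw [tr, tr, tr, fderiv_fun_sub h1 h2, sub_apply]

lemma tr_change {W W' : ℝ × X → X} {F : ℝ × X → Y} (hI : IsOpen I)
    (hF : ContDiffOn ℝ ∞ F (I ×ˢ univ)) {p : ℝ × X} (hp : p.1 ∈ I) :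
    tr W F p = tr W' F p + dx F p (W p - W' p) := by
  rw [tr, tr, dx_apply hI (hF.of_le (by simp)) hp, ← map_add]
  simp

/-- Difference of two transported functions: order `0`. -/
theorem diff_zero {W W' : ℝ × X → X} {F F' : ℝ × X → Y} (hI : IsOpen I)
    (hW : ContDiffOn ℝ ∞ W (I ×ˢ univ))
    (hF : ContDiffOn ℝ ∞ F (I ×ˢ univ)) (hF' : ContDiffOn ℝ ∞ F' (I ×ˢ univ))
    {t : ℝ} (ht : uIcc 0 t ⊆ I) {x : X} (hz : HasChar W t x)
    (hT : ∀ s ∈ uIcc 0 t, ∀ y, tr W F (s, y) = 0) (hT' : ∀ s ∈ uIcc 0 t, ∀ y, tr W' F' (s, y) = 0)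
    {c M : ℝ} {w : ℝ → ℝ} (hw : ContinuousOn w (uIcc 0 t)) (h0 : ∀ y, ‖F (0, y) - F' (0, y)‖ ≤ c)
    (hM : ∀ s ∈ uIcc 0 t, ∀ y, N 1 F' (s, y) ≤ M)
    (hD : ∀ s ∈ uIcc 0 t, ∀ y, ‖W (s, y) - W' (s, y)‖ ≤ w s) :
    ‖F (t, x) - F' (t, x)‖ ≤ c + M * |∫ s in (0 : ℝ)..t, w s| := by
  have h0mem : (0 : ℝ) ∈ uIcc 0 t := left_mem_uIcc
  have hM0 : 0 ≤ M := (N_nonneg _ _ _).trans (hM 0 h0mem x)
  have h := bound_zero hI hW (hF.sub hF') ht hz (c := c) (q := fun s => M * w s)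
    (continuousOn_const.mul hw) h0 (fun s hs y => by
      have e : tr W (fun q => F q - F' q) (s, y) = - dx F' (s, y) (W (s, y) - W' (s, y)) := by
        rw [tr_sub hI hF hF' (p := (s, y)) (ht hs), hT s hs y,
          tr_change (W' := W') hI hF' (p := (s, y)) (ht hs), hT' s hs y]
        abel
      rw [e, norm_neg]
      refine (ContinuousLinearMap.le_opNorm _ _).trans ?_
      rw [← N_one]
      exact mul_le_mul (hM s hs y) (hD s hs y) (norm_nonneg _) hM0)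
  rw [intervalIntegral.integral_const_mul, abs_mul, abs_of_nonneg hM0] at h
  exact h

/-- A transported function is constant along characteristics. -/
theorem const_along {W : ℝ × X → X} {F : ℝ × X → Y} (hI : IsOpen I)
    (hF : ContDiffOn ℝ ∞ F (I ×ˢ univ))
    {t : ℝ} (ht : uIcc 0 t ⊆ I) {z : ℝ → X} (hz : ∀ s ∈ uIcc 0 t, HasDerivAt z (W (s, z s)) s)
    (hT : ∀ s ∈ uIcc 0 t, tr W F (s, z s) = 0) : F (t, z t) = F (0, z 0) := by
  have h1 : ∀ s ∈ uIcc 0 t, HasDerivAt (fun r => F (r, z r) - F (0, z 0)) 0 s := by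
    intro s hs
    have hd : HasFDerivAt F (fderiv ℝ F (s, z s)) (s, z s) :=
      (diffAt hI (hF.of_le (by simp)) (p := (s, z s)) (ht hs)).hasFDerivAt
    have h2 : HasDerivAt (fun r : ℝ => ((r, z r) : ℝ × X)) ((1 : ℝ), W (s, z s)) s :=
      (hasDerivAt_id s).prodMk (hz s hs)
    have h3 : HasDerivAt (fun r => F (r, z r)) (tr W F (s, z s)) s := hd.comp_hasDerivAt s h2
    rw [hT s hs] at h3
    exact h3.sub_const _
  have h := gron (a := fun _ => 0) (q := fun _ => 0) continuousOn_const continuousOn_const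
    (fun _ _ => le_rfl) (fun _ _ => le_rfl) h1 (fun s _ => by simp)
  simp only [intervalIntegral.integral_zero, abs_zero, Real.exp_zero, mul_one, sub_self,
    norm_zero, add_zero] at h
  exact sub_eq_zero.1 (norm_le_zero_iff.1 h)

end Crest.Agent.R106.Trans
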